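import Crest.Agent.R338.DefsA

/-!
# Row 338: explicit form of the star Hamiltonian of a verifier
-/

noncomputable section

open Function Finset
open Crest.Quantum.GateCircuit Crest.Quantum.QMA

namespace Crest.Agent.R338.AForm

variable {N : ℕ}

theorem sum_divmod (a b : ℕ) (g : ℕ → ℕ → ℝ) :
    ∑ σ ∈ range (a * b), g (σ / b) (σ % b) = ∑ i ∈ range a, ∑ j ∈ range b, g i j := by
  induction a with
  | zero => simp
  | succ a ih =>
    rw [Nat.succ_mul, sum_range_add, ih, sum_range_succ]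
    congr 1
    refine sum_congr rfl fun j hj => ?_
    have hj := mem_range.1 hj
    rw [mul_comm a b, Nat.mul_add_div (by omega), Nat.mul_add_mod, Nat.div_eq_of_lt hj,
      Nat.mod_eq_of_lt hj, add_zero]

theorem sum_zmod (m : ℕ) (g : ℕ → ℝ) :
    ∑ c ∈ range (m + 1), g c = ∑ c : ZMod (m + 1), g c.val :=
  (Fin.sum_univ_eq_sum_range g (m + 1)).symm

/-! ### the leaf factor -/

/-- The leaf factor of a term. -/
def leaf (j : ℕ) (i : Fin N) (v : QVec N) : ℝ :=
  (1 / 2) * ∑ y : Fin N → Bool, ‖∑ β : Bool, (lvT j β : ℂ) * v (update y i β)‖ ^ 2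

theorem leaf_zero (j : ℕ) (i : Fin N) : leaf j i 0 = 0 := by simp [leaf]

theorem qn_zero : qn (0 : QVec N) = 0 := by simp [qn]

theorem qn_nonneg (v : QVec N) : 0 ≤ qn v := sum_nonneg fun _ _ => sq_nonneg _

theorem sum_flip (i : Fin N) (g : (Fin N → Bool) → ℝ) :
    ∑ y : Fin N → Bool, g (update y i (!y i)) = ∑ y, g y :=
  (Function.Involutive.bijective (f := fun y : Fin N → Bool => update y i (!y i))
    fun y => by simp).sum_comp g

theorem half_sum_update (i : Fin N) (β : Bool) (v : QVec N) :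
    (1 / 2) * ∑ y : Fin N → Bool, ‖v (update y i β)‖ ^ 2 = qn (prj false β i v) := by
  have h1 : ∀ y : Fin N → Bool, ‖v (update y i β)‖ ^ 2 =
      ‖prj false β i v y‖ ^ 2 + ‖prj false β i v (update y i (!y i))‖ ^ 2 := by
    intro y
    by_cases h : y i = β
    · subst h
      simp [prj]
    · have h2 : β = !y i := by
        revert h
        cases y i <;> cases β <;> simp
      subst h2
      simp [prj]
  simp only [h1]
  rw [sum_add_distrib, sum_flip i fun y => ‖prj false β i v y‖ ^ 2, qn]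
  ring

theorem leaf_0 (i : Fin N) (v : QVec N) : leaf 0 i v = qn (prj false false i v) := by
  rw [← half_sum_update]
  simp [leaf, lvT]

theorem leaf_2 (i : Fin N) (v : QVec N) : leaf 2 i v = qn (prj false true i v) := by
  rw [← half_sum_update]
  simp [leaf, lvT]

theorem leaf_1 (i : Fin N) (v : QVec N) : leaf 1 i v = 2 * qn (prj true false i v) := by
  rw [leaf, qn, mul_sum, mul_sum]
  refine sum_congr rfl fun y _ => ?_
  have h : ∑ β : Bool, (lvT 1 β : ℂ) * v (update y i β) = -2 * prj true false i v y := by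
    have h1 := update_eq_self i y
    cases h2 : y i <;> rw [h2] at h1 <;> simp [lvT, prj, h1, h2] <;> ring
  rw [h, norm_mul]
  norm_num
  ring

theorem leaf_4 (i : Fin N) (v : QVec N) : leaf 4 i v = 2 * qn (prj true true i v) := by
  rw [leaf, qn, mul_sum, mul_sum]
  refine sum_congr rfl fun y _ => ?_
  have h : ∑ β : Bool, (lvT 4 β : ℂ) * v (update y i β) =
      (if y i then 2 else -2) * prj true true i v y := by
    have h1 := update_eq_self i y
    cases h2 : y i <;> rw [h2] at h1 <;> simp [lvT, prj, h1, h2] <;> ring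
  rw [h, norm_mul]
  split_ifs <;> norm_num <;> ring

theorem leaf_ty (st : Step) (β : Bool) (i : Fin N) (v : QVec N) :
    leaf (st.ty β) i v = (if st.2.1 then 2 else 1) * qn (prj st.2.1 β i v) := by
  unfold Step.ty
  cases st.2.1 <;> cases β <;> simp [leaf_0, leaf_1, leaf_2, leaf_4]

theorem qn_prj_add (i : Fin N) (v : QVec N) :
    qn (prj false false i v) + qn (prj false true i v) = qn v := by
  rw [qn, qn, qn, ← sum_add_distrib]
  refine sum_congr rfl fun y _ => ?_
  cases h : y i <;> simp [prj, h]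

theorem qn_prj_false (β : Bool) (i : Fin N) (v : QVec N) :
    qn (prj false β i v) = ∑ y : Fin N → Bool, if y i = β then ‖v y‖ ^ 2 else 0 := by
  refine sum_congr rfl fun y _ => ?_
  simp only [prj, Bool.false_eq_true, if_false]
  split_ifs <;> simp

/-! ### the centre functionals -/

variable (r : Raw) (x : Fin r.R → QVec N)

/-- The component number `n`. -/
def xe (n : ℕ) : QVec N := if h : n < r.R then x ⟨n, h⟩ else 0

/-- The component `(t, c, u)`, antiperiodic in `u`. -/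
def XX (t : ℕ) (c : ZMod (r.m0 + 1)) (u : ℕ) : QVec N :=
  if u % 8 < 4 then xe r x (r.idx t c.val (u % 4)) else -xe r x (r.idx t c.val (u % 4))

theorem XX_of_lt (t : ℕ) (c : ZMod (r.m0 + 1)) {p : ℕ} (hp : p < 4) :
    XX r x t c p = xe r x (r.idx t c.val p) := by
  rw [XX, if_pos (by omega), Nat.mod_eq_of_lt hp]

theorem XX_add_four (t : ℕ) (c : ZMod (r.m0 + 1)) (u : ℕ) :
    XX r x t c (u + 4) = -XX r x t c u := by
  unfold XX
  rw [Nat.add_mod_right]
  split_ifs with h1 h2 h2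
  · omega
  · rw [neg_neg]
  · rfl
  · omega

/-- The centre functional given by a set of rows, applied to `x`. -/
def cf (pk : ℕ → Bool) : QVec N :=
  ∑ α : Fin r.R, (((if pk (2 * α) then 1 else 0) - if pk (2 * α + 1) then 1 else 0 : ℤ) : ℂ) • x α

theorem sum_ind (A : ℕ) :
    ∑ α : Fin r.R, ((if (α : ℕ) = A then 1 else 0 : ℤ) : ℂ) • x α = xe r x A := by
  unfold xe
  split_ifs with h
  · rw [sum_eq_single ⟨A, h⟩ (fun b _ hb => by simp [Fin.val_ne_of_ne hb]) (by simp)]
    simp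
  · exact sum_eq_zero fun α _ => by rw [if_neg (by omega)]; simp

variable {r x}

theorem cf_none {pk : ℕ → Bool} (h : ∀ ρ, pk ρ = false) : cf r x pk = 0 := by simp [cf, h]

theorem cf_one {pk : ℕ → Bool} {A : ℕ} (h : ∀ ρ, pk ρ = true ↔ ρ = 2 * A) :
    cf r x pk = xe r x A := by
  rw [← sum_ind]
  refine sum_congr rfl fun α _ => ?_
  simp only [h]
  congr 2
  split_ifs <;> omega

theorem cf_two {pk : ℕ → Bool} {A t p a : ℕ} {c : ZMod (r.m0 + 1)}
    (hA : A ≠ r.idx t c.val ((p + a) % 4)) (h : ∀ ρ, pk ρ = true ↔ ρ = 2 * A ∨ ρ = r.neg t c.val p a) :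
    cf r x pk = xe r x A - XX r x t c (p + a) := by
  unfold XX
  unfold Raw.neg at h
  split_ifs at h ⊢
  · rw [← sum_ind, ← sum_ind, ← sum_sub_distrib]
    refine sum_congr rfl fun α _ => ?_
    rw [← sub_smul, ← Int.cast_sub]
    simp only [h]
    congr 2
    split_ifs <;> omega
  · rw [sub_neg_eq_add, ← sum_ind, ← sum_ind, ← sum_add_distrib]
    refine sum_congr rfl fun α _ => ?_
    rw [← add_smul, ← Int.cast_add]
    simp only [h]
    congr 2
    split_ifs <;> omega

/-! ### the four kinds of terms -/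

variable (r x)

/-- Propagation terms. -/
def PP : ℝ :=
  ∑ t : Fin r.T, ∑ c : ZMod (r.m0 + 1), ∑ p ∈ range 4, ∑ β : Bool,
    if h : (r.steps.get t).1 < N then
      (if (r.steps.get t).2.1 then 2 else 1) * qn (prj (r.steps.get t).2.1 β ⟨_, h⟩
        (XX r x (t + 1) (c + ((r.steps.get t).sh β : ℕ)) p -
          XX r x t c (p + if c = 0 then (r.steps.get t).ph β else 0)))
    else 0

/-- Input penalty of a family of states. -/
def I0 (z : ZMod (r.m0 + 1) → QVec N) : ℝ :=
  ∑ c : ZMod (r.m0 + 1), ∑ i : Fin N,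
    ((if c ≠ 0 ∧ (i : ℕ) = 0 then qn (prj false false i (z c)) else 0) +
      if (c ≠ 0 ∧ (i : ℕ) = 0) ∨ r.2.1 ≤ i then qn (prj false true i (z c)) else 0)

/-- Input terms. -/
def II : ℝ := ∑ p ∈ range 4, I0 r fun c => XX r x 0 c p

/-- Output terms. -/
def OO (out : Fin N) : ℝ :=
  ∑ c : ZMod (r.m0 + 1), ∑ p ∈ range 4, qn (prj false false out (XX r x r.T c p))

/-- Phase register terms. -/
def WW : ℝ :=
  ∑ t : Fin (r.T + 1), ∑ c : ZMod (r.m0 + 1), ∑ p ∈ range 4,
    qn (XX r x t c p - XX r x t c (p + 1))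

/-- All terms of kind `q`. -/
def GG (q : ℕ) : ℝ :=
  ∑ t ∈ range (r.T + 1), ∑ c : ZMod (r.m0 + 1), ∑ p ∈ range 4, ∑ i : Fin N, ∑ j ∈ range 5,
    leaf j i (cf r x (r.pk i q t c.val p j))

theorem sum_R (g : ℕ → ℕ → ℕ → ℝ) :
    ∑ n ∈ range r.R, g (n / 4 / (r.m0 + 1)) (n / 4 % (r.m0 + 1)) (n % 4) =
      ∑ t ∈ range (r.T + 1), ∑ c : ZMod (r.m0 + 1), ∑ p ∈ range 4, g t c.val p := by
  rw [Raw.R, sum_divmod _ 4 fun w p => g (w / (r.m0 + 1)) (w % (r.m0 + 1)) p,
    sum_divmod _ _ fun t c => ∑ p ∈ range 4, g t c p]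
  exact sum_congr rfl fun t _ => sum_zmod _ fun c => ∑ p ∈ range 4, g t c p

theorem sN_eq : sN x = ∑ t : Fin (r.T + 1), ∑ c : ZMod (r.m0 + 1), ∑ p ∈ range 4,
    qn (XX r x t c p) := by
  have h1 : sN x = ∑ n ∈ range r.R, qn (xe r x n) := by
    rw [← Fin.sum_univ_eq_sum_range (fun n => qn (xe r x n))]
    exact sum_congr rfl fun α _ => by rw [xe, dif_pos α.2]; rfl
  have h2 : ∀ n, n = r.idx (n / 4 / (r.m0 + 1)) (n / 4 % (r.m0 + 1)) (n % 4) := fun n => by
    rw [Raw.idx, Nat.div_add_mod', Nat.div_add_mod']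
  rw [h1, sum_congr rfl fun n _ => congrArg (fun k => qn (xe r x k)) (h2 n),
    sum_R r fun t c p => qn (xe r x (r.idx t c p)),
    Fin.sum_univ_eq_sum_range fun t => ∑ c : ZMod (r.m0 + 1), ∑ p ∈ range 4, qn (XX r x t c p)]
  exact sum_congr rfl fun t _ => sum_congr rfl fun c _ => sum_congr rfl fun p hp => by
    rw [XX_of_lt r x t c (mem_range.1 hp)]

theorem H_eq_GG (x : Fin r.R → QVec r.1) :
    (starOf r).H x = ∑ q ∈ range (2 * r.J + 2), GG r x q := by
  have h1 : (starOf r).H x = ∑ σ ∈ range ((2 * r.J + 2) * r.R * 5), ∑ i : Fin r.1,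
      leaf (σ % 5) i (cf r x ((starOf r).pick i σ)) := by
    rw [mul_comm _ 5, ← Fin.sum_univ_eq_sum_range
      (fun σ => ∑ i : Fin r.1, leaf (σ % 5) i (cf r x ((starOf r).pick i σ))), sum_comm]
    unfold Star.H sH
    rw [Fintype.sum_prod_type]
    refine sum_congr rfl fun i _ => sum_congr rfl fun σ _ => ?_
    unfold leaf
    congr 1
    refine sum_congr rfl fun y _ => ?_
    congr 2
    rw [sum_comm]
    refine sum_congr rfl fun β _ => ?_
    rw [cf, Finset.sum_apply, mul_sum]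
    refine sum_congr rfl fun α _ => ?_
    rw [Pi.smul_apply, smul_eq_mul, Int.cast_mul, mul_comm (((starOf r).cv _ _ _ : ℤ) : ℂ),
      mul_assoc]
    rfl
  rw [h1]
  refine (sum_divmod _ 5 fun u j => ∑ i : Fin r.1, leaf j i (cf r x (r.pk i (u / r.R)
    (u % r.R / 4 / (r.m0 + 1)) (u % r.R / 4 % (r.m0 + 1)) (u % r.R % 4) j))).trans ?_
  refine (sum_divmod _ r.R fun q n => ∑ j ∈ range 5, ∑ i : Fin r.1, leaf j i (cf r x (r.pk i q
    (n / 4 / (r.m0 + 1)) (n / 4 % (r.m0 + 1)) (n % 4) j))).trans ?_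
  refine sum_congr rfl fun q _ => ?_
  rw [sum_R r fun t c p => ∑ j ∈ range 5, ∑ i : Fin r.1, leaf j i (cf r x (r.pk i q t c p j))]
  exact sum_congr rfl fun t _ => sum_congr rfl fun c _ => sum_congr rfl fun p _ => sum_comm

theorem sum5 {f : ℕ → ℝ} {a b : ℕ} (hab : a ≠ b) (ha : a < 5) (hb : b < 5)
    (h : ∀ j, j ≠ a → j ≠ b → f j = 0) : ∑ j ∈ range 5, f j = f a + f b :=
  sum_eq_add_of_mem a b (mem_range.2 ha) (mem_range.2 hb) hab fun j _ hj => h j hj.1 hj.2

theorem ty_lt (st : Step) (β : Bool) : st.ty β < 5 := by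
  unfold Step.ty
  split_ifs <;> norm_num

theorem ty_ne (st : Step) : st.ty true ≠ st.ty false := by
  unfold Step.ty
  split_ifs <;> simp_all

theorem GG_P {q : ℕ} (hq : q < r.J) : GG r x q = PP r x := by
  unfold GG PP
  rw [sum_range_succ, ← Fin.sum_univ_eq_sum_range fun t => ∑ c : ZMod (r.m0 + 1), ∑ p ∈ range 4,
    ∑ i : Fin N, ∑ j ∈ range 5, leaf j i (cf r x (r.pk i q t c.val p j))]
  refine (add_eq_left.2 (sum_eq_zero fun c _ => sum_eq_zero fun p _ => sum_eq_zero fun i _ =>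
    sum_eq_zero fun j _ => ?_)).trans ?_
  · rw [cf_none fun ρ => by simp [Raw.pk, hq], leaf_zero]
  refine sum_congr rfl fun t _ => sum_congr rfl fun c _ => sum_congr rfl fun p hp => ?_
  have hst : r.steps.getD t (0, false, 0, 0, 0, 0) = r.steps.get t := List.getD_eq_getElem _ _ t.2
  generalize r.steps.get t = st at hst ⊢
  have h0 : ∀ i : Fin N, (i : ℕ) ≠ st.1 →
      ∑ j ∈ range 5, leaf j i (cf r x (r.pk i q t c.val p j)) = 0 := fun i hi =>
    sum_eq_zero fun j _ => by
      rw [cf_none fun ρ => by simp only [Raw.pk, hq, hst, hi]; simp, leaf_zero]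
  by_cases h : st.1 < N
  · simp only [h, dif_pos]
    rw [sum_eq_single ⟨st.1, h⟩ (fun i _ hi => h0 i (Fin.val_ne_of_ne hi)) (by simp),
      sum5 (ty_ne st) (ty_lt st true) (ty_lt st false) fun j h1 h2 => by
        rw [cf_none fun ρ => by simp only [Raw.pk, hq, hst, h1, h2]; simp, leaf_zero],
      Fintype.sum_bool]
    have key : ∀ β, cf r x (r.pk st.1 q t c.val p (st.ty β)) =
        XX r x (t + 1) (c + (st.sh β : ℕ)) p - XX r x t c (p + if c = 0 then st.ph β else 0) := by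
      intro β
      rw [XX_of_lt r x _ _ (mem_range.1 hp), ZMod.val_add, ZMod.val_natCast, Nat.add_mod_mod]
      refine cf_two ?_ fun ρ => ?_
      · have h1 := ZMod.val_lt c
        have h2 := Nat.mod_lt (p + if c = 0 then st.ph β else 0) (show 0 < 4 by norm_num)
        unfold Raw.idx
        rw [Nat.succ_mul]
        omega
      · have h1 := ty_ne st
        have h2 := t.2
        simp only [Raw.pk, hq, hst, ZMod.val_eq_zero]
        cases β <;> simp [h1, h1.symm, h2]
    rw [key, key, leaf_ty, leaf_ty]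
  · simp only [h, dif_neg, not_false_eq_true, sum_const_zero]
    exact sum_eq_zero fun i _ => h0 i fun hi => h (hi ▸ i.2)

theorem GG_I {q : ℕ} (hq : r.J ≤ q) (hq' : q < 2 * r.J) : GG r x q = II r x := by
  have hq1 : ¬ q < r.J := by omega
  unfold GG II I0
  rw [sum_eq_single 0 (fun t _ ht => sum_eq_zero fun c _ => sum_eq_zero fun p _ =>
    sum_eq_zero fun i _ => sum_eq_zero fun j _ => by
      rw [cf_none fun ρ => by simp [Raw.pk, hq1, hq', ht], leaf_zero]) (by simp), sum_comm]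
  refine sum_congr rfl fun p hp => sum_congr rfl fun c _ => sum_congr rfl fun i _ => ?_
  beta_reduce
  rw [sum5 (a := 0) (b := 2) (by norm_num) (by norm_num) (by norm_num) fun j h1 h2 => by
    rw [cf_none fun ρ => by simp [Raw.pk, hq1, hq', h1, h2], leaf_zero],
    XX_of_lt r x _ _ (mem_range.1 hp), leaf_0, leaf_2]
  congr 1
  · split_ifs with h
    · rw [cf_one fun ρ => by simp [Raw.pk, hq1, hq', h.1, h.2]; rfl]
    · rw [cf_none fun ρ => by simp only [Raw.pk, hq1, hq']; simp; tauto, ← leaf_0, leaf_zero]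
  · split_ifs with h
    · rw [cf_one (A := r.idx 0 c.val p) fun ρ => by simp only [Raw.pk, hq1, hq']; simp; tauto]
    · rw [cf_none fun ρ => by simp only [Raw.pk, hq1, hq']; simp; tauto, ← leaf_2, leaf_zero]

theorem GG_O {out : Fin N} (ho : r.2.2.2 = out) : GG r x (2 * r.J) = OO r x out := by
  have hq1 : ¬ 2 * r.J < r.J := by omega
  unfold GG OO
  rw [sum_eq_single r.T (fun t _ ht => sum_eq_zero fun c _ => sum_eq_zero fun p _ =>
    sum_eq_zero fun i _ => sum_eq_zero fun j _ => by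
      rw [cf_none fun ρ => by simp [Raw.pk, hq1, ht], leaf_zero]) (by simp)]
  refine sum_congr rfl fun c _ => sum_congr rfl fun p hp => ?_
  rw [sum_eq_single out (fun i _ hi => sum_eq_zero fun j _ => by
      rw [cf_none fun ρ => by simp [Raw.pk, hq1, ho, Fin.val_ne_of_ne hi], leaf_zero]) (by simp),
    sum_eq_single 0 (fun j _ hj => by
      rw [cf_none fun ρ => by simp [Raw.pk, hq1, hj], leaf_zero]) (by simp),
    cf_one (A := r.idx r.T c.val p) fun ρ => by simp [Raw.pk, hq1, ho], leaf_0,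
    XX_of_lt r x _ _ (mem_range.1 hp)]

theorem GG_W (hN : 0 < N) : GG r x (2 * r.J + 1) = WW r x := by
  have hq1 : ¬ 2 * r.J + 1 < r.J := by omega
  have hq2 : ¬ 2 * r.J + 1 < 2 * r.J := by omega
  unfold GG WW
  rw [Fin.sum_univ_eq_sum_range fun t => ∑ c : ZMod (r.m0 + 1), ∑ p ∈ range 4,
    qn (XX r x t c p - XX r x t c (p + 1))]
  refine sum_congr rfl fun t _ => sum_congr rfl fun c _ => sum_congr rfl fun p hp => ?_
  have hp := mem_range.1 hp
  have key : ∀ j, j = 0 ∨ j = 2 → cf r x (r.pk 0 (2 * r.J + 1) t c.val p j) =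
      XX r x t c p - XX r x t c (p + 1) := fun j hj => by
    rw [XX_of_lt r x _ _ hp]
    refine cf_two ?_ fun ρ => by simp [Raw.pk, hq1, hq2, hj]
    unfold Raw.idx
    omega
  rw [sum_eq_single ⟨0, hN⟩ (fun i _ hi => sum_eq_zero fun j _ => by
      rw [cf_none fun ρ => by simp [Raw.pk, hq1, hq2, Fin.val_ne_of_ne hi], leaf_zero]) (by simp),
    sum5 (a := 0) (b := 2) (by norm_num) (by norm_num) (by norm_num) fun j h1 h2 => by
      rw [cf_none fun ρ => by simp [Raw.pk, hq1, hq2, h1, h2], leaf_zero],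
    key 0 (Or.inl rfl), key 2 (Or.inr rfl), leaf_0, leaf_2, qn_prj_add]

/-- The explicit form of the Hamiltonian. -/
theorem H_eq (x : Fin r.R → QVec r.1) {out : Fin r.1} (ho : r.2.2.2 = out) :
    (starOf r).H x = r.J * (PP r x + II r x) + OO r x out + WW r x := by
  rw [H_eq_GG, sum_range_succ, sum_range_succ, GG_O r x ho, GG_W r x out.pos, two_mul,
    sum_range_add, sum_congr rfl fun q hq => GG_P r x (mem_range.1 hq),
    sum_congr rfl fun q hq => GG_I r x (Nat.le_add_right _ q) (by have := mem_range.1 hq; omega)]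
  simp only [sum_const, card_range, nsmul_eq_mul]
  ring

/-! ### comparison of the input penalties -/

theorem secI_le_I0 (hN : 0 < N) (z : Fin (r.T + 1) → ZMod (r.m0 + 1) → QVec N) :
    secI r z ≤ I0 r (z 0) := by
  refine sum_le_sum fun c _ => ?_
  have h0 : ∀ i : Fin N, 0 ≤ (if c ≠ 0 ∧ (i : ℕ) = 0 then qn (prj false false i (z 0 c)) else 0) +
      if (c ≠ 0 ∧ (i : ℕ) = 0) ∨ r.2.1 ≤ i then qn (prj false true i (z 0 c)) else 0 := fun i =>
    add_nonneg (by split_ifs; exacts [qn_nonneg _, le_rfl]) (by split_ifs; exacts [qn_nonneg _, le_rfl])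
  by_cases hc : c = 0
  · simp only [hc, ne_eq, not_true_eq_false, false_and, false_or, if_false, zero_add, qn_prj_false]
    have h1 : ∀ i : Fin N, (if r.2.1 ≤ i then ∑ y : Fin N → Bool,
        if y i = true then ‖z 0 0 y‖ ^ 2 else 0 else 0) =
        ∑ y : Fin N → Bool, if r.2.1 ≤ i ∧ y i = true then ‖z 0 0 y‖ ^ 2 else 0 := fun i => by
      split_ifs with h <;> simp [h]
    simp only [h1]
    rw [sum_comm]
    refine sum_le_sum fun y _ => ?_
    have h2 : ∀ i : Fin N, 0 ≤ if r.2.1 ≤ i ∧ y i = true then ‖z 0 0 y‖ ^ 2 else 0 := fun i => by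
      split_ifs; exacts [sq_nonneg _, le_rfl]
    split_ifs with h
    · obtain ⟨i, hi⟩ := h
      exact le_trans (le_of_eq (if_pos hi).symm) (single_le_sum (fun i _ => h2 i) (mem_univ i))
    · exact sum_nonneg fun i _ => h2 i
  · refine le_trans (le_of_eq ?_) (single_le_sum (fun i _ => h0 i) (mem_univ ⟨0, hN⟩))
    simp only [hc, ne_eq, not_false_eq_true, true_or, and_self, if_true, qn_prj_add]
    rfl

theorem I0_eq_zero {z : Fin (r.T + 1) → ZMod (r.m0 + 1) → QVec N} (h : secI r z = 0) :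
    I0 r (z 0) = 0 := by
  have h0 : ∀ (c : ZMod (r.m0 + 1)) (y : Fin N → Bool), 0 ≤
      if c ≠ 0 ∨ ∃ i : Fin N, r.2.1 ≤ (i : ℕ) ∧ y i = true then ‖z 0 c y‖ ^ 2 else 0 := fun c y => by
    split_ifs; exacts [sq_nonneg _, le_rfl]
  have h1 : ∀ (c : ZMod (r.m0 + 1)) (y : Fin N → Bool),
      (c ≠ 0 ∨ ∃ i : Fin N, r.2.1 ≤ (i : ℕ) ∧ y i = true) → ‖z 0 c y‖ ^ 2 = 0 := fun c y hy => by
    have := (sum_eq_zero_iff_of_nonneg fun y _ => h0 c y).1
      ((sum_eq_zero_iff_of_nonneg fun c _ => sum_nonneg fun y _ => h0 c y).1 h c (mem_univ c)) y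
      (mem_univ y)
    rwa [if_pos hy] at this
  refine sum_eq_zero fun c _ => sum_eq_zero fun i _ => ?_
  have h2 : (if c ≠ 0 ∧ (i : ℕ) = 0 then qn (prj false false i (z 0 c)) else 0) = 0 := by
    split_ifs with hc
    · rw [qn_prj_false]
      exact sum_eq_zero fun y _ => by rw [h1 c y (Or.inl hc.1), ite_self]
    · rfl
  rw [h2, zero_add]
  split_ifs with hc
  · rw [qn_prj_false]
    refine sum_eq_zero fun y _ => ?_
    split_ifs with hy
    · exact h1 c y (hc.imp And.left fun hi => ⟨i, hi, hy⟩)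
    · rfl
  · rfl

end Crest.Agent.R338.AForm
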