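import Crest.Agent.R338.ANoMid
import Crest.Agent.R338.AForm

/-!
# Row 338: soundness of the star Hamiltonian
-/

noncomputable section

open Function Finset
open Crest.Quantum.GateCircuit Crest.Quantum.QMA

namespace Crest.Agent.R338

namespace ANo

open AForm

theorem no_of (r : Raw) (o : Fin r.1) (ho : r.2.2.2 = o)
    (hst : ∀ t : Fin r.T, (r.steps.get t).1 < r.1)
    (hK : ∀ z : Fin (r.T + 1) → ZMod (r.m0 + 1) → QVec r.1, 3 / (5 * (r.T + 1)) * secN r z ≤
        40 * (r.T + 1) * (secP r om8 z + secI r z) + secO r o z)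
    (x : Fin r.R → QVec r.1) : ((starOf r).hi : ℝ) * sN x ≤ (starOf r).H x := by
  let v : ℕ → ℕ → ℕ → QVec r.1 := fun t c p => xe r x (r.idx t c p)
  have hX : ∀ t (c : ZMod (r.m0 + 1)) u, XX r x t c u = ANoSec.ng (v t c.val) u := fun _ _ _ => rfl
  have hX' : ∀ t (c : ZMod (r.m0 + 1)), ∀ p ∈ range 4, XX r x t c p = v t c.val p :=
    fun t c p hp => XX_of_lt r x t c (mem_range.1 hp)
  have h := ANoSec.lower r o hst hK v (P := PP r x) (I := II r x) ?_ ?_
  · have e1 : sN x = ∑ t ∈ range (r.T + 1), ∑ c ∈ range (r.m0 + 1), ∑ p ∈ range 4,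
        qn (v t c p) := by
      rw [sum_range]
      refine (sN_eq r x).trans (sum_congr rfl fun t _ => ?_)
      rw [sum_zmod]
      exact sum_congr rfl fun c _ => sum_congr rfl fun p hp => by rw [hX' _ _ p hp]
    have e2 : OO r x o = ∑ c ∈ range (r.m0 + 1), ∑ p ∈ range 4,
        qn (prj false false o (v r.T c p)) := by
      rw [sum_zmod]
      exact sum_congr rfl fun c _ => sum_congr rfl fun p hp => by rw [hX' _ _ p hp]
    have e3 : WW r x = ∑ t ∈ range (r.T + 1), ∑ c ∈ range (r.m0 + 1), ∑ p ∈ range 4,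
        qn (v t c p - ANoSec.ng (v t c) (p + 1)) := by
      rw [sum_range]
      refine sum_congr rfl fun t _ => ?_
      rw [sum_zmod]
      exact sum_congr rfl fun c _ => sum_congr rfl fun p hp => by rw [hX' _ _ p hp, hX]
    have e4 : (r.J : ℝ) = 40 * (r.T + 1) := by
      unfold Raw.J; push_cast; rfl
    have e5 := H_eq r x ho
    rw [e2, e3, e4] at e5
    rw [← e1] at h
    exact h.trans e5.ge
  · refine sum_le_sum fun t _ => ?_
    rw [sum_zmod]
    refine sum_le_sum fun c _ => sum_le_sum fun p hp => sum_le_sum fun β _ => ?_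
    rw [dif_pos (hst t), hX' _ _ p hp, hX, ZMod.val_add, ZMod.val_natCast, Nat.add_mod_mod]
    simp only [ZMod.val_eq_zero]
    refine le_mul_of_one_le_left (qn_nonneg _) ?_
    split_ifs <;> norm_num
  · rw [sum_comm]
    refine sum_le_sum fun p hp => ?_
    refine le_trans (le_of_eq ?_) (secI_le_I0 r o.pos fun _ c => XX r x 0 c p)
    rw [sum_zmod]
    refine sum_congr rfl fun c _ => sum_congr rfl fun y _ => ?_
    simp only [ne_eq, ZMod.val_eq_zero, hX' _ _ p hp]

end ANo

theorem ano (hS : ASemStmt) (hK : AKitStmt) : ANoStmt := fun V hV h x =>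
  ANo.no_of (rawOf V) V.out rfl (fun t => (hS.2 V hV).1 _ (List.get_mem _ t)) ((hK V hV).2 h) x

end Crest.Agent.R338
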