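import Crest.Agent.R338.ANoSec

/-!
# Row 338: splitting the four kinds of terms into sectors
-/

noncomputable section

open Function
open scoped ComplexConjugate
open Crest.Quantum.GateCircuit Crest.Quantum.QMA

namespace Crest.Agent.R338

namespace ANoSec

variable {N : ℕ} (r : Raw)

theorem sum_zmod (m0 : ℕ) (f : ℕ → ℝ) :
    ∑ c ∈ Finset.range (m0 + 1), f c = ∑ c : ZMod (m0 + 1), f c.val :=
  Finset.sum_range f

/-- the component in the sector `k` -/
def zz (k : Fin 4) (v : ℕ → ℕ → ℕ → QVec N) (t : Fin (r.T + 1)) (c : ZMod (r.m0 + 1)) : QVec N :=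
  D (lamv k) (v t c.val)

theorem split_N (v : ℕ → ℕ → ℕ → QVec N) :
    ∑ t ∈ Finset.range (r.T + 1), ∑ c ∈ Finset.range (r.m0 + 1), ∑ p ∈ Finset.range 4,
      qn (v t c p) = ∑ k, secN r (zz r k v) := by
  simp only [parseval_qn]
  rw [Finset.sum_range]
  simp only [sum_zmod, secN, zz]
  symm
  rw [Finset.sum_comm]
  exact Finset.sum_congr rfl fun t _ => Finset.sum_comm

theorem qn_smul (a : ℂ) (ψ : QVec N) : qn (a • ψ) = ‖a‖ ^ 2 * qn ψ := by
  simp only [qn, Pi.smul_apply, smul_eq_mul, norm_mul, mul_pow, Finset.mul_sum]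

theorem split_W (v : ℕ → ℕ → ℕ → QVec N) :
    ∑ t ∈ Finset.range (r.T + 1), ∑ c ∈ Finset.range (r.m0 + 1), ∑ p ∈ Finset.range 4,
      qn (v t c p - ng (v t c) (p + 1)) = ∑ k, ‖1 - lamv k‖ ^ 2 * secN r (zz r k v) := by
  have e : ∀ t c, ∑ p ∈ Finset.range 4, qn (v t c p - ng (v t c) (p + 1))
      = ∑ k, ‖1 - lamv k‖ ^ 2 * qn (D (lamv k) (v t c)) := by
    intro t c
    rw [parseval_qn fun p => v t c p - ng (v t c) (p + 1)]
    refine Finset.sum_congr rfl fun k _ => ?_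
    rw [D_sub_ng, ← qn_smul, sub_smul, one_smul, pow_one]
  simp only [e]
  rw [Finset.sum_range]
  simp only [sum_zmod, secN, zz, Finset.mul_sum]
  symm
  rw [Finset.sum_comm]
  exact Finset.sum_congr rfl fun t _ => Finset.sum_comm

theorem split_O (o : Fin N) (v : ℕ → ℕ → ℕ → QVec N) :
    ∑ c ∈ Finset.range (r.m0 + 1), ∑ p ∈ Finset.range 4, qn (prj false false o (v r.T c p))
      = ∑ k, secO r o (zz r k v) := by
  have e : ∀ ψ : QVec N, qn (prj false false o ψ) = ∑ y, if y o = false then ‖ψ y‖ ^ 2 else 0 := by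
    intro ψ
    refine Finset.sum_congr rfl fun y _ => ?_
    simp only [prj]
    cases y o <;> simp
  simp only [e, parseval_if (fun y => y o = false), sum_zmod, secO, zz, Fin.val_last]
  exact Finset.sum_comm

theorem split_I (v : ℕ → ℕ → ℕ → QVec N) :
    ∑ c ∈ Finset.range (r.m0 + 1), ∑ p ∈ Finset.range 4, ∑ y : Fin N → Bool,
      (if c ≠ 0 ∨ ∃ i : Fin N, r.2.1 ≤ (i : ℕ) ∧ y i = true then ‖v 0 c p y‖ ^ 2 else 0)
      = ∑ k, secI r (zz r k v) := by
  have e : ∀ c, ∑ p ∈ Finset.range 4, ∑ y : Fin N → Bool,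
      (if c ≠ 0 ∨ ∃ i : Fin N, r.2.1 ≤ (i : ℕ) ∧ y i = true then ‖v 0 c p y‖ ^ 2 else 0)
      = ∑ k, ∑ y : Fin N → Bool, if c ≠ 0 ∨ ∃ i : Fin N, r.2.1 ≤ (i : ℕ) ∧ y i = true then
        ‖D (lamv k) (v 0 c) y‖ ^ 2 else 0 := fun c =>
    parseval_if (fun y => c ≠ 0 ∨ ∃ i : Fin N, r.2.1 ≤ (i : ℕ) ∧ y i = true) (v 0 c)
  simp only [e]
  rw [sum_zmod, Finset.sum_comm]
  refine Finset.sum_congr rfl fun k _ => Finset.sum_congr rfl fun c _ =>
    Finset.sum_congr rfl fun y _ => ?_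
  simp only [ne_eq, ZMod.val_eq_zero, zz, Fin.val_zero]

theorem split_P (hst : ∀ t : Fin r.T, (r.steps.get t).1 < N) (v : ℕ → ℕ → ℕ → QVec N) :
    ∑ t : Fin r.T, ∑ c ∈ Finset.range (r.m0 + 1), ∑ p ∈ Finset.range 4, ∑ β : Bool,
      qn (prj (r.steps.get t).2.1 β ⟨(r.steps.get t).1, hst t⟩
        (v (t + 1) ((c + (r.steps.get t).sh β) % (r.m0 + 1)) p
          - ng (v t c) (p + if c = 0 then (r.steps.get t).ph β else 0)))
      = ∑ k, secP r (lamv k) (zz r k v) := by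
  unfold secP
  rw [Finset.sum_comm (s := (Finset.univ : Finset (Fin 4)))]
  refine Finset.sum_congr rfl fun t _ => ?_
  simp only [step_split _ _ (hst t)]
  rw [sum_zmod, Finset.sum_comm (s := (Finset.univ : Finset (Fin 4)))]
  refine Finset.sum_congr rfl fun c _ => ?_
  rw [Finset.sum_comm, Finset.sum_comm (s := (Finset.univ : Finset (Fin 4)))]
  refine Finset.sum_congr rfl fun β _ => ?_
  rw [parseval_qn]
  refine Finset.sum_congr rfl fun k _ => ?_
  rw [D_prj, D_sub_ng]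
  simp only [zz, ZMod.val_eq_zero, Fin.val_succ, Fin.val_castSucc, ZMod.val_add, ZMod.val_natCast,
    Nat.add_mod_mod]

/-- the lower bound in terms of the four kinds of terms -/
theorem lower (o : Fin N) (hst : ∀ t : Fin r.T, (r.steps.get t).1 < N)
    (hK : ∀ z : Fin (r.T + 1) → ZMod (r.m0 + 1) → QVec N, 3 / (5 * (r.T + 1)) * secN r z ≤
        40 * (r.T + 1) * (secP r om8 z + secI r z) + secO r o z)
    (v : ℕ → ℕ → ℕ → QVec N) {P I : ℝ}
    (hP : ∑ t : Fin r.T, ∑ c ∈ Finset.range (r.m0 + 1), ∑ p ∈ Finset.range 4, ∑ β : Bool,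
      qn (prj (r.steps.get t).2.1 β ⟨(r.steps.get t).1, hst t⟩
        (v (t + 1) ((c + (r.steps.get t).sh β) % (r.m0 + 1)) p
          - ng (v t c) (p + if c = 0 then (r.steps.get t).ph β else 0))) ≤ P)
    (hI : ∑ c ∈ Finset.range (r.m0 + 1), ∑ p ∈ Finset.range 4, ∑ y : Fin N → Bool,
      (if c ≠ 0 ∨ ∃ i : Fin N, r.2.1 ≤ (i : ℕ) ∧ y i = true then ‖v 0 c p y‖ ^ 2 else 0) ≤ I) :
    ((starOf r).hi : ℝ) * ∑ t ∈ Finset.range (r.T + 1), ∑ c ∈ Finset.range (r.m0 + 1),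
        ∑ p ∈ Finset.range 4, qn (v t c p)
      ≤ 40 * (r.T + 1) * (P + I)
        + ∑ c ∈ Finset.range (r.m0 + 1), ∑ p ∈ Finset.range 4, qn (prj false false o (v r.T c p))
        + ∑ t ∈ Finset.range (r.T + 1), ∑ c ∈ Finset.range (r.m0 + 1), ∑ p ∈ Finset.range 4,
          qn (v t c p - ng (v t c) (p + 1)) := by
  rw [split_P] at hP
  rw [split_I] at hI
  rw [split_N, split_O, split_W, Finset.mul_sum]
  refine (Finset.sum_le_sum fun k _ => sector r o hK k (zz r k v)).trans ?_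
  rw [Finset.sum_add_distrib, Finset.sum_add_distrib, ← Finset.mul_sum, Finset.sum_add_distrib]
  have : (0 : ℝ) ≤ 40 * (r.T + 1) := by positivity
  have := mul_le_mul_of_nonneg_left (add_le_add hP hI) this
  linarith

end ANoSec

end Crest.Agent.R338
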