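import Crest.Agent.R338.DefsA

/-!
# Row 338: the negacyclic Fourier transform of the phase register and the sector estimates
-/

noncomputable section

open Function
open scoped ComplexConjugate
open Crest.Quantum.GateCircuit Crest.Quantum.QMA

namespace Crest.Agent.R338

namespace ANoSec

/-! ### the eighth root of unity -/

theorem norm_om8 : ‖om8‖ = 1 := by
  have := Complex.norm_exp_ofReal_mul_I (Real.pi / 4)
  push_cast at this
  exact this

theorem om8_re : om8.re = √2 / 2 := by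
  have := Complex.exp_ofReal_mul_I_re (Real.pi / 4)
  push_cast at this
  rw [← Real.cos_pi_div_four, ← this]
  rfl

theorem om8_sq : om8 ^ 2 = Complex.I := by
  have h : ((2 : ℕ) : ℂ) * (Real.pi / 4 * Complex.I) = Real.pi / 2 * Complex.I := by
    push_cast
    ring
  rw [om8, ← Complex.exp_nat_mul, h, Complex.exp_pi_div_two_mul_I]

theorem conj_om8_sq : (conj om8) ^ 2 = -Complex.I := by
  rw [← map_pow, om8_sq, Complex.conj_I]

theorem mul_conj_of_norm {l : ℂ} (h : ‖l‖ = 1) : l * conj l = 1 := by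
  rw [Complex.mul_conj', h]; simp

theorem norm_one_sub_sq {l : ℂ} (h : ‖l‖ = 1) : ‖1 - l‖ ^ 2 = 2 - 2 * l.re := by
  have h1 : l.re * l.re + l.im * l.im = 1 := by
    rw [← Complex.normSq_apply, Complex.normSq_eq_norm_sq, h]; norm_num
  rw [← Complex.normSq_eq_norm_sq, Complex.normSq_apply]
  simp only [Complex.sub_re, Complex.one_re, Complex.sub_im, Complex.one_im]
  nlinarith

/-! ### the scalar transform -/

/-- the component in the sector where the phase generator acts as `l` -/
def dft (l : ℂ) (a : ℕ → ℂ) : ℂ :=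
  (a 0 + conj l * a 1 + conj l ^ 2 * a 2 + conj l ^ 3 * a 3) / 2

theorem par (A B μ : ℂ) (h : ‖μ‖ = 1) :
    ‖A + μ * B‖ ^ 2 + ‖A - μ * B‖ ^ 2 = 2 * ‖A‖ ^ 2 + 2 * ‖B‖ ^ 2 := by
  have := parallelogram_law_with_norm ℂ A (μ * B)
  rw [norm_mul, h, one_mul] at this
  nlinarith

theorem dft_pair (l : ℂ) (h : ‖l‖ = 1) (a : ℕ → ℂ) :
    ‖dft l a‖ ^ 2 + ‖dft (-l) a‖ ^ 2
      = (‖a 0 + conj l ^ 2 * a 2‖ ^ 2 + ‖a 1 + conj l ^ 2 * a 3‖ ^ 2) / 2 := by
  have h1 := par (a 0 + conj l ^ 2 * a 2) (a 1 + conj l ^ 2 * a 3) (conj l) (by simpa using h)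
  have e1 : dft l a = (a 0 + conj l ^ 2 * a 2 + conj l * (a 1 + conj l ^ 2 * a 3)) / 2 := by
    unfold dft; ring
  have e2 : dft (-l) a = (a 0 + conj l ^ 2 * a 2 - conj l * (a 1 + conj l ^ 2 * a 3)) / 2 := by
    unfold dft; rw [map_neg]; ring
  rw [e1, e2, norm_div, norm_div, div_pow, div_pow]
  simp only [Complex.norm_ofNat]
  linarith

/-- the four eigenvalues -/
def lamv (k : Fin 4) : ℂ := ![om8, -om8, conj om8, -conj om8] k

theorem norm_lamv (k : Fin 4) : ‖lamv k‖ = 1 := by
  fin_cases k <;> simp [lamv, norm_om8]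

theorem lamv_four (k : Fin 4) : conj (lamv k) ^ 4 = -1 := by
  have h1 : om8 ^ 4 = -1 := by
    rw [show 4 = 2 * 2 from rfl, pow_mul, om8_sq, Complex.I_sq]
  have h2 : conj om8 ^ 4 = -1 := by rw [← map_pow, h1]; simp
  fin_cases k <;> simp [lamv, h1, h2, Even.neg_pow (by decide : Even 4)]

theorem parseval (a : ℕ → ℂ) :
    ∑ p ∈ Finset.range 4, ‖a p‖ ^ 2 = ∑ k : Fin 4, ‖dft (lamv k) a‖ ^ 2 := by
  have h1 := dft_pair om8 norm_om8 a
  have h2 := dft_pair (conj om8) (by simpa using norm_om8) a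
  rw [conj_om8_sq] at h1
  rw [Complex.conj_conj, om8_sq] at h2
  have h3 := par (a 0) (a 2) Complex.I Complex.norm_I
  have h4 := par (a 1) (a 3) Complex.I Complex.norm_I
  simp only [neg_mul, ← sub_eq_add_neg] at h1
  simp only [Finset.sum_range_succ, Finset.range_zero, Finset.sum_empty, Fin.sum_univ_four, lamv,
    Matrix.cons_val_zero, Matrix.cons_val_one, Matrix.cons_val]
  linarith

theorem dft_shift {l : ℂ} (h : ‖l‖ = 1) (h4 : conj l ^ 4 = -1) (f : ℕ → ℂ)
    (hf : ∀ u, f (u + 4) = -f u) (s : ℕ) : dft l (fun p => f (p + s)) = l ^ s * dft l f := by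
  induction s with
  | zero => simp
  | succ s ih =>
    rw [pow_succ', mul_assoc, ← ih]
    have h1 := mul_conj_of_norm h
    have h2 := hf s
    simp only [dft]
    rw [show 0 + (s + 1) = 1 + s by ring, show 1 + (s + 1) = 2 + s by ring,
      show 2 + (s + 1) = 3 + s by ring, show 3 + (s + 1) = s + 4 by ring, h2, zero_add]
    linear_combination (-(f (1 + s) + conj l * f (2 + s) + conj l ^ 2 * f (3 + s)
      - conj l ^ 3 * f s) / 2) * h1 + (-(l * f s) / 2) * h4

/-- negacyclic extension -/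
def ng {E : Type} [Neg E] (a : ℕ → E) (u : ℕ) : E := if u % 8 < 4 then a (u % 4) else -a (u % 4)

theorem ng_add_four (a : ℕ → ℂ) (u : ℕ) : ng a (u + 4) = -ng a u := by
  unfold ng
  rw [Nat.add_mod_right]
  split_ifs with h1 h2 h2
  · omega
  · rw [neg_neg]
  · rfl
  · omega

theorem dft_ng {l : ℂ} (h : ‖l‖ = 1) (h4 : conj l ^ 4 = -1) (a : ℕ → ℂ) (s : ℕ) :
    dft l (fun p => ng a (p + s)) = l ^ s * dft l a := by
  rw [dft_shift h h4 _ (ng_add_four a)]
  rfl

/-! ### states -/

variable {N : ℕ}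

/-- the transform of four states -/
def D (l : ℂ) (a : ℕ → QVec N) : QVec N := fun y => dft l fun p => a p y

theorem qn_nonneg (ψ : QVec N) : 0 ≤ qn ψ := Finset.sum_nonneg fun _ _ => by positivity

theorem parseval_qn (a : ℕ → QVec N) :
    ∑ p ∈ Finset.range 4, qn (a p) = ∑ k : Fin 4, qn (D (lamv k) a) := by
  unfold qn
  rw [Finset.sum_comm, Finset.sum_comm (s := (Finset.univ : Finset (Fin 4)))]
  exact Finset.sum_congr rfl fun y _ => parseval fun p => a p y

theorem parseval_if (P : (Fin N → Bool) → Prop) [DecidablePred P] (a : ℕ → QVec N) :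
    ∑ p ∈ Finset.range 4, ∑ y, (if P y then ‖a p y‖ ^ 2 else 0)
      = ∑ k : Fin 4, ∑ y, if P y then ‖D (lamv k) a y‖ ^ 2 else 0 := by
  rw [Finset.sum_comm, Finset.sum_comm (s := (Finset.univ : Finset (Fin 4)))]
  refine Finset.sum_congr rfl fun y _ => ?_
  split_ifs
  · exact parseval fun p => a p y
  · simp

theorem D_prj (l : ℂ) (xb β : Bool) (i : Fin N) (a : ℕ → QVec N) :
    D l (fun p => prj xb β i (a p)) = prj xb β i (D l a) := by
  funext y
  simp only [D, prj, dft]
  split_ifs <;> ring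

theorem D_sub_ng (k : Fin 4) (b a : ℕ → QVec N) (s : ℕ) :
    D (lamv k) (fun p => b p - ng a (p + s)) = D (lamv k) b - lamv k ^ s • D (lamv k) a := by
  funext y
  have h := dft_ng (norm_lamv k) (lamv_four k) (fun p => a p y) s
  have e : ∀ u, ng a u y = ng (fun p => a p y) u := fun u => by
    unfold ng; split_ifs <;> rfl
  simp only [D, Pi.sub_apply, Pi.smul_apply, smul_eq_mul, e, ← h]
  unfold dft
  ring

/-! ### projections -/

theorem prj_sum (xb : Bool) (i : Fin N) (ψ : QVec N) :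
    prj xb true i ψ + prj xb false i ψ = ψ := by
  funext y
  simp only [prj, Pi.add_apply]
  cases xb
  · cases y i <;> simp
  · simp; ring

theorem prj_sub (xb β : Bool) (i : Fin N) (ψ φ : QVec N) :
    prj xb β i (ψ - φ) = prj xb β i ψ - prj xb β i φ := by
  funext y
  simp only [prj, Pi.sub_apply]
  split_ifs <;> ring

theorem flip_invol (i : Fin N) :
    Function.Involutive fun y : Fin N → Bool => update y i (!y i) := by
  intro y
  simp

theorem qn_prj_add (xb : Bool) (i : Fin N) (ψ φ : QVec N) :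
    qn (prj xb true i ψ + prj xb false i φ) = qn (prj xb true i ψ) + qn (prj xb false i φ) := by
  cases xb
  · unfold qn
    rw [← Finset.sum_add_distrib]
    refine Finset.sum_congr rfl fun y _ => ?_
    simp only [prj, Pi.add_apply]
    cases y i <;> simp
  · set u := prj true true i ψ with hu
    set v := prj true false i φ with hv
    have h1 : ∀ y, u (update y i (!y i)) = -u y := fun y => by
      simp only [hu, prj, if_true, flip_invol i y]; ring
    have h2 : ∀ y, v (update y i (!y i)) = v y := fun y => by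
      simp only [hv, prj, if_true, flip_invol i y]; simp; ring
    have h3 : qn (u + v) = ∑ y, ‖v y - u y‖ ^ 2 := by
      unfold qn
      rw [← Equiv.sum_comp (flip_invol i).toPerm]
      refine Finset.sum_congr rfl fun y _ => ?_
      simp only [Function.Involutive.coe_toPerm, Pi.add_apply, h1, h2]
      rw [neg_add_eq_sub]
    have h4 : qn (u + v) + ∑ y, ‖v y - u y‖ ^ 2 = 2 * qn u + 2 * qn v := by
      unfold qn
      rw [← Finset.sum_add_distrib, Finset.mul_sum, Finset.mul_sum, ← Finset.sum_add_distrib]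
      refine Finset.sum_congr rfl fun y _ => ?_
      have := par (v y) (u y) 1 (by simp)
      simp only [one_mul] at this
      rw [Pi.add_apply, add_comm (u y)]
      linarith
    linarith

/-- the propagation term of one step in a sector -/
theorem step_split {m0 : ℕ} (l : ℂ) (st : Step) (h : st.1 < N)
    (z z' : ZMod (m0 + 1) → QVec N) :
    ∑ c, qn (z' c - stepU l st z c) = ∑ c : ZMod (m0 + 1), ∑ β : Bool,
      qn (prj st.2.1 β ⟨st.1, h⟩ (z' (c + (st.sh β : ℕ)) - (l ^ if c = 0 then st.ph β else 0) • z c)) := by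
  rw [Finset.sum_comm]
  have e : ∀ β : Bool, ∑ c : ZMod (m0 + 1), qn (prj st.2.1 β ⟨st.1, h⟩
      (z' (c + (st.sh β : ℕ)) - (l ^ if c = 0 then st.ph β else 0) • z c))
      = ∑ c : ZMod (m0 + 1), qn (prj st.2.1 β ⟨st.1, h⟩ (z' c -
        (l ^ if c - (st.sh β : ℕ) = 0 then st.ph β else 0) • z (c - (st.sh β : ℕ)))) := by
    intro β
    rw [← (Equiv.subRight ((st.sh β : ℕ) : ZMod (m0 + 1))).sum_comp]
    simp only [Equiv.subRight_apply, sub_add_cancel]
  simp only [e]
  rw [Finset.sum_comm]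
  refine Finset.sum_congr rfl fun c _ => ?_
  rw [Fintype.sum_bool, ← qn_prj_add]
  congr 1
  simp only [stepU, dif_pos h, Fintype.sum_bool, prj_sub]
  conv_lhs => rw [← prj_sum st.2.1 ⟨st.1, h⟩ (z' c)]
  abel

/-! ### complex conjugation -/

theorem qn_star (ψ : QVec N) : qn (star ψ) = qn ψ := by
  simp [qn]

theorem prj_star (xb β : Bool) (i : Fin N) (ψ : QVec N) :
    prj xb β i (star ψ) = star (prj xb β i ψ) := by
  funext y
  simp only [prj, Pi.star_apply]
  split_ifs <;> simp

theorem stepU_star {m0 : ℕ} (l : ℂ) (st : Step) (z : ZMod (m0 + 1) → QVec N)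
    (c : ZMod (m0 + 1)) : stepU (conj l) st (star z) c = star (stepU l st z c) := by
  unfold stepU
  split_ifs with h
  · simp only [star_sum, ← prj_star, star_smul, star_pow, Pi.star_apply]
    rfl
  · rfl

variable (r : Raw)

theorem secN_star (z : Fin (r.T + 1) → ZMod (r.m0 + 1) → QVec N) :
    secN r (star z) = secN r z := by
  simp only [secN, Pi.star_apply, qn_star]

theorem secP_star (l : ℂ) (z : Fin (r.T + 1) → ZMod (r.m0 + 1) → QVec N) :
    secP r (conj l) (star z) = secP r l z := by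
  simp only [secP, Pi.star_apply, stepU_star, ← star_sub, qn_star]

theorem secI_star (z : Fin (r.T + 1) → ZMod (r.m0 + 1) → QVec N) :
    secI r (star z) = secI r z := by
  simp only [secI, Pi.star_apply, norm_star]

theorem secO_star (o : Fin N) (z : Fin (r.T + 1) → ZMod (r.m0 + 1) → QVec N) :
    secO r o (star z) = secO r o z := by
  simp only [secO, Pi.star_apply, norm_star]

theorem secN_nonneg (z : Fin (r.T + 1) → ZMod (r.m0 + 1) → QVec N) : 0 ≤ secN r z :=
  Finset.sum_nonneg fun _ _ => Finset.sum_nonneg fun _ _ => qn_nonneg _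

theorem secP_nonneg (l : ℂ) (z : Fin (r.T + 1) → ZMod (r.m0 + 1) → QVec N) : 0 ≤ secP r l z :=
  Finset.sum_nonneg fun _ _ => Finset.sum_nonneg fun _ _ => qn_nonneg _

theorem secI_nonneg (z : Fin (r.T + 1) → ZMod (r.m0 + 1) → QVec N) : 0 ≤ secI r z :=
  Finset.sum_nonneg fun _ _ => Finset.sum_nonneg fun _ _ => by split_ifs <;> positivity

theorem secO_nonneg (o : Fin N) (z : Fin (r.T + 1) → ZMod (r.m0 + 1) → QVec N) :
    0 ≤ secO r o z :=
  Finset.sum_nonneg fun _ _ => Finset.sum_nonneg fun _ _ => by split_ifs <;> positivity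

theorem s2_nonneg : (0 : ℝ) ≤ r.s2 := by
  have : (0 : ℚ) ≤ r.s2 := by unfold Raw.s2; positivity
  exact_mod_cast this

theorem sqrt_two_le : √2 ≤ (r.s2 : ℝ) + 1 / (10 * (r.T + 1)) := by
  have h1 := Nat.lt_succ_sqrt' (2 * (10 * (r.T + 1)) ^ 2)
  have h2 : (2 : ℝ) * (10 * (r.T + 1)) ^ 2
      ≤ ((Nat.sqrt (2 * (10 * (r.T + 1)) ^ 2) : ℝ) + 1) ^ 2 := by exact_mod_cast h1.le
  have h3 : (r.s2 : ℝ) = (Nat.sqrt (2 * (10 * (r.T + 1)) ^ 2) : ℝ) / (10 * (r.T + 1)) := by
    unfold Raw.s2; push_cast; rfl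
  rw [h3, ← add_div, Real.sqrt_le_left (by positivity), div_pow, le_div_iff₀ (by positivity)]
  exact h2

/-- the estimate in each of the four sectors -/
theorem sector (o : Fin N)
    (hK : ∀ z : Fin (r.T + 1) → ZMod (r.m0 + 1) → QVec N, 3 / (5 * (r.T + 1)) * secN r z ≤
        40 * (r.T + 1) * (secP r om8 z + secI r z) + secO r o z)
    (k : Fin 4) (z : Fin (r.T + 1) → ZMod (r.m0 + 1) → QVec N) :
    ((starOf r).hi : ℝ) * secN r z ≤ 40 * (r.T + 1) * (secP r (lamv k) z + secI r z) + secO r o z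
      + ‖1 - lamv k‖ ^ 2 * secN r z := by
  have hhi : ((starOf r).hi : ℝ) = 2 - r.s2 - 1 / (10 * (r.T + 1)) + 3 / (5 * (r.T + 1)) := by
    simp only [starOf]; push_cast; rfl
  have h1 := sqrt_two_le r
  have h2 := s2_nonneg r
  have h3 := secN_nonneg r z
  have h4 : (0 : ℝ) ≤ 40 * (r.T + 1) * (secP r (lamv k) z + secI r z) + secO r o z := by
    have := secP_nonneg r (lamv k) z
    have := secI_nonneg r z
    have := secO_nonneg r o z
    positivity
  have h5 : (3 : ℝ) / (5 * (r.T + 1)) ≤ √2 := by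
    have h6 : (1 : ℝ) ≤ √2 := Real.one_le_sqrt.2 (by norm_num)
    have h7 : (0 : ℝ) ≤ r.T := by positivity
    rw [div_le_iff₀ (by positivity)]
    nlinarith
  have h6 : (0 : ℝ) ≤ 1 / (10 * (r.T + 1)) := by positivity
  rw [norm_one_sub_sq (norm_lamv k), hhi]
  fin_cases k
  · have h7 := hK z
    have h8 : (lamv 0).re = √2 / 2 := om8_re
    have h9 : lamv 0 = om8 := rfl
    simp only [Fin.zero_eta, h8]
    rw [h9]
    nlinarith
  · have h8 : (lamv 1).re = -(√2 / 2) := by rw [← om8_re]; rfl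
    simp only [Fin.mk_one] at h4 ⊢
    rw [h8]
    nlinarith
  · have h7 := hK (star z)
    have h9 : om8 = conj (lamv 2) := (Complex.conj_conj om8).symm
    rw [secN_star, secI_star, secO_star, h9, secP_star] at h7
    have h8 : (lamv 2).re = √2 / 2 := om8_re
    simp only [Fin.reduceFinMk]
    rw [h8]
    nlinarith
  · have h8 : (lamv 3).re = -(√2 / 2) := by rw [← om8_re]; rfl
    simp only [Fin.reduceFinMk] at h4 ⊢
    rw [h8]
    nlinarith

end ANoSec

end Crest.Agent.R338
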