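import Crest.Agent.R338.DefsB
import Crest.Agent.Lib.PolyTime.Enc

/-!
# Row 338: parsing of verifier codes and the star instance in polynomial time
-/

set_option autoImplicit false

noncomputable section

open Function
open Crest.Quantum.GateCircuit Crest.Quantum.QMA Crest.Agent.Lib.PolyTime

namespace Crest.Agent.R338

namespace APoly

/-! ### the parser -/

/-- Parser of a controlled gate. -/
def pGate (w : List Bool) : (ℕ × List ℕ × ℕ) × List Bool :=
  pSeq pNat₁ (pSeq (pMarked pNat₁) pNat₁) w.tail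

/-- Parser of a verifier. -/
def parse (w : List Bool) : Raw :=
  (pSeq pNat₁ (pSeq pNat₁ (pSeq (pMarked pGate) pNat₁)) w).1

theorem poly_parse : Poly parse := by
  unfold parse pGate
  fun_prop

theorem pNat₁_natCode (n : ℕ) (w : List Bool) : pNat₁ (natCode n ++ w) = (n, w) := by
  rw [natCode, List.append_assoc]
  exact pNat₁_code n w

theorem pMarked_listCode {ι β : Type} {p : List Bool → β × List Bool} {c : ι → List Bool}
    {v : ι → β} {l : List ι} (h : ∀ x ∈ l, ∀ w, p (c x ++ w) = (v x, w)) (w : List Bool) :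
    pMarked p (listCode c l ++ w) = (l.map v, w) := by
  rw [listCode, List.append_assoc]
  exact pMarked_code h w

theorem primCode_eq (g : Prim) : primCode g = natCode (primNum g) := by
  cases g <;> rfl

theorem pGate_code {N : ℕ} (g : Gate N 0) (hg : IsCtrlGate g) (w : List Bool) :
    pGate (gateCode g ++ w) = (rawGate g, w) := by
  cases g with
  | oracle q t => exact hg.elim
  | ctrl g cs t =>
    rw [pGate, gateCode, List.cons_append, List.tail_cons, List.append_assoc, List.append_assoc,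
      primCode_eq]
    exact pSeq_eq (pNat₁_natCode _ _) (pSeq_eq
      (pMarked_listCode (v := Fin.val) (fun x _ w => pNat₁_natCode x w) _) (pNat₁_natCode _ _))

theorem parse_vcode (V : VCirc) (hV : V.WellFormed) : parse (vcode V) = rawOf V := by
  have e : vcode V = natCode V.N ++ (natCode V.w ++ (listCode gateCode V.gates ++
      (natCode (V.out : ℕ) ++ []))) := by
    simp only [vcode, List.append_assoc, List.append_nil]
  rw [parse, e, pSeq_eq (pNat₁_natCode _ _) (pSeq_eq (pNat₁_natCode _ _) (pSeq_eq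
    (pMarked_listCode (v := rawGate) (fun g hg w => pGate_code g (hV.2 g hg) w) _)
    (pNat₁_natCode _ _)))]
  rfl

/-! ### the star instance -/

section poly
variable {α : Type} [PEnc α]

theorem poly_m0 {r : α → Raw} (hr : Poly r) : Poly fun a => (r a).m0 := by
  unfold Raw.m0
  fun_prop

theorem pb_m0 {r : α → Raw} (hr : Poly r) : PB fun a => (r a).m0 := by
  unfold Raw.m0
  exact PB.sum_map (D := fun _ (g : ℕ × List ℕ × ℕ) => g.2.1.length) (by fun_prop) (by fun_prop)

theorem poly_primSteps {g t : α → ℕ} (hg : Poly g) (ht : Poly t) :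
    Poly fun a => primSteps (g a) (t a) := by
  unfold primSteps
  fun_prop

attribute [local fun_prop] poly_m0 pb_m0 poly_primSteps

theorem poly_gateSteps {m : α → ℕ} {g : α → ℕ × List ℕ × ℕ} (hm : Poly m) (hg : Poly g) :
    Poly fun a => gateSteps (m a) (g a) := by
  unfold gateSteps
  fun_prop

attribute [local fun_prop] poly_gateSteps

theorem poly_steps {r : α → Raw} (hr : Poly r) : Poly fun a => (r a).steps := by
  unfold Raw.steps
  fun_prop

attribute [local fun_prop] poly_steps

theorem poly_T {r : α → Raw} (hr : Poly r) : Poly fun a => (r a).T := by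
  unfold Raw.T
  fun_prop

theorem pb_T {r : α → Raw} (hr : Poly r) : PB fun a => (r a).T := by
  unfold Raw.T
  fun_prop

attribute [local fun_prop] poly_T pb_T

theorem poly_R {r : α → Raw} (hr : Poly r) : Poly fun a => (r a).R := by
  unfold Raw.R
  fun_prop

theorem pb_R {r : α → Raw} (hr : Poly r) : PB fun a => (r a).R := by
  unfold Raw.R
  fun_prop

theorem poly_J {r : α → Raw} (hr : Poly r) : Poly fun a => (r a).J := by
  unfold Raw.J
  fun_prop

theorem pb_J {r : α → Raw} (hr : Poly r) : PB fun a => (r a).J := by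
  unfold Raw.J
  fun_prop

theorem poly_idx {r : α → Raw} {t c p : α → ℕ} (hr : Poly r) (ht : Poly t) (hc : Poly c)
    (hp : Poly p) : Poly fun a => (r a).idx (t a) (c a) (p a) := by
  unfold Raw.idx
  fun_prop

attribute [local fun_prop] poly_R pb_R poly_J pb_J poly_idx

theorem poly_neg {r : α → Raw} {t c p e : α → ℕ} (hr : Poly r) (ht : Poly t) (hc : Poly c)
    (hp : Poly p) (he : Poly e) : Poly fun a => (r a).neg (t a) (c a) (p a) (e a) := by
  unfold Raw.neg
  fun_prop

theorem poly_sh {s : α → Step} {β : α → Bool} (hs : Poly s) (hβ : Poly β) :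
    Poly fun a => Step.sh (s a) (β a) := by
  unfold Step.sh
  fun_prop

theorem poly_ph {s : α → Step} {β : α → Bool} (hs : Poly s) (hβ : Poly β) :
    Poly fun a => Step.ph (s a) (β a) := by
  unfold Step.ph
  fun_prop

theorem poly_ty {s : α → Step} {β : α → Bool} (hs : Poly s) (hβ : Poly β) :
    Poly fun a => Step.ty (s a) (β a) := by
  unfold Step.ty
  fun_prop

attribute [local fun_prop] poly_neg poly_sh poly_ph poly_ty

theorem poly_pk {r : α → Raw} {i q t c p j ρ : α → ℕ} (hr : Poly r) (hi : Poly i) (hq : Poly q)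
    (ht : Poly t) (hc : Poly c) (hp : Poly p) (hj : Poly j) (hρ : Poly ρ) :
    Poly fun a => (r a).pk (i a) (q a) (t a) (c a) (p a) (j a) (ρ a) := by
  unfold Raw.pk
  fun_prop

theorem poly_s2 {r : α → Raw} (hr : Poly r) : Poly fun a => (r a).s2 := by
  unfold Raw.s2
  fun_prop

attribute [local fun_prop] poly_pk poly_s2

theorem polyStar {r : α → Raw} (hr : Poly r) (hN : PB fun a => (r a).1) :
    PolyStar fun a => starOf (r a) where
  N := hr.fst
  N' := hN
  R := poly_R hr
  R' := pb_R hr
  S := by simp only [starOf]; fun_prop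
  S' := by simp only [starOf]; fun_prop
  pick := by simp only [starOf]; fun_prop
  lo := by simp only [starOf]; fun_prop
  hi := by simp only [starOf]; fun_prop

end poly

/-! ### the thresholds -/

theorem s2_bounds (r : Raw) : 1 ≤ r.s2 ∧ r.s2 ≤ 2 := by
  have hm : (0 : ℚ) < 10 * (r.T + 1) := by positivity
  have h1 : 10 * (r.T + 1) ≤ Nat.sqrt (2 * (10 * (r.T + 1)) ^ 2) := by
    rw [Nat.le_sqrt']
    omega
  have h2 : Nat.sqrt (2 * (10 * (r.T + 1)) ^ 2) ≤ 2 * (10 * (r.T + 1)) := by
    refine (Nat.sqrt_le_sqrt (?_ : _ ≤ (2 * (10 * (r.T + 1))) ^ 2)).trans (Nat.sqrt_eq' _).le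
    rw [mul_pow 2]
    omega
  rw [Raw.s2, one_le_div hm, div_le_iff₀ hm]
  exact ⟨by exact_mod_cast h1, by exact_mod_cast h2⟩

theorem thresholds (r : Raw) : 0 ≤ (starOf r).lo ∧ (starOf r).hi ≤ 2 ∧
    ∀ b : ℕ, (starOf r).size ^ 12 ≤ b → 1 ≤ b * ((starOf r).hi - (starOf r).lo) := by
  obtain ⟨h1, h2⟩ := s2_bounds r
  have hT : (1 : ℚ) ≤ r.T + 1 := by
    have : (0 : ℚ) ≤ r.T := Nat.cast_nonneg _
    linarith
  have hT0 : (0 : ℚ) < r.T + 1 := by positivity
  refine ⟨?_, ?_, fun b hb => ?_⟩
  · have : (0 : ℚ) ≤ 1 / (3 * (r.T + 1)) := by positivity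
    change 0 ≤ 2 - r.s2 + 1 / (3 * ((r.T : ℚ) + 1))
    linarith
  · have h3 : (0 : ℚ) ≤ 1 / (10 * (r.T + 1)) := by positivity
    have h4 : (3 : ℚ) / (5 * (r.T + 1)) ≤ 1 := by
      rw [div_le_one (by positivity)]
      linarith
    change 2 - r.s2 - 1 / (10 * ((r.T : ℚ) + 1)) + 3 / (5 * ((r.T : ℚ) + 1)) ≤ 2
    linarith
  · have e : (starOf r).hi - (starOf r).lo = 1 / (6 * ((r.T : ℚ) + 1)) := by
      change 2 - r.s2 - 1 / (10 * ((r.T : ℚ) + 1)) + 3 / (5 * ((r.T : ℚ) + 1)) -
        (2 - r.s2 + 1 / (3 * ((r.T : ℚ) + 1))) = _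
      field_simp
      ring
    have hR : r.T + 1 ≤ r.R := by
      rw [Raw.R]
      nlinarith [Nat.zero_le ((r.T + 1) * r.m0)]
    have hS : 6 * (r.T + 1) ≤ (starOf r).size := by
      have e1 : (starOf r).size = r.1 + r.R + 5 * ((2 * r.J + 2) * r.R) + 10 := by
        simp only [Star.size, starOf]
      have e2 : 2 * r.R ≤ (2 * r.J + 2) * r.R := Nat.mul_le_mul_right _ (Nat.le_add_left _ _)
      rw [e1]
      omega
    have hb' : 6 * (r.T + 1) ≤ b :=
      hS.trans ((Nat.le_self_pow (by norm_num) _).trans hb)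
    rw [e, mul_one_div, one_le_div (by positivity)]
    exact_mod_cast hb'

end APoly

theorem apoly : APolyStmt :=
  ⟨⟨APoly.parse, APoly.poly_parse, APoly.parse_vcode⟩, fun _ _ _ hr hN => APoly.polyStar hr hN,
    APoly.thresholds⟩

end Crest.Agent.R338
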