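import Crest.Agent.R338.ASem1

/-!
# Row 338: Kitaev's estimates (`asem` is in `ASem1`)
-/

set_option autoImplicit false

noncomputable section

open Function
open Crest.Quantum.GateCircuit Crest.Quantum.QMA

namespace Crest.Agent.R338

namespace ASem

variable {N m0 : ℕ}

/-- squared norm of a state with counter -/
def nn (z : ZMod (m0 + 1) → QVec N) : ℝ := ∑ c, qn (z c)

/-- rejection weight of a state with counter -/
def oo (out : Fin N) (z : ZMod (m0 + 1) → QVec N) : ℝ :=
  ∑ c, ∑ y : Fin N → Bool, if y out = false then ‖z c y‖ ^ 2 else 0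

/-- history states -/
def hist (L : List Step) (z : ZMod (m0 + 1) → QVec N) (t : ℕ) : ZMod (m0 + 1) → QVec N :=
  (L.take t).foldl (fun z st => stepU om8 st z) z

theorem anchor' : True := by
  have := @nn.eq_1; have := @nn.eq_def; have := @oo.eq_1; have := @oo.eq_def
  have := @hist.eq_1; have := @hist.eq_def
  trivial

theorem norm_add_sq_le (a b : ℂ) {ε : ℝ} (hε : 0 < ε) :
    ‖a + b‖ ^ 2 ≤ (1 + ε) * ‖a‖ ^ 2 + (1 + ε⁻¹) * ‖b‖ ^ 2 := by
  have h1 : ‖a + b‖ ^ 2 ≤ (‖a‖ + ‖b‖) ^ 2 := by gcongr; exact norm_add_le _ _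
  have h2 : 0 ≤ ε⁻¹ * (ε * ‖a‖ - ‖b‖) ^ 2 := by positivity
  have h3 : ε⁻¹ * (ε * ‖a‖ - ‖b‖) ^ 2 = ε * ‖a‖ ^ 2 - 2 * ‖a‖ * ‖b‖ + ε⁻¹ * ‖b‖ ^ 2 := by
    field_simp
    ring
  linarith

theorem nn_nonneg (z : ZMod (m0 + 1) → QVec N) : 0 ≤ nn z :=
  Finset.sum_nonneg fun _ _ => qn_nonneg _

theorem nn_add_le (a b : ZMod (m0 + 1) → QVec N) {ε : ℝ} (hε : 0 < ε) :
    nn (a + b) ≤ (1 + ε) * nn a + (1 + ε⁻¹) * nn b := by
  show ∑ c, ∑ y, _ ≤ _ * (∑ c, ∑ y, _) + _ * ∑ c, ∑ y, _
  simp only [Finset.mul_sum, ← Finset.sum_add_distrib]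
  exact Finset.sum_le_sum fun c _ => Finset.sum_le_sum fun y _ => norm_add_sq_le _ _ hε

theorem oo_add_le (out : Fin N) (a b : ZMod (m0 + 1) → QVec N) {ε : ℝ} (hε : 0 < ε) :
    oo out (a + b) ≤ (1 + ε) * oo out a + (1 + ε⁻¹) * nn b := by
  show ∑ c, ∑ y, _ ≤ _ * (∑ c, ∑ y, _) + _ * ∑ c, ∑ y, _
  simp only [Finset.mul_sum, ← Finset.sum_add_distrib]
  refine Finset.sum_le_sum fun c _ => Finset.sum_le_sum fun y _ => ?_
  split_ifs
  · exact norm_add_sq_le _ _ hε
  · positivity

theorem nn_sub_comm (a b : ZMod (m0 + 1) → QVec N) : nn (a - b) = nn (b - a) :=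
  Finset.sum_congr rfl fun _ _ => Finset.sum_congr rfl fun _ _ =>
    congrArg (· ^ 2) (norm_sub_rev _ _)

theorem emb0_zero (ψ : QVec N) : emb0 (m0 := m0) ψ 0 = ψ := if_pos rfl

theorem emb0_ne (ψ : QVec N) {c : ZMod (m0 + 1)} (h : c ≠ 0) : emb0 ψ c = 0 := if_neg h

theorem nn_emb0 (ψ : QVec N) : nn (emb0 (m0 := m0) ψ) = qn ψ :=
  (Fintype.sum_eq_single 0 fun c hc => by rw [emb0_ne ψ hc, qn_zero]).trans
    (congrArg qn (emb0_zero ψ))

theorem oo_emb0 (out : Fin N) (ψ : QVec N) : oo out (emb0 (m0 := m0) ψ) =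
    qn ψ - ∑ y : Fin N → Bool, if y out = true then ‖ψ y‖ ^ 2 else 0 := by
  refine (Fintype.sum_eq_single 0 fun c hc => by simp [emb0_ne ψ hc]).trans ?_
  rw [emb0_zero]
  refine Eq.trans (Finset.sum_congr rfl fun y _ => ?_) (Finset.sum_sub_distrib _ _)
  cases y out <;> simp

theorem hist_succ (L : List Step) (z : ZMod (m0 + 1) → QVec N) (t : Fin L.length) :
    hist L z (t + 1) = stepU om8 (L.get t) (hist L z t) := by
  rw [hist, List.take_succ_eq_append_getElem t.2, List.foldl_append]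
  rfl

theorem nn_foldl (hS : ASemStmt) (L : List Step) (z : ZMod (m0 + 1) → QVec N) :
    nn (L.foldl (fun z st => stepU om8 st z) z) = nn z := by
  induction L generalizing z with
  | nil => rfl
  | cons st L ih => exact (ih _).trans ((hS.1 N m0 om8 st norm_om8).2 z)

theorem le_of_steps {T : ℕ} {e : Fin (T + 1) → ℝ} {p : Fin T → ℝ} (hp : ∀ s, 0 ≤ p s)
    (h : ∀ s, e s.succ ≤ p s + e s.castSucc) (t : Fin (T + 1)) : e t ≤ e 0 + ∑ s, p s := by
  induction T with
  | zero => simp [Fin.fin_one_eq_zero t]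
  | succ T ih =>
    have h1 := ih (e := fun s => e s.castSucc) (p := fun s => p s.castSucc) (fun _ => hp _)
      fun s => h s.castSucc
    rw [Fin.sum_univ_castSucc]
    simp only [Fin.castSucc_zero] at h1
    refine Fin.lastCases ?_ (fun t => ?_) t
    · linarith [h1 (Fin.last T), h (Fin.last T), congrArg e (Fin.succ_last T)]
    · linarith [h1 t, hp (Fin.last T)]

section start
variable {V : VCirc} (h : V.w ≤ V.N)

theorem start_apply (ψ : QVec V.w) (σ : Fin V.N → Bool) : startState V h ψ σ =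
    if ∀ i : Fin V.N, V.w ≤ (i : ℕ) → σ i = false then ψ (fun j => σ (Fin.castLE h j)) else 0 := rfl

theorem pad_cast (x : Fin V.w → Bool) :
    (fun j => padInput (N := V.N) V.w x (Fin.castLE h j)) = x := funext fun j => dif_pos j.2

theorem pad_restrict {σ : Fin V.N → Bool} (hσ : ∀ i : Fin V.N, V.w ≤ (i : ℕ) → σ i = false) :
    padInput V.w (fun j => σ (Fin.castLE h j)) = σ := by
  funext i
  by_cases hi : (i : ℕ) < V.w
  · exact dif_pos hi
  · exact (dif_neg hi).trans (hσ i (not_lt.1 hi)).symm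

theorem qn_start (ψ : QVec V.w) : qn (startState V h ψ) = qn ψ := by
  refine (Fintype.sum_of_injective (padInput V.w) (fun x x' e => ?_) _ _ (fun σ hσ => ?_)
    fun x => ?_).symm
  · rw [← pad_cast h x, e, pad_cast]
  · rw [start_apply, if_neg fun h' => hσ ⟨_, pad_restrict h h'⟩]
    simp
  · have h1 : ∀ i : Fin V.N, V.w ≤ (i : ℕ) → padInput V.w x i = false :=
      fun i hi => dif_neg (not_lt.2 hi)
    rw [start_apply, if_pos h1, pad_cast]

theorem run_smul (gs : List (Gate N 0)) (a : ℂ) (ψ : QVec N) :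
    runGates (fun _ => false) gs (a • ψ) = a • runGates (fun _ => false) gs ψ := by
  induction gs generalizing ψ with
  | nil => rfl
  | cons g gs ih =>
    refine Eq.trans (congrArg (runGates (fun _ => false) gs) ?_) (ih (g.apply (fun _ => false) ψ))
    cases g with
    | ctrl g cs t =>
      funext σ
      show (if _ then ∑ b, _ * (a * _) else a * _) = a * if _ then ∑ b, _ else _
      split_ifs
      · simp only [Fintype.sum_bool]
        ring
      · rfl
    | oracle q t => rfl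

theorem accept_smul (a : ℂ) (ψ : QVec V.w) :
    acceptProb V h (a • ψ) = ‖a‖ ^ 2 * acceptProb V h ψ := by
  have h1 : startState V h (a • ψ) = a • startState V h ψ := by
    funext σ
    simp [start_apply]
  refine Eq.trans (Finset.sum_congr rfl fun σ _ => ?_) (Finset.mul_sum _ _ _).symm
  rw [h1, run_smul]
  split_ifs <;> simp [mul_pow]

theorem accept_le (hn : ∀ ψ : QVec V.w, IsWitness ψ → acceptProb V h ψ ≤ 1 / 3) (ψ : QVec V.w) :
    acceptProb V h ψ ≤ 1 / 3 * qn ψ := by
  rcases (qn_nonneg ψ).eq_or_lt with h0 | h0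
  · have h1 : ψ = (0 : ℂ) • ψ := by
      funext x
      simpa using (Finset.sum_eq_zero_iff_of_nonneg fun _ _ => by positivity).1 h0.symm x
        (Finset.mem_univ x)
    rw [h1, accept_smul, qn_smul]
    simp
  · have h1 : ‖(((Real.sqrt (qn ψ))⁻¹ : ℝ) : ℂ)‖ ^ 2 = (qn ψ)⁻¹ := by
      rw [Complex.norm_real, Real.norm_eq_abs, sq_abs, inv_pow, Real.sq_sqrt h0.le]
    have h2 := hn ((((Real.sqrt (qn ψ))⁻¹ : ℝ) : ℂ) • ψ)
      ((qn_smul _ _).trans (by rw [h1, inv_mul_cancel₀ h0.ne']))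
    rwa [accept_smul, h1, inv_mul_le_iff₀ h0, mul_comm] at h2

end start

theorem oo_hist (hS : ASemStmt) {V : VCirc} (hV : V.WellFormed) (ψ : QVec V.w) :
    oo V.out (hist (rawOf V).steps (emb0 (m0 := (rawOf V).m0) (startState V hV.1 ψ)) (rawOf V).T) =
      qn ψ - acceptProb V hV.1 ψ := by
  have h1 := (hS.2 V hV).2 (startState V hV.1 ψ)
  have h2 := nn_foldl hS (rawOf V).steps (emb0 (m0 := (rawOf V).m0) (startState V hV.1 ψ))
  rw [h1, nn_emb0, nn_emb0, qn_start] at h2
  rw [hist, show (rawOf V).steps.take (rawOf V).T = _ from List.take_length, h1, oo_emb0, h2]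
  rfl

theorem nn_hist (hS : ASemStmt) {V : VCirc} (hV : V.WellFormed) (ψ : QVec V.w) (t : ℕ) :
    nn (hist (rawOf V).steps (emb0 (m0 := (rawOf V).m0) (startState V hV.1 ψ)) t) = qn ψ :=
  (nn_foldl hS _ _).trans ((nn_emb0 _).trans (qn_start _ _))

end ASem

open ASem in
theorem akit (hS : ASemStmt) : AKitStmt := by
  intro V hV
  have hT : (0 : ℝ) < (rawOf V).T + 1 := by positivity
  refine ⟨fun ⟨ψ, hψ, ha⟩ => ?_, fun hn z => ?_⟩
  · have h1 : secN (rawOf V) (fun t => hist (rawOf V).steps (emb0 (startState V hV.1 ψ)) t) =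
        (rawOf V).T + 1 := by
      refine Eq.trans (Finset.sum_congr rfl fun t _ => (nn_hist hS hV ψ t).trans hψ) ?_
      simp
    refine ⟨_, h1 ▸ hT, Finset.sum_eq_zero fun t _ => Finset.sum_eq_zero fun c _ => ?_,
      Finset.sum_eq_zero fun c _ => Finset.sum_eq_zero fun y _ => ?_, ?_⟩
    · exact (congrArg qn (sub_eq_zero.2 (congrFun (hist_succ _ _ t) c))).trans qn_zero
    · show (if _ then ‖emb0 (startState V hV.1 ψ) c y‖ ^ 2 else 0) = 0
      split_ifs with hc
      · by_cases h0 : c = 0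
        · obtain ⟨i, hi, hy⟩ := hc.resolve_left (not_not.2 h0)
          rw [h0, emb0_zero, start_apply, if_neg fun h' => by simp [h' i hi] at hy]
          simp
        · simp [emb0_ne _ h0]
      · rfl
    · refine (oo_hist hS hV ψ).trans_le ?_
      rw [h1, show qn ψ = 1 from hψ, one_div, mul_inv, inv_mul_cancel_right₀ hT.ne']
      linarith
  · obtain ⟨ψ, hψ⟩ : ∃ ψ : QVec V.w, ∀ x, ψ x = z 0 0 (padInput V.w x) := ⟨_, fun _ => rfl⟩
    obtain ⟨Y, hY⟩ : ∃ Y, Y = hist (rawOf V).steps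
      (emb0 (m0 := (rawOf V).m0) (startState V hV.1 ψ)) := ⟨_, rfl⟩
    have hI : nn (z 0 - Y 0) = secI (rawOf V) z := by
      refine Finset.sum_congr rfl fun c _ => Finset.sum_congr rfl fun y _ => ?_
      rw [hY]
      show ‖z 0 c y - emb0 (startState V hV.1 ψ) c y‖ ^ 2 =
        if c ≠ 0 ∨ ∃ i : Fin V.N, V.w ≤ (i : ℕ) ∧ y i = true then _ else _
      by_cases h0 : c = 0
      · rw [h0, emb0_zero, start_apply]
        by_cases hy : ∀ i : Fin V.N, V.w ≤ (i : ℕ) → y i = false
        · rw [if_pos hy, hψ, pad_restrict hV.1 hy, if_neg (by simpa using hy)]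
          simp
        · rw [if_neg hy, if_pos (Or.inr (by simpa using hy)), sub_zero]
      · rw [emb0_ne _ h0, if_pos (Or.inl h0), Pi.zero_apply, sub_zero]
    have hd : ∀ t : Fin ((rawOf V).T + 1), nn (z t - Y t) ≤
        ((rawOf V).T + 1) * (secP (rawOf V) om8 z + secI (rawOf V) z) := by
      intro t
      have h1 := le_of_steps (e := fun t => nn (z t - Y t) / ((t : ℕ) + 1))
        (p := fun s => nn (z s.succ - stepU om8 ((rawOf V).steps.get s) (z s.castSucc)))
        (fun _ => nn_nonneg _) (fun s => ?_) t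
      · have h2 : nn (z t - Y t) / ((t : ℕ) + 1) ≤ secP (rawOf V) om8 z + secI (rawOf V) z := by
          rw [← hI, add_comm (secP _ _ _)]
          rwa [Fin.val_zero, Nat.cast_zero, zero_add, div_one] at h1
        have h3 : ((t : ℕ) + 1 : ℝ) ≤ (rawOf V).T + 1 := by exact_mod_cast t.2
        rw [div_le_iff₀' (by positivity)] at h2
        refine h2.trans (mul_le_mul_of_nonneg_right h3 (add_nonneg ?_ (hI ▸ nn_nonneg _)))
        exact Finset.sum_nonneg fun _ _ => nn_nonneg _
      · have hs : (0 : ℝ) < (s : ℕ) + 1 := by positivity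
        have h2 := nn_add_le (z s.succ - stepU om8 ((rawOf V).steps.get s) (z s.castSucc))
          (stepU om8 ((rawOf V).steps.get s) (z s.castSucc - Y s)) hs
        have h3 : stepU om8 ((rawOf V).steps.get s) (Y s) = Y (s + 1) :=
          hY ▸ (hist_succ _ _ s).symm
        rw [show nn (stepU om8 _ _) = nn _ from (hS.1 _ _ om8 _ norm_om8).2 _,
          (hS.1 _ _ om8 _ norm_om8).1, sub_add_sub_cancel, h3] at h2
        simp only [Fin.val_succ, Fin.val_castSucc]
        rw [div_le_iff₀ (by positivity)]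
        refine h2.trans_eq ?_
        push_cast
        field_simp
        ring
    have hN : secN (rawOf V) z ≤ ((rawOf V).T + 1) * (21 / 20 * qn ψ +
        21 * (((rawOf V).T + 1) * (secP (rawOf V) om8 z + secI (rawOf V) z))) := by
      refine (Finset.sum_le_card_nsmul _ _ (21 / 20 * qn ψ +
        21 * (((rawOf V).T + 1) * (secP (rawOf V) om8 z + secI (rawOf V) z)))
          fun t _ => ?_).trans_eq (by simp [mul_add])
      have h1 := nn_add_le (Y t) (z t - Y t) (ε := 1 / 20) (by norm_num)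
      rw [add_sub_cancel, hY, nn_hist hS hV, ← hY] at h1
      refine le_trans h1 ?_
      linarith [hd t]
    have hO := oo_add_le V.out (z (Fin.last _)) (Y (rawOf V).T - z (Fin.last _)) (ε := 1 / 19)
      (by norm_num)
    rw [add_sub_cancel, nn_sub_comm, hY, oo_hist hS hV, ← hY] at hO
    have h1 := hd (Fin.last _)
    have h2 := accept_le hV.1 hn ψ
    have h3 := (nn_nonneg _).trans h1
    have h4 : secO (rawOf V) V.out z = oo V.out (z (Fin.last _)) := rfl
    rw [Fin.val_last] at h1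
    rw [div_mul_eq_mul_div, div_le_iff₀ (by positivity), mul_assoc 40]
    nlinarith [qn_nonneg ψ]

end Crest.Agent.R338
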