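import Crest.Agent.R338.DefsA

/-!
# Row 338: semantics of the elementary steps
-/

set_option autoImplicit false

noncomputable section

open Function
open Crest.Quantum.GateCircuit Crest.Quantum.QMA

namespace Crest.Agent.R338

namespace ASem

variable {N m0 : ℕ}

theorem prj_apply (xb β : Bool) (i : Fin N) (ψ : QVec N) (y : Fin N → Bool) :
    prj xb β i ψ y = if xb then (ψ y + (if β then -1 else 1) * ψ (update y i (!y i))) / 2
      else if y i = β then ψ y else 0 := rfl

theorem stepU_pos (lam : ℂ) {st : Step} (h : st.1 < N) (z : ZMod (m0 + 1) → QVec N)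
    (c : ZMod (m0 + 1)) :
    stepU lam st z c =
      prj st.2.1 true ⟨st.1, h⟩ ((lam ^ if c - (st.sh true : ℕ) = 0 then st.ph true else 0) •
        z (c - (st.sh true : ℕ))) +
      prj st.2.1 false ⟨st.1, h⟩ ((lam ^ if c - (st.sh false : ℕ) = 0 then st.ph false else 0) •
        z (c - (st.sh false : ℕ))) :=
  (congrFun (dif_pos h) c).trans (Fintype.sum_bool _)

theorem stepU_neg (lam : ℂ) {st : Step} (h : ¬ st.1 < N) (z : ZMod (m0 + 1) → QVec N) :
    stepU lam st z = z := dif_neg h

theorem prj_sub (xb β : Bool) (i : Fin N) (ψ φ : QVec N) :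
    prj xb β i (ψ - φ) = prj xb β i ψ - prj xb β i φ := by
  funext y
  simp only [prj_apply, Pi.sub_apply]
  split_ifs <;> ring

theorem prj_smul (xb β : Bool) (i : Fin N) (a : ℂ) (ψ : QVec N) :
    prj xb β i (a • ψ) = a • prj xb β i ψ := by
  funext y
  simp only [prj_apply, Pi.smul_apply, smul_eq_mul]
  split_ifs <;> ring

theorem prj_add_prj (xb : Bool) (i : Fin N) (ψ : QVec N) :
    prj xb true i ψ + prj xb false i ψ = ψ := by
  funext y
  simp only [prj_apply, Pi.add_apply]
  cases xb <;> cases y i <;> simp <;> ring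

theorem qn_smul (a : ℂ) (ψ : QVec N) : qn (a • ψ) = ‖a‖ ^ 2 * qn ψ := by
  refine Eq.trans (Finset.sum_congr rfl fun y _ => ?_) (Finset.mul_sum _ _ _).symm
  rw [Pi.smul_apply, norm_smul, mul_pow]

theorem qn_nonneg (ψ : QVec N) : 0 ≤ qn ψ := Finset.sum_nonneg fun _ _ => by positivity

theorem qn_zero : qn (0 : QVec N) = 0 := Finset.sum_eq_zero fun _ _ => by simp

theorem qn_orth (xb : Bool) (i : Fin N) (ψ φ : QVec N) :
    qn (prj xb true i ψ + prj xb false i φ) = qn (prj xb true i ψ) + qn (prj xb false i φ) := by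
  cases xb
  · refine Eq.trans (Finset.sum_congr rfl fun y _ => ?_) Finset.sum_add_distrib
    simp only [Pi.add_apply, prj_apply]
    cases y i <;> simp
  · have hf : Involutive fun y : Fin N → Bool => update y i (!y i) := fun y => by simp
    have h1 : qn (prj true true i ψ + prj true false i φ) =
        ∑ y, ‖prj true true i ψ y - prj true false i φ y‖ ^ 2 := by
      refine (Equiv.sum_comp hf.toPerm _).symm.trans (Finset.sum_congr rfl fun y _ => ?_)
      rw [← norm_neg]
      congr 2
      simp [prj_apply]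
      ring
    have h2 : qn (prj true true i ψ + prj true false i φ) +
        ∑ y, ‖prj true true i ψ y - prj true false i φ y‖ ^ 2 =
        2 * (qn (prj true true i ψ) + qn (prj true false i φ)) := by
      refine Finset.sum_add_distrib.symm.trans (Eq.trans (Finset.sum_congr rfl fun y _ => ?_)
        ((Finset.mul_sum _ _ _).symm.trans (congrArg (2 * ·) Finset.sum_add_distrib)))
      exact parallelogram_law_with_norm ℝ _ _
    linarith

theorem stepU_sub (lam : ℂ) (st : Step) (z z' : ZMod (m0 + 1) → QVec N) :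
    stepU lam st (z - z') = stepU lam st z - stepU lam st z' := by
  by_cases h : st.1 < N
  · funext c
    simp only [Pi.sub_apply, stepU_pos lam h, smul_sub, prj_sub]
    abel
  · simp only [stepU_neg lam h]

theorem stepU_norm {lam : ℂ} (hl : ‖lam‖ = 1) (st : Step) (z : ZMod (m0 + 1) → QVec N) :
    ∑ c, qn (stepU lam st z c) = ∑ c, qn (z c) := by
  by_cases h : st.1 < N
  · have h1 : ∀ (f : ZMod (m0 + 1) → ℝ) (a : ZMod (m0 + 1)), ∑ c, f (c - a) = ∑ c, f c :=
      fun f a => (Equiv.subRight a).sum_comp f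
    simp only [stepU_pos lam h, qn_orth]
    simp only [prj_smul, qn_smul, norm_pow, hl, one_pow, one_mul, Finset.sum_add_distrib]
    rw [h1 fun c => qn (prj st.2.1 true ⟨st.1, h⟩ (z c)),
      h1 fun c => qn (prj st.2.1 false ⟨st.1, h⟩ (z c)), ← Finset.sum_add_distrib]
    exact Finset.sum_congr rfl fun c _ => by rw [← qn_orth, prj_add_prj]
  · rw [stepU_neg lam h]

/-! ### the steps of a gate -/

/-- the state `ψ` with the counter entangled as `k` -/
def ent (k : (Fin N → Bool) → ZMod (m0 + 1)) (ψ : QVec N) : ZMod (m0 + 1) → QVec N :=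
  fun c y => if c = k y then ψ y else 0

/-- the matrix `A` on the wire `t`, controlled by `k = 0` -/
def cM (k : (Fin N → Bool) → ZMod (m0 + 1)) (t : Fin N) (A : Matrix Bool Bool ℂ) (ψ : QVec N) :
    QVec N := fun y => if k y = 0 then ∑ b, A (y t) b * ψ (update y t b) else ψ y

/-- the matrix of a step -/
def mt (lam : ℂ) (xb : Bool) (p q : ℕ) : Matrix Bool Bool ℂ := Matrix.of fun a b =>
  if xb then (if a = b then (lam ^ p + lam ^ q) / 2 else (lam ^ p - lam ^ q) / 2)
  else if a = b then (if a then lam ^ q else lam ^ p) else 0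

theorem anchor : True := by
  have := @ent.eq_1; have := @ent.eq_def; have := @cM.eq_1; have := @cM.eq_def
  have := @mt.eq_1; have := @mt.eq_def
  trivial

theorem ent_zero (ψ : QVec N) : ent (m0 := m0) (fun _ => 0) ψ = emb0 ψ := by
  funext c y
  show (if c = 0 then ψ y else 0) = (if c = 0 then ψ else 0) y
  split_ifs <;> rfl

theorem step_cnt (lam : ℂ) (i : Fin N) (s : ℕ) (k : (Fin N → Bool) → ZMod (m0 + 1)) (ψ : QVec N) :
    stepU lam (i, false, s, 0, 0, 0) (ent k ψ) =
      ent (fun y => k y + (s : ZMod (m0 + 1)) * ((if !y i then 1 else 0 : ℕ) : ZMod (m0 + 1))) ψ := by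
  funext c y
  refine (congrFun (stepU_pos lam (st := (i, false, s, 0, 0, 0)) i.2 _ c) y).trans ?_
  show prj false true i ((lam ^ if c - (0 : ℕ) = 0 then 0 else 0) • ent k ψ (c - (0 : ℕ))) y +
    prj false false i ((lam ^ if c - (s : ℕ) = 0 then 0 else 0) • ent k ψ (c - (s : ℕ))) y = _
  simp only [prj_apply, ent]
  rcases (y i).eq_false_or_eq_true with h | h <;> simp [h, ent, sub_eq_iff_eq_add]

theorem steps_cnt (lam : ℂ) (s : ℕ) (cs : List (Fin N)) (k : (Fin N → Bool) → ZMod (m0 + 1))
    (ψ : QVec N) :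
    ((cs.map Fin.val).map fun c => ((c, false, s, 0, 0, 0) : Step)).foldl
        (fun z st => stepU lam st z) (ent k ψ) =
      ent (fun y => k y + (s : ZMod (m0 + 1)) * ((cs.countP fun c => !y c : ℕ) : ZMod (m0 + 1))) ψ := by
  induction cs generalizing k with
  | nil => simp
  | cons c cs ih =>
    rw [List.map_cons, List.map_cons, List.foldl_cons, step_cnt, ih]
    congr 1
    funext y
    rw [List.countP_cons, Nat.cast_add]
    ring

theorem step_mat (lam : ℂ) {t : Fin N} (xb : Bool) (p q : ℕ)
    {k : (Fin N → Bool) → ZMod (m0 + 1)} (hk : ∀ y b, k (update y t b) = k y) (ψ : QVec N) :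
    stepU lam (t, xb, 0, 0, p, q) (ent k ψ) = ent k (cM k t (mt lam xb p q) ψ) := by
  funext c y
  refine (congrFun (stepU_pos lam (st := (t, xb, 0, 0, p, q)) t.2 _ c) y).trans ?_
  show prj xb true t ((lam ^ if c - (0 : ℕ) = 0 then q else 0) • ent k ψ (c - (0 : ℕ))) y +
    prj xb false t ((lam ^ if c - (0 : ℕ) = 0 then p else 0) • ent k ψ (c - (0 : ℕ))) y = _
  have h0 : ψ y = ψ (update y t (y t)) := by rw [update_eq_self]
  simp only [prj_apply, Pi.smul_apply, smul_eq_mul, ent, cM, mt, hk, Nat.cast_zero, sub_zero,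
    Fintype.sum_bool, Matrix.of_apply, h0]
  by_cases hc : c = k y
  · subst hc
    by_cases h1 : k y = 0 <;> cases xb <;> cases y t <;> simp [h1] <;> ring
  · simp [hc]

theorem cM_cM {t : Fin N} {k : (Fin N → Bool) → ZMod (m0 + 1)}
    (hk : ∀ y b, k (update y t b) = k y) (A B : Matrix Bool Bool ℂ) (ψ : QVec N) :
    cM k t A (cM k t B ψ) = cM k t (A * B) ψ := by
  funext y
  simp only [cM, hk, update_self, update_idem, Matrix.mul_apply, Fintype.sum_bool]
  split_ifs
  · ring
  · rfl

theorem om8_eq : om8 = ((Real.sqrt 2 : ℝ) : ℂ)⁻¹ * (1 + Complex.I) ∧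
    Complex.exp (-(Real.pi / 4) * Complex.I) = ((Real.sqrt 2 : ℝ) : ℂ)⁻¹ * (1 - Complex.I) ∧
    ((Real.sqrt 2 : ℝ) : ℂ)⁻¹ ^ 2 = 1 / 2 := by
  have h0 : ((Real.sqrt 2 : ℝ) : ℂ) ^ 2 = 2 := by
    rw [← Complex.ofReal_pow, Real.sq_sqrt zero_le_two, Complex.ofReal_ofNat]
  have h1 : ((Real.sqrt 2 : ℝ) : ℂ)⁻¹ = (Real.sqrt 2 : ℝ) / 2 :=
    inv_eq_of_mul_eq_one_right (by linear_combination h0 / 2)
  have hc : Complex.cos (Real.pi / 4) = (Real.sqrt 2 : ℝ) / 2 := by
    have := congrArg Complex.ofReal Real.cos_pi_div_four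
    push_cast at this
    exact this
  have hs : Complex.sin (Real.pi / 4) = (Real.sqrt 2 : ℝ) / 2 := by
    have := congrArg Complex.ofReal Real.sin_pi_div_four
    push_cast at this
    exact this
  refine ⟨(Complex.exp_mul_I _).trans ?_, (Complex.exp_mul_I _).trans ?_, by rw [inv_pow, h0, one_div]⟩
  · rw [hc, hs, h1]
    ring
  · rw [Complex.cos_neg, Complex.sin_neg, hc, hs, h1]
    ring

theorem norm_om8 : ‖om8‖ = 1 := by
  have := Complex.norm_exp_ofReal_mul_I (Real.pi / 4)
  push_cast at this
  exact this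

theorem steps_prim (g : Prim) {t : Fin N} {k : (Fin N → Bool) → ZMod (m0 + 1)}
    (hk : ∀ y b, k (update y t b) = k y) (ψ : QVec N) :
    (primSteps (primNum g) t).foldl (fun z st => stepU om8 st z) (ent k ψ) =
      ent k (cM k t g.mat ψ) := by
  obtain ⟨h1, h7', hs⟩ := om8_eq
  have hI := Complex.I_sq
  have h2 : om8 ^ 2 = Complex.I := by
    rw [h1, mul_pow, hs]
    linear_combination hI / 2
  have h4 : om8 ^ 4 = -1 := by linear_combination (om8 ^ 2 + Complex.I) * h2 + hI
  have h6 : om8 ^ 6 = -Complex.I := by linear_combination om8 ^ 2 * h4 - h2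
  have h7 : om8 ^ 7 = ((Real.sqrt 2 : ℝ) : ℂ)⁻¹ * (1 - Complex.I) := by
    linear_combination om8 * h6 - Complex.I * h1 - ((Real.sqrt 2 : ℝ) : ℂ)⁻¹ * hI
  cases g
  · refine (step_mat om8 true 0 4 hk ψ).trans (congrArg (fun A => ent k (cM k t A ψ)) ?_)
    ext a b
    show _ = if a = b then 0 else 1
    cases a <;> cases b <;> simp [mt, h4]
  · show stepU om8 (t, false, 0, 0, 7, 1) (stepU om8 (t, true, 0, 0, 0, 2)
      (stepU om8 (t, false, 0, 0, 0, 2) (ent k ψ))) = _
    rw [step_mat _ _ _ _ hk, step_mat _ _ _ _ hk, step_mat _ _ _ _ hk, cM_cM hk, cM_cM hk]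
    refine congrArg (fun A => ent k (cM k t A ψ)) ?_
    ext a b
    show _ = if a = true ∧ b = true then -((Real.sqrt 2 : ℝ) : ℂ)⁻¹ else ((Real.sqrt 2 : ℝ) : ℂ)⁻¹
    generalize ((Real.sqrt 2 : ℝ) : ℂ)⁻¹ = s at h1 h7
    cases a <;> cases b <;> simp [mt, Matrix.mul_apply, h2, h7]
    · linear_combination (-(s / 2)) * hI
    · linear_combination (s * (Complex.I - 2) / 2) * hI
    · linear_combination (1 - Complex.I) / 2 * h1 - s / 2 * hI
    · linear_combination (1 + Complex.I) / 2 * Complex.I * h1 + s * (Complex.I + 2) / 2 * hI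
  · refine (step_mat om8 false 0 2 hk ψ).trans (congrArg (fun A => ent k (cM k t A ψ)) ?_)
    ext a b
    show _ = if a = b then (if a = true then Complex.I else 1) else 0
    cases a <;> cases b <;> simp [mt, h2]
  · refine (step_mat om8 false 0 6 hk ψ).trans (congrArg (fun A => ent k (cM k t A ψ)) ?_)
    ext a b
    show _ = if a = b then (if a = true then -Complex.I else 1) else 0
    cases a <;> cases b <;> simp [mt, h6]
  · refine (step_mat om8 false 0 1 hk ψ).trans (congrArg (fun A => ent k (cM k t A ψ)) ?_)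
    ext a b
    show _ = if a = b then (if a = true then om8 else 1) else 0
    cases a <;> cases b <;> simp [mt]
  · refine (step_mat om8 false 0 7 hk ψ).trans (congrArg (fun A => ent k (cM k t A ψ)) ?_)
    ext a b
    show _ = if a = b then (if a = true then Complex.exp (-(Real.pi / 4) * Complex.I) else 1) else 0
    rw [h7', ← h7]
    cases a <;> cases b <;> simp [mt]

theorem steps_gate (g : Prim) {cs : List (Fin N)} {t : Fin N} (ht : t ∉ cs) (hl : cs.length ≤ m0)
    (ψ : QVec N) :
    (gateSteps m0 (rawGate (Gate.ctrl g cs t))).foldl (fun z st => stepU om8 st z)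
        (emb0 (m0 := m0) ψ) =
      emb0 ((Gate.ctrl g cs t : Gate N 0).apply (fun _ => false) ψ) := by
  show (((cs.map Fin.val).map fun c => ((c, false, 1, 0, 0, 0) : Step)) ++
    primSteps (primNum g) t ++
    (cs.map Fin.val).map fun c => ((c, false, m0, 0, 0, 0) : Step)).foldl _ _ = _
  rw [List.foldl_append, List.foldl_append, ← ent_zero, ← ent_zero, steps_cnt, steps_prim,
    steps_cnt]
  · congr 1
    · funext y
      have h := ZMod.natCast_self (m0 + 1)
      push_cast at h ⊢
      linear_combination ((cs.countP fun c => !y c : ℕ) : ZMod (m0 + 1)) * h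
    · funext y
      refine if_congr ?_ rfl rfl
      have h := List.countP_le_length (p := fun c => !y c) (l := cs)
      simp only [zero_add, Nat.cast_one, one_mul, ZMod.natCast_eq_zero_iff]
      refine ⟨fun h' c hc => ?_, fun h' => ?_⟩
      · simpa using List.countP_eq_zero.1 (Nat.eq_zero_of_dvd_of_lt h' (by omega)) c hc
      · rw [List.countP_eq_zero.2 fun c hc => by simp [h' c hc]]
        exact dvd_zero _
  · intro y b
    have h : (cs.countP fun c => !update y t b c) = cs.countP fun c => !y c :=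
      List.countP_congr fun c hc => by rw [update_of_ne (ne_of_mem_of_not_mem hc ht)]
    rw [h]

theorem steps_gates (gs : List (Gate N 0)) (hg : ∀ g ∈ gs, IsCtrlGate g)
    (hl : ∀ g ∈ gs, (rawGate g).2.1.length ≤ m0) (ψ : QVec N) :
    ((gs.map rawGate).flatMap (gateSteps m0)).foldl (fun z st => stepU om8 st z)
        (emb0 (m0 := m0) ψ) = emb0 (runGates (fun _ => false) gs ψ) := by
  induction gs generalizing ψ with
  | nil => rfl
  | cons g gs ih =>
    rw [List.map_cons, List.flatMap_cons, List.foldl_append]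
    have h1 := hg g List.mem_cons_self
    have h2 := hl g List.mem_cons_self
    cases g with
    | ctrl g cs t =>
      rw [steps_gate g h1 ((List.length_map _).ge.trans h2)]
      exact ih (fun g h => hg g (List.mem_cons_of_mem _ h))
        (fun g h => hl g (List.mem_cons_of_mem _ h)) _
    | oracle q t => exact False.elim h1

theorem fst_primSteps {g t : ℕ} {st : Step} (h : st ∈ primSteps g t) : st.1 = t := by
  replace h : st ∈ (if g = 0 then _ else if g = 1 then _ else _ : List Step) := h
  split_ifs at h <;> simp only [List.mem_cons, List.not_mem_nil, or_false] at h <;>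
    rcases h with rfl | rfl | rfl <;> rfl

end ASem

open ASem in
theorem asem : ASemStmt := by
  refine ⟨fun N m0 lam st hl => ⟨stepU_sub lam st, stepU_norm hl st⟩,
    fun V hV => ⟨fun st hst => ?_, fun ψ => steps_gates V.gates hV.2 (fun g hg => ?_) ψ⟩⟩
  · obtain ⟨_, hg, hst⟩ := List.mem_flatMap.1 hst
    obtain ⟨g, hg', rfl⟩ := List.mem_map.1 hg
    cases g with
    | ctrl g cs t =>
      have h : ∀ s : ℕ, st ∈ ((cs.map Fin.val).map fun c => ((c, false, s, 0, 0, 0) : Step)) →
          st.1 < V.N := fun s h => by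
        obtain ⟨_, h', rfl⟩ := List.mem_map.1 h
        obtain ⟨c, -, rfl⟩ := List.mem_map.1 h'
        exact c.2
      rcases List.mem_append.1 hst with h1 | h1
      · rcases List.mem_append.1 h1 with h1 | h1
        · exact h _ h1
        · exact (fst_primSteps h1).trans_lt t.2
      · exact h _ h1
    | oracle q t => exact False.elim (hV.2 _ hg')
  · exact List.single_le_sum (fun _ _ => Nat.zero_le _) _
      (List.mem_map.2 ⟨_, List.mem_map.2 ⟨g, hg, rfl⟩, rfl⟩)

end Crest.Agent.R338
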