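import Crest.Agent.R338.AForm

/-!
# Row 338: completeness of the star Hamiltonian
-/

noncomputable section

open Function Finset
open Crest.Quantum.GateCircuit Crest.Quantum.QMA

namespace Crest.Agent.R338

namespace AYes

open AForm

variable {N : ℕ}

theorem om8_eq : om8 = Complex.exp ((Real.pi / 4 : ℝ) * Complex.I) := by
  unfold om8
  push_cast
  rfl

theorem norm_om8 : ‖om8‖ = 1 := by rw [om8_eq, Complex.norm_exp_ofReal_mul_I]

theorem om8_pow_four : om8 ^ 4 = -1 := by
  rw [om8, ← Complex.exp_nat_mul, ← Complex.exp_pi_mul_I]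
  congr 1
  push_cast
  ring

theorem norm_one_sub_om8 : ‖1 - om8‖ ^ 2 = 2 - Real.sqrt 2 := by
  rw [Complex.sq_norm, Complex.normSq_apply, om8_eq]
  simp only [Complex.sub_re, Complex.sub_im, Complex.one_re, Complex.one_im,
    Complex.exp_ofReal_mul_I_re, Complex.exp_ofReal_mul_I_im, Real.cos_pi_div_four,
    Real.sin_pi_div_four]
  have := Real.mul_self_sqrt (show (0 : ℝ) ≤ 2 by norm_num)
  linarith

theorem om8_pow (u : ℕ) : om8 ^ u = if u % 8 < 4 then om8 ^ (u % 4) else -om8 ^ (u % 4) := by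
  have h1 : om8 ^ u = (-1) ^ (u / 4) * om8 ^ (u % 4) := by
    rw [← om8_pow_four, ← pow_mul, ← pow_add, Nat.div_add_mod]
  rw [h1]
  split_ifs with h
  · rw [Even.neg_one_pow (Nat.even_iff.2 (by omega)), one_mul]
  · rw [Odd.neg_one_pow (Nat.odd_iff.2 (by omega)), neg_one_mul]

theorem qn_smul (a : ℂ) (v : QVec N) : qn (a • v) = ‖a‖ ^ 2 * qn v := by
  simp [qn, mul_pow, mul_sum]

theorem qn_eq_zero {v : QVec N} (h : qn v = 0) : v = 0 := by
  funext y
  have := (sum_eq_zero_iff_of_nonneg fun y _ => sq_nonneg ‖v y‖).1 h y (mem_univ y)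
  simpa using this

theorem prj_smul (xb β : Bool) (i : Fin N) (a : ℂ) (v : QVec N) :
    prj xb β i (a • v) = a • prj xb β i v := by
  funext y
  simp only [prj, Pi.smul_apply, smul_eq_mul]
  split_ifs <;> ring

theorem prj_sub (xb β : Bool) (i : Fin N) (v w : QVec N) :
    prj xb β i (v - w) = prj xb β i v - prj xb β i w := by
  funext y
  simp only [prj, Pi.sub_apply]
  split_ifs <;> ring

theorem prj_sum (xb β : Bool) (i : Fin N) (w : Bool → QVec N) :
    prj xb β i (∑ γ : Bool, prj xb γ i (w γ)) = prj xb β i (w β) := by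
  funext y
  cases xb <;> cases β <;> cases h : y i <;> simp [prj, h] <;>
    (have h1 := update_eq_self i y; rw [h] at h1; rw [h1]; ring)

variable (r : Raw) (z : Fin (r.T + 1) → ZMod (r.m0 + 1) → QVec N)

/-- The history state in the sector `om8`. -/
def xz (α : Fin r.R) : QVec N :=
  om8 ^ (α % 4 : ℕ) • if h : α / 4 / (r.m0 + 1) < r.T + 1 then
    z ⟨_, h⟩ ((α / 4 % (r.m0 + 1) : ℕ) : ZMod (r.m0 + 1)) else 0

theorem XX_xz (t : Fin (r.T + 1)) (c : ZMod (r.m0 + 1)) (u : ℕ) :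
    XX r (xz r z) t c u = om8 ^ u • z t c := by
  have hc := ZMod.val_lt c
  have hp : u % 4 < 4 := Nat.mod_lt _ (by norm_num)
  have h1 : r.idx t c.val (u % 4) < r.R := by
    have := Nat.mul_le_mul_right (r.m0 + 1) (Nat.succ_le_of_lt t.2)
    rw [Nat.succ_mul] at this
    unfold Raw.idx Raw.R
    omega
  have h2 : r.idx t c.val (u % 4) / 4 = t * (r.m0 + 1) + c.val := by unfold Raw.idx; omega
  have h3 : r.idx t c.val (u % 4) % 4 = u % 4 := by unfold Raw.idx; omega
  have h4 : r.idx t c.val (u % 4) / 4 / (r.m0 + 1) = t := by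
    rw [h2, mul_comm, Nat.mul_add_div (Nat.succ_pos _), Nat.div_eq_of_lt hc, add_zero]
  have h5 : r.idx t c.val (u % 4) / 4 % (r.m0 + 1) = c.val := by
    rw [h2, mul_comm, Nat.mul_add_mod, Nat.mod_eq_of_lt hc]
  have h6 : xe r (xz r z) (r.idx t c.val (u % 4)) = om8 ^ (u % 4) • z t c := by
    rw [xe, dif_pos h1]
    simp only [xz, h3, h4, h5, t.2, dif_pos, ZMod.natCast_zmod_val]
  rw [XX, h6, om8_pow u]
  split_ifs
  · rfl
  · rw [neg_smul]

theorem sN_xz : sN (xz r z) = 4 * secN r z := by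
  simp only [sN_eq, XX_xz, qn_smul, norm_pow, norm_om8, secN, mul_sum]
  simp

theorem WW_xz : WW r (xz r z) = (2 - Real.sqrt 2) * (4 * secN r z) := by
  have h : ∀ p : ℕ, om8 ^ p - om8 ^ (p + 1) = om8 ^ p * (1 - om8) := fun p => by ring
  simp only [WW, XX_xz, ← sub_smul, qn_smul, h, norm_mul, norm_pow, norm_om8, one_pow, one_mul,
    norm_one_sub_om8, secN, mul_sum, sum_const, card_range, nsmul_eq_mul]
  exact sum_congr rfl fun t _ => sum_congr rfl fun c _ => by push_cast; ring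

theorem OO_xz (out : Fin N) : OO r (xz r z) out = 4 * secO r out z := by
  have h := XX_xz r z (Fin.last _)
  rw [Fin.val_last] at h
  simp only [OO, h, prj_smul, qn_smul, norm_pow, norm_om8, one_pow, one_mul, secO, sum_const,
    card_range, nsmul_eq_mul, qn_prj_false]
  rw [mul_sum]
  rfl

theorem II_xz (h : secI r z = 0) : II r (xz r z) = 0 := by
  have h0 := XX_xz r z 0
  rw [Fin.val_zero] at h0
  refine sum_eq_zero fun p _ => Eq.trans ?_ (I0_eq_zero r h)
  simp only [I0, h0, prj_smul, qn_smul, norm_pow, norm_om8, one_pow, one_mul]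

theorem PP_xz (h : secP r om8 z = 0) : PP r (xz r z) = 0 := by
  refine sum_eq_zero fun t _ => sum_eq_zero fun c _ => sum_eq_zero fun p _ =>
    sum_eq_zero fun β _ => ?_
  have h1 : ∀ c, z t.succ c = stepU om8 (r.steps.get t) (z t.castSucc) c := fun c =>
    sub_eq_zero.1 (qn_eq_zero ((sum_eq_zero_iff_of_nonneg fun c _ => qn_nonneg _).1
      ((sum_eq_zero_iff_of_nonneg fun t _ => sum_nonneg fun c _ => qn_nonneg _).1 h t (mem_univ t))
      c (mem_univ c)))
  have h2 := XX_xz r z t.succ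
  have h3 := XX_xz r z t.castSucc
  rw [Fin.val_succ] at h2
  rw [Fin.val_castSucc] at h3
  generalize r.steps.get t = st at h1 ⊢
  by_cases hs : st.1 < N
  · rw [dif_pos hs, h2, h3, pow_add, mul_smul, ← smul_sub, prj_smul, prj_sub, h1, stepU, dif_pos hs,
      prj_sum, add_sub_cancel_right, sub_self, smul_zero, qn_zero, mul_zero]
  · rw [dif_neg hs]

theorem s2_le : (r.s2 : ℝ) ≤ Real.sqrt 2 := by
  unfold Raw.s2
  push_cast
  rw [div_le_iff₀ (by positivity)]
  refine Real.nat_sqrt_le_real_sqrt.trans (le_of_eq ?_)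
  push_cast
  rw [Real.sqrt_mul (by norm_num), Real.sqrt_sq (by positivity)]

theorem yes_of (z : Fin (r.T + 1) → ZMod (r.m0 + 1) → QVec r.1) {out : Fin r.1}
    (ho : r.2.2.2 = out) (h0 : 0 < secN r z) (h1 : secP r om8 z = 0) (h2 : secI r z = 0)
    (h3 : secO r out z ≤ 1 / (3 * (r.T + 1)) * secN r z) : (starOf r).Yes := by
  refine ⟨xz r z, lt_of_lt_of_eq (by positivity) (sN_xz r z).symm, ?_⟩
  refine (H_eq r (xz r z) ho).trans_le ?_
  change _ ≤ ((2 - r.s2 + 1 / (3 * (r.T + 1)) : ℚ) : ℝ) * sN (xz r z)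
  rw [sN_xz, PP_xz r z h1, II_xz r z h2, OO_xz, WW_xz]
  have h4 := mul_le_mul_of_nonneg_right (s2_le r) h0.le
  push_cast
  linarith

end AYes

theorem ayes (hS : ASemStmt) (hK : AKitStmt) : AYesStmt := by
  have _ := hS
  intro V hV h
  obtain ⟨z, h0, h1, h2, h3⟩ := (hK V hV).1 h
  exact AYes.yes_of (rawOf V) z (out := V.out) rfl h0 h1 h2 h3

end Crest.Agent.R338
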