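import Crest.Agent.R338.DefsB

/-! # Row 338: the instance is computable in polynomial time -/

noncomputable section

open Crest.Quantum.GateCircuit Crest.MathPhysics.CoulombProblem Crest.Agent.Lib.PolyTime

namespace Crest.Agent.R338

namespace BPoly

variable {α : Type} [PEnc α]

theorem pq (c : ℚ) : Poly fun _ : α => c := Lib.PolyTime.Poly.const c

theorem pn (c : ℕ) : Poly fun _ : α => c := Lib.PolyTime.Poly.const c

theorem pb (c : Bool) : Poly fun _ : α => c := Lib.PolyTime.Poly.const c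

theorem pl (c : List Bool) : Poly fun _ : α => c := Lib.PolyTime.Poly.const c

theorem qpow {x : α → ℚ} (hx : Poly x) (k : ℕ) : Poly fun a => x a ^ k :=
  Poly.monoidPow (n := fun _ => k) hx (pn k) (PB.const k)

theorem npow {x : α → ℕ} (hx : Poly x) (k : ℕ) : Poly fun a => x a ^ k :=
  Poly.pow (n := fun _ => k) hx (pn k) (PB.const k)

theorem p_pp {t : α → ℚ} (ht : Poly t) : Poly fun a => pp (t a) :=
  ht.ratMax (pq 0)

theorem p_Qs {t : α → ℚ} (ht : Poly t) : Poly fun a => Qs (t a) := by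
  have h : Poly fun a => 1 - t a := (pq 1).ratSub ht
  exact (((((((pq 1).ratAdd ((pq 8).ratMul h)).ratAdd
    ((pq 36).ratMul (qpow h 2))).ratAdd ((pq 120).ratMul (qpow h 3))).ratAdd
    ((pq 330).ratMul (qpow h 4))).ratAdd ((pq 792).ratMul (qpow h 5))).ratAdd
    ((pq 1716).ratMul (qpow h 6))).ratAdd ((pq 3432).ratMul (qpow h 7))

theorem p_S0 {t : α → ℚ} (ht : Poly t) : Poly fun a => S0 (t a) :=
  ((qpow (p_pp ht) 8).ratMul (p_Qs ht)).ratAdd
    ((qpow (p_pp (ht.ratSub (pq 1))) 8).ratMul (p_Qs ((pq 1).ratSub ht)))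

theorem p_S1 {t : α → ℚ} (ht : Poly t) : Poly fun a => S1 (t a) :=
  ((pq 51480).ratMul (qpow (p_pp ht) 7)).ratMul
    (qpow (p_pp ((pq 1).ratSub ht)) 7)

theorem p_S2 {t : α → ℚ} (ht : Poly t) : Poly fun a => S2 (t a) :=
  (((pq 360360).ratMul (qpow (p_pp ht) 6)).ratMul
    (qpow (p_pp ((pq 1).ratSub ht)) 6)).ratMul
    ((pq 1).ratSub ((pq 2).ratMul ht))

theorem p_S3 {t : α → ℚ} (ht : Poly t) : Poly fun a => S3 (t a) :=
  (((pq 360360).ratMul (qpow (p_pp ht) 5)).ratMul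
    (qpow (p_pp ((pq 1).ratSub ht)) 5)).ratMul
    (((pq 6).ratMul (qpow ((pq 1).ratSub ((pq 2).ratMul ht)) 2)).ratSub
      (((pq 2).ratMul ht).ratMul ((pq 1).ratSub ht)))

theorem p_Sd (k : ℕ) {t : α → ℚ} (ht : Poly t) : Poly fun a => Sd k (t a) := by
  unfold Sd
  split_ifs
  · exact p_S0 ht
  · exact p_S1 ht
  · exact p_S2 ht
  · exact p_S3 ht

theorem p_Bd (k : ℕ) {θ t : α → ℚ} (hθ : Poly θ) (ht : Poly t) : Poly fun a => Bd k (θ a) (t a) :=
  ((p_Sd k (ht.ratDiv hθ)).ratSub (p_Sd k ((ht.ratSub (pq 1)).ratDiv hθ))).ratDiv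
    (qpow hθ k)

theorem p_tabD {G : α → ℕ} {θ l x0 x1 : α → ℚ} {T : α → ℤ × ℤ → ℚ} (hG : Poly G) (hG' : PB G)
    (hθ : Poly θ) (hl : Poly l) (hT : Poly fun q : α × ℤ × ℤ => T q.1 q.2) (k0 k1 : ℕ)
    (h0 : Poly x0) (h1 : Poly x1) :
    Poly fun a => tabD (G a) (θ a) (l a) (T a) k0 k1 (x0 a) (x1 a) := by
  unfold tabD
  refine Poly.ratDiv ?_ (qpow hl _)
  refine Poly.sum_range hG hG' ?_
  have e1 : Poly fun p : α × Un => p.1 := Poly.id'.fst
  refine Poly.sum_range (hG.comp e1) (hG'.comp e1) ?_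
  have ea : Poly fun p : (α × Un) × Un => p.1.1 := Poly.id'.fst.fst
  have ei : Poly fun p : (α × Un) × Un => p.1.2.n := Poly.id'.fst.snd.unVal
  have ej : Poly fun p : (α × Un) × Un => p.2.n := Poly.id'.snd.unVal
  exact (hT.comp (ea.pair (ei.natCastInt.pair ej.natCastInt))).ratMul
    ((p_Bd k0 (hθ.comp ea) (((h0.comp ea).ratDiv (hl.comp ea)).ratSub ei.natCastRat)).ratMul
      (p_Bd k1 (hθ.comp ea) (((h1.comp ea).ratDiv (hl.comp ea)).ratSub ej.natCastRat)))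

theorem p_eta {z : α → ℚ} (hz : Poly z) : Poly fun a => eta (z a) :=
  (p_S0 (((pq 4).ratMul hz).ratAdd (pq 2))).ratSub
    (p_S0 (((pq 4).ratMul hz).ratSub (pq 1)))

theorem p_eta1 {z : α → ℚ} (hz : Poly z) : Poly fun a => eta1 (z a) :=
  (pq 4).ratMul ((p_S1 (((pq 4).ratMul hz).ratAdd (pq 2))).ratSub
    (p_S1 (((pq 4).ratMul hz).ratSub (pq 1))))

theorem p_gradK {G : α → ℕ} {θ l x0 x1 z : α → ℚ} {T U : α → ℤ × ℤ → ℚ} (hG : Poly G) (hG' : PB G)
    (hθ : Poly θ) (hl : Poly l) (hT : Poly fun q : α × ℤ × ℤ => T q.1 q.2)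
    (hU : Poly fun q : α × ℤ × ℤ => U q.1 q.2) (h0 : Poly x0) (h1 : Poly x1) (hz : Poly z)
    (j : ℕ) : Poly fun a => gradK (G a) (θ a) (l a) (T a) (U a) (x0 a) (x1 a) (z a) j := by
  have t := fun k0 k1 => p_tabD hG hG' hθ hl hT k0 k1 h0 h1
  have u := fun k0 k1 => p_tabD hG hG' hθ hl hU k0 k1 h0 h1
  unfold gradK
  split_ifs
  · exact (((((t 1 0).ratMul (t 2 0)).ratAdd ((t 0 1).ratMul (t 1 1))).ratSub
      (((t 3 0).ratAdd (t 1 2)).ratDiv (pq 2))).ratAdd (u 1 0)).ratMul (p_eta hz)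
  · exact (((((t 1 0).ratMul (t 1 1)).ratAdd ((t 0 1).ratMul (t 0 2))).ratSub
      (((t 2 1).ratAdd (t 0 3)).ratDiv (pq 2))).ratAdd (u 0 1)).ratMul (p_eta hz)
  · exact (((((qpow (t 1 0) 2).ratAdd (qpow (t 0 1) 2)).ratDiv (pq 2)).ratSub
      (((t 2 0).ratAdd (t 0 2)).ratDiv (pq 2))).ratAdd (u 0 0)).ratMul (p_eta1 hz)

theorem p_piq {k : α → ℕ} (hk : Poly k) (hk' : PB k) : Poly fun a => piq (k a) := by
  unfold piq
  refine (pq 2).ratMul (Poly.prod_range hk hk' ?_)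
  have ei : Poly fun p : α × Un => 2 * (p.2.n : ℚ) :=
    (pq 2).ratMul Poly.id'.snd.unVal.natCastRat
  exact ((ei.ratAdd (pq 2)).ratDiv (ei.ratAdd (pq 1))).ratMul
    ((ei.ratAdd (pq 2)).ratDiv (ei.ratAdd (pq 3)))

theorem p_logq {b m : α → ℕ} (hb : Poly b) (hb' : PB b) (hm : Poly m) (hm' : PB m) :
    Poly fun a => logq (b a) (m a) := by
  unfold logq
  refine Poly.sum_range (hm.mul (hb.sub (pn 1))) (hm'.mul (hb'.sub _)) ?_
  exact (pq 1).ratDiv ((hm.comp Poly.id'.fst).natCastRat.ratAdd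
    Poly.id'.snd.unVal.natCastRat)

section params
variable {b : α → ℕ}

theorem p_ti (hb : Poly b) : Poly fun a => Bld.ti (b a) := npow hb 1000

theorem b_ti (hb : PB b) : PB fun a => Bld.ti (b a) := hb.pow 1000

theorem p_l (hb : Poly b) : Poly fun a => Bld.l (b a) :=
  (pq 1).ratDiv (qpow (p_ti hb).natCastRat 10)

theorem p_th (hb : Poly b) : Poly fun a => Bld.th (b a) :=
  (pq 1).ratDiv (qpow hb.natCastRat 195)

theorem p_N1 (hb : Poly b) : Poly fun a => Bld.N1 (b a) := npow (p_ti hb) 18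

theorem b_N1 (hb : PB b) : PB fun a => Bld.N1 (b a) := (b_ti hb).pow 18

theorem p_NA (hb : Poly b) : Poly fun a => Bld.NA (b a) := npow (p_ti hb) 63

theorem b_NA (hb : PB b) : PB fun a => Bld.NA (b a) := (b_ti hb).pow 63

theorem p_Dh (hb : Poly b) : Poly fun a => Bld.Dh (b a) := npow hb 13

theorem b_Dh (hb : PB b) : PB fun a => Bld.Dh (b a) := hb.pow 13

theorem p_Lq (hb : Poly b) (hb' : PB b) : Poly fun a => Bld.Lq (b a) :=
  p_logq hb hb' (npow hb 80) (hb'.pow 80)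

theorem p_pq (hb : Poly b) (hb' : PB b) : Poly fun a => Bld.pq (b a) :=
  p_piq (npow (p_ti hb) 30) ((b_ti hb').pow 30)

theorem p_fv (hb : Poly b) (hb' : PB b) : Poly fun a => Bld.fv (b a) :=
  ((pq 10050).ratMul (p_Lq hb hb')).ratDiv (pq 2)

theorem p_Lam (hb : Poly b) : Poly fun a => Bld.Lam (b a) :=
  (qpow hb.natCastRat 145).ratDiv (p_l hb)

theorem p_crd {n off : α → ℕ} (hb : Poly b) (hn : Poly n) (ho : Poly off) :
    Poly fun a => Bld.crd (b a) (n a) (off a) :=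
  ((hn.natCastRat.ratAdd (pq (1 / 2))).ratSub ho.natCastRat).ratDiv (p_N1 hb).natCastRat

variable {St : α → Star}

theorem p_GG (hS : PolyStar St) (hb : Poly b) : Poly fun a => (St a).GG (Bld.Dh (b a)) :=
  ((((pn 2).mul (p_Dh hb)).mul
    ((hS.N.mul (hS.S.add (pn 1))).add (pn 3))).add
    ((pn 8).mul ((pn 2).mul hS.R))).add (pn 40)

theorem b_GG (hS : PolyStar St) (hb : PB b) : PB fun a => (St a).GG (Bld.Dh (b a)) :=
  ((((PB.const 2).mul (b_Dh hb)).mul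
    ((hS.N'.mul (hS.S'.add (PB.const 1))).add (PB.const 3))).add
    ((PB.const 8).mul ((PB.const 2).mul hS.R'))).add (PB.const 40)

theorem p_nuc (hS : PolyStar St) (hb : Poly b) (hb' : PB b)
    (hF : Poly fun q : α × ℤ × ℤ => Bld.Fq (St q.1) (b q.1) q.2)
    (hM : Poly fun q : α × ℤ × ℤ => Bld.Mu (St q.1) (b q.1) q.2) (c : ℕ) :
    Poly fun p : ((α × ℕ) × ℕ) × ℕ => Bld.nuc (St p.1.1.1) (b p.1.1.1) p.1.1.2 p.1.2 p.2 c := by
  have ea : Poly fun p : ((α × ℕ) × ℕ) × ℕ => p.1.1.1 := Poly.id'.fst.fst.fst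
  have ei : Poly fun p : ((α × ℕ) × ℕ) × ℕ => p.1.1.2 := Poly.id'.fst.fst.snd
  have ej : Poly fun p : ((α × ℕ) × ℕ) × ℕ => p.1.2 := Poly.id'.fst.snd
  have ek : Poly fun p : ((α × ℕ) × ℕ) × ℕ => p.2 := Poly.id'.snd
  have eb := hb.comp ea
  have eb' := hb'.comp ea
  have c0 := p_crd eb ei (p_NA eb)
  have c1 := p_crd eb ej (p_NA eb)
  have c2 := p_crd eb ek (p_N1 eb)
  have eq : Poly fun q : (((α × ℕ) × ℕ) × ℕ) × ℤ × ℤ => (q.1.1.1.1, q.2) :=
    Poly.id'.fst.fst.fst.fst.pair Poly.id'.snd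
  have e1 : Poly fun q : (((α × ℕ) × ℕ) × ℕ) × ℤ × ℤ => q.1 := Poly.id'.fst
  have hg := p_gradK
    (T := fun (p : ((α × ℕ) × ℕ) × ℕ) c => Bld.Fq (St p.1.1.1) (b p.1.1.1) c - Bld.fv (b p.1.1.1))
    (U := fun (p : ((α × ℕ) × ℕ) × ℕ) c => Bld.Mu (St p.1.1.1) (b p.1.1.1) c - Bld.Lam (b p.1.1.1))
    ((p_GG hS hb).comp ea) ((b_GG hS hb').comp ea) (p_th eb) (p_l eb)
    ((hF.comp eq).ratSub ((p_fv eb eb').comp e1)) ((hM.comp eq).ratSub ((p_Lam eb).comp e1))
    c0 c1 c2 c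
  unfold Bld.nuc
  refine Poly.ratAdd ?_ (((pq 1).ratDiv (((pq 4).ratMul (p_pq eb eb')).ratMul
    (qpow (p_N1 eb).natCastRat 3))).ratMul hg).ratNeg
  split_ifs
  · exact c0
  · exact c1
  · exact c2

end params

theorem p_natCode {n : α → ℕ} (hn : Poly n) : Poly fun a => natCode (n a) :=
  (hn.bits.map (f := fun _ b => [true, b])
    ((pb true).cons (Poly.id'.snd.cons (pl [])))).flatten.append
    (pl [false])

theorem p_ratCode {q : α → ℚ} (hq : Poly q) : Poly fun a => ratCode (q a) :=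
  (hq.num.intNeg?.cons (p_natCode hq.num.natAbs)).append (p_natCode hq.den)

theorem p_unary {n : α → ℕ} (hn : Poly n) (hn' : PB n) : Poly fun a => unaryCode (n a) :=
  (Poly.replicate hn hn' (pb true)).append (pl [false])

theorem listCode_eq (A B : ℕ) (f : ℕ → ℕ → ℕ → ℕ → ℚ) :
    listCode posCode ((List.range A).flatMap fun i => (List.range A).flatMap fun j =>
      (List.range B).map fun k => fun c : Fin 3 => f i j k c) =
    ((List.range A).flatMap fun i => (List.range A).flatMap fun j => (List.range B).flatMap fun k =>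
      true :: (ratCode (f i j k 0) ++ ratCode (f i j k 1) ++ ratCode (f i j k 2))) ++ [false] := by
  unfold listCode
  rw [← List.flatMap_def, List.flatMap_assoc]
  congr 2
  funext i
  rw [List.flatMap_assoc]
  congr 1
  funext j
  rw [List.flatMap_map]
  rfl

end BPoly

open BPoly in
theorem bpoly (h1 : BPoly1Stmt) : BPolyStmt := by
  intro α _ St b hS hb hb'
  obtain ⟨hF, hM, hn, hn', hlo, hup⟩ := h1 α St b hS hb hb'
  have hA : Poly fun a => List.range (2 * Bld.NA (b a)) :=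
    Poly.range ((pn 2).mul (p_NA hb)) ((PB.const 2).mul (b_NA hb'))
  have hB : Poly fun a => List.range (2 * Bld.N1 (b a)) :=
    Poly.range ((pn 2).mul (p_N1 hb)) ((PB.const 2).mul (b_N1 hb'))
  have hc := fun c => p_ratCode (p_nuc hS hb hb' hF hM c)
  have h3 := (pb true).cons (((hc 0).append (hc 1)).append (hc 2))
  have h2 := Poly.flatMap (f := fun (p : (α × ℕ) × ℕ) (k : ℕ) =>
    true :: (ratCode (Bld.nuc (St p.1.1) (b p.1.1) p.1.2 p.2 k 0) ++
      ratCode (Bld.nuc (St p.1.1) (b p.1.1) p.1.2 p.2 k 1) ++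
      ratCode (Bld.nuc (St p.1.1) (b p.1.1) p.1.2 p.2 k 2))) (hB.comp Poly.id'.fst.fst) h3
  have h1 := Poly.flatMap (f := fun (p : α × ℕ) (j : ℕ) =>
    (List.range (2 * Bld.N1 (b p.1))).flatMap fun k =>
      true :: (ratCode (Bld.nuc (St p.1) (b p.1) p.2 j k 0) ++
        ratCode (Bld.nuc (St p.1) (b p.1) p.2 j k 1) ++
        ratCode (Bld.nuc (St p.1) (b p.1) p.2 j k 2))) (hA.comp Poly.id'.fst) h2
  have h0 := Poly.flatMap (f := fun (a : α) (i : ℕ) =>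
    (List.range (2 * Bld.NA (b a))).flatMap fun j =>
      (List.range (2 * Bld.N1 (b a))).flatMap fun k =>
        true :: (ratCode (Bld.nuc (St a) (b a) i j k 0) ++ ratCode (Bld.nuc (St a) (b a) i j k 1) ++
          ratCode (Bld.nuc (St a) (b a) i j k 2))) hA h1
  refine ((((h0.append (pl [false])).append (p_unary hn hn')).append
    (p_ratCode hlo)).append (p_ratCode hup)).congr fun a => ?_
  rw [← listCode_eq]
  rfl

end Crest.Agent.R338
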