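import Crest.Agent.R338.BPoly1A

/-!
# Row 338: the tables in polynomial time
-/

noncomputable section

open Function
open Crest.Agent.Lib.PolyTime

namespace Crest.Agent.R338

namespace BPoly1

variable {α : Type} [PEnc α]

@[fun_prop] theorem p_rsq {n : α → ℕ} {q : α → ℚ} (hn : Poly n) (hq : Poly q) :
    Poly fun a => rsq (n a) (q a) := by
  unfold rsq; fun_prop

@[fun_prop] theorem p_Kq {n : α → ℕ} {θ τ : α → ℚ} {Δ : α → ℤ × ℤ} (hn : Poly n) (hn' : PB n)
    (hθ : Poly θ) (hτ : Poly τ) (hΔ : Poly Δ) : Poly fun a => Kq (n a) (θ a) (τ a) (Δ a) := by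
  unfold Kq; fun_prop

@[fun_prop] theorem p_piq {k : α → ℕ} (hk : Poly k) (hk' : PB k) : Poly fun a => piq (k a) := by
  unfold piq; fun_prop

@[fun_prop] theorem p_logq {b m : α → ℕ} (hb : Poly b) (hb' : PB b) (hm : Poly m) (hm' : PB m) :
    Poly fun a => logq (b a) (m a) := by
  unfold logq; fun_prop

@[fun_prop] theorem p_gq {A n : α → ℕ} {r : α → ℚ} (hA : Poly A) (hn : Poly n) (hn' : PB n)
    (hr : Poly r) : Poly fun a => gq (A a) (n a) (r a) := by
  unfold gq; fun_prop

theorem p_npow {b : α → ℕ} (hb : Poly b) (k : ℕ) : Poly fun a => b a ^ k := by fun_prop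

theorem p_qpow {b : α → ℚ} (hb : Poly b) (k : ℕ) : Poly fun a => b a ^ k := by fun_prop

section
variable {St : α → Star} {b : α → ℕ}

@[fun_prop] theorem p_ti (hb : Poly b) : Poly fun a => Bld.ti (b a) := p_npow hb 1000

@[fun_prop] theorem b_ti (hb : PB b) : PB fun a => Bld.ti (b a) := hb.pow 1000

@[fun_prop] theorem p_l (hb : Poly b) : Poly fun a => Bld.l (b a) := by
  unfold Bld.l; fun_prop

@[fun_prop] theorem p_th (hb : Poly b) : Poly fun a => Bld.th (b a) := by
  unfold Bld.th; fun_prop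

@[fun_prop] theorem p_N1 (hb : Poly b) : Poly fun a => Bld.N1 (b a) := by
  unfold Bld.N1; fun_prop

@[fun_prop] theorem b_N1 (hb : PB b) : PB fun a => Bld.N1 (b a) := by
  unfold Bld.N1; fun_prop

@[fun_prop] theorem p_NA (hb : Poly b) : Poly fun a => Bld.NA (b a) := by
  unfold Bld.NA; fun_prop

@[fun_prop] theorem b_NA (hb : PB b) : PB fun a => Bld.NA (b a) := by
  unfold Bld.NA; fun_prop

@[fun_prop] theorem p_Dh (hb : Poly b) : Poly fun a => Bld.Dh (b a) := by
  unfold Bld.Dh; fun_prop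

@[fun_prop] theorem b_Dh (hb : PB b) : PB fun a => Bld.Dh (b a) := by
  unfold Bld.Dh; fun_prop

@[fun_prop] theorem p_Lq (hb : Poly b) (hb' : PB b) : Poly fun a => Bld.Lq (b a) := by
  unfold Bld.Lq; fun_prop

@[fun_prop] theorem p_pq (hb : Poly b) (hb' : PB b) : Poly fun a => Bld.pq (b a) := by
  unfold Bld.pq; fun_prop

@[fun_prop] theorem p_lev (h : PolyStar St) (hb : Poly b) {c : α → ℤ × ℤ} (hc : Poly c) :
    Poly fun a => Bld.lev (St a) (b a) (c a) := by
  unfold Bld.lev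
  refine Lib.PolyTime.Poly.ite ?_ (Lib.PolyTime.Poly.ite ?_ (by fun_prop) (by fun_prop))
    (Lib.PolyTime.Poly.ite ?_ (by fun_prop) (Lib.PolyTime.Poly.ite ?_ (by fun_prop) (by fun_prop)))
  · exact (f_sites h).ex (by fun_prop)
  · refine (f_sites h).ex (Poly.decide_and ?_ (by fun_prop))
    exact p_heavy (St := fun q : α × Cd => St q.1) (by fun_prop) (by fun_prop)
  · refine (f_sites h).ex ?_
    exact p_cel (St := fun q : α × Cd => St q.1) (by fun_prop) (by fun_prop) (by fun_prop)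
      (by fun_prop)
  · exact (f_ress h).ex (by fun_prop)

@[fun_prop] theorem p_Fq (h : PolyStar St) (hb : Poly b) (hb' : PB b) {c : α → ℤ × ℤ}
    (hc : Poly c) : Poly fun a => Bld.Fq (St a) (b a) (c a) := by
  unfold Bld.Fq; fun_prop

@[fun_prop] theorem p_fv (hb : Poly b) (hb' : PB b) : Poly fun a => Bld.fv (b a) := by
  unfold Bld.fv; fun_prop

@[fun_prop] theorem p_om (h : PolyStar St) (hb : Poly b) {c : α → Cd} (hc : Poly c) :
    Poly fun a => Bld.om (St a) (b a) (c a) := by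
  unfold Bld.om
  exact Lib.PolyTime.Poly.ite (p_heavy h hc) (by fun_prop) (by fun_prop)

@[fun_prop] theorem p_Cq (hb : Poly b) : Poly fun a => Bld.Cq (b a) := by
  unfold Bld.Cq
  exact Poly.ratDiv (p_qpow (Poly.natCastRat hb) 10057) (by fun_prop)

@[fun_prop] theorem p_KD (hb : Poly b) (hb' : PB b) {Δ : α → ℤ × ℤ} (hΔ : Poly Δ) :
    Poly fun a => Bld.KD (b a) (Δ a) := by
  unfold Bld.KD; fun_prop

@[fun_prop] theorem p_Kk (h : PolyStar St) (hb : Poly b) (hb' : PB b) {c c' : α → Cd}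
    (hc : Poly c) (hc' : Poly c') : Poly fun a => Bld.Kk (St a) (b a) (c a) (c' a) := by
  unfold Bld.Kk
  refine p_KD hb hb' ?_
  have h1 : Poly fun a => (St a).dot (Bld.Dh (b a)) (c a) := by fun_prop
  have h2 : Poly fun a => (St a).dot (Bld.Dh (b a)) (c' a) := by fun_prop
  exact ((Poly.intSub h1.fst h2.fst).pair (Poly.intSub h1.snd h2.snd)).congr fun a => rfl

@[fun_prop] theorem p_sK (h : PolyStar St) (hb : Poly b) (hb' : PB b) {c : α → Cd}
    (hc : Poly c) : Poly fun a => Bld.sK (St a) (b a) (c a) := by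
  unfold Bld.sK
  refine Poly.ratAdd (by fun_prop) (Poly.ratMul (by fun_prop) ?_)
  exact ((f_sites h).erase hc).sum (by fun_prop)

@[fun_prop] theorem p_mu (h : PolyStar St) (hb : Poly b) (hb' : PB b) {c : α → Cd}
    (hc : Poly c) : Poly fun a => Bld.mu (St a) (b a) (c a) := by
  unfold Bld.mu; fun_prop

@[fun_prop] theorem p_Mu (h : PolyStar St) (hb : Poly b) (hb' : PB b) {c : α → ℤ × ℤ}
    (hc : Poly c) : Poly fun a => Bld.Mu (St a) (b a) (c a) := by
  unfold Bld.Mu
  exact (f_sites h).sum (by fun_prop)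

@[fun_prop] theorem p_Lam (hb : Poly b) : Poly fun a => Bld.Lam (b a) := by
  unfold Bld.Lam; fun_prop

@[fun_prop] theorem p_E1 (hb : Poly b) (hb' : PB b) : Poly fun a => Bld.E1 (b a) := by
  unfold Bld.E1; fun_prop

@[fun_prop] theorem p_c0 (h : PolyStar St) (hb : Poly b) (hb' : PB b) :
    Poly fun a => Bld.c0 (St a) (b a) := by
  unfold Bld.c0
  refine Poly.ratSub (Poly.ratNeg (Poly.ratMul (by fun_prop) ?_)) ?_
  · exact (f_sites h).sum (by fun_prop)
  · exact (f_sites h).sum (by fun_prop)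

@[fun_prop] theorem p_gc (hb : Poly b) (hb' : PB b) : Poly fun a => Bld.gc (b a) := by
  unfold Bld.gc; fun_prop

@[fun_prop] theorem p_eps (hb : Poly b) : Poly fun a => Bld.eps (b a) := by
  unfold Bld.eps; fun_prop

theorem p_lower (h : PolyStar St) (hb : Poly b) (hb' : PB b) :
    Poly fun a => Bld.lower (St a) (b a) := by
  unfold Bld.lower
  exact Poly.ratAdd (Poly.ratAdd (Poly.ratAdd (Poly.ratMul (Poly.natCastRat (p_nel h))
    (by fun_prop)) (by fun_prop)) (by fun_prop)) (by fun_prop)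

theorem p_upper (h : PolyStar St) (hb : Poly b) (hb' : PB b) :
    Poly fun a => Bld.upper (St a) (b a) := by
  unfold Bld.upper
  exact Poly.ratSub (Poly.ratAdd (Poly.ratAdd (Poly.ratMul (Poly.natCastRat (p_nel h))
    (by fun_prop)) (by fun_prop)) (by fun_prop)) (by fun_prop)

end

end BPoly1

open BPoly1 in
theorem bpoly1 : BPoly1Stmt := by
  intro α _ St b h hb hb'
  refine ⟨?_, ?_, p_nel h, b_nel h, p_lower h hb hb', p_upper h hb hb'⟩
  · exact p_Fq (St := fun q : α × ℤ × ℤ => St q.1) (by fun_prop) (by fun_prop) (by fun_prop)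
      (by fun_prop)
  · exact p_Mu (St := fun q : α × ℤ × ℤ => St q.1) (by fun_prop) (by fun_prop) (by fun_prop)
      (by fun_prop)

end Crest.Agent.R338
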