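import Crest.Agent.R338.DefsB

/-!
# Row 338: the tables in polynomial time, part A (finite sets and the layout)
-/

noncomputable section

open Function
open Crest.Agent.Lib.PolyTime

namespace Crest.Agent.R338.BPoly1

attribute [fun_prop] PolyStar

variable {α β γ : Type} [PEnc α] [PEnc β] [PEnc γ]

@[fun_prop] theorem star_comp {St : β → Star} {g : α → β} (h : PolyStar St) (hg : Poly g) :
    PolyStar fun a => St (g a) where
  N := h.N.comp hg
  N' := h.N'.comp hg
  R := h.R.comp hg
  R' := h.R'.comp hg
  S := h.S.comp hg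
  S' := h.S'.comp hg
  pick := h.pick.comp (g := fun q : α × ℕ × ℕ × ℕ => (g q.1, q.2)) (by fun_prop)
  lo := h.lo.comp hg
  hi := h.hi.comp hg

section star
variable {St : α → Star}

@[fun_prop] theorem p_N (h : PolyStar St) : Poly fun a => (St a).N := h.N
@[fun_prop] theorem b_N (h : PolyStar St) : PB fun a => (St a).N := h.N'
@[fun_prop] theorem p_R (h : PolyStar St) : Poly fun a => (St a).R := h.R
@[fun_prop] theorem b_R (h : PolyStar St) : PB fun a => (St a).R := h.R'
@[fun_prop] theorem p_S (h : PolyStar St) : Poly fun a => (St a).S := h.S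
@[fun_prop] theorem b_S (h : PolyStar St) : PB fun a => (St a).S := h.S'
@[fun_prop] theorem p_lo (h : PolyStar St) : Poly fun a => (St a).lo := h.lo
@[fun_prop] theorem p_hi (h : PolyStar St) : Poly fun a => (St a).hi := h.hi

@[fun_prop] theorem p_pick (h : PolyStar St) {i j k : α → ℕ} (hi : Poly i) (hj : Poly j)
    (hk : Poly k) : Poly fun a => (St a).pick (i a) (j a) (k a) :=
  h.pick.comp (g := fun a => (a, i a, j a, k a)) (by fun_prop)

@[fun_prop] theorem p_NC (h : PolyStar St) : Poly fun a => (St a).NC := by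
  unfold Star.NC; fun_prop

@[fun_prop] theorem b_NC (h : PolyStar St) : PB fun a => (St a).NC := by
  unfold Star.NC; fun_prop

@[fun_prop] theorem p_R2 (h : PolyStar St) : Poly fun a => (St a).R2 := by
  unfold Star.R2; fun_prop

@[fun_prop] theorem b_R2 (h : PolyStar St) : PB fun a => (St a).R2 := by
  unfold Star.R2; fun_prop

@[fun_prop] theorem p_ty (h : PolyStar St) {κ : α → ℕ} (hκ : Poly κ) :
    Poly fun a => (St a).ty (κ a) := by
  unfold Star.ty; fun_prop

@[fun_prop] theorem p_pk (h : PolyStar St) {κ ρ : α → ℕ} (hκ : Poly κ) (hρ : Poly ρ) :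
    Poly fun a => (St a).pk (κ a) (ρ a) := by
  unfold Star.pk; fun_prop

theorem p_vs (h : PolyStar St) {c : α → Cd} (hc : Poly c) :
    Poly fun a => decide ((St a).vs (c a)) := by
  unfold Star.vs; fun_prop

theorem p_vc (h : PolyStar St) {c : α → Cd} (hc : Poly c) :
    Poly fun a => decide ((St a).vc (c a)) := by
  unfold Star.vc; fun_prop

@[fun_prop] theorem p_ar (h : PolyStar St) {c : α → Cd} (hc : Poly c) :
    Poly fun a => (St a).ar (c a) := by
  unfold Star.ar; fun_prop

@[fun_prop] theorem b_ar {c : α → Cd} : PB fun a => (St a).ar (c a) :=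
  (PB.const 3).mono fun a => by unfold Star.ar; split_ifs <;> omega

@[fun_prop] theorem p_vtx {c : α → Cd} {j : α → ℕ} (hc : Poly c) (hj : Poly j) :
    Poly fun a => vtx (c a) (j a) := by
  unfold vtx; fun_prop

@[fun_prop] theorem p_pr2 {j : α → ℕ} (hj : Poly j) : Poly fun a => pr2 (j a) := by
  unfold pr2; fun_prop

theorem p_heavy (h : PolyStar St) {c : α → Cd} (hc : Poly c) :
    Poly fun a => decide ((St a).heavy (c a)) := by
  unfold Star.heavy; fun_prop

@[fun_prop] theorem p_Xc {D κ : α → ℕ} (hD : Poly D) (hκ : Poly κ) :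
    Poly fun a => Xc (D a) (κ a) := by
  unfold Xc; fun_prop

@[fun_prop] theorem p_Yc {ρ : α → ℕ} (hρ : Poly ρ) : Poly fun a => Yc (ρ a) := by
  unfold Yc; fun_prop

@[fun_prop] theorem p_Y0 (h : PolyStar St) {D : α → ℕ} (hD : Poly D) :
    Poly fun a => (St a).Y0 (D a) := by
  unfold Star.Y0; fun_prop

@[fun_prop] theorem p_yL (h : PolyStar St) {D j : α → ℕ} (hD : Poly D) (hj : Poly j) :
    Poly fun a => (St a).yL (D a) (j a) := by
  unfold Star.yL; fun_prop

theorem p_cel (h : PolyStar St) {D : α → ℕ} {c : α → Cd} {z : α → ℤ × ℤ} (hD : Poly D)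
    (hc : Poly c) (hz : Poly z) : Poly fun a => decide ((St a).cel (D a) (c a) (z a)) := by
  unfold Star.cel; fun_prop

@[fun_prop] theorem p_dot (h : PolyStar St) {D : α → ℕ} {c : α → Cd} (hD : Poly D)
    (hc : Poly c) : Poly fun a => (St a).dot (D a) (c a) := by
  unfold Star.dot; fun_prop

@[fun_prop] theorem p_pos (h : PolyStar St) {D : α → ℕ} {r : α → Cd × ℕ} (hD : Poly D)
    (hr : Poly r) : Poly fun a => (St a).pos (D a) (r a) := by
  unfold Star.pos; fun_prop

end star

/-! ### Polynomial-time families of finite sets -/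

/-- The family of finite sets is enumerated without repetition in polynomial time. -/
def PFin (s : α → Finset β) : Prop :=
  ∃ L : α → List β, Poly L ∧ ∀ a, (L a).Nodup ∧ ∀ x, x ∈ L a ↔ x ∈ s a

namespace PFin

theorem comp {s : β → Finset γ} {g : α → β} (h : PFin s) (hg : Poly g) :
    PFin fun a => s (g a) := by
  obtain ⟨L, hL, h⟩ := h
  exact ⟨fun a => L (g a), hL.comp hg, fun a => h (g a)⟩

theorem range {n : α → ℕ} (hn : Poly n) (hb : PB n) : PFin fun a => Finset.range (n a) :=
  ⟨fun a => List.range (n a), Poly.range hn hb, fun a => ⟨List.nodup_range, by simp⟩⟩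

theorem product {s : α → Finset β} {t : α → Finset γ} (hs : PFin s) (ht : PFin t) :
    PFin fun a => s a ×ˢ t a := by
  obtain ⟨L, hL, h⟩ := hs
  obtain ⟨M, hM, h'⟩ := ht
  refine ⟨fun a => L a ×ˢ M a, Poly.product hL hM, fun a => ⟨(h a).1.product (h' a).1, ?_⟩⟩
  rintro ⟨x, y⟩
  simp only [List.mem_product, Finset.mem_product, (h a).2, (h' a).2]

theorem filter {s : α → Finset β} {p : α → β → Prop} [∀ a, DecidablePred (p a)] (hs : PFin s)
    (hp : Poly fun q : α × β => decide (p q.1 q.2)) : PFin fun a => (s a).filter (p a) := by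
  obtain ⟨L, hL, h⟩ := hs
  refine ⟨fun a => (L a).filter fun x => decide (p a x), Poly.filter hL hp,
    fun a => ⟨(h a).1.filter _, fun x => ?_⟩⟩
  rw [List.mem_filter, Finset.mem_filter, (h a).2, decide_eq_true_iff]

theorem erase [DecidableEq β] {s : α → Finset β} {x : α → β} (hs : PFin s) (hx : Poly x) :
    PFin fun a => (s a).erase (x a) := by
  have h := hs.filter (p := fun a y => y ≠ x a) (by fun_prop)
  have e : (fun a => (s a).erase (x a)) = fun a => (s a).filter fun y => y ≠ x a := by
    funext a; rw [Finset.filter_ne']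
  rw [e]; exact h

theorem sum {R : Type} [PEnc R] [AddCommMonoid R] [Mul R] [PArith R] {s : α → Finset β}
    {f : α → β → R} (hs : PFin s) (hf : Poly fun q : α × β => f q.1 q.2) :
    Poly fun a => ∑ x ∈ s a, f a x := by
  classical
  obtain ⟨L, hL, h⟩ := hs
  refine (Poly.listSum (hL.map hf)).congr fun a => ?_
  have e : (L a).toFinset = s a := by ext x; rw [List.mem_toFinset, (h a).2]
  rw [← e, List.sum_toFinset _ (h a).1]

theorem ex {s : α → Finset β} {p : α → β → Prop} [∀ a x, Decidable (p a x)] (hs : PFin s)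
    (hp : Poly fun q : α × β => decide (p q.1 q.2)) [∀ a, Decidable (∃ x ∈ s a, p a x)] :
    Poly fun a => decide (∃ x ∈ s a, p a x) := by
  classical
  obtain ⟨L, hL, h⟩ := hs
  refine Poly.decide_congr (p := fun a => ∃ x ∈ L a, p a x) (Poly.decide_exists_mem hL hp)
    fun a => ?_
  simp only [(h a).2]

omit [PEnc α] [PEnc β] in
theorem card_eq {s : α → Finset β} {L : α → List β}
    (h : ∀ a, (L a).Nodup ∧ ∀ x, x ∈ L a ↔ x ∈ s a) (a : α) : (L a).length = (s a).card := by
  classical
  have e : (L a).toFinset = s a := by ext x; rw [List.mem_toFinset, (h a).2]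
  rw [← e, List.toFinset_card_of_nodup (h a).1]

theorem card {s : α → Finset β} (hs : PFin s) : Poly fun a => (s a).card := by
  obtain ⟨L, hL, h⟩ := hs
  exact (Poly.length hL).congr (card_eq h)

theorem card' {s : α → Finset β} (hs : PFin s) : PB fun a => (s a).card := by
  obtain ⟨L, hL, h⟩ := hs
  exact (PB.length hL).mono fun a => (card_eq h a).ge

end PFin

section star
variable {St : α → Star}

theorem f_sites (h : PolyStar St) : PFin fun a => (St a).sites := by
  unfold Star.sites
  refine PFin.filter (PFin.product (PFin.range (by fun_prop) (by fun_prop))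
    (PFin.product (PFin.range (by fun_prop) (by fun_prop))
      (PFin.range (by fun_prop) (by fun_prop)))) ?_
  exact p_vs (St := fun q : α × Cd => St q.1) (by fun_prop) (by fun_prop)

theorem f_cons (h : PolyStar St) : PFin fun a => (St a).cons := by
  unfold Star.cons
  refine PFin.filter (PFin.product (PFin.range (by fun_prop) (by fun_prop))
    (PFin.product (PFin.range (by fun_prop) (by fun_prop))
      (PFin.range (by fun_prop) (by fun_prop)))) ?_
  exact p_vc (St := fun q : α × Cd => St q.1) (by fun_prop) (by fun_prop)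

theorem f_ress (h : PolyStar St) : PFin fun a => (St a).ress := by
  unfold Star.ress
  refine PFin.filter (PFin.product (f_cons h) (PFin.range (by fun_prop) (by fun_prop))) ?_
  fun_prop

@[fun_prop] theorem p_dg (h : PolyStar St) {c : α → Cd} (hc : Poly c) :
    Poly fun a => (St a).dg (c a) := by
  unfold Star.dg
  refine PFin.sum (f_cons h) ?_
  fun_prop

@[fun_prop] theorem p_cn (h : PolyStar St) {c : α → Cd} (hc : Poly c) :
    Poly fun a => Bld.cn (St a) (c a) := by
  unfold Bld.cn
  refine PFin.sum (f_cons h) ?_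
  fun_prop

theorem p_nel (h : PolyStar St) : Poly fun a => Bld.nel (St a) := by
  have := (f_sites h).card
  unfold Bld.nel
  exact Lib.PolyTime.Poly.sub (Lib.PolyTime.Poly.mul (Lib.PolyTime.Poly.const 2) this)
    (by fun_prop)

theorem b_nel (h : PolyStar St) : PB fun a => Bld.nel (St a) := by
  have := (f_sites h).card'
  unfold Bld.nel
  exact PB.sub (PB.mul (PB.const 2) this) _

end star

end Crest.Agent.R338.BPoly1
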