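import Crest.Agent.R338.CellAux

/-!
# Row 338: Poincaré inequality on a core box and comparison of neighbouring cells
-/

noncomputable section

open MeasureTheory Function
open scoped ENNReal

namespace Crest.Agent.R338

namespace Cell

variable (hL : LocStmt)
include hL

theorem cont_chi (P : Pl) : Continuous fun x : E3 => chi P.Om (x 2) :=
  (hL.chi_c2 P.Om).continuous.comp (by fun_prop)

theorem cont_psi0 (P : Pl) : Continuous P.psi0 :=
  (Real.continuous_exp.comp (hL.fl_smooth P).continuous.neg).mul (cont_chi hL P)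

theorem m0_pos {P : Pl} (hP : P.OK) : 0 < P.m0 := by
  have h1 := hP.l_pos
  have h2 : 0 < 1 - P.th := by linarith [hP.th_le]
  have h3 := hL.Z_pos P hP
  unfold Pl.m0
  positivity

theorem norm_int_le {P : Pl} (hP : P.OK) (c : ℤ × ℤ) {g : E3 → ℂ} (hg : Continuous g) :
    ‖∫ x in P.Q c, ((chi P.Om (x 2) ^ 2 : ℝ) : ℂ) * g x‖ ≤
      √P.m0 * √(∫ x in P.Q c, chi P.Om (x 2) ^ 2 * ‖g x‖ ^ 2) := by
  have hc := cont_chi hL P
  have h := cs (volume.restrict (P.Q c)) (f := fun x => chi P.Om (x 2))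
    (g := fun x => chi P.Om (x 2) * ‖g x‖) (int_Q P c (by fun_prop)) (int_Q P c (by fun_prop))
    (int_Q P c (by fun_prop))
  rw [hL.vol_Q P hP c] at h
  simp only [mul_pow] at h
  refine (norm_integral_le_integral_norm _).trans (le_trans (le_of_eq ?_) h)
  refine integral_congr_ae (Filter.Eventually.of_forall fun x => ?_)
  simp only [norm_mul, Complex.norm_real, Real.norm_eq_abs, abs_pow, sq_abs]
  ring

theorem minkowski (P : Pl) (c : ℤ × ℤ) {g g' : E3 → ℂ} (hg : Continuous g) (hg' : Continuous g') :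
    √(∫ x in P.Q c, chi P.Om (x 2) ^ 2 * ‖g x‖ ^ 2) ≤
      √(∫ x in P.Q c, chi P.Om (x 2) ^ 2 * ‖g' x‖ ^ 2) +
        √(∫ x in P.Q c, chi P.Om (x 2) ^ 2 * ‖g' x - g x‖ ^ 2) := by
  have hc := cont_chi hL P
  have h := cs (volume.restrict (P.Q c)) (f := fun x => chi P.Om (x 2) * ‖g' x‖)
    (g := fun x => chi P.Om (x 2) * ‖g' x - g x‖) (int_Q P c (by fun_prop))
    (int_Q P c (by fun_prop)) (int_Q P c (by fun_prop))
  simp only [mul_pow] at h
  have hA : 0 ≤ ∫ x in P.Q c, chi P.Om (x 2) ^ 2 * ‖g' x‖ ^ 2 :=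
    integral_nonneg fun x => by positivity
  have hB : 0 ≤ ∫ x in P.Q c, chi P.Om (x 2) ^ 2 * ‖g' x - g x‖ ^ 2 :=
    integral_nonneg fun x => by positivity
  have i1 : Integrable (fun x : E3 => chi P.Om (x 2) ^ 2 * ‖g' x‖ ^ 2)
      (volume.restrict (P.Q c)) := int_Q P c (by fun_prop)
  have i2 : Integrable (fun x : E3 => chi P.Om (x 2) ^ 2 * ‖g' x - g x‖ ^ 2)
      (volume.restrict (P.Q c)) := int_Q P c (by fun_prop)
  have i3 : Integrable (fun x : E3 => chi P.Om (x 2) * ‖g' x‖ * (chi P.Om (x 2) * ‖g' x - g x‖))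
      (volume.restrict (P.Q c)) := int_Q P c (by fun_prop)
  have i4 : Integrable (fun x : E3 => chi P.Om (x 2) ^ 2 * ‖g' x‖ ^ 2 +
      chi P.Om (x 2) ^ 2 * ‖g' x - g x‖ ^ 2) (volume.restrict (P.Q c)) := i1.add i2
  have i5 : Integrable (fun x : E3 =>
      2 * (chi P.Om (x 2) * ‖g' x‖ * (chi P.Om (x 2) * ‖g' x - g x‖)))
      (volume.restrict (P.Q c)) := i3.const_mul 2
  have h1 : ∫ x in P.Q c, chi P.Om (x 2) ^ 2 * ‖g x‖ ^ 2 ≤
      ∫ x in P.Q c, ((chi P.Om (x 2) ^ 2 * ‖g' x‖ ^ 2 + chi P.Om (x 2) ^ 2 * ‖g' x - g x‖ ^ 2) +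
        2 * (chi P.Om (x 2) * ‖g' x‖ * (chi P.Om (x 2) * ‖g' x - g x‖))) := by
    refine integral_mono (int_Q P c (by fun_prop)) (i4.add i5) fun x => ?_
    have a1 : ‖g x‖ ≤ ‖g' x‖ + ‖g' x - g x‖ := by
      have := norm_sub_le (g' x) (g' x - g x)
      rwa [sub_sub_cancel] at this
    have a2 := mul_le_mul_of_nonneg_left (pow_le_pow_left₀ (norm_nonneg _) a1 2)
      (sq_nonneg (chi P.Om (x 2)))
    show _ ≤ _
    nlinarith
  rw [integral_add i4 i5, integral_add i1 i2, integral_const_mul] at h1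
  refine Real.sqrt_le_iff.2 ⟨by positivity, ?_⟩
  rw [add_sq, Real.sq_sqrt hA, Real.sq_sqrt hB]
  linarith

omit hL in
/-- the weight -/
def om (P : Pl) (c : ℤ × ℤ) : E3 → ℝ≥0∞ :=
  (P.Q c).indicator fun x => ENNReal.ofReal (chi P.Om (x 2) ^ 2)

theorem meas_om (P : Pl) (c : ℤ × ℤ) : Measurable (om P c) :=
  (((cont_chi hL P).pow 2).measurable.ennreal_ofReal).indicator (meas_Q P c)

theorem lint_om (P : Pl) (c : ℤ × ℤ) {g : E3 → ℂ} (hg : Continuous g) :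
    ∫⁻ x, om P c x * ‖g x‖ₑ ^ 2 =
      ENNReal.ofReal (∫ x in P.Q c, chi P.Om (x 2) ^ 2 * ‖g x‖ ^ 2) := by
  have hc := cont_chi hL P
  rw [ofReal_integral_eq_lintegral_ofReal (int_Q P c (by fun_prop))
    (Filter.Eventually.of_forall fun x => by positivity), ← lintegral_indicator (meas_Q P c)]
  refine lintegral_congr fun x => ?_
  by_cases hx : x ∈ P.Q c
  · simp only [om, Set.indicator_of_mem hx]
    rw [ENNReal.ofReal_mul (sq_nonneg _), ← ofReal_norm,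
      ENNReal.ofReal_pow (norm_nonneg _)]
  · simp [om, hx]

theorem q_nonneg (P : Pl) {ψ : E3 → ℂ} (hψ : C1c ψ) : 0 ≤ 2 * P.q ψ := by
  rw [hL.q_eq P ψ hψ]
  exact Finset.sum_nonneg fun j _ => integral_nonneg fun x => by positivity

theorem grad_bound (P : Pl) {ψ : E3 → ℂ} (hψ : C1c ψ) (T : E3) (f : ℝ) :
    ∫⁻ y, ENNReal.ofReal (Real.exp (2 * f) * P.psi0 y ^ 2) * ‖fderiv ℝ (P.v ψ) y T‖ₑ ^ 2 ≤
      ENNReal.ofReal (Real.exp (2 * f) * ‖T‖ ^ 2 * (2 * P.q ψ)) := by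
  obtain ⟨hv, hvc⟩ := hL.v_c1 P ψ hψ
  have hp := cont_psi0 hL P
  have hint : ∀ j, Integrable fun x => P.psi0 x ^ 2 * ‖pd j (P.v ψ) x‖ ^ 2 := by
    intro j
    have h1 : Continuous (pd j (P.v ψ)) :=
      (hv.continuous_fderiv (by simp)).clm_apply continuous_const
    have h2 : HasCompactSupport (pd j (P.v ψ)) := hvc.fderiv_apply ℝ _
    refine Continuous.integrable_of_hasCompactSupport (by fun_prop) ?_
    refine HasCompactSupport.mul_left ?_
    exact h2.comp_left (g := fun z : ℂ => ‖z‖ ^ 2) (by simp)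
  rw [hL.q_eq P ψ hψ, ← integral_finsetSum _ fun j _ => hint j, ← integral_const_mul,
    ofReal_integral_eq_lintegral_ofReal
      ((integrable_finsetSum _ fun j _ => hint j).const_mul _)
      (Filter.Eventually.of_forall fun x => by positivity)]
  refine lintegral_mono fun y => ?_
  rw [← ofReal_norm, ← ENNReal.ofReal_pow (norm_nonneg _),
    ← ENNReal.ofReal_mul (by positivity)]
  refine ENNReal.ofReal_le_ofReal ?_
  rw [← Finset.mul_sum]
  have h := apply_sq_le (fderiv ℝ (P.v ψ) y) T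
  calc _ ≤ Real.exp (2 * f) * P.psi0 y ^ 2 * (‖T‖ ^ 2 * ∑ j, ‖pd j (P.v ψ) y‖ ^ 2) :=
        mul_le_mul_of_nonneg_left h (by positivity)
    _ = _ := by ring

omit hL in
theorem chi_sq_le (P : Pl) {y : E3} {f : ℝ} (h : P.fl y ≤ f) :
    chi P.Om (y 2) ^ 2 ≤ Real.exp (2 * f) * P.psi0 y ^ 2 := by
  rw [Pl.psi0, mul_pow, ← mul_assoc, ← Real.exp_nat_mul, ← Real.exp_add]
  refine le_mul_of_one_le_left (sq_nonneg _) (Real.one_le_exp ?_)
  push_cast
  linarith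

omit hL in
theorem lint_le {W : ℝ → ℝ≥0∞} {a : ℝ≥0∞} (h : ∀ s, 0 ≤ s → s ≤ 1 → W s ≤ a) :
    ∫⁻ s in Set.Icc (0 : ℝ) 1, W s ≤ a := by
  calc _ ≤ ∫⁻ s in Set.Icc (0 : ℝ) 1, a :=
        setLIntegral_mono measurable_const fun s hs => h s hs.1 hs.2
    _ = a := by simp

theorem S0_mem (t : ℝ) : 0 ≤ S0 t ∧ S0 t ≤ 1 :=
  ⟨(hL.S_zero _ (min_le_right t 0)).symm.le.trans (hL.S_mono (min_le_left t 0)),
    (hL.S_mono (le_max_left t 1)).trans (hL.S_one _ (le_max_right t 1)).le⟩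

theorem S0_one {P : Pl} (hP : P.OK) {a : ℤ} {t : ℝ} (h : (a + P.th) * P.l ≤ t) :
    S0 ((t / P.l - a) / P.th) = 1 := by
  apply hL.S_one
  rw [one_le_div hP.th_pos, le_sub_iff_add_le, le_div_iff₀ hP.l_pos]
  linarith

theorem strip_h {P : Pl} (hP : P.OK) (d : ℤ × ℤ) {y : E3} {f : ℝ} (h1 : P.F (d.1 - 1, d.2) ≤ f)
    (h2 : P.F d ≤ f) (a1 : (d.1 - 1 + P.th) * P.l ≤ y 0) (a2 : y 0 ≤ (d.1 + 1) * P.l)
    (a3 : (d.2 + P.th) * P.l ≤ y 1) (a4 : y 1 ≤ (d.2 + 1) * P.l) : P.fl y ≤ f := by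
  rw [hL.fl_loc P hP d y a1 a2 (by linarith [hP.l_pos]) a4, S0_one hL hP a3, bil]
  obtain ⟨s0, s1⟩ := S0_mem hL ((y 0 / P.l - d.1) / P.th)
  nlinarith

theorem strip_v {P : Pl} (hP : P.OK) (d : ℤ × ℤ) {y : E3} {f : ℝ} (h1 : P.F (d.1, d.2 - 1) ≤ f)
    (h2 : P.F d ≤ f) (a1 : (d.1 + P.th) * P.l ≤ y 0) (a2 : y 0 ≤ (d.1 + 1) * P.l)
    (a3 : (d.2 - 1 + P.th) * P.l ≤ y 1) (a4 : y 1 ≤ (d.2 + 1) * P.l) : P.fl y ≤ f := by
  rw [hL.fl_loc P hP d y (by linarith [hP.l_pos]) a2 a3 a4, S0_one hL hP a1, bil]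
  obtain ⟨s0, s1⟩ := S0_mem hL ((y 1 / P.l - d.2) / P.th)
  nlinarith

omit hL in
/-- the translation from one cell to another -/
def sh (P : Pl) (c c' : ℤ × ℤ) : E3 :=
  WithLp.toLp 2 ![((c'.1 : ℝ) - c.1) * P.l, ((c'.2 : ℝ) - c.2) * P.l, 0]

omit hL in
theorem int_sh {F : Type} [NormedAddCommGroup F] [NormedSpace ℝ F] (P : Pl) (c c' : ℤ × ℤ)
    (g : E3 → F) : ∫ x in P.Q c, g (x + sh P c c') = ∫ x in P.Q c', g x := by
  rw [← (measurePreserving_add_right volume (sh P c c')).setIntegral_preimage_emb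
    (measurableEmbedding_addRight _) g (P.Q c')]
  congr 2
  ext x
  simp only [Pl.Q, sh, Set.mem_ofPred_eq, Set.mem_preimage, PiLp.add_apply, Matrix.cons_val_zero,
    Matrix.cons_val_one, Matrix.cons_val, add_zero]
  constructor <;> rintro ⟨h1, h2, h3, h4, h5⟩ <;>
    exact ⟨by linarith, by linarith, by linarith, by linarith, h5⟩

omit hL in
theorem l1_cases {c c' : ℤ × ℤ} (h : l1 c c' = 1) :
    (c'.1 = c.1 + 1 ∧ c'.2 = c.2) ∨ (c.1 = c'.1 + 1 ∧ c'.2 = c.2) ∨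
      (c'.1 = c.1 ∧ c'.2 = c.2 + 1) ∨ (c'.1 = c.1 ∧ c.2 = c'.2 + 1) := by
  rw [l1] at h
  rcases abs_cases (c.1 - c'.1) with h1 | h1 <;> rcases abs_cases (c.2 - c'.2) with h2 | h2 <;>
    omega

omit hL in
theorem norm_sh (P : Pl) {c c' : ℤ × ℤ} (h : l1 c c' = 1) : ‖sh P c c'‖ ^ 2 = P.l ^ 2 := by
  rw [EuclideanSpace.real_norm_sq_eq, Fin.sum_univ_three]
  simp only [sh, Matrix.cons_val_zero, Matrix.cons_val_one, Matrix.cons_val]
  rcases l1_cases h with ⟨h1, h2⟩ | ⟨h1, h2⟩ | ⟨h1, h2⟩ | ⟨h1, h2⟩ <;> rw [h1, h2] <;>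
    push_cast <;> ring

theorem fl_strip {P : Pl} (hP : P.OK) {c c' : ℤ × ℤ} {f : ℝ} (h : l1 c c' = 1) (hc : P.F c ≤ f)
    (hc' : P.F c' ≤ f) {y : E3} {s : ℝ} (s0 : 0 ≤ s) (s1 : s ≤ 1)
    (hy : y - s • sh P c c' ∈ P.Q c) : P.fl y ≤ f := by
  simp only [Pl.Q, sh, Set.mem_ofPred_eq, PiLp.sub_apply, PiLp.smul_apply, Matrix.cons_val_zero,
    Matrix.cons_val_one, Matrix.cons_val, smul_eq_mul] at hy
  obtain ⟨a1, a2, a3, a4, -⟩ := hy
  have hl := hP.l_pos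
  have b0 : 0 ≤ s * P.l := by positivity
  have b1 : s * P.l ≤ P.l := by nlinarith
  obtain ⟨i, j⟩ := c
  obtain ⟨i', j'⟩ := c'
  rcases l1_cases h with ⟨h1, h2⟩ | ⟨h1, h2⟩ | ⟨h1, h2⟩ | ⟨h1, h2⟩ <;>
    simp only at h1 h2 a1 a2 a3 a4 <;> subst h1 h2 <;> push_cast at a1 a2 a3 a4
  · refine strip_h hL hP _ (by simpa using hc) hc' ?_ ?_ ?_ ?_ <;> push_cast <;> linarith
  · refine strip_h hL hP _ (by simpa using hc') hc ?_ ?_ ?_ ?_ <;> push_cast <;> linarith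
  · refine strip_v hL hP _ (by simpa using hc) hc' ?_ ?_ ?_ ?_ <;> push_cast <;> linarith
  · refine strip_v hL hP _ (by simpa using hc') hc ?_ ?_ ?_ ?_ <;> push_cast <;> linarith

theorem diff_bound {P : Pl} (hP : P.OK) {ψ : E3 → ℂ} (hψ : C1c ψ) {c c' : ℤ × ℤ} {f : ℝ}
    (h : l1 c c' = 1) (hc : P.F c ≤ f) (hc' : P.F c' ≤ f) :
    √(∫ x in P.Q c, chi P.Om (x 2) ^ 2 * ‖P.v ψ (x + sh P c c') - P.v ψ x‖ ^ 2) ≤
      P.l * Real.exp f * √(2 * P.q ψ) := by
  have hv := (hL.v_c1 P ψ hψ).1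
  have hvc := hv.continuous
  have hq := q_nonneg hL P hψ
  have h1 := tr (P.v ψ) (sh P c c') (om P c)
    (fun y => ENNReal.ofReal (Real.exp (2 * f) * P.psi0 y ^ 2)) hv (meas_om hL P c) (fun y => by
      refine lint_le fun s s0 s1 => ?_
      by_cases hy : y - s • sh P c c' ∈ P.Q c
      · simp only [om, Set.indicator_of_mem hy]
        refine ENNReal.ofReal_le_ofReal ?_
        have e : (y - s • sh P c c') 2 = y 2 := by simp [sh]
        rw [e]
        exact chi_sq_le P (fl_strip hL hP h hc hc' s0 s1 hy)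
      · simp [om, hy])
  have h2 := h1.trans (grad_bound hL P hψ _ f)
  rw [lint_om hL P c (g := fun x => P.v ψ (x + sh P c c') - P.v ψ x) (by fun_prop),
    ENNReal.ofReal_le_ofReal_iff (by positivity), norm_sh P h] at h2
  have hl := hP.l_pos
  refine Real.sqrt_le_iff.2 ⟨by positivity, h2.trans (le_of_eq ?_)⟩
  rw [mul_pow, mul_pow, Real.sq_sqrt hq, ← Real.exp_nat_mul]
  push_cast
  ring

theorem om_mul_le {P : Pl} (hP : P.OK) (c : ℤ × ℤ) (T y : E3) {s : ℝ} (s0 : 0 ≤ s) (s1 : s ≤ 1) :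
    om P c (y - s • T) * om P c (y - s • T + T) ≤
      ENNReal.ofReal (Real.exp (2 * P.F c) * P.psi0 y ^ 2) := by
  by_cases h1 : y - s • T ∈ P.Q c
  swap
  · simp [om, h1]
  by_cases h2 : y - s • T + T ∈ P.Q c
  swap
  · simp [om, h2]
  simp only [om, Set.indicator_of_mem h1, Set.indicator_of_mem h2]
  rw [← ENNReal.ofReal_mul (sq_nonneg _)]
  refine ENNReal.ofReal_le_ofReal ?_
  have key : ∀ (j : Fin 3) (lo hi : ℝ), lo ≤ (y - s • T) j → lo ≤ (y - s • T + T) j →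
      (y - s • T) j ≤ hi → (y - s • T + T) j ≤ hi → lo ≤ y j ∧ y j ≤ hi := by
    intro j lo hi a1 a2 a3 a4
    simp only [PiLp.add_apply, PiLp.sub_apply, PiLp.smul_apply, smul_eq_mul] at a1 a2 a3 a4
    constructor <;> nlinarith
  have hy : y ∈ P.Q c := by
    obtain ⟨a1, a2, a3, a4, a5⟩ := h1
    obtain ⟨b1, b2, b3, b4, b5⟩ := h2
    rw [abs_le] at a5 b5
    exact ⟨(key 0 _ _ a1 b1 a2 b2).1, (key 0 _ _ a1 b1 a2 b2).2, (key 1 _ _ a3 b3 a4 b4).1,
      (key 1 _ _ a3 b3 a4 b4).2, abs_le.2 (key 2 _ _ a5.1 b5.1 a5.2 b5.2)⟩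
  refine le_trans ?_ (chi_sq_le P (hL.fl_Q P hP c y hy).le)
  rw [← mul_pow]
  have p1 := hL.chi_pos P.Om ((y - s • T) 2)
  have p2 := hL.chi_pos P.Om ((y - s • T + T) 2)
  have q1 := hL.chi_le P.Om ((y - s • T) 2) hP.Om_pos.le
  have q2 := hL.chi_le P.Om ((y - s • T + T) 2) hP.Om_pos.le
  refine pow_le_pow_left₀ (by positivity) ?_ 2
  rcases le_total |(y - s • T) 2| |(y - s • T + T) 2| with hm | hm
  · have := key 2 _ _ (abs_le.1 hm).1 (neg_abs_le _) (abs_le.1 hm).2 (le_abs_self _)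
    have := hL.chi_anti P.Om _ _ hP.Om_pos.le ((abs_le.2 this))
    nlinarith
  · have := key 2 _ _ (neg_abs_le _) (abs_le.1 hm).1 (le_abs_self _) (abs_le.1 hm).2
    have := hL.chi_anti P.Om _ _ hP.Om_pos.le ((abs_le.2 this))
    nlinarith

theorem double_bound {P : Pl} (hP : P.OK) {ψ : E3 → ℂ} (hψ : C1c ψ) (c : ℤ × ℤ) :
    ∫⁻ x, om P c x * ∫⁻ y, om P c y * ‖P.v ψ y - P.v ψ x‖ₑ ^ 2 ≤
      ENNReal.ofReal (96 * P.l ^ 4 * P.h * Real.exp (2 * P.F c) * (2 * P.q ψ)) := by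
  have hv := (hL.v_c1 P ψ hψ).1
  have hvm := hv.continuous.measurable
  have hq := q_nonneg hL P hψ
  have hom := meas_om hL P c
  have hl := hP.l_pos
  have hh := hP.h_pos
  have hhl := hP.h_le
  have m1 : Measurable fun p : E3 × E3 =>
      om P c p.1 * om P c (p.1 + p.2) * ‖P.v ψ (p.1 + p.2) - P.v ψ p.1‖ₑ ^ 2 := by
    fun_prop
  let B : Set E3 := bx ![-P.l, -P.l, -(2 * P.h)] ![P.l, P.l, 2 * P.h]
  calc _ = ∫⁻ x, ∫⁻ T, om P c x * om P c (x + T) * ‖P.v ψ (x + T) - P.v ψ x‖ₑ ^ 2 := by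
        refine lintegral_congr fun x => ?_
        rw [← lintegral_add_left_eq_self (fun y => om P c y * ‖P.v ψ y - P.v ψ x‖ₑ ^ 2) x,
          ← lintegral_const_mul _ (by fun_prop)]
        simp only [mul_assoc]
    _ = ∫⁻ T, ∫⁻ x, om P c x * om P c (x + T) * ‖P.v ψ (x + T) - P.v ψ x‖ₑ ^ 2 :=
        lintegral_lintegral_swap m1.aemeasurable
    _ ≤ ∫⁻ T, B.indicator
          (fun _ => ENNReal.ofReal (Real.exp (2 * P.F c) * (6 * P.l ^ 2) * (2 * P.q ψ))) T := by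
        refine lintegral_mono fun T => ?_
        by_cases hT : T ∈ B
        · rw [Set.indicator_of_mem hT]
          have h1 := tr (P.v ψ) T (fun x => om P c x * om P c (x + T))
            (fun y => ENNReal.ofReal (Real.exp (2 * P.F c) * P.psi0 y ^ 2)) hv (by fun_prop)
            (fun y => lint_le fun s s0 s1 => om_mul_le hL hP c T y s0 s1)
          refine (h1.trans (grad_bound hL P hψ T _)).trans (ENNReal.ofReal_le_ofReal ?_)
          have h2 : ‖T‖ ^ 2 ≤ 6 * P.l ^ 2 := by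
            rw [EuclideanSpace.real_norm_sq_eq, Fin.sum_univ_three]
            simp only [B, mem_bx, Matrix.cons_val_zero, Matrix.cons_val_one, Matrix.cons_val] at hT
            obtain ⟨⟨a1, a2, a3⟩, b1, b2, b3⟩ := hT
            nlinarith
          gcongr
        · rw [Set.indicator_of_notMem hT]
          refine le_of_eq ((lintegral_congr fun x => ?_).trans lintegral_zero)
          by_cases h1 : x ∈ P.Q c
          swap
          · simp [om, h1]
          by_cases h2 : x + T ∈ P.Q c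
          swap
          · simp [om, h2]
          exfalso
          apply hT
          obtain ⟨a1, a2, a3, a4, a5⟩ := h1
          obtain ⟨b1, b2, b3, b4, b5⟩ := h2
          rw [abs_le] at a5 b5
          simp only [PiLp.add_apply] at b1 b2 b3 b4 b5
          have := mul_pos hP.th_pos hl
          simp only [B, mem_bx, Matrix.cons_val_zero, Matrix.cons_val_one, Matrix.cons_val]
          exact ⟨⟨by linarith, by linarith, by linarith⟩, by linarith, by linarith, by linarith⟩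
    _ = _ := by
        rw [lintegral_indicator_const (isCompact_bx _ _).measurableSet, vol_bx, Fin.prod_univ_three]
        simp only [Matrix.cons_val_zero, Matrix.cons_val_one, Matrix.cons_val]
        rw [← ENNReal.ofReal_mul (by linarith), ← ENNReal.ofReal_mul (by nlinarith),
          ← ENNReal.ofReal_mul (by positivity)]
        congr 1
        ring

theorem jensen {P : Pl} (hP : P.OK) {ψ : E3 → ℂ} (hψ : C1c ψ) (c : ℤ × ℤ) (z : ℂ) :
    ‖z - P.avg ψ c‖ ^ 2 ≤ P.m0⁻¹ * ∫ y in P.Q c, chi P.Om (y 2) ^ 2 * ‖P.v ψ y - z‖ ^ 2 := by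
  have hvc := (hL.v_c1 P ψ hψ).1.continuous
  have hc := cont_chi hL P
  have hm := m0_pos hL hP
  have h1 := norm_int_le hL hP c (g := fun y => P.v ψ y - z) (by fun_prop)
  have h2 : ∫ y in P.Q c, ((chi P.Om (y 2) ^ 2 : ℝ) : ℂ) * (P.v ψ y - z) =
      (P.m0 : ℂ) * (P.avg ψ c - z) := by
    simp only [mul_sub]
    rw [integral_sub (int_Q P c (by fun_prop)) (int_Q P c (by fun_prop)), integral_mul_const,
      integral_complex_ofReal, hL.vol_Q P hP c, Pl.avg,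
      mul_div_cancel₀ _ (by exact_mod_cast hm.ne')]
  rw [h2, norm_mul, Complex.norm_real, Real.norm_of_nonneg hm.le, norm_sub_rev] at h1
  have h3 := pow_le_pow_left₀ (by positivity) h1 2
  rw [mul_pow, mul_pow, Real.sq_sqrt hm.le,
    Real.sq_sqrt (integral_nonneg fun x => by positivity)] at h3
  rw [le_inv_mul_iff₀ hm]
  refine le_of_mul_le_mul_left ?_ hm
  nlinarith

theorem poincare {P : Pl} (hP : P.OK) {ψ : E3 → ℂ} (hψ : C1c ψ) (c : ℤ × ℤ) :
    ∫ x in P.Q c, chi P.Om (x 2) ^ 2 * ‖P.v ψ x - P.avg ψ c‖ ^ 2 ≤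
      200 * P.kz * P.l ^ 2 * Real.exp (2 * P.F c) * (2 * P.q ψ) := by
  have hvc := (hL.v_c1 P ψ hψ).1.continuous
  have hm := m0_pos hL hP
  have hq := q_nonneg hL P hψ
  have hl := hP.l_pos
  have hh := hP.h_pos
  have hZ := hL.Z_pos P hP
  have h1 : ∫⁻ x, om P c x * ‖P.v ψ x - P.avg ψ c‖ₑ ^ 2 ≤ ENNReal.ofReal P.m0⁻¹ *
      ∫⁻ x, om P c x * ∫⁻ y, om P c y * ‖P.v ψ y - P.v ψ x‖ₑ ^ 2 := by
    rw [← lintegral_const_mul' _ _ ENNReal.ofReal_ne_top]
    refine lintegral_mono fun x => ?_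
    rw [mul_left_comm]
    refine mul_le_mul_right ?_ _
    rw [lint_om hL P c (g := fun y => P.v ψ y - P.v ψ x) (by fun_prop),
      ← ENNReal.ofReal_mul (by positivity), ← ofReal_norm,
      ← ENNReal.ofReal_pow (norm_nonneg _)]
    exact ENNReal.ofReal_le_ofReal (jensen hL hP hψ c _)
  have h2 := h1.trans (mul_le_mul_right (double_bound hL hP hψ c) _)
  rw [lint_om hL P c (g := fun x => P.v ψ x - P.avg ψ c) (by fun_prop),
    ← ENNReal.ofReal_mul (by positivity), ENNReal.ofReal_le_ofReal_iff (by positivity)] at h2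
  refine h2.trans ?_
  have h3 : P.m0⁻¹ * (96 * P.l ^ 4 * P.h) ≤ 200 * P.kz * P.l ^ 2 := by
    rw [inv_mul_le_iff₀ hm, Pl.m0, Pl.kz]
    have e : P.l ^ 2 * (1 - P.th) ^ 2 * P.Z * (200 * (P.h / P.Z) * P.l ^ 2) =
        200 * (1 - P.th) ^ 2 * (P.l ^ 4 * P.h) := by
      field_simp
    rw [e, mul_assoc 96]
    refine mul_le_mul_of_nonneg_right ?_ (by positivity)
    nlinarith [hP.th_le, hP.th_pos]
  calc _ = P.m0⁻¹ * (96 * P.l ^ 4 * P.h) * (Real.exp (2 * P.F c) * (2 * P.q ψ)) := by ring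
    _ ≤ 200 * P.kz * P.l ^ 2 * (Real.exp (2 * P.F c) * (2 * P.q ψ)) :=
        mul_le_mul_of_nonneg_right h3 (by positivity)
    _ = _ := by ring

end Cell

/-- Poincaré inequality on a core box, and comparison of neighbouring cells. -/
theorem cell (hL : LocStmt) : CellStmt := by
  intro P hP ψ hψ
  refine ⟨Cell.poincare hL hP hψ, fun c c' f h hc hc' => ?_⟩
  have hd := Cell.diff_bound hL hP hψ h hc hc'
  have hvc := (hL.v_c1 P ψ hψ).1.continuous
  have hchi := Cell.cont_chi hL P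
  have hm := Cell.m0_pos hL hP
  have e2 : ∀ x : E3, (x + Cell.sh P c c') 2 = x 2 := fun x => by simp [Cell.sh]
  constructor
  · have h1 := Cell.minkowski hL P c hvc (g' := fun x => P.v ψ (x + Cell.sh P c c')) (by fun_prop)
    have h2 := Cell.int_sh P c c' fun x => chi P.Om (x 2) ^ 2 * ‖P.v ψ x‖ ^ 2
    simp only [e2] at h2
    rw [h2] at h1
    exact h1.trans (add_le_add le_rfl hd)
  · have h1 := Cell.norm_int_le hL hP c (g := fun x => P.v ψ (x + Cell.sh P c c') - P.v ψ x)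
      (by fun_prop)
    have h2 := Cell.int_sh P c c' fun x => ((chi P.Om (x 2) ^ 2 : ℝ) : ℂ) * P.v ψ x
    simp only [e2] at h2
    simp only [mul_sub] at h1
    rw [integral_sub (Cell.int_Q P c (by fun_prop)) (Cell.int_Q P c (by fun_prop)), h2,
      norm_sub_rev] at h1
    have hs : 0 < √P.m0 := Real.sqrt_pos.2 hm
    rw [Pl.avg, Pl.avg, ← sub_div, norm_div, Complex.norm_real, Real.norm_of_nonneg hm.le,
      div_le_iff₀ hm, Real.sqrt_div' _ hm.le]
    refine (h1.trans (mul_le_mul_of_nonneg_left hd hs.le)).trans (le_of_eq ?_)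
    conv_rhs => rw [← Real.mul_self_sqrt hm.le]
    rw [Real.sqrt_mul_self hs.le]
    field_simp

end Crest.Agent.R338
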