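import Crest.Agent.R338.CellTr

/-!
# Row 338: auxiliary lemmas for `Cell`
-/

noncomputable section

open MeasureTheory Function
open scoped ENNReal

namespace Crest.Agent.R338

namespace Cell

/-- Cauchy–Schwarz -/
theorem cs {X : Type} [MeasurableSpace X] (μ : Measure X) {f g : X → ℝ}
    (hf : Integrable (fun x => f x ^ 2) μ) (hg : Integrable (fun x => g x ^ 2) μ)
    (hfg : Integrable (fun x => f x * g x) μ) :
    ∫ x, f x * g x ∂μ ≤ √(∫ x, f x ^ 2 ∂μ) * √(∫ x, g x ^ 2 ∂μ) := by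
  have h : ∀ t : ℝ, 0 ≤ (∫ x, g x ^ 2 ∂μ) * (t * t) + (-2 * ∫ x, f x * g x ∂μ) * t +
      ∫ x, f x ^ 2 ∂μ := by
    intro t
    have h1 : 0 ≤ ∫ x, ((t * t) * g x ^ 2 + (-2 * t) * (f x * g x) + f x ^ 2) ∂μ :=
      integral_nonneg fun x => by
        show 0 ≤ (t * t) * g x ^ 2 + (-2 * t) * (f x * g x) + f x ^ 2
        nlinarith [sq_nonneg (f x - t * g x)]
    have i1 : Integrable (fun x => (t * t) * g x ^ 2) μ := hg.const_mul _
    have i2 : Integrable (fun x => (-2 * t) * (f x * g x)) μ := hfg.const_mul _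
    have i3 : Integrable (fun x => (t * t) * g x ^ 2 + (-2 * t) * (f x * g x)) μ := i1.add i2
    rw [integral_add i3 hf, integral_add i1 i2, integral_const_mul, integral_const_mul] at h1
    linarith
  have h2 := discrim_le_zero h
  rw [discrim] at h2
  rw [← Real.sqrt_mul (integral_nonneg fun x => sq_nonneg _)]
  exact Real.le_sqrt_of_sq_le (by nlinarith)

/-- boxes -/
def bx (a b : Fin 3 → ℝ) : Set E3 := WithLp.ofLp ⁻¹' Set.Icc a b

theorem isCompact_bx (a b : Fin 3 → ℝ) : IsCompact (bx a b) :=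
  (PiLp.homeomorph 2 fun _ : Fin 3 => ℝ).isCompact_preimage.2 isCompact_Icc

theorem vol_bx (a b : Fin 3 → ℝ) : volume (bx a b) = ∏ i, ENNReal.ofReal (b i - a i) := by
  rw [bx, (PiLp.volume_preserving_ofLp (Fin 3)).measure_preimage
    measurableSet_Icc.nullMeasurableSet, Real.volume_Icc_pi]

theorem mem_bx {a b : Fin 3 → ℝ} {x : E3} : x ∈ bx a b ↔
    (a 0 ≤ x 0 ∧ a 1 ≤ x 1 ∧ a 2 ≤ x 2) ∧ x 0 ≤ b 0 ∧ x 1 ≤ b 1 ∧ x 2 ≤ b 2 := by
  simp [bx, Pi.le_def, Fin.forall_fin_succ]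

theorem isCompact_Q (P : Pl) (c : ℤ × ℤ) : IsCompact (P.Q c) := by
  have : P.Q c = bx ![(c.1 + P.th) * P.l, (c.2 + P.th) * P.l, -P.h]
      ![(c.1 + 1) * P.l, (c.2 + 1) * P.l, P.h] := by
    ext x
    simp only [Pl.Q, mem_bx, Set.mem_ofPred_eq, abs_le, Matrix.cons_val_zero, Matrix.cons_val_one,
      Matrix.cons_val]
    tauto
  rw [this]
  exact isCompact_bx _ _

theorem meas_Q (P : Pl) (c : ℤ × ℤ) : MeasurableSet (P.Q c) := (isCompact_Q P c).measurableSet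

theorem int_Q {F : Type} [NormedAddCommGroup F] (P : Pl) (c : ℤ × ℤ) {g : E3 → F}
    (hg : Continuous g) : Integrable g (volume.restrict (P.Q c)) :=
  hg.continuousOn.integrableOn_compact (isCompact_Q P c)

theorem apply_sq_le (L : E3 →L[ℝ] ℂ) (T : E3) :
    ‖L T‖ ^ 2 ≤ ‖T‖ ^ 2 * ∑ j, ‖L (EuclideanSpace.single j (1 : ℝ))‖ ^ 2 := by
  have h1 : T = ∑ j, T j • EuclideanSpace.single j (1 : ℝ) := by
    ext i
    simp [Pi.single_apply]
  have h2 : ‖L T‖ ≤ ∑ j, |T j| * ‖L (EuclideanSpace.single j (1 : ℝ))‖ := by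
    conv_lhs => rw [h1, map_sum]
    refine (norm_sum_le _ _).trans (le_of_eq (Finset.sum_congr rfl fun j _ => ?_))
    rw [map_smul, norm_smul, Real.norm_eq_abs]
  refine (pow_le_pow_left₀ (norm_nonneg _) h2 2).trans ?_
  refine (Finset.sum_mul_sq_le_sq_mul_sq _ _ _).trans (le_of_eq ?_)
  rw [EuclideanSpace.real_norm_sq_eq]
  simp only [sq_abs]

end Cell

end Crest.Agent.R338
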