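import Crest.Agent.R338.DefsP

/-!
# Row 338: the translation lemma
-/

noncomputable section

open MeasureTheory Function
open scoped ENNReal

namespace Crest.Agent.R338

namespace CellTr

theorem sq_lintegral_le {X : Type} [MeasurableSpace X] (μ : Measure X) [IsProbabilityMeasure μ]
    {f : X → ℝ≥0∞} (hf : AEMeasurable f μ) : (∫⁻ x, f x ∂μ) ^ 2 ≤ ∫⁻ x, f x ^ 2 ∂μ := by
  have h := ENNReal.lintegral_mul_le_Lp_mul_Lq μ Real.HolderConjugate.two_two hf
    (aemeasurable_const (b := (1 : ℝ≥0∞)))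
  simp only [Pi.mul_apply, mul_one, ENNReal.one_rpow, lintegral_const, measure_univ] at h
  calc (∫⁻ x, f x ∂μ) ^ 2 ≤ ((∫⁻ x, f x ^ (2 : ℝ) ∂μ) ^ (1 / 2 : ℝ)) ^ 2 := by gcongr
    _ = ∫⁻ x, f x ^ 2 ∂μ := by
      rw [← ENNReal.rpow_natCast, ← ENNReal.rpow_mul]
      norm_num

theorem pointwise {v : E3 → ℂ} (hv : ContDiff ℝ 1 v) (T x : E3) :
    ‖v (x + T) - v x‖ₑ ^ 2 ≤ ∫⁻ s in Set.Icc (0 : ℝ) 1, ‖fderiv ℝ v (x + s • T) T‖ₑ ^ 2 := by
  have hc : Continuous fun s : ℝ => fderiv ℝ v (x + s • T) T :=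
    ((hv.continuous_fderiv (by simp)).comp (by fun_prop)).clm_apply continuous_const
  have hd : ∀ s : ℝ, HasDerivAt (fun s : ℝ => v (x + s • T)) (fderiv ℝ v (x + s • T) T) s := by
    intro s
    have h1 : HasDerivAt (fun s : ℝ => x + s • T) T s := by
      simpa using ((hasDerivAt_id s).smul_const T).const_add x
    exact (hv.differentiable (by simp) _).hasFDerivAt.comp_hasDerivAt s h1
  have h2 := intervalIntegral.integral_eq_sub_of_hasDerivAt (a := 0) (b := 1)
    (fun s _ => hd s) (hc.intervalIntegrable _ _)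
  simp only [one_smul, zero_smul, add_zero] at h2
  rw [← h2, intervalIntegral.integral_of_le zero_le_one, ← integral_Icc_eq_integral_Ioc]
  have : IsProbabilityMeasure (volume.restrict (Set.Icc (0 : ℝ) 1)) := ⟨by simp⟩
  refine le_trans ?_ (sq_lintegral_le _ hc.measurable.enorm.aemeasurable)
  gcongr
  exact enorm_integral_le_lintegral_enorm _

end CellTr

/-- The translation lemma. -/
theorem tr : TrStmt := by
  intro v T W1 W2 hv hW1 hW
  have hg : Measurable fun y => ‖fderiv ℝ v y T‖ₑ ^ 2 :=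
    (((hv.continuous_fderiv (by simp)).clm_apply continuous_const).measurable.enorm).pow_const 2
  set g : E3 → ℝ≥0∞ := fun y => ‖fderiv ℝ v y T‖ₑ ^ 2 with hg_def
  have m1 : Measurable fun p : E3 × ℝ => W1 p.1 * g (p.1 + p.2 • T) :=
    (hW1.comp measurable_fst).mul (hg.comp (by fun_prop))
  have m2 : Measurable fun p : ℝ × E3 => W1 (p.2 - p.1 • T) * g p.2 :=
    (hW1.comp (by fun_prop)).mul (hg.comp measurable_snd)
  calc ∫⁻ x, W1 x * ‖v (x + T) - v x‖ₑ ^ 2
      ≤ ∫⁻ x, ∫⁻ s in Set.Icc (0 : ℝ) 1, W1 x * g (x + s • T) := by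
        refine lintegral_mono fun x => ?_
        rw [lintegral_const_mul _ (f := fun s : ℝ => g (x + s • T)) (hg.comp (by fun_prop))]
        exact mul_le_mul_right (CellTr.pointwise hv T x) _
    _ = ∫⁻ s in Set.Icc (0 : ℝ) 1, ∫⁻ x, W1 x * g (x + s • T) :=
        lintegral_lintegral_swap m1.aemeasurable
    _ = ∫⁻ s in Set.Icc (0 : ℝ) 1, ∫⁻ y, W1 (y - s • T) * g y := by
        refine lintegral_congr fun s => ?_
        rw [← lintegral_add_right_eq_self (fun y => W1 (y - s • T) * g y) (s • T)]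
        simp only [add_sub_cancel_right]
    _ = ∫⁻ y, ∫⁻ s in Set.Icc (0 : ℝ) 1, W1 (y - s • T) * g y :=
        lintegral_lintegral_swap m2.aemeasurable
    _ ≤ ∫⁻ y, W2 y * g y := by
        refine lintegral_mono fun y => ?_
        rw [lintegral_mul_const _ (f := fun s : ℝ => W1 (y - s • T)) (hW1.comp (by fun_prop))]
        exact mul_le_mul_left (hW y) _

end Crest.Agent.R338
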