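import Crest.Agent.R338.Slice

/-!
# Row 338: comparison of the bounded forms with the finite model
-/

noncomputable section

open MeasureTheory Function
open scoped ComplexConjugate
open Crest.MathPhysics.ElectronicCoulomb

namespace Crest.Agent.R338

namespace Cmp

open Slice

/-! ### Bounded measurable functions with bounded support -/

section bd
variable {α 𝕜 : Type} [NormedAddCommGroup α] [MeasureSpace α] [RCLike 𝕜]

/-- Bounded, measurable, with bounded support. -/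
def Bd (f : α → 𝕜) : Prop :=
  Measurable f ∧ (∃ B, ∀ x, ‖f x‖ ≤ B) ∧ ∃ r, ∀ x, f x ≠ 0 → ‖x‖ ≤ r

theorem Bd.zero : Bd fun _ : α => (0 : 𝕜) :=
  ⟨measurable_const, ⟨0, fun _ => by simp⟩, ⟨0, fun _ h => absurd rfl h⟩⟩

theorem Bd.add {f g : α → 𝕜} (hf : Bd f) (hg : Bd g) : Bd fun x => f x + g x := by
  obtain ⟨m, ⟨B, hB⟩, r, hr⟩ := hf
  obtain ⟨m', ⟨B', hB'⟩, r', hr'⟩ := hg
  refine ⟨m.add m', ⟨B + B', fun x => (norm_add_le _ _).trans (add_le_add (hB x) (hB' x))⟩,
    max r r', fun x hx => ?_⟩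
  by_cases h : f x = 0
  · exact (hr' x fun h' => hx (by simp [h, h'])).trans (le_max_right _ _)
  · exact (hr x h).trans (le_max_left _ _)

theorem Bd.const_mul {f : α → 𝕜} (hf : Bd f) (c : 𝕜) : Bd fun x => c * f x := by
  obtain ⟨m, ⟨B, hB⟩, r, hr⟩ := hf
  exact ⟨m.const_mul c, ⟨‖c‖ * B, fun x => by rw [norm_mul]; gcongr; exact hB x⟩,
    r, fun x hx => hr x (right_ne_zero_of_mul hx)⟩

theorem Bd.sub {f g : α → 𝕜} (hf : Bd f) (hg : Bd g) : Bd fun x => f x - g x := by
  simpa [sub_eq_add_neg] using hf.add (hg.const_mul (-1))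

theorem Bd.sum {κ : Type} (s : Finset κ) {f : κ → α → 𝕜} (hf : ∀ k, Bd (f k)) :
    Bd fun x => ∑ k ∈ s, f k x := by
  classical
  induction s using Finset.induction_on with
  | empty => simpa using Bd.zero
  | insert k s hk ih => simpa [Finset.sum_insert hk] using (hf k).add ih

theorem Bd.mul {f g : α → 𝕜} (hf : Bd f) (hg : Bd g) : Bd fun x => f x * g x := by
  obtain ⟨m, ⟨B, hB⟩, r, hr⟩ := hf
  obtain ⟨m', ⟨B', hB'⟩, -⟩ := hg
  exact ⟨m.mul m', ⟨B * B', fun x => by
      rw [norm_mul]; exact mul_le_mul (hB x) (hB' x) (norm_nonneg _) ((norm_nonneg _).trans (hB x))⟩,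
    r, fun x hx => hr x (left_ne_zero_of_mul hx)⟩

theorem Bd.ofReal {f : α → ℝ} (hf : Bd f) : Bd fun x => (f x : ℂ) := by
  obtain ⟨m, ⟨B, hB⟩, r, hr⟩ := hf
  exact ⟨Complex.measurable_ofReal.comp m, ⟨B, fun x => by simpa using hB x⟩,
    r, fun x hx => hr x (by simpa using hx)⟩

theorem Bd.sq {f : α → ℂ} (hf : Bd f) : Bd fun x => ‖f x‖ ^ 2 := by
  obtain ⟨m, ⟨B, hB⟩, r, hr⟩ := hf
  exact ⟨m.norm.pow_const 2, ⟨B ^ 2, fun x => by
      rw [norm_pow, norm_norm]; exact pow_le_pow_left₀ (norm_nonneg _) (hB x) 2⟩,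
    r, fun x hx => hr x (by simpa using hx)⟩

theorem Bd.re {f g : α → ℂ} (hf : Bd f) (hg : Bd g) : Bd fun x => (conj (f x) * g x).re := by
  obtain ⟨m, ⟨B, hB⟩, r, hr⟩ := hf
  obtain ⟨m', ⟨B', hB'⟩, -⟩ := hg
  refine ⟨Complex.measurable_re.comp ((Complex.continuous_conj.measurable.comp m).mul m'),
    ⟨B * B', fun x => (Complex.abs_re_le_norm _).trans ?_⟩, r, fun x hx => hr x fun h => hx ?_⟩
  · rw [norm_mul, Complex.norm_conj]
    exact mul_le_mul (hB x) (hB' x) (norm_nonneg _) ((norm_nonneg _).trans (hB x))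
  · simp [h]

theorem Bd.int [BorelSpace α] [ProperSpace α] [IsFiniteMeasureOnCompacts (volume : Measure α)]
    {f : α → 𝕜} (hf : Bd f) : Integrable f := by
  obtain ⟨m, ⟨B, hB⟩, r, hr⟩ := hf
  refine IntegrableOn.integrable_of_forall_notMem_eq_zero (s := Metric.closedBall 0 r) ?_
    fun x hx => ?_
  · exact Measure.integrableOn_of_bounded (M := B) (isCompact_closedBall _ _).measure_lt_top.ne
      m.aestronglyMeasurable (Filter.Eventually.of_forall hB)
  · by_contra h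
    exact hx (mem_closedBall_zero_iff.2 (hr x h))

end bd

/-! ### Elementary inequalities -/

theorem opt {X M δ N : ℝ} (hM : 0 ≤ M) (hδ : 0 ≤ δ) (hN : 0 ≤ N)
    (h : ∀ t, 0 < t → X ≤ M * (t * δ + N / t)) : X ≤ 2 * M * √δ * √N := by
  obtain ⟨p, hp, rfl⟩ : ∃ p, 0 ≤ p ∧ δ = p ^ 2 := ⟨√δ, Real.sqrt_nonneg _, (Real.sq_sqrt hδ).symm⟩
  obtain ⟨q, hq, rfl⟩ : ∃ q, 0 ≤ q ∧ N = q ^ 2 := ⟨√N, Real.sqrt_nonneg _, (Real.sq_sqrt hN).symm⟩
  rw [Real.sqrt_sq hp, Real.sqrt_sq hq]
  refine le_of_forall_pos_le_add fun η hη => ?_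
  obtain ⟨ε, hε, hεη⟩ : ∃ ε, 0 < ε ∧ M * (p + q) * ε ≤ η := by
    refine ⟨η / (M * (p + q) + 1), by positivity, ?_⟩
    rw [← mul_div_assoc, div_le_iff₀ (by positivity)]
    nlinarith
  have h1 : (q + ε) / (p + ε) * p ^ 2 ≤ (q + ε) * p := by
    rw [div_mul_eq_mul_div, div_le_iff₀ (by positivity)]
    have : 0 ≤ (q + ε) * p * ε := by positivity
    nlinarith
  have h2 : q ^ 2 / ((q + ε) / (p + ε)) ≤ q * (p + ε) := by
    rw [div_div_eq_mul_div, div_le_iff₀ (by positivity)]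
    have : 0 ≤ q * (p + ε) * ε := by positivity
    nlinarith
  have h3 := mul_le_mul_of_nonneg_left (add_le_add h1 h2) hM
  have h4 := h ((q + ε) / (p + ε)) (by positivity)
  nlinarith

theorem amgm {t : ℝ} (ht : 0 < t) (x y : ℝ) : x * y ≤ (t * x ^ 2 + y ^ 2 / t) / 2 := by
  have : t * x ^ 2 + y ^ 2 / t - 2 * (x * y) = (t * x - y) ^ 2 / t := by field_simp; ring
  have h : 0 ≤ (t * x - y) ^ 2 / t := by positivity
  linarith

theorem re_diff {t : ℝ} (ht : 0 < t) (u v u' v' : ℂ) :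
    |(conj u * u').re - (conj v * v').re| ≤
      (t * ‖u - v‖ ^ 2 + ‖v‖ ^ 2 / t) / 2 + (t * ‖u' - v'‖ ^ 2 + ‖u'‖ ^ 2 / t) / 2 := by
  have e : (conj u * u').re - (conj v * v').re =
      (conj (u - v) * u').re + (conj v * (u' - v')).re := by
    simp only [map_sub, sub_mul, mul_sub, Complex.sub_re]; ring
  have h1 := Complex.abs_re_le_norm (conj (u - v) * u')
  have h2 := Complex.abs_re_le_norm (conj v * (u' - v'))
  rw [norm_mul, Complex.norm_conj] at h1 h2
  have h3 := amgm ht ‖u - v‖ ‖u'‖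
  have h4 := amgm ht ‖u' - v'‖ ‖v‖
  rw [e]
  refine (abs_add_le _ _).trans ?_
  linarith

theorem re_self (u : ℂ) : (conj u * u).re = ‖u‖ ^ 2 := by
  rw [Complex.conj_mul', ← Complex.ofReal_pow, Complex.ofReal_re]

variable {n : ℕ} {ι : Type} [Fintype ι] [DecidableEq ι]

omit [DecidableEq ι] in
theorem qf_diff {A : ι → ι → ℝ} {a0 t : ℝ} (hA : ∀ a b, A a b = A b a)
    (hr : ∀ a, ∑ b, |A a b| ≤ a0) (ht : 0 < t) (u v : ι → ℂ) :
    |qf A u - qf A v| ≤ a0 * (t * n1 (fun a => u a - v a) + (n1 u + n1 v) / 2 / t) := by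
  have row : ∀ w : ι → ℝ, (∀ a, 0 ≤ w a) → ∑ a, ∑ b, |A a b| * w a ≤ a0 * ∑ a, w a := by
    intro w hw
    rw [Finset.mul_sum]
    refine Finset.sum_le_sum fun a _ => ?_
    rw [← Finset.sum_mul]
    exact mul_le_mul_of_nonneg_right (hr a) (hw a)
  have h1 := row (fun a => (t * ‖u a - v a‖ ^ 2 + ‖v a‖ ^ 2 / t) / 2) fun a => by positivity
  have h2 := row (fun a => (t * ‖u a - v a‖ ^ 2 + ‖u a‖ ^ 2 / t) / 2) fun a => by positivity
  rw [Finset.sum_comm] at h2
  have h3 : |qf A u - qf A v| ≤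
      ∑ a, ∑ b, |A a b| * ((t * ‖u a - v a‖ ^ 2 + ‖v a‖ ^ 2 / t) / 2) +
      ∑ a, ∑ b, |A b a| * ((t * ‖u b - v b‖ ^ 2 + ‖u b‖ ^ 2 / t) / 2) := by
    unfold qf
    rw [← Finset.sum_sub_distrib, ← Finset.sum_add_distrib]
    refine (Finset.abs_sum_le_sum_abs _ _).trans (Finset.sum_le_sum fun a _ => ?_)
    rw [← Finset.sum_sub_distrib, ← Finset.sum_add_distrib]
    refine (Finset.abs_sum_le_sum_abs _ _).trans (Finset.sum_le_sum fun b _ => ?_)
    rw [← mul_sub, abs_mul, hA b a, ← mul_add]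
    exact mul_le_mul_of_nonneg_left (re_diff ht _ _ _ _) (abs_nonneg _)
  refine h3.trans ((add_le_add h1 h2).trans (le_of_eq ?_))
  simp only [n1, ← Finset.sum_div, Finset.sum_add_distrib, ← Finset.mul_sum]
  ring

/-! ### The orthonormal system -/

variable {θ : ι → E3 → ℝ}

omit [Fintype ι] [DecidableEq ι] in
theorem bd_θ (h : ONS θ) (a : ι) : Bd (θ a) :=
  ⟨h.meas a, h.bdd.imp fun _ hB => hB a, h.supp.imp fun _ hr => hr a⟩

omit [Fintype ι] in
theorem orth (h : ONS θ) (a b : ι) : ∫ y, θ a y * θ b y = if a = b then 1 else 0 := by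
  split_ifs with hab
  · subst hab; simpa [sq] using h.norm a
  · simp [h.disj a b _ hab]

omit [Fintype ι] [DecidableEq ι] in
theorem bd_T (h : ONS θ) (g : Fin n → ι) : Bd (tens fun i => θ (g i)) := by
  obtain ⟨B, hB⟩ := h.bdd
  obtain ⟨r, hr⟩ := h.supp
  refine ⟨Finset.measurable_prod _ fun i _ => (h.meas _).comp (cont_elPos i).measurable,
    ⟨B ^ n, fun x => ?_⟩, √(n * r ^ 2), fun x hx => ?_⟩
  · rw [tens, norm_prod]
    refine (Finset.prod_le_prod (fun _ _ => norm_nonneg _) fun i _ => hB (g i) _).trans ?_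
    simp
  · rw [EuclideanSpace.norm_eq, Fintype.sum_prod_type]
    refine Real.sqrt_le_sqrt ((Finset.sum_le_card_nsmul _ _ (r ^ 2) fun i _ => ?_).trans (by simp))
    have h1 := hr _ _ (Finset.prod_ne_zero_iff.1 hx i (Finset.mem_univ i))
    have h2 := pow_le_pow_left₀ (norm_nonneg _) h1 2
    rwa [EuclideanSpace.norm_sq_eq] at h2

theorem tens_ins (f : Fin n → E3 → ℝ) (i : Fin n) (z : Rest n i) (y : E3) :
    tens f (ins i z y) = f i y * ∏ k : {k : Fin n // k ≠ i}, f k (z k) := by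
  rw [tens, Fintype.prod_eq_mul_prod_subtype_ne _ i, elPos_ins]
  congr 1
  exact Finset.prod_congr rfl fun k _ => by rw [elPos_ins_ne k.2]

/-- The projection onto the span of the tensor products. -/
def prj (θ : ι → E3 → ℝ) (c : (Fin n → ι) → ℂ) (x : Config n) : ℂ :=
  ∑ g, c g * (tens (fun i => θ (g i)) x : ℂ)

omit [DecidableEq ι] in
theorem bd_prj (h : ONS θ) (c : (Fin n → ι) → ℂ) : Bd (prj θ c) :=
  Bd.sum _ fun g => (bd_T h g).ofReal.const_mul _

omit [DecidableEq ι] in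
theorem prj_sq (h : ONS θ) (c : (Fin n → ι) → ℂ) (x : Config n) :
    ‖prj θ c x‖ ^ 2 = ∑ g, ‖c g‖ ^ 2 * tens (fun i => θ (g i)) x ^ 2 := by
  by_cases hx : ∃ g : Fin n → ι, tens (fun i => θ (g i)) x ≠ 0
  · obtain ⟨g, hg⟩ := hx
    have key : ∀ g' : Fin n → ι, g' ≠ g → tens (fun i => θ (g' i)) x = 0 := by
      intro g' hg'
      obtain ⟨i, hi⟩ := Function.ne_iff.1 hg'
      refine Finset.prod_eq_zero (Finset.mem_univ i) ?_
      exact (mul_eq_zero.1 (h.disj _ _ _ hi)).resolve_right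
        (Finset.prod_ne_zero_iff.1 hg i (Finset.mem_univ i))
    rw [prj, Finset.sum_eq_single g (fun g' _ hg' => by simp [key g' hg']) (by simp),
      Finset.sum_eq_single g (fun g' _ hg' => by simp [key g' hg']) (by simp)]
    simp [mul_pow]
  · push Not at hx
    simp [prj, hx]

omit [Fintype ι] [DecidableEq ι] in
theorem bd_T2 (h : ONS θ) (g : Fin n → ι) : Bd fun x => tens (fun i => θ (g i)) x ^ 2 := by
  simpa [sq] using (bd_T h g).mul (bd_T h g)

omit [DecidableEq ι] in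
theorem nsq_prj (h : ONS θ) (c : (Fin n → ι) → ℂ) : nsq (prj θ c) = nF c := by
  simp only [nsq, prj_sq h]
  rw [integral_finsetSum _ fun g _ => ((bd_T2 h g).const_mul _).int]
  refine Finset.sum_congr rfl fun g _ => ?_
  have : ∀ x, tens (fun i => θ (g i)) x ^ 2 = tens (fun i y => θ (g i) y ^ 2) x := fun x =>
    (Finset.prod_pow _ _ _).symm
  simp only [this]
  rw [integral_const_mul, (slice n).2.1]
  simp [h.norm]

omit [DecidableEq ι] in
theorem nsq_sub (h : ONS θ) {Ψ : Config n → ℂ} (hΨ : Bd Ψ) :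
    nsq (fun x => Ψ x - prj θ (coefN θ Ψ) x) = nsq Ψ - nF (coefN θ Ψ) := by
  have hP := bd_prj h (coefN θ Ψ)
  have e : ∀ x, ‖Ψ x - prj θ (coefN θ Ψ) x‖ ^ 2 = ‖Ψ x‖ ^ 2 + ‖prj θ (coefN θ Ψ) x‖ ^ 2 -
      2 * (conj (prj θ (coefN θ Ψ) x) * Ψ x).re := fun x => by
    simp only [Complex.sq_norm, Complex.normSq_apply, Complex.sub_re, Complex.sub_im,
      Complex.mul_re, Complex.conj_re, Complex.conj_im]
    ring
  have hc : ∫ x, (conj (prj θ (coefN θ Ψ) x) * Ψ x).re = nF (coefN θ Ψ) := by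
    have e' : ∀ x, conj (prj θ (coefN θ Ψ) x) * Ψ x =
        ∑ g, conj (coefN θ Ψ g) * ((tens (fun i => θ (g i)) x : ℂ) * Ψ x) := fun x => by
      simp [prj, Finset.sum_mul, mul_assoc]
    have hi := fun g : Fin n → ι => ((bd_T h g).ofReal.mul hΨ).const_mul (conj (coefN θ Ψ g))
    simp only [e']
    have h1 := integral_re (Bd.sum Finset.univ hi).int
    simp only [RCLike.re_to_complex] at h1
    rw [h1, integral_finsetSum _ fun g _ => (hi g).int, Complex.re_sum]
    refine Finset.sum_congr rfl fun g _ => ?_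
    rw [integral_const_mul]
    exact re_self _
  have := nsq_prj h (coefN θ Ψ)
  unfold nsq at this ⊢
  simp only [e]
  rw [integral_sub (hΨ.sq.add hP.sq).int ((hP.re hΨ).const_mul 2).int,
    integral_add hΨ.sq.int hP.sq.int, integral_const_mul, hc, this]
  ring

/-! ### Slices -/

omit [Fintype ι] [DecidableEq ι] in
theorem int_slice (h : ONS θ) {Φ : Config n → ℂ} (hΦ : Bd Φ) (i : Fin n) (z : Rest n i) (a : ι) :
    Integrable fun y => (θ a y : ℂ) * Φ (ins i z y) := by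
  obtain ⟨m, ⟨B, hB⟩, -⟩ := hΦ
  refine (bd_θ h a).ofReal.int.mul_bdd (c := B) (Measurable.aestronglyMeasurable ?_)
    (Filter.Eventually.of_forall fun y => hB _)
  exact m.comp ((mp_ins i).measurable.comp measurable_prodMk_left)

omit [Fintype ι] [DecidableEq ι] in
theorem bd_coef (h : ONS θ) {Φ : Config n → ℂ} (hΦ : Bd Φ) (i : Fin n) (a : ι) :
    Bd fun z : Rest n i => coef θ (fun y => Φ (ins i z y)) a := by
  obtain ⟨m, ⟨B, hB⟩, r, hr⟩ := hΦ
  refine ⟨?_, ⟨∫ y, ‖θ a y‖ * B, fun z => ?_⟩, r, fun z hz => ?_⟩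
  · refine (StronglyMeasurable.integral_prod_right
      (f := fun (z : Rest n i) y => (θ a y : ℂ) * Φ (ins i z y)) ?_).measurable
    exact ((Complex.measurable_ofReal.comp ((h.meas a).comp measurable_snd)).mul
      (m.comp (mp_ins i).measurable)).stronglyMeasurable
  · refine norm_integral_le_of_norm_le ((bd_θ h a).int.norm.mul_const B)
      (Filter.Eventually.of_forall fun y => ?_)
    rw [norm_mul, Complex.norm_real]
    exact mul_le_mul_of_nonneg_left (hB _) (norm_nonneg _)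
  · obtain ⟨y, hy⟩ : ∃ y, Φ (ins i z y) ≠ 0 := by
      by_contra h'
      push Not at h'
      exact hz (by simp [coef, h'])
    have h1 := hr _ hy
    rw [pi_norm_le_iff_of_nonneg ((norm_nonneg _).trans h1)]
    intro j
    rw [← elPos_ins_ne j.2 z y]
    exact (norm_elPos_le _ _).trans h1

omit [DecidableEq ι] in
theorem aP_diff (h : ONS θ) {A : ι → ι → ℝ} {a0 t : ℝ} (hA : ∀ a b, A a b = A b a)
    (hr : ∀ a, ∑ b, |A a b| ≤ a0) (ht : 0 < t) {Φ Ψ : Config n → ℂ} (hΦ : Bd Φ) (hΨ : Bd Ψ)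
    (i : Fin n) : |aP θ A i Ψ - aP θ A i Φ| ≤
      a0 * (t * nP θ i (fun x => Ψ x - Φ x) + (nP θ i Ψ + nP θ i Φ) / 2 / t) := by
  have bq : ∀ {Φ : Config n → ℂ}, Bd Φ →
      Bd fun z : Rest n i => qf A (coef θ fun y => Φ (ins i z y)) := fun hΦ =>
    Bd.sum _ fun a => Bd.sum _ fun b => ((bd_coef h hΦ i a).re (bd_coef h hΦ i b)).const_mul _
  have bn : ∀ {Φ : Config n → ℂ}, Bd Φ →
      Bd fun z : Rest n i => n1 (coef θ fun y => Φ (ins i z y)) := fun hΦ =>
    Bd.sum _ fun a => (bd_coef h hΦ i a).sq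
  have i1 := (bn (hΨ.sub hΦ)).int.const_mul t
  have i2 := ((bn hΨ).add (bn hΦ)).int
  have i3 := (i2.div_const 2).div_const t
  unfold aP nP
  rw [← integral_sub (bq hΨ).int (bq hΦ).int, ← integral_add (bn hΨ).int (bn hΦ).int,
    ← integral_div, ← integral_div, ← integral_const_mul, ← integral_add i1 i3,
    ← integral_const_mul, ← Real.norm_eq_abs]
  refine norm_integral_le_of_norm_le ((i1.add i3).const_mul a0)
    (Filter.Eventually.of_forall fun z => ?_)
  have : (coef θ fun y => Ψ (ins i z y) - Φ (ins i z y)) =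
      fun a => coef θ (fun y => Ψ (ins i z y)) a - coef θ (fun y => Φ (ins i z y)) a := by
    funext a
    simp only [coef, mul_sub]
    exact integral_sub (int_slice h hΨ i z a) (int_slice h hΦ i z a)
  simp only [this]
  exact qf_diff hA hr ht _ _

theorem uT_bd {τ : ℝ} (hτ : 0 ≤ τ) (x : Config n) : |uT τ x| ≤ n ^ 2 * τ := by
  refine (Finset.abs_sum_le_sum_abs _ _).trans
    ((Finset.sum_le_card_nsmul _ _ (n * τ) fun i _ => ?_).trans (by simp [sq, mul_assoc]))
  refine (Finset.abs_sum_le_sum_abs _ _).trans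
    ((Finset.sum_le_card_nsmul _ _ τ fun j _ => ?_).trans (by simp))
  split_ifs
  · rw [wt, abs_of_nonneg (le_min (by positivity) hτ)]; exact min_le_right _ _
  · simpa using hτ

theorem int_wt (τ : ℝ) {f : Config n → ℝ} (hf : Bd f) (i j : Fin n) :
    Integrable fun x => wt τ (elPos i x - elPos j x) * f x :=
  ((slice n).2.2.2.2.2 0 Fin.elim0 τ f hf.1 hf.2.1 hf.2.2).2.2 i j

theorem uT_mul (τ : ℝ) (f : Config n → ℝ) (x : Config n) : uT τ x * f x =
    ∑ i, ∑ j, (if i < j then 1 else 0) * (wt τ (elPos i x - elPos j x) * f x) := by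
  simp [uT, Finset.sum_mul]

theorem int_uT (τ : ℝ) {f : Config n → ℝ} (hf : Bd f) : Integrable fun x => uT τ x * f x := by
  simp only [uT_mul]
  exact integrable_finsetSum _ fun i _ => integrable_finsetSum _ fun j _ =>
    (int_wt τ hf i j).const_mul _

theorem pot_diff {τ t : ℝ} (hτ : 0 ≤ τ) (ht : 0 < t) {Φ Ψ : Config n → ℂ} (hΦ : Bd Φ)
    (hΨ : Bd Ψ) : |pot (uT τ) Ψ - pot (uT τ) Φ| ≤
      n ^ 2 * τ * (t * nsq (fun x => Ψ x - Φ x) + (nsq Ψ + nsq Φ) / 2 / t) := by
  have i1 := (hΨ.sub hΦ).sq.int.const_mul t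
  have i2 := (hΨ.sq.add hΦ.sq).int
  have i3 := (i2.div_const 2).div_const t
  unfold pot nsq
  rw [← integral_sub (int_uT τ hΨ.sq) (int_uT τ hΦ.sq), ← integral_add hΨ.sq.int hΦ.sq.int,
    ← integral_div, ← integral_div, ← integral_const_mul, ← integral_add i1 i3,
    ← integral_const_mul, ← Real.norm_eq_abs]
  refine norm_integral_le_of_norm_le ((i1.add i3).const_mul _)
    (Filter.Eventually.of_forall fun x => ?_)
  rw [← mul_sub, norm_mul]
  refine mul_le_mul (uT_bd hτ x) ?_ (norm_nonneg _) (by positivity)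
  have := re_diff ht (Ψ x) (Φ x) (Ψ x) (Φ x)
  rw [re_self, re_self] at this
  refine this.trans (le_of_eq ?_)
  ring

/-! ### The forms on the projection -/

omit [Fintype ι] [DecidableEq ι] in
theorem int_wt_T (h : ONS θ) (τ : ℝ) (g : Fin n → ι) {i j : Fin n} (hij : i ≠ j) :
    ∫ x, wt τ (elPos i x - elPos j x) * tens (fun k => θ (g k)) x ^ 2 = kex θ τ (g i) (g j) := by
  have hi : Integrable (fun p : Rest n j × E3 =>
      wt τ (elPos i (ins j p.1 p.2) - elPos j (ins j p.1 p.2)) *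
        tens (fun k => θ (g k)) (ins j p.1 p.2) ^ 2) (volume.prod volume) :=
    ((mp_ins j).integrable_comp_emb (insE j).measurableEmbedding).2 (int_wt τ (bd_T2 h g) i j)
  rw [← (mp_ins j).integral_comp (insE j).measurableEmbedding, integral_prod _ hi]
  set F : E3 → ℝ := fun x => ∫ y, θ (g j) y ^ 2 * wt τ (x - y) with hF
  have e : ∀ z : Rest n j, ∫ y, wt τ (elPos i (ins j z y) - elPos j (ins j z y)) *
      tens (fun k => θ (g k)) (ins j z y) ^ 2 =
      ∏ k : {k : Fin n // k ≠ j}, θ (g k) (z k) ^ 2 * if k = ⟨i, hij⟩ then F (z k) else 1 := by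
    intro z
    rw [Finset.prod_mul_distrib, Finset.prod_ite_eq', if_pos (Finset.mem_univ _), hF,
      ← integral_const_mul]
    refine integral_congr_ae (Filter.Eventually.of_forall fun y => ?_)
    simp only [tens_ins, elPos_ins, elPos_ins_ne hij, Finset.prod_pow]
    ring
  simp only [e]
  rw [integral_fintype_prod_volume_eq_prod (fun (k : {k : Fin n // k ≠ j}) (y : E3) =>
    θ (g k) y ^ 2 * if k = ⟨i, hij⟩ then F y else 1),
    Finset.prod_eq_single ⟨i, hij⟩ (fun k _ hk => by simp [hk, h.norm]) (by simp)]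
  simp only [if_true, hF, kex, ← integral_const_mul, mul_assoc]

omit [DecidableEq ι] in
theorem pot_prj (h : ONS θ) (τ : ℝ) (c : (Fin n → ι) → ℂ) :
    pot (uT τ) (prj θ c) = e2 (kex θ τ) c := by
  simp only [pot, prj_sq h, Finset.mul_sum, mul_left_comm (uT τ _)]
  rw [integral_finsetSum _ fun g _ => (int_uT τ (bd_T2 h g)).const_mul _]
  refine Finset.sum_congr rfl fun g _ => ?_
  rw [integral_const_mul, mul_comm]
  congr 1
  simp only [uT_mul τ fun x => tens (fun i => θ (g i)) x ^ 2]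
  rw [integral_finsetSum _ fun i _ => integrable_finsetSum _ fun j _ =>
    (int_wt τ (bd_T2 h g) i j).const_mul _]
  refine Finset.sum_congr rfl fun i _ => ?_
  rw [integral_finsetSum _ fun j _ => (int_wt τ (bd_T2 h g) i j).const_mul _]
  refine Finset.sum_congr rfl fun j _ => ?_
  rw [integral_const_mul]
  split_ifs with hij
  · rw [one_mul, int_wt_T h τ g hij.ne]
  · rw [zero_mul]

theorem coef_prj (h : ONS θ) (c : (Fin n → ι) → ℂ) (i : Fin n) (z : Rest n i) (a : ι) :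
    coef θ (fun y => prj θ c (ins i z y)) a =
      ∑ g, if a = g i then c g * (∏ k : {k : Fin n // k ≠ i}, θ (g k) (z k) : ℝ) else 0 := by
  have e : ∀ y, (θ a y : ℂ) * prj θ c (ins i z y) = ∑ g,
      c g * (∏ k : {k : Fin n // k ≠ i}, θ (g k) (z k) : ℝ) * ((θ a y * θ (g i) y : ℝ) : ℂ) := by
    intro y
    simp only [prj, tens_ins, Finset.mul_sum]
    refine Finset.sum_congr rfl fun g _ => ?_
    push_cast
    ring
  simp only [coef, e]
  rw [integral_finsetSum _ fun g _ => (((bd_θ h a).mul (bd_θ h (g i))).ofReal.const_mul _).int]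
  refine Finset.sum_congr rfl fun g _ => ?_
  rw [integral_const_mul, integral_complex_ofReal, orth h]
  split_ifs <;> simp

theorem aP_prj (h : ONS θ) (A : ι → ι → ℝ) (c : (Fin n → ι) → ℂ) (i : Fin n) :
    aP θ A i (prj θ c) = ∑ g, ∑ b, A (g i) b * (conj (c g) * c (update g i b)).re := by
  have e : ∀ z : Rest n i, qf A (coef θ fun y => prj θ c (ins i z y)) = ∑ g, ∑ g',
      A (g i) (g' i) * (conj (c g) * c g').re *
        ∏ k : {k : Fin n // k ≠ i}, θ (g k) (z k) * θ (g' k) (z k) := by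
    intro z
    have e1 : ∀ a b, A a b * (conj (coef θ (fun y => prj θ c (ins i z y)) a) *
        coef θ (fun y => prj θ c (ins i z y)) b).re = ∑ g, ∑ g',
        if a = g i then if b = g' i then A (g i) (g' i) * (conj (c g) * c g').re *
          ∏ k : {k : Fin n // k ≠ i}, θ (g k) (z k) * θ (g' k) (z k) else 0 else 0 := by
      intro a b
      rw [coef_prj h, coef_prj h, map_sum, Finset.sum_mul_sum, Complex.re_sum, Finset.mul_sum]
      refine Finset.sum_congr rfl fun g _ => ?_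
      rw [Complex.re_sum, Finset.mul_sum]
      refine Finset.sum_congr rfl fun g' _ => ?_
      split_ifs with ha hb
      · rw [ha, hb, Finset.prod_mul_distrib]
        generalize (∏ k : {k : Fin n // k ≠ i}, θ (g k) (z k)) = P
        generalize (∏ k : {k : Fin n // k ≠ i}, θ (g' k) (z k)) = P'
        simp
        ring
      all_goals simp
    simp only [qf, e1]
    rw [Finset.sum_congr rfl fun a _ => Finset.sum_comm, Finset.sum_comm]
    refine Finset.sum_congr rfl fun g _ => ?_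
    rw [Finset.sum_congr rfl fun a _ => Finset.sum_comm, Finset.sum_comm]
    refine Finset.sum_congr rfl fun g' _ => ?_
    simp
  simp only [aP, e]
  have hi : ∀ g g' : Fin n → ι, Integrable fun z : Rest n i =>
      A (g i) (g' i) * (conj (c g) * c g').re *
        ∏ k : {k : Fin n // k ≠ i}, θ (g k) (z k) * θ (g' k) (z k) := fun g g' =>
    (Integrable.fintype_prod (f := fun (k : {k : Fin n // k ≠ i}) y => θ (g k) y * θ (g' k) y)
      fun k => ((bd_θ h _).mul (bd_θ h _)).int).const_mul _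
  rw [integral_finsetSum _ fun g _ => integrable_finsetSum _ fun g' _ => hi g g']
  refine Finset.sum_congr rfl fun g _ => ?_
  rw [integral_finsetSum _ fun g' _ => hi g g']
  have e' : ∀ g' : Fin n → ι, ∫ z : Rest n i, A (g i) (g' i) * (conj (c g) * c g').re *
      ∏ k : {k : Fin n // k ≠ i}, θ (g k) (z k) * θ (g' k) (z k) =
      ∑ b, if g' = update g i b then A (g i) b * (conj (c g) * c g').re else 0 := by
    intro g'
    rw [integral_const_mul, integral_fintype_prod_volume_eq_prod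
      (fun (k : {k : Fin n // k ≠ i}) (y : E3) => θ (g k) y * θ (g' k) y),
      Finset.sum_eq_single (g' i) (fun b _ hb => if_neg fun e => hb (by rw [e, update_self]))
        (by simp)]
    simp only [orth h]
    split_ifs with hg
    · rw [Finset.prod_eq_one fun k _ => if_pos (by rw [hg, update_of_ne k.2]), mul_one]
    · obtain ⟨k, hk⟩ := Function.ne_iff.1 hg
      have hki : k ≠ i := fun e => hk (by rw [e, update_self])
      rw [update_of_ne hki] at hk
      rw [Finset.prod_eq_zero (Finset.mem_univ ⟨k, hki⟩) (if_neg hk.symm), mul_zero]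
  simp only [e']
  rw [Finset.sum_comm]
  simp

end Cmp

open Cmp in
theorem cmp (_hS : SliceStmt) (hK : KeyStmt) : CmpStmt := by
  intro n ι _ _ θ A τ a0 Ψ h hΨ hτ ha0 hA hr
  have bΨ : Bd Ψ := ⟨hΨ.meas, hΨ.bdd, hΨ.supp⟩
  have bP := bd_prj h (coefN θ Ψ)
  have hP := fun (Φ : Config n → ℂ) (b : Bd Φ) => (hK n ι θ Φ h ⟨b.1, b.2.1, b.2.2⟩).2.1
  have hF := (hK n ι θ Ψ h hΨ).1
  have hN : 0 ≤ nsq Ψ := integral_nonneg fun _ => sq_nonneg _
  refine opt (by positivity) (by linarith) hN fun t ht => ?_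
  have e : eF A (kex θ τ) (coefN θ Ψ) =
      ∑ i, aP θ A i (prj θ (coefN θ Ψ)) + pot (uT τ) (prj θ (coefN θ Ψ)) := by
    simp only [eF, e1, aP_prj h, pot_prj h]
  have h1 := pot_diff hτ ht bP bΨ
  rw [nsq_sub h bΨ, nsq_prj h] at h1
  have h2 : ∀ i, |aP θ A i Ψ - aP θ A i (prj θ (coefN θ Ψ))| ≤
      a0 * (t * (nsq Ψ - nF (coefN θ Ψ)) + nsq Ψ / t) := fun i => by
    refine (aP_diff h hA hr ht bP bΨ i).trans ?_
    have k1 := hP _ (bΨ.sub bP) i
    have k2 := hP _ bΨ i
    have k3 := hP _ bP i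
    rw [nsq_sub h bΨ] at k1
    rw [nsq_prj h] at k3
    gcongr
    linarith
  have h3 : (n : ℝ) ^ 2 * τ * (t * (nsq Ψ - nF (coefN θ Ψ)) + (nsq Ψ + nF (coefN θ Ψ)) / 2 / t) ≤
      n ^ 2 * τ * (t * (nsq Ψ - nF (coefN θ Ψ)) + nsq Ψ / t) := by
    gcongr
    linarith
  rw [e, add_sub_add_comm, ← Finset.sum_sub_distrib, add_mul]
  refine (abs_add_le _ _).trans (add_le_add ?_ (h1.trans h3))
  refine (Finset.abs_sum_le_sum_abs _ _).trans
    ((Finset.sum_le_card_nsmul _ _ _ fun i _ => h2 i).trans (le_of_eq ?_))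
  simp [mul_assoc]

end Crest.Agent.R338
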