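import Mathlib
import Crest.Prelude.Def_CoulombProblem

/-!
# Row 338 (S0529): definitions and interface statements, part 1

Generic calculus, the finite fermionic models, the one-body package, and the many-body reduction.
-/

noncomputable section

open MeasureTheory Function
open scoped ENNReal ComplexConjugate
open Crest.MathPhysics.ElectronicCoulomb

namespace Crest.Agent.R338

/-- Euclidean three-space. -/
abbrev E3 := EuclideanSpace ℝ (Fin 3)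

/-! ## Calculus on Euclidean spaces -/

section calculus
variable {J : Type} [Fintype J] [DecidableEq J] {F : Type} [NormedAddCommGroup F] [NormedSpace ℝ F]

/-- Partial derivative in the coordinate direction `j`. -/
def pd (j : J) (f : EuclideanSpace ℝ J → F) (x : EuclideanSpace ℝ J) : F :=
  fderiv ℝ f x (EuclideanSpace.single j (1 : ℝ))

/-- Laplacian. -/
def lap (f : EuclideanSpace ℝ J → F) (x : EuclideanSpace ℝ J) : F := ∑ j, pd j (pd j f) x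

/-- `C¹` with compact support. -/
def C1c (f : EuclideanSpace ℝ J → F) : Prop := ContDiff ℝ 1 f ∧ HasCompactSupport f

/-- Squared `L²` norm. -/
def nsq (f : EuclideanSpace ℝ J → ℂ) : ℝ := ∫ x, ‖f x‖ ^ 2

/-- Dirichlet integral. -/
def dir (f : EuclideanSpace ℝ J → ℂ) : ℝ := ∑ j, ∫ x, ‖pd j f x‖ ^ 2

/-- Potential energy. -/
def pot (V : EuclideanSpace ℝ J → ℝ) (f : EuclideanSpace ℝ J → ℂ) : ℝ := ∫ x, V x * ‖f x‖ ^ 2

end calculus

/-! ## From the Fourier definition of the energy to `C¹_c` test functions -/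

/-- The antisymmetry clause of `IsFermionic`. -/
def Antisym {n : ℕ} (Ψ : Wave n) : Prop :=
  ∀ (σ : Equiv.Perm (Fin n)) (s : Spin n) (x : Config n),
    Ψ (fun i => s (σ i)) (permConfig σ x) = ((Equiv.Perm.sign σ : ℤ) : ℂ) * Ψ s x

/-- Kinetic energy of a `C¹` function with `f, ∂f ∈ L¹ ∩ L²` (so for `C¹_c` and Schwartz functions). -/
def KinStmt : Prop := ∀ (n : ℕ) (f : Config n → ℂ), ContDiff ℝ 1 f → Integrable f → MemLp f 2 volume →
  (∀ j, Integrable (pd j f)) → (∀ j, MemLp (pd j f) 2 volume) →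
  kineticOne f = ENNReal.ofReal (dir f / 2)

/-- `C¹_c` functions are dense in the form domain. -/
def DensStmt : Prop := ∀ (n : ℕ) (f : Config n → ℂ), MemLp f 2 volume → kineticOne f < ⊤ →
  ∀ ε : ℝ, 0 < ε → ∃ g : Config n → ℂ, C1c g ∧ ∫ x, ‖f x - g x‖ ^ 2 ≤ ε ∧
    dir g / 2 ≤ (kineticOne f).toReal + ε

/-- Lower bounds need only be checked on antisymmetric `C¹_c` functions, for a potential `W' ≤ W`
that is bounded above. -/
def LowerStmt : Prop := ∀ (n : ℕ) (W W' : Config n → ℝ) (M0 lam : ℝ), Measurable W →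
  (∀ x, W' x ≤ W x) → (∀ x, W' x ≤ M0) →
  (∀ f : Config n → ℂ, C1c f → Integrable fun x => W' x * ‖f x‖ ^ 2) →
  (∀ Ψ : Wave n, (∀ s, C1c (Ψ s)) → Antisym Ψ →
    lam * ∑ s, nsq (Ψ s) ≤ ∑ s, (dir (Ψ s) / 2 + pot W' (Ψ s))) →
  InfEnergyGE W lam

/-- Upper bounds from one antisymmetric `C¹_c` trial state. -/
def UpperStmt : Prop := ∀ (n : ℕ) (W : Config n → ℝ) (lam : ℝ) (Ψ : Wave n),
  (∀ s, C1c (Ψ s)) → Antisym Ψ → (∀ s, Integrable fun x => W x * ‖Ψ s x‖ ^ 2) →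
  0 < ∑ s, nsq (Ψ s) → ∑ s, (dir (Ψ s) / 2 + pot W (Ψ s)) ≤ lam * ∑ s, nsq (Ψ s) →
  InfEnergyLE W lam

/-! ## Finite models -/

section finite
variable {ι : Type} [Fintype ι] [DecidableEq ι]

/-- Squared norm of a vector of amplitudes. -/
def n1 (c : ι → ℂ) : ℝ := ∑ a, ‖c a‖ ^ 2

/-- The quadratic form of a real matrix. -/
def qf (A : ι → ι → ℝ) (c : ι → ℂ) : ℝ := ∑ a, ∑ b, A a b * (conj (c a) * c b).re

/-- Gram matrix of a family of real vectors: `qf (gm v) c = ∑ r, ‖∑ a, v r a * c a‖ ^ 2`. -/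
def gm {ρ : Type} [Fintype ρ] (v : ρ → ι → ℝ) (a b : ι) : ℝ := ∑ r, v r a * v r b

/-- Squared norm of an `n`-particle amplitude. -/
def nF {n : ℕ} (c : (Fin n → ι) → ℂ) : ℝ := ∑ g, ‖c g‖ ^ 2

/-- One-body energy of an `n`-particle amplitude. -/
def e1 {n : ℕ} (A : ι → ι → ℝ) (c : (Fin n → ι) → ℂ) : ℝ :=
  ∑ i, ∑ g, ∑ b, A (g i) b * (conj (c g) * c (update g i b)).re

/-- Two-body (density-density) energy of an `n`-particle amplitude. -/
def e2 {n : ℕ} (K : ι → ι → ℝ) (c : (Fin n → ι) → ℂ) : ℝ :=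
  ∑ g, (∑ i, ∑ j, if i < j then K (g i) (g j) else 0) * ‖c g‖ ^ 2

/-- Energy of an `n`-particle amplitude. -/
def eF {n : ℕ} (A K : ι → ι → ℝ) (c : (Fin n → ι) → ℂ) : ℝ := e1 A c + e2 K c

/-- Antisymmetry of a spinful `n`-particle amplitude. -/
def AS {n : ℕ} (c : Spin n → (Fin n → ι) → ℂ) : Prop :=
  ∀ (σ : Equiv.Perm (Fin n)) (s : Spin n) (g : Fin n → ι),
    c (fun i => s (σ i)) (fun i => g (σ i)) = ((Equiv.Perm.sign σ : ℤ) : ℂ) * c s g

/-- The ground energy of the finite model of `n` spinful fermions is at least `lam`. -/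
def FinGE (n : ℕ) (A K : ι → ι → ℝ) (lam : ℝ) : Prop :=
  ∀ c : Spin n → (Fin n → ι) → ℂ, AS c → lam * ∑ s, nF (c s) ≤ ∑ s, eF A K (c s)

/-- The ground energy of the finite model of `n` spinful fermions is at most `lam`. -/
def FinLE (n : ℕ) (A K : ι → ι → ℝ) (lam : ℝ) : Prop :=
  ∃ c : Spin n → (Fin n → ι) → ℂ, AS c ∧ 0 < ∑ s, nF (c s) ∧
    ∑ s, eF A K (c s) ≤ lam * ∑ s, nF (c s)

/-- Interaction energy of a mode at site `a` with all the other modes. -/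
def selfK (K : ι → ι → ℝ) (a : ι) : ℝ := K a a + 2 * ∑ b ∈ Finset.univ.erase a, K a b

/-- One-body matrix of the holes. -/
def holeB (A K : ι → ι → ℝ) (a b : ι) : ℝ := -A b a - if a = b then selfK K a else 0

/-- Energy of the completely filled state. -/
def holeC (A K : ι → ι → ℝ) : ℝ := 2 * ∑ a, A a a + ∑ a, selfK K a

end finite

/-- Particle-hole duality. -/
def PHStmt : Prop := ∀ (ι : Type) [Fintype ι] [DecidableEq ι] (n k : ℕ) (A K : ι → ι → ℝ) (lam : ℝ),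
  n + k = 2 * Fintype.card ι → (∀ a b, K a b = K b a) →
  (FinGE k (holeB A K) K lam → FinGE n A K (holeC A K + lam)) ∧
  (FinLE k (holeB A K) K lam → FinLE n A K (holeC A K + lam))

/-! ## The star Hamiltonian and hole networks -/

section star
variable {κ : Type} [Fintype κ] {N R : ℕ}

/-- Squared norm on (centre) ⊗ (`N` qubits). -/
def sN (x : Fin R → (Fin N → Bool) → ℂ) : ℝ := ∑ α, ∑ y, ‖x α y‖ ^ 2

/-- The star Hamiltonian `∑ₖ |cv k|² ⊗ |lv k|²` (second factor on the qubit `lf k`). -/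
def sH (lf : κ → Fin N) (cv : κ → Fin R → ℤ) (lv : κ → Bool → ℤ)
    (x : Fin R → (Fin N → Bool) → ℂ) : ℝ :=
  ∑ k, (1 / 2) * ∑ y : Fin N → Bool,
    ‖∑ α, ∑ β : Bool, ((cv k α * lv k β : ℤ) : ℂ) * x α (update y (lf k) β)‖ ^ 2

end star

/-- Logical basis: centre basis vectors and the two basis vectors of each leaf. -/
abbrev Hv (N R : ℕ) := Fin R ⊕ (Fin N × Bool)

/-- Component of a logical basis vector. -/
def hc {N R : ℕ} : Hv N R → Fin (N + 1) := Sum.elim (fun _ => 0) fun p => p.1.succ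

/-- A hole network: components, heavy sites, values of the sites, contacts. -/
structure Net (ι κ : Type) (N R : ℕ) where
  comp : ι → Fin (N + 1)
  hv : Hv N R → ι
  val : ι → Hv N R → ℤ
  cc : κ → ι
  cl : κ → ι
  lf : κ → Fin N

namespace Net
variable {ι κ : Type} [Fintype ι] [DecidableEq ι] [Fintype κ] {N R : ℕ} (X : Net ι κ N R)

/-- Square root of the mass of a site. -/
def sw (p : ℝ) (a : ι) : ℝ := if ∃ α, X.hv α = a then 1 else √p

/-- The embedding of the logical space into the site amplitudes. -/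
def emb (p : ℝ) (x : Hv N R → ℂ) (a : ι) : ℂ := (X.sw p a : ℂ) * ∑ α, (X.val a α : ℂ) * x α

/-- The star Hamiltonian of the contacts. -/
def H (x : Fin R → (Fin N → Bool) → ℂ) : ℝ :=
  sH X.lf (fun k α => X.val (X.cc k) (Sum.inl α)) (fun k β => X.val (X.cl k) (Sum.inr (X.lf k, β))) x

/-- Combinatorial hypotheses on the network and its constraint form `T`. -/
structure OK (T : ι → ι → ℝ) (p b : ℝ) : Prop where
  hv_inj : Injective X.hv
  comp_hv : ∀ α, X.comp (X.hv α) = hc α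
  val_hv : ∀ α β, X.val (X.hv α) β = if α = β then 1 else 0
  val_comp : ∀ a α, X.val a α ≠ 0 → X.comp a = hc α
  val_sq : ∑ a, ∑ α, ((X.val a α : ℝ)) ^ 2 ≤ b
  gap : ∀ ξ : ι → ℂ, ∑ a, ‖ξ a - X.emb p (fun α => ξ (X.hv α)) a‖ ^ 2 ≤ b * qf T ξ
  ker : ∀ x, qf T (X.emb p x) = 0
  cc_inj : Injective X.cc
  cc_comp : ∀ k, X.comp (X.cc k) = 0
  cl_comp : ∀ k, X.comp (X.cl k) = (X.lf k).succ
  cc_light : ∀ k α, X.hv α ≠ X.cc k
  cl_light : ∀ k α, X.hv α ≠ X.cl k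

/-- Hypotheses on the interaction. -/
structure KOK (K : ι → ι → ℝ) (K0 kfar rep τ : ℝ) : Prop where
  symm : ∀ a b, K a b = K b a
  nonneg : ∀ a b, 0 ≤ K a b
  le : ∀ a b, K a b ≤ τ
  con : ∀ k, K (X.cc k) (X.cl k) = K0
  far : ∀ a b, X.comp a ≠ X.comp b → (∀ k, ¬ (a = X.cc k ∧ b = X.cl k)) →
    (∀ k, ¬ (b = X.cc k ∧ a = X.cl k)) → K a b ≤ kfar
  rep : ∀ α β, hc α = hc β → rep ≤ K (X.hv α) (X.hv β)

end Net

/-- Lower bound for `N + 1` holes in a network. -/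
def NetLowerStmt : Prop := ∀ (ι κ : Type) [Fintype ι] [DecidableEq ι] [Fintype κ] (N R : ℕ)
  (X : Net ι κ N R) (T K : ι → ι → ℝ) (p b K0 kfar rep τ C hi : ℝ),
  X.OK T p b → X.KOK K K0 kfar rep τ → 0 < p → p ≤ 1 → 1 ≤ b → 0 < C → 0 ≤ K0 → 0 ≤ hi →
  2 * (N + 1) * p * b ≤ 1 → p ^ 2 * K0 * hi ≤ rep → p ^ 2 * K0 * hi ≤ τ →
  (∀ x, hi * sN x ≤ X.H x) →
  FinGE (N + 1) (fun a a' => C * T a a') K
    (p ^ 2 * K0 * hi * (1 - 2 * (N + 1) * p * b) - 25 * (N + 1) ^ 5 * τ ^ 2 * b / C)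

/-- Upper bound for `N + 1` holes in a network. -/
def NetUpperStmt : Prop := ∀ (ι κ : Type) [Fintype ι] [DecidableEq ι] [Fintype κ] (N R : ℕ)
  (X : Net ι κ N R) (T K : ι → ι → ℝ) (p b K0 kfar rep τ C lo : ℝ),
  X.OK T p b → X.KOK K K0 kfar rep τ → 0 < p → p ≤ 1 → 1 ≤ b → 0 ≤ K0 → 0 ≤ kfar → 0 ≤ lo →
  2 * (N + 1) * p * b ≤ 1 →
  (∃ x, 0 < sN x ∧ X.H x ≤ lo * sN x) →
  FinLE (N + 1) (fun a a' => C * T a a') K
    (p ^ 2 * K0 * lo * (1 + 2 * (N + 1) * p * b) + (N + 1) ^ 2 * kfar)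

/-! ## The one-body package -/

section onebody
variable {ι : Type} [Fintype ι] [DecidableEq ι]

/-- Coefficients of `ψ` along the orthonormal system `θ`. -/
def coef (θ : ι → E3 → ℝ) (ψ : E3 → ℂ) (a : ι) : ℂ := ∫ x, (θ a x : ℂ) * ψ x

/-- Linear combination of the trial functions. -/
def lin (φ : ι → E3 → ℝ) (c : ι → ℂ) (x : E3) : ℂ := ∑ a, c a * (φ a x : ℂ)

/-- Truncated Coulomb kernel. -/
def wt (τ : ℝ) (x : E3) : ℝ := min (1 / ‖x‖) τ

/-- An orthonormal system of bounded functions with bounded disjoint supports. -/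
structure ONS (θ : ι → E3 → ℝ) : Prop where
  meas : ∀ a, Measurable (θ a)
  bdd : ∃ B, ∀ a x, |θ a x| ≤ B
  supp : ∃ r, ∀ a x, θ a x ≠ 0 → ‖x‖ ≤ r
  disj : ∀ a b x, a ≠ b → θ a x * θ b x = 0
  norm : ∀ a, ∫ x, θ a x ^ 2 = 1

/-- Exact truncated interaction of the orthonormal system. -/
def kex (θ : ι → E3 → ℝ) (τ : ℝ) (a b : ι) : ℝ := ∫ x, ∫ y, θ a x ^ 2 * θ b y ^ 2 * wt τ (x - y)

/-- The one-body package: the low-energy part of `-Δ/2 + V` is `E1 + A`, with gap `Γ`. -/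
structure OneBody (V : E3 → ℝ) (φ θ : ι → E3 → ℝ) (A K : ι → ι → ℝ) (E1 e Γ s τ : ℝ) : Prop where
  ons : ONS θ
  c1 : ∀ a, C1c (φ a)
  bi : ∀ a b, ∫ x, θ a x * φ b x = if a = b then 1 else 0
  gram : ∀ c, nsq (lin φ c) ≤ (1 + s) * n1 c
  lower : ∀ ψ : E3 → ℂ, C1c ψ →
    (E1 - e) * nsq ψ + qf A (coef θ ψ) + Γ * (nsq ψ - n1 (coef θ ψ)) ≤ dir ψ / 2 + pot V ψ
  upper : ∀ c, dir (lin φ c) / 2 + pot V (lin φ c) ≤ E1 * nsq (lin φ c) + qf A c + e * n1 c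
  tail : ∀ x, ∫⁻ y, ENNReal.ofReal ((1 / ‖x - y‖ - wt τ (x - y)) * ∑ a, φ a y ^ 2) ≤ ENNReal.ofReal e
  pair : ∀ a b, |kex θ τ a b - K a b| ≤ e

end onebody

/-- Potential of unit nuclei. -/
def nucV {K : ℕ} (R : Fin K → E3) (x : E3) : ℝ := ∑ α, -(1 / ‖x - R α‖)

/-! ## Slices of configuration space -/

section slices
variable {n : ℕ}

/-- Positions of all electrons but the `i`-th. -/
abbrev Rest (n : ℕ) (i : Fin n) := {j : Fin n // j ≠ i} → E3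

/-- Configuration with electron `i` at `y` and the others given by `z`. -/
def ins (i : Fin n) (z : Rest n i) (y : E3) : Config n :=
  WithLp.toLp 2 fun ic => if h : ic.1 = i then y ic.2 else z ⟨ic.1, h⟩ ic.2

/-- Tensor product of one-particle functions. -/
def tens (f : Fin n → E3 → ℝ) (x : Config n) : ℝ := ∏ i, f i (elPos i x)

/-- Bounded measurable functions with bounded support. -/
structure Bdd (Ψ : Config n → ℂ) : Prop where
  meas : Measurable Ψ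
  bdd : ∃ B, ∀ x, ‖Ψ x‖ ≤ B
  supp : ∃ r, ∀ x, Ψ x ≠ 0 → ‖x‖ ≤ r

variable {ι : Type} [Fintype ι] [DecidableEq ι]

/-- `n`-particle coefficients. -/
def coefN (θ : ι → E3 → ℝ) (Ψ : Config n → ℂ) (g : Fin n → ι) : ℂ :=
  ∫ x, (tens (fun i => θ (g i)) x : ℂ) * Ψ x

/-- Squared norm of the projection in the slot `i`. -/
def nP (θ : ι → E3 → ℝ) (i : Fin n) (Ψ : Config n → ℂ) : ℝ :=
  ∫ z : Rest n i, n1 (coef θ fun y => Ψ (ins i z y))

/-- The form `A` in the slot `i`. -/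
def aP (θ : ι → E3 → ℝ) (A : ι → ι → ℝ) (i : Fin n) (Ψ : Config n → ℂ) : ℝ :=
  ∫ z : Rest n i, qf A (coef θ fun y => Ψ (ins i z y))

/-- Truncated electron-electron repulsion. -/
def uT (τ : ℝ) (x : Config n) : ℝ := ∑ i, ∑ j, if i < j then wt τ (elPos i x - elPos j x) else 0

end slices

/-- Slicing of configuration space. -/
def SliceStmt : Prop := ∀ n : ℕ,
  (∀ i : Fin n, MeasurePreserving (fun p : Rest n i × E3 => ins i p.1 p.2)
    ((volume : Measure (Rest n i)).prod volume) volume ∧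
    MeasurableEmbedding fun p : Rest n i × E3 => ins i p.1 p.2) ∧
  (∀ f : Fin n → E3 → ℝ, ∫ x, tens f x = ∏ i, ∫ y, f i y) ∧
  (∀ f : Fin n → E3 → ℝ, (∀ i, Integrable (f i)) → Integrable (tens f)) ∧
  (∀ σ : Equiv.Perm (Fin n), MeasurePreserving (permConfig σ : Config n → Config n) volume volume ∧
    MeasurableEmbedding (permConfig σ : Config n → Config n)) ∧
  (∀ (i : Fin n) (z : Rest n i) (Ψ : Config n → ℂ), C1c Ψ → C1c (fun y => Ψ (ins i z y)) ∧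
    ∀ c y, pd c (fun y => Ψ (ins i z y)) y = pd (i, c) Ψ (ins i z y)) ∧
  (∀ (K : ℕ) (R : Fin K → E3) (τ : ℝ) (f : Config n → ℝ), Measurable f → (∃ B, ∀ x, |f x| ≤ B) →
    (∃ r, ∀ x, f x ≠ 0 → ‖x‖ ≤ r) →
    (∀ i, Integrable fun x => nucV R (elPos i x) * f x) ∧
    (∀ i j, Integrable fun x => 1 / ‖elPos i x - elPos j x‖ * f x) ∧
    (∀ i j, Integrable fun x => wt τ (elPos i x - elPos j x) * f x))

/-- Tensorisation of the projection defect. -/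
def KeyStmt : Prop := ∀ (n : ℕ) (ι : Type) [Fintype ι] [DecidableEq ι] (θ : ι → E3 → ℝ)
  (Ψ : Config n → ℂ), ONS θ → Bdd Ψ →
  nF (coefN θ Ψ) ≤ nsq Ψ ∧ (∀ i, nP θ i Ψ ≤ nsq Ψ) ∧
  nsq Ψ - nF (coefN θ Ψ) ≤ ∑ i, (nsq Ψ - nP θ i Ψ)

/-- Comparison of the bounded forms with the finite model. -/
def CmpStmt : Prop := ∀ (n : ℕ) (ι : Type) [Fintype ι] [DecidableEq ι] (θ : ι → E3 → ℝ)
  (A : ι → ι → ℝ) (τ a0 : ℝ) (Ψ : Config n → ℂ), ONS θ → Bdd Ψ → 0 ≤ τ → 0 ≤ a0 →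
  (∀ a b, A a b = A b a) → (∀ a, ∑ b, |A a b| ≤ a0) →
  |(∑ i, aP θ A i Ψ + pot (uT τ) Ψ) - eF A (kex θ τ) (coefN θ Ψ)| ≤
    2 * (n * a0 + n ^ 2 * τ) * √(nsq Ψ - nF (coefN θ Ψ)) * √(nsq Ψ)

/-- Many-body lower bound. -/
def MBLowerStmt : Prop := ∀ (n : ℕ) (ι : Type) [Fintype ι] [DecidableEq ι] (K0 : ℕ) (R : Fin K0 → E3)
  (φ θ : ι → E3 → ℝ) (A K : ι → ι → ℝ) (E1 e Γ s τ a0 lam : ℝ),
  OneBody (nucV R) φ θ A K E1 e Γ s τ → 0 ≤ e → 0 < Γ → 0 ≤ τ → 0 ≤ a0 →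
  (∀ a b, A a b = A b a) → (∀ a, ∑ b, |A a b| ≤ a0) → lam ≤ Γ / 2 → FinGE n A K lam →
  InfEnergyGE (unitNucleiPotential (n := n) R)
    (n * E1 + lam - (n + n ^ 2) * e - 2 * (n * a0 + n ^ 2 * τ) ^ 2 / Γ)

/-- Many-body upper bound. -/
def MBUpperStmt : Prop := ∀ (n : ℕ) (ι : Type) [Fintype ι] [DecidableEq ι] (K0 : ℕ) (R : Fin K0 → E3)
  (φ θ : ι → E3 → ℝ) (A K : ι → ι → ℝ) (E1 e Γ s τ a0 lam : ℝ),
  OneBody (nucV R) φ θ A K E1 e Γ s τ → 0 ≤ e → 0 ≤ s → 0 ≤ τ → 0 ≤ a0 →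
  (∀ a b, A a b = A b a) → (∀ a, ∑ b, |A a b| ≤ a0) → 2 * n * s ≤ 1 → FinLE n A K lam →
  InfEnergyLE (unitNucleiPotential (n := n) R)
    (n * E1 + lam + (n + 2 * n ^ 2) * e + (2 * (n * a0 + n ^ 2 * τ) + |lam|) * √(2 * n * s))

end Crest.Agent.R338
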