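import Crest.Agent.R338.Defs

/-!
# Row 338: definitions and interface statements, part 4 (from circuits to star Hamiltonians)
-/

noncomputable section

open Function
open Crest.Quantum.GateCircuit Crest.Quantum.QMA

namespace Crest.Agent.R338

/-- A star instance: `N` leaves (qubits), centre of dimension `R`, `S` slots per leaf; the centre
functional of slot `σ` of leaf `i` contains `+x α` if `pick i σ (2α)` and `-x α` if
`pick i σ (2α+1)`; the leaf functional is `lvT (σ % 5)`. -/
structure Star where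
  N : ℕ
  R : ℕ
  S : ℕ
  pick : ℕ → ℕ → ℕ → Bool
  lo : ℚ
  hi : ℚ

/-- The five leaf functionals `y₀`, `-(y₀+y₁)`, `y₁`, `-y₁`, `y₁-y₀`. -/
def lvT (j : ℕ) (β : Bool) : ℤ :=
  if j = 0 then (if β then 0 else 1) else if j = 1 then -1 else if j = 2 then (if β then 1 else 0)
  else if j = 3 then (if β then -1 else 0) else (if β then 1 else -1)

namespace Star
variable (St : Star)

/-- Centre functional. -/
def cv (i σ α : ℕ) : ℤ :=
  (if St.pick i σ (2 * α) then 1 else 0) - if St.pick i σ (2 * α + 1) then 1 else 0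

/-- The Hamiltonian. -/
def H (x : Fin St.R → (Fin St.N → Bool) → ℂ) : ℝ :=
  sH (κ := Fin St.N × Fin St.S) (fun k => k.1) (fun k α => St.cv k.1 k.2 α)
    (fun k β => lvT (k.2 % 5) β) x

/-- YES instances. -/
def Yes : Prop := ∃ x, 0 < sN x ∧ St.H x ≤ St.lo * sN x

/-- NO instances. -/
def No : Prop := ∀ x, St.hi * sN x ≤ St.H x

/-- Size. -/
def size : ℕ := St.N + St.R + St.S + 10

end Star

/-- Raw description of a verifier: wires, witness wires, gates (primitive, controls, target), output. -/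
abbrev Raw := ℕ × ℕ × List (ℕ × List ℕ × ℕ) × ℕ

/-- Number of a primitive. -/
def primNum : Prim → ℕ
  | Prim.x => 0 | Prim.h => 1 | Prim.s => 2 | Prim.sdg => 3 | Prim.t => 4 | Prim.tdg => 5

/-- Raw description of a gate. -/
def rawGate {N : ℕ} : Gate N 0 → ℕ × List ℕ × ℕ
  | Gate.ctrl g cs t => (primNum g, cs.map Fin.val, t)
  | Gate.oracle _ t => (0, [], t)

/-- Raw description of a verifier. -/
def rawOf (V : VCirc) : Raw := (V.N, V.w, V.gates.map rawGate, V.out)

/-- An elementary step: leaf, basis (`true` = `X` basis), counter shifts and phases (on counter `0`)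
for the two outcomes. -/
abbrev Step := ℕ × Bool × ℕ × ℕ × ℕ × ℕ

/-- Counter shift of a step. -/
def Step.sh (st : Step) (β : Bool) : ℕ := if β then st.2.2.2.1 else st.2.2.1

/-- Phase exponent of a step. -/
def Step.ph (st : Step) (β : Bool) : ℕ := if β then st.2.2.2.2.2 else st.2.2.2.2.1

/-- Type (index of the leaf functional) of an outcome of a step. -/
def Step.ty (st : Step) (β : Bool) : ℕ :=
  if st.2.1 then (if β then 4 else 1) else (if β then 2 else 0)

/-- Steps of a primitive on the target `t` (`H = e^{-iπ/4} S √X S`). -/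
def primSteps (g t : ℕ) : List Step :=
  if g = 0 then [(t, true, 0, 0, 0, 4)]
  else if g = 1 then [(t, false, 0, 0, 0, 2), (t, true, 0, 0, 0, 2), (t, false, 0, 0, 7, 1)]
  else [(t, false, 0, 0, 0, if g = 2 then 2 else if g = 3 then 6 else if g = 4 then 1 else 7)]

/-- Steps of a gate: count the controls that are off, act, uncount. The counter lives in
`ZMod (m0 + 1)`. -/
def gateSteps (m0 : ℕ) (g : ℕ × List ℕ × ℕ) : List Step :=
  (g.2.1.map fun c => (c, false, 1, 0, 0, 0)) ++ primSteps g.1 g.2.2 ++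
    g.2.1.map fun c => (c, false, m0, 0, 0, 0)

namespace Raw
variable (r : Raw)

/-- Total number of controls. -/
def m0 : ℕ := (r.2.2.1.map fun g => g.2.1.length).sum

/-- All steps. -/
def steps : List Step := r.2.2.1.flatMap (gateSteps r.m0)

/-- Number of steps. -/
def T : ℕ := r.steps.length

/-- Dimension of the centre: time, counter, phase register. -/
def R : ℕ := (r.T + 1) * (r.m0 + 1) * 4

/-- Multiplicity of the penalty terms. -/
def J : ℕ := 40 * (r.T + 1)

/-- Index of the basis vector `(t, c, p)`. -/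
def idx (t c p : ℕ) : ℕ := (t * (r.m0 + 1) + c) * 4 + p

/-- Row carrying `-(ω^a x) (t, c, p)`. -/
def neg (t c p a : ℕ) : ℕ :=
  if (p + a) % 8 < 4 then 2 * r.idx t c ((p + a) % 4) + 1 else 2 * r.idx t c ((p + a) % 4)

/-- The rows picked by the term of kind `q`, basis vector `(t, c, p)`, type `j` on leaf `i`. -/
def pk (i q t c p j ρ : ℕ) : Bool :=
  if q < r.J then
    decide (t < r.T) && decide (i = (r.steps.getD t (0, false, 0, 0, 0, 0)).1) &&
      ((decide (j = Step.ty (r.steps.getD t (0, false, 0, 0, 0, 0)) false) &&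
        (decide (ρ = 2 * r.idx (t + 1)
            ((c + Step.sh (r.steps.getD t (0, false, 0, 0, 0, 0)) false) % (r.m0 + 1)) p) ||
          decide (ρ = r.neg t c p
            (if c = 0 then Step.ph (r.steps.getD t (0, false, 0, 0, 0, 0)) false else 0)))) ||
      (decide (j = Step.ty (r.steps.getD t (0, false, 0, 0, 0, 0)) true) &&
        (decide (ρ = 2 * r.idx (t + 1)
            ((c + Step.sh (r.steps.getD t (0, false, 0, 0, 0, 0)) true) % (r.m0 + 1)) p) ||
          decide (ρ = r.neg t c p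
            (if c = 0 then Step.ph (r.steps.getD t (0, false, 0, 0, 0, 0)) true else 0)))))
  else if q < 2 * r.J then
    decide (t = 0) && decide ((c ≠ 0 ∧ i = 0 ∧ (j = 0 ∨ j = 2)) ∨ (r.2.1 ≤ i ∧ j = 2)) &&
      decide (ρ = 2 * r.idx t c p)
  else if q = 2 * r.J then
    decide (t = r.T) && decide (i = r.2.2.2) && decide (j = 0) && decide (ρ = 2 * r.idx t c p)
  else
    decide (i = 0) && decide (j = 0 ∨ j = 2) &&
      (decide (ρ = 2 * r.idx t c p) || decide (ρ = r.neg t c p 1))

/-- Rational approximation of `√2` from below with precision `1 / (10 (T + 1))`. -/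
def s2 : ℚ := (Nat.sqrt (2 * (10 * (r.T + 1)) ^ 2) : ℚ) / (10 * (r.T + 1))

end Raw

/-- The star instance of a verifier. -/
def starOf (r : Raw) : Star where
  N := r.1
  R := r.R
  S := 5 * ((2 * r.J + 2) * r.R)
  pick i σ ρ := r.pk i (σ / 5 / r.R) (σ / 5 % r.R / 4 / (r.m0 + 1)) (σ / 5 % r.R / 4 % (r.m0 + 1))
    (σ / 5 % r.R % 4) (σ % 5) ρ
  lo := 2 - r.s2 + 1 / (3 * (r.T + 1))
  hi := 2 - r.s2 - 1 / (10 * (r.T + 1)) + 3 / (5 * (r.T + 1))

/-! ## Semantics in an eigensector of the phase register -/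

section sector
variable {N m0 : ℕ}

/-- Squared norm of a state. -/
def qn (ψ : QVec N) : ℝ := ∑ y, ‖ψ y‖ ^ 2

/-- Projection on the outcome `β` in the `Z` basis (`xb = false`) or `X` basis (`xb = true`). -/
def prj (xb β : Bool) (i : Fin N) (ψ : QVec N) : QVec N := fun y =>
  if xb then (ψ y + (if β then -1 else 1) * ψ (update y i (!y i))) / 2
  else if y i = β then ψ y else 0

/-- Action of a step when the phase generator acts as `lam`. -/
def stepU (lam : ℂ) (st : Step) (z : ZMod (m0 + 1) → QVec N) : ZMod (m0 + 1) → QVec N :=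
  if h : st.1 < N then fun c => ∑ β : Bool, prj st.2.1 β ⟨st.1, h⟩
    ((lam ^ if c - (st.sh β : ℕ) = 0 then st.ph β else 0) • z (c - (st.sh β : ℕ)))
  else z

/-- The state `ψ` with counter `0`. -/
def emb0 (ψ : QVec N) : ZMod (m0 + 1) → QVec N := fun c => if c = 0 then ψ else 0

/-- The primitive eighth root of unity. -/
def om8 : ℂ := Complex.exp (Real.pi / 4 * Complex.I)

variable (r : Raw)

/-- Norm in a sector. -/
def secN (z : Fin (r.T + 1) → ZMod (r.m0 + 1) → QVec N) : ℝ := ∑ t, ∑ c, qn (z t c)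

/-- Propagation penalty in a sector. -/
def secP (lam : ℂ) (z : Fin (r.T + 1) → ZMod (r.m0 + 1) → QVec N) : ℝ :=
  ∑ t : Fin r.T, ∑ c, qn (z t.succ c - stepU lam (r.steps.get t) (z t.castSucc) c)

/-- Input penalty in a sector. -/
def secI (z : Fin (r.T + 1) → ZMod (r.m0 + 1) → QVec N) : ℝ :=
  ∑ c, ∑ y : Fin N → Bool,
    if c ≠ 0 ∨ ∃ i : Fin N, r.2.1 ≤ (i : ℕ) ∧ y i = true then ‖z 0 c y‖ ^ 2 else 0

/-- Output penalty in a sector. -/
def secO (out : Fin N) (z : Fin (r.T + 1) → ZMod (r.m0 + 1) → QVec N) : ℝ :=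
  ∑ c, ∑ y : Fin N → Bool, if y out = false then ‖z (Fin.last _) c y‖ ^ 2 else 0

end sector

/-- The steps implement the circuit. -/
def ASemStmt : Prop :=
  (∀ (N m0 : ℕ) (lam : ℂ) (st : Step), ‖lam‖ = 1 →
    (∀ z z' : ZMod (m0 + 1) → QVec N, stepU lam st (z - z') = stepU lam st z - stepU lam st z') ∧
    ∀ z : ZMod (m0 + 1) → QVec N, ∑ c, qn (stepU lam st z c) = ∑ c, qn (z c)) ∧
  ∀ V : VCirc, V.WellFormed → (∀ st ∈ (rawOf V).steps, st.1 < V.N) ∧ ∀ ψ : QVec V.N,
    (rawOf V).steps.foldl (fun z st => stepU om8 st z) (emb0 (m0 := (rawOf V).m0) ψ) =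
      emb0 (runGates (fun _ => false) V.gates ψ)

/-- Kitaev's estimates in the sector `ω = e^{iπ/4}`. -/
def AKitStmt : Prop := ∀ (V : VCirc) (hV : V.WellFormed),
  ((∃ ψ : QVec V.w, IsWitness ψ ∧ 2 / 3 ≤ acceptProb V hV.1 ψ) →
    ∃ z : Fin ((rawOf V).T + 1) → ZMod ((rawOf V).m0 + 1) → QVec V.N, 0 < secN (rawOf V) z ∧
      secP (rawOf V) om8 z = 0 ∧ secI (rawOf V) z = 0 ∧
      secO (rawOf V) V.out z ≤ 1 / (3 * ((rawOf V).T + 1)) * secN (rawOf V) z) ∧
  ((∀ ψ : QVec V.w, IsWitness ψ → acceptProb V hV.1 ψ ≤ 1 / 3) →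
    ∀ z : Fin ((rawOf V).T + 1) → ZMod ((rawOf V).m0 + 1) → QVec V.N,
      3 / (5 * ((rawOf V).T + 1)) * secN (rawOf V) z ≤
        40 * ((rawOf V).T + 1) * (secP (rawOf V) om8 z + secI (rawOf V) z) + secO (rawOf V) V.out z)

/-- Completeness of the star Hamiltonian. -/
def AYesStmt : Prop := ∀ (V : VCirc) (hV : V.WellFormed),
  (∃ ψ : QVec V.w, IsWitness ψ ∧ 2 / 3 ≤ acceptProb V hV.1 ψ) → (starOf (rawOf V)).Yes

/-- Soundness of the star Hamiltonian. -/
def ANoStmt : Prop := ∀ (V : VCirc) (hV : V.WellFormed),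
  (∀ ψ : QVec V.w, IsWitness ψ → acceptProb V hV.1 ψ ≤ 1 / 3) → (starOf (rawOf V)).No

end Crest.Agent.R338
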