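import Crest.Agent.R338.DefsP
import Crest.Agent.R338.DefsA

/-!
# Row 338: definitions and interface statements, part 5 (the crossbar layout of a star instance)

Sites `(0,κ,ρ)` = row segment `X κ ρ`, `(1,κ,ρ)` = tile centre `S κ ρ`, `(2,κ,ρ)` = column segment
`Y κ ρ`, `(3,κ,j)` = leaf segment `L κ j`.  Constraints `(kind, κ, ρ)` of arity `≤ 3`; a resistor is a
pair of sites of a constraint.
-/

noncomputable section

open Function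

namespace Crest.Agent.R338

/-- Raw codes of sites and constraints. -/
abbrev Cd := ℕ × ℕ × ℕ

namespace Star
variable (St : Star)

/-- Number of columns. -/
def NC : ℕ := St.N * (St.S + 1)

/-- Number of rows. -/
def R2 : ℕ := 2 * St.R

/-- Type of a column (`5` for the home column of a leaf). -/
def ty (κ : ℕ) : ℕ := if κ % (St.S + 1) = 0 then 5 else (κ % (St.S + 1) - 1) % 5

/-- Rows added in a column. -/
def pk (κ ρ : ℕ) : Bool :=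
  decide (κ % (St.S + 1) ≠ 0) && St.pick (κ / (St.S + 1)) (κ % (St.S + 1) - 1) ρ

/-- Valid site codes. -/
def vs (a : Cd) : Prop :=
  (a.1 = 0 ∧ a.2.1 ≤ St.NC ∧ a.2.2 < St.R2) ∨ (a.1 = 1 ∧ a.2.1 < St.NC ∧ a.2.2 < St.R2) ∨
  (a.1 = 2 ∧ a.2.1 < St.NC ∧ a.2.2 ≤ St.R2) ∨ (a.1 = 3 ∧ a.2.1 < St.NC ∧ a.2.2 < 5)

instance (a : Cd) : Decidable (St.vs a) := by unfold vs; infer_instance

/-- The sites. -/
def sites : Finset Cd :=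
  (Finset.range 4 ×ˢ Finset.range (St.NC + 1) ×ˢ Finset.range (St.R2 + 5)).filter St.vs

/-- Valid constraint codes. -/
def vc (q : Cd) : Prop :=
  (q.1 ≤ 2 ∧ q.2.1 < St.NC ∧ q.2.2 < St.R2) ∨ (q.1 = 3 ∧ q.2.1 < St.NC ∧ q.2.2 = 0) ∨
  (q.1 = 4 ∧ q.2.1 = 0 ∧ q.2.2 < St.R) ∨
  (q.1 = 5 ∧ q.2.1 < St.NC ∧ q.2.1 % (St.S + 1) ≠ 0 ∧ q.2.2 < 5) ∨
  (6 ≤ q.1 ∧ q.1 ≤ 8 ∧ q.2.1 < St.NC ∧ q.2.1 % (St.S + 1) = 0 ∧ q.2.2 = 0)

instance (q : Cd) : Decidable (St.vc q) := by unfold vc; infer_instance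

/-- The constraints. -/
def cons : Finset Cd :=
  (Finset.range 9 ×ˢ Finset.range (St.NC + 1) ×ˢ Finset.range (St.R2 + 5)).filter St.vc

/-- Arity of a constraint. -/
def ar (q : Cd) : ℕ :=
  if q.1 = 2 then (if St.pk q.2.1 q.2.2 then 2 else 3)
  else if q.1 = 3 then 1 else if q.1 = 4 ∨ q.1 = 5 ∨ q.1 = 8 then 2 else 3

end Star

/-- The `j`-th site of a constraint. -/
def vtx (q : Cd) (j : ℕ) : Cd :=
  if q.1 = 0 then (if j = 0 then (0, q.2.1, q.2.2) else if j = 1 then (2, q.2.1, q.2.2) else (1, q.2.1, q.2.2))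
  else if q.1 = 1 then
    (if j = 0 then (2, q.2.1, q.2.2) else if j = 1 then (1, q.2.1, q.2.2) else (0, q.2.1 + 1, q.2.2))
  else if q.1 = 2 then
    (if j = 0 then (1, q.2.1, q.2.2) else if j = 1 then (2, q.2.1, q.2.2 + 1) else (0, q.2.1, q.2.2))
  else if q.1 = 3 then (2, q.2.1, 0)
  else if q.1 = 4 then (if j = 0 then (0, 0, 2 * q.2.2) else (0, 0, 2 * q.2.2 + 1))
  else if q.1 = 5 then (if j = 0 then (3, q.2.1 - 1, q.2.2) else (3, q.2.1, q.2.2))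
  else if q.1 = 6 then (3, q.2.1, if j = 0 then 0 else if j = 1 then 1 else 2)
  else if q.1 = 7 then (3, q.2.1, if j = 0 then 0 else if j = 1 then 3 else 4)
  else (3, q.2.1, if j = 0 then 2 else 3)

/-- First index of the pair `pr` (`0 ↦ (0,1)`, `1 ↦ (0,2)`, `2 ↦ (1,2)`). -/
def pr1 (pr : ℕ) : ℕ := if pr = 2 then 1 else 0

/-- Second index of the pair `pr`. -/
def pr2 (pr : ℕ) : ℕ := if pr = 0 then 1 else 2

namespace Star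
variable (St : Star) (Dh : ℕ)

/-- The resistors. -/
def ress : Finset (Cd × ℕ) := (St.cons ×ˢ Finset.range 3).filter fun r => pr2 r.2 < St.ar r.1

/-- Heavy sites. -/
def heavy (a : Cd) : Prop :=
  (a.1 = 0 ∧ a.2.1 = 0 ∧ a.2.2 % 2 = 0) ∨
  (a.1 = 3 ∧ a.2.1 % (St.S + 1) = 0 ∧ (a.2.2 = 0 ∨ a.2.2 = 2))

instance (a : Cd) : Decidable (St.heavy a) := by unfold heavy; infer_instance

end Star

/-- Abscissa of a column. -/
def Xc (Dh κ : ℕ) : ℤ := 2 * (Dh : ℤ) * (κ + 1)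

/-- Ordinate of a row. -/
def Yc (ρ : ℕ) : ℤ := 8 * (ρ : ℤ) + 8

namespace Star
variable (St : Star) (Dh : ℕ)

/-- Ordinate of the lowest contact. -/
def Y0 : ℤ := Yc St.R2 + 2 * Dh

/-- Ordinate of a leaf row. -/
def yL (j : ℕ) : ℤ := St.Y0 Dh + 12 + 2 * j

/-- Grid size. -/
def GG : ℕ := 2 * Dh * (St.NC + 3) + 8 * St.R2 + 40

/-- Cells of a site. -/
def cel (a : Cd) (c : ℤ × ℤ) : Prop :=
  (a.1 = 0 ∧ ((c.1 = Xc Dh a.2.1 - 3 ∧ Yc a.2.2 - 3 ≤ c.2 ∧ c.2 ≤ Yc a.2.2 + 3) ∨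
    (Xc Dh a.2.1 - 2 * Dh + 3 ≤ c.1 ∧ c.1 ≤ Xc Dh a.2.1 - 3 ∧ c.2 = Yc a.2.2) ∨
    (c.1 = Xc Dh a.2.1 - 2 * Dh + 3 ∧ Yc a.2.2 - 3 ≤ c.2 ∧ c.2 ≤ Yc a.2.2))) ∨
  (a.1 = 1 ∧ Xc Dh a.2.1 - 1 ≤ c.1 ∧ c.1 ≤ Xc Dh a.2.1 + 1 ∧ Yc a.2.2 - 1 ≤ c.2 ∧ c.2 ≤ Yc a.2.2 + 1) ∨
  (a.1 = 2 ∧ ((Xc Dh a.2.1 - 1 ≤ c.1 ∧ c.1 ≤ Xc Dh a.2.1 + 1 ∧ c.2 = Yc a.2.2 - 3) ∨
    (Xc Dh a.2.1 - 1 ≤ c.1 ∧ c.1 ≤ Xc Dh a.2.1 ∧ c.2 = Yc a.2.2 - 5) ∨
    (c.1 = Xc Dh a.2.1 ∧ Yc a.2.2 - 5 ≤ c.2 ∧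
      c.2 ≤ if a.2.2 < St.R2 then Yc a.2.2 - 3 else St.Y0 Dh + 2 * St.ty a.2.1))) ∨
  (a.1 = 3 ∧ ((Xc Dh a.2.1 - Dh - (if St.ty a.2.1 = 5 ∧ a.2.2 ≠ 0 then 6 else 8) ≤ c.1 ∧
      c.1 ≤ Xc Dh a.2.1 + Dh - 10 ∧ c.2 = St.yL Dh a.2.2) ∨
    (St.ty a.2.1 = 5 ∧ a.2.2 = 0 ∧ c.1 = Xc Dh a.2.1 - Dh - 8 ∧ St.yL Dh 0 ≤ c.2 ∧ c.2 ≤ St.yL Dh 4)))

instance (a : Cd) (c : ℤ × ℤ) : Decidable (St.cel Dh a c) := by unfold cel; infer_instance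

/-- Dot of a site. -/
def dot (a : Cd) : ℤ × ℤ :=
  if a.1 = 0 then (Xc Dh a.2.1 - 5, Yc a.2.2)
  else if a.1 = 1 then (Xc Dh a.2.1, Yc a.2.2)
  else if a.1 = 2 then
    (Xc Dh a.2.1, if a.2.2 < St.R2 then Yc a.2.2 - 4 else St.Y0 Dh + 2 * St.ty a.2.1)
  else (if a.2.2 = St.ty a.2.1 then Xc Dh a.2.1 else Xc Dh a.2.1 - Dh, St.yL Dh a.2.2)

/-- Position of a resistor. -/
def pos (r : Cd × ℕ) : ℤ × ℤ :=
  if r.1.1 = 0 then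
    (if r.2 = 0 then (Xc Dh r.1.2.1 - 2, Yc r.1.2.2 - 3)
     else if r.2 = 1 then (Xc Dh r.1.2.1 - 2, Yc r.1.2.2 - 1) else (Xc Dh r.1.2.1 - 1, Yc r.1.2.2 - 2))
  else if r.1.1 = 1 then
    (if r.2 = 0 then (Xc Dh r.1.2.1 + 1, Yc r.1.2.2 - 2)
     else if r.2 = 1 then (Xc Dh r.1.2.1 + 2, Yc r.1.2.2 - 3) else (Xc Dh r.1.2.1 + 2, Yc r.1.2.2))
  else if r.1.1 = 2 then
    (if r.2 = 0 then (Xc Dh r.1.2.1, Yc r.1.2.2 + 2)
     else if r.2 = 1 then (Xc Dh r.1.2.1 - 2, Yc r.1.2.2 + 1) else (Xc Dh r.1.2.1 - 2, Yc r.1.2.2 + 3))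
  else if r.1.1 = 4 then (Xc Dh 0 - 3, Yc (2 * r.1.2.2) + 4)
  else if r.1.1 = 5 then (Xc Dh r.1.2.1 - Dh - 9, St.yL Dh r.1.2.2)
  else if r.1.1 = 6 then
    (if r.2 = 0 then (Xc Dh r.1.2.1 - Dh - 7, St.yL Dh 1)
     else if r.2 = 1 then (Xc Dh r.1.2.1 - Dh - 7, St.yL Dh 2)
     else (Xc Dh r.1.2.1 - Dh - 5, St.yL Dh 1 + 1))
  else if r.1.1 = 7 then
    (if r.2 = 0 then (Xc Dh r.1.2.1 - Dh - 7, St.yL Dh 3)
     else if r.2 = 1 then (Xc Dh r.1.2.1 - Dh - 7, St.yL Dh 4)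
     else (Xc Dh r.1.2.1 - Dh - 5, St.yL Dh 3 + 1))
  else (Xc Dh r.1.2.1 - Dh - 5, St.yL Dh 2 + 1)

end Star

/-- Vertical resistors. -/
def verR (r : Cd × ℕ) : Bool :=
  decide ((r.1.1 = 0 ∧ r.2 = 2) ∨ (r.1.1 = 1 ∧ r.2 = 0) ∨ (r.1.1 = 2 ∧ r.2 = 0) ∨ r.1.1 = 4 ∨
    (r.1.1 = 6 ∧ r.2 = 2) ∨ (r.1.1 = 7 ∧ r.2 = 2) ∨ r.1.1 = 8)

/-- Value of a row segment. -/
def valX (ρ α : ℕ) : ℤ := if ρ / 2 = α then (if ρ % 2 = 0 then 1 else -1) else 0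

namespace Star
variable (St : Star) (Dh : ℕ)

/-- Value of a column segment. -/
def valY (κ ρ α : ℕ) : ℤ := ∑ ρ' ∈ Finset.range ρ, if St.pk κ ρ' then valX ρ' α else 0

/-- Values of the sites in terms of the logical basis. -/
def val (a : Cd) : Hv St.N St.R → ℤ
  | Sum.inl α => if a.1 = 0 then valX a.2.2 α
      else if a.1 = 1 then -valX a.2.2 α - St.valY a.2.1 a.2.2 α
      else if a.1 = 2 then St.valY a.2.1 a.2.2 α else 0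
  | Sum.inr p => if a.1 = 3 ∧ a.2.1 / (St.S + 1) = p.1 then
      (-1) ^ (a.2.1 % (St.S + 1)) * lvT a.2.2 p.2 else 0

theorem mem_sites {a : Cd} : a ∈ St.sites ↔ St.vs a := by
  obtain ⟨k, κ, ρ⟩ := a
  simp only [sites, Finset.mem_filter, Finset.mem_product, Finset.mem_range, vs]
  omega

theorem mem_cons {q : Cd} : q ∈ St.cons ↔ St.vc q := by
  obtain ⟨k, κ, ρ⟩ := q
  simp only [cons, Finset.mem_filter, Finset.mem_product, Finset.mem_range, vc, R2]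
  omega

theorem NC_pos_of_R {St : Star} (hN : 1 ≤ St.N) : 0 < St.NC := Nat.mul_pos hN (Nat.succ_pos _)

theorem vtx_mem {q : Cd} (hq : q ∈ St.cons) (j : ℕ) : vtx q j ∈ St.sites := by
  rw [mem_sites]
  rw [mem_cons] at hq
  obtain ⟨k, κ, ρ⟩ := q
  simp only [vc, R2] at hq
  simp only [vs, vtx, R2]
  split_ifs <;> simp only [true_and, false_and, false_or, or_false,
    OfNat.ofNat_ne_one, OfNat.one_ne_ofNat, Nat.reduceEqDiff] <;> omega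

theorem col_lt {i σ : ℕ} (hi : i < St.N) (hσ : σ ≤ St.S) : i * (St.S + 1) + σ < St.NC := by
  have : (i + 1) * (St.S + 1) ≤ St.N * (St.S + 1) := Nat.mul_le_mul_right _ hi
  unfold NC; nlinarith

theorem ty_lt {i σ : ℕ} (hσ : σ < St.S) : St.ty (i * (St.S + 1) + (σ + 1)) = σ % 5 := by
  have : (i * (St.S + 1) + (σ + 1)) % (St.S + 1) = σ + 1 := by
    rw [Nat.mul_add_mod_self_right]; exact Nat.mod_eq_of_lt (by omega)
  simp [ty, this]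

/-- Type of the sites. -/
abbrev Site := {a // a ∈ St.sites}

/-- Type of the constraints. -/
abbrev Con := {q // q ∈ St.cons}

/-- Type of the resistors. -/
abbrev Res := {r // r ∈ St.ress}

theorem res_con (r : St.Res) : r.1.1 ∈ St.cons :=
  (Finset.mem_product.1 (Finset.mem_filter.1 r.2).1).1

/-- The layout. -/
def lay : Lay St.Site St.Res where
  G := St.GG Dh
  cel a := St.cel Dh a.1
  dot a := St.dot Dh a.1
  pos r := St.pos Dh r.1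
  ver r := verR r.1
  src r := ⟨vtx r.1.1 (pr1 r.1.2), St.vtx_mem (St.res_con r) _⟩
  tgt r := ⟨vtx r.1.1 (pr2 r.1.2), St.vtx_mem (St.res_con r) _⟩

/-- The network. -/
def net : Net St.Site (Fin St.N × Fin St.S) St.N St.R where
  comp a := if h : a.1.1 = 3 then ⟨a.1.2.1 / (St.S + 1) + 1, by
      have := St.mem_sites.1 a.2
      have h2 : a.1.2.1 < St.NC := by unfold vs at this; omega
      exact Nat.succ_lt_succ (Nat.div_lt_of_lt_mul (by rwa [Nat.mul_comm]))⟩ else 0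
  hv := Sum.elim
    (fun α => ⟨(0, 0, 2 * α), St.mem_sites.2 (Or.inl ⟨rfl, Nat.zero_le _, by have := α.2; simp only [R2]; omega⟩)⟩)
    (fun p => ⟨(3, p.1 * (St.S + 1), if p.2 then 2 else 0), St.mem_sites.2 (by
      have := St.col_lt p.1.2 (Nat.zero_le St.S)
      refine Or.inr (Or.inr (Or.inr ⟨rfl, this, ?_⟩))
      simp only; split_ifs <;> omega)⟩)
  val a := St.val a.1
  cc k := ⟨(2, k.1 * (St.S + 1) + (k.2 + 1), St.R2), St.mem_sites.2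
      (Or.inr (Or.inr (Or.inl ⟨rfl, St.col_lt k.1.2 (show k.2 + 1 ≤ St.S from k.2.2), le_rfl⟩)))⟩
  cl k := ⟨(3, k.1 * (St.S + 1) + (k.2 + 1), k.2 % 5), St.mem_sites.2
      (Or.inr (Or.inr (Or.inr ⟨rfl, St.col_lt k.1.2 (show k.2 + 1 ≤ St.S from k.2.2),
        Nat.mod_lt _ (by norm_num)⟩)))⟩
  lf k := k.1

/-- Constraint vector, weighted by `ω`. -/
def cvec (ω : St.Site → ℝ) (q : St.Con) (a : St.Site) : ℝ :=
  ∑ j ∈ Finset.range (St.ar q.1), if vtx q.1 j = a.1 then ω a else 0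

/-- Diagonal counter term: constraints containing `a`, weighted by their arity. -/
def dg (a : Cd) : ℕ :=
  ∑ q ∈ St.cons, ∑ j ∈ Finset.range (St.ar q), if vtx q j = a then St.ar q else 0

end Star

/-- The layout is admissible. -/
def LayStmt : Prop := ∀ (St : Star) (Dh : ℕ), 1 ≤ St.N → 20 ≤ Dh → (St.lay Dh).OK

/-- Distances of the dots. -/
def DotStmt : Prop := ∀ (St : Star) (Dh : ℕ), 1 ≤ St.N → 20 ≤ Dh →
  (∀ k, St.dot Dh (St.net.cc k).1 - St.dot Dh (St.net.cl k).1 = (0, -12)) ∧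
  (∀ a b, St.net.comp a ≠ St.net.comp b → (∀ k, ¬ (a = St.net.cc k ∧ b = St.net.cl k)) →
    (∀ k, ¬ (b = St.net.cc k ∧ a = St.net.cl k)) →
    (Dh : ℤ) ≤ |(St.dot Dh a.1 - St.dot Dh b.1).1| ∨ (Dh : ℤ) ≤ |(St.dot Dh a.1 - St.dot Dh b.1).2|) ∧
  (∀ α β, hc α = hc β →
    |(St.dot Dh (St.net.hv α).1 - St.dot Dh (St.net.hv β).1).1| ≤ (16 * St.R + 4 : ℕ) ∧
    |(St.dot Dh (St.net.hv α).1 - St.dot Dh (St.net.hv β).1).2| ≤ (16 * St.R + 4 : ℕ)) ∧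
  (∀ a : St.Site, St.heavy a.1 ↔ ∃ α, St.net.hv α = a) ∧
  St.sites.card ≤ St.size ^ 5 ∧ St.ress.card ≤ St.size ^ 6 ∧ (∀ a, St.dg a ≤ St.size ^ 6) ∧
  St.N + 1 < 2 * St.sites.card

/-- The constraint network: kernel, gap, star Hamiltonian, and the resistor identity. -/
def NetStmt : Prop := ∀ (St : Star) (Dh : ℕ) (p b : ℝ), 1 ≤ St.N → 0 < p → p ≤ 1 →
  (St.size : ℝ) ^ 12 ≤ b →
  St.net.OK (gm (St.cvec fun a => 1 / St.net.sw p a)) p b ∧ (∀ x, St.net.H x = St.H x) ∧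
  ∀ (ω : St.Site → ℝ) (a a' : St.Site), gm (St.cvec ω) a a' =
    (if a = a' then St.dg a.1 * ω a ^ 2 else 0) - gm ((St.lay Dh).rv ω) a a'

end Crest.Agent.R338
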