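import Crest.Agent.R338.DefsF
import Crest.Agent.R338.DefsL
import Crest.Agent.Lib.PolyTime.More

/-!
# Row 338: definitions and interface statements, part 6 (the reduction)
-/

noncomputable section

open Function
open Crest.Quantum.GateCircuit Crest.Quantum.QMA Crest.MathPhysics.CoulombProblem
open Crest.MathPhysics.ElectronicCoulomb Crest.Agent.Lib.PolyTime

namespace Crest.Agent.R338

namespace Bld
variable (St : Star) (b : ℕ)

/-- The large parameter `1 / t`. -/
def ti : ℕ := b ^ 1000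

/-- Cell side. -/
def l : ℚ := 1 / (ti b : ℚ) ^ 10

/-- Layer width. -/
def th : ℚ := 1 / (b : ℚ) ^ 195

/-- Inverse lattice spacing. -/
def N1 : ℕ := ti b ^ 18

/-- Half width of the slab in lattice units. -/
def NA : ℕ := ti b ^ 63

/-- Half distance of the columns. -/
def Dh : ℕ := b ^ 13

/-- Approximation of `log b`. -/
def Lq : ℚ := logq b (b ^ 80)

/-- Approximation of `π`. -/
def pq : ℚ := piq (ti b ^ 30)

/-- Weight exponent of a cell: heavy dot, light dot, bus, resistor, void. -/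
def lev (c : ℤ × ℤ) : ℕ :=
  if ∃ a ∈ St.sites, St.dot (Dh b) a = c then
    (if ∃ a ∈ St.sites, St.heavy a ∧ St.dot (Dh b) a = c then 0 else 4)
  else if ∃ a ∈ St.sites, St.cel (Dh b) a c then 195
  else if ∃ r ∈ St.ress, St.pos (Dh b) r = c then 9943 else 10050

/-- Level of a cell. -/
def Fq (c : ℤ × ℤ) : ℚ := lev St b c * Lq b / 2

/-- Void level. -/
def fv : ℚ := 10050 * Lq b / 2

/-- Inverse square root of the nominal mass. -/
def om (a : Cd) : ℚ := if St.heavy a then 1 else (b : ℚ) ^ 2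

/-- Nominal hopping strength. -/
def Cq : ℚ := (b : ℚ) ^ 10057 / 2

/-- Interaction of two dots at displacement `Δ`. -/
def KD (Δ : ℤ × ℤ) : ℚ := Kq (b ^ 53) (th b) ((b : ℚ) ^ 19) Δ / l b

/-- Interaction of two sites. -/
def Kk (a a' : Cd) : ℚ := KD b (St.dot (Dh b) a - St.dot (Dh b) a')

/-- Interaction of a mode with all the others. -/
def sK (a : Cd) : ℚ := Kk St b a a + 2 * ∑ a' ∈ St.sites.erase a, Kk St b a a'

/-- Offset of a site. -/
def mu (a : Cd) : ℚ := -(Cq b * St.dg a * om St b a ^ 2) - sK St b a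

/-- Table of the offsets. -/
def Mu (c : ℤ × ℤ) : ℚ := ∑ a ∈ St.sites, if St.dot (Dh b) a = c then mu St b a else 0

/-- Height of the wall. -/
def Lam : ℚ := (b : ℚ) ^ 145 / l b

/-- Coordinate of a lattice point. -/
def crd (n off : ℕ) : ℚ := ((n : ℚ) + 1 / 2 - off) / N1 b

/-- Coordinate `c` of the displaced lattice point `(i, j, k)`. -/
def nuc (i j k c : ℕ) : ℚ :=
  (if c = 0 then crd b i (NA b) else if c = 1 then crd b j (NA b) else crd b k (N1 b)) +
    -(1 / (4 * pq b * (N1 b : ℚ) ^ 3) * gradK (St.GG (Dh b)) (th b) (l b)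
      (fun c => Fq St b c - fv b) (fun c => Mu St b c - Lam b)
      (crd b i (NA b)) (crd b j (NA b)) (crd b k (N1 b)) c)

/-- The nuclei. -/
def nuclei : List (Fin 3 → ℚ) :=
  (List.range (2 * NA b)).flatMap fun i => (List.range (2 * NA b)).flatMap fun j =>
    (List.range (2 * N1 b)).map fun k => fun c : Fin 3 => nuc St b i j k c

/-- Number of electrons. -/
def nel : ℕ := 2 * St.sites.card - (St.N + 1)

/-- One-body level. -/
def E1 : ℚ := -((N1 b : ℚ) ^ 3 * gq (ti b ^ 45) (ti b ^ 230) (1 / (ti b : ℚ) ^ 23)) -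
  pq b * N1 b / 6 - Lam b + (Nat.sqrt ⌊4 * pq b * (N1 b : ℚ) ^ 3⌋₊ : ℚ) / 2

/-- Diagonal entry of the constraint form. -/
def cn (a : Cd) : ℕ :=
  ∑ q ∈ St.cons, (∑ j ∈ Finset.range (St.ar q), if vtx q j = a then 1 else 0) ^ 2

/-- Energy of the filled state. -/
def c0 : ℚ := -(2 * Cq b * ∑ a ∈ St.sites, om St b a ^ 2 * cn St a) - ∑ a ∈ St.sites, sK St b a

/-- Contact strength. -/
def gc : ℚ := KD b (0, -12) / (b : ℚ) ^ 8

/-- Error budget. -/
def eps : ℚ := 1 / (l b * (b : ℚ) ^ 10)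

/-- Lower threshold. -/
def lower : ℚ := nel St * E1 b + c0 St b + gc b * St.lo + eps b

/-- Upper threshold. -/
def upper : ℚ := nel St * E1 b + c0 St b + gc b * St.hi - eps b

/-- The instance of the Coulomb problem. -/
def inst : Instance := ⟨nuclei St b, nel St, lower St b, upper St b⟩

end Bld

/-- Correctness of the reduction from star instances. -/
def RedStmt : Prop := ∃ b0 : ℕ, ∀ (St : Star) (b : ℕ), b0 ≤ b → St.size ^ 12 ≤ b → 1 ≤ St.N →
  0 ≤ St.lo → St.hi ≤ 2 → 1 ≤ b * (St.hi - St.lo) →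
  (Bld.inst St b).Valid ∧
  (St.Yes → InfEnergyLE (Bld.inst St b).potential (Bld.lower St b : ℝ)) ∧
  (St.No → InfEnergyGE (Bld.inst St b).potential (Bld.upper St b : ℝ))

/-! ## Polynomial time -/

/-- Polynomial-time families of star instances. -/
structure PolyStar {α : Type} [PEnc α] (St : α → Star) : Prop where
  N : Poly fun a => (St a).N
  N' : PB fun a => (St a).N
  R : Poly fun a => (St a).R
  R' : PB fun a => (St a).R
  S : Poly fun a => (St a).S
  S' : PB fun a => (St a).S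
  pick : Poly fun q : α × ℕ × ℕ × ℕ => (St q.1).pick q.2.1 q.2.2.1 q.2.2.2
  lo : Poly fun a => (St a).lo
  hi : Poly fun a => (St a).hi

/-- Machine polynomial time implies `Poly`. -/
def OfPolyStmt : Prop := ∀ f : List Bool → List Bool, Crest.Complexity.PolyTime f → Poly f

/-- Parsing of verifier codes, and the star instance in polynomial time. -/
def APolyStmt : Prop :=
  (∃ parse : List Bool → Raw, Poly parse ∧ ∀ V : VCirc, V.WellFormed → parse (vcode V) = rawOf V) ∧
  (∀ (α : Type) [PEnc α] (r : α → Raw), Poly r → (PB fun a => (r a).1) →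
    PolyStar fun a => starOf (r a)) ∧
  ∀ r : Raw, 0 ≤ (starOf r).lo ∧ (starOf r).hi ≤ 2 ∧
    ∀ b : ℕ, (starOf r).size ^ 12 ≤ b → 1 ≤ b * ((starOf r).hi - (starOf r).lo)

/-- The tables in polynomial time. -/
def BPoly1Stmt : Prop := ∀ (α : Type) [PEnc α] (St : α → Star) (b : α → ℕ), PolyStar St → Poly b →
  PB b → (Poly fun q : α × ℤ × ℤ => Bld.Fq (St q.1) (b q.1) q.2) ∧
    (Poly fun q : α × ℤ × ℤ => Bld.Mu (St q.1) (b q.1) q.2) ∧
    (Poly fun a => Bld.nel (St a)) ∧ (PB fun a => Bld.nel (St a)) ∧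
    (Poly fun a => Bld.lower (St a) (b a)) ∧ Poly fun a => Bld.upper (St a) (b a)

/-- The instance in polynomial time. -/
def BPolyStmt : Prop := ∀ (α : Type) [PEnc α] (St : α → Star) (b : α → ℕ), PolyStar St → Poly b →
  PB b → Poly fun a => (Bld.inst (St a) (b a)).code

end Crest.Agent.R338
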