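import Crest.Agent.R338.DefsP

/-!
# Row 338: definitions and interface statements, part 3 (the displaced lattice of nuclei)
-/

noncomputable section

open MeasureTheory Function
open scoped ENNReal

namespace Crest.Agent.R338

/-- Regularised distance to the origin. -/
def rr (ε : ℝ) (x : E3) : ℝ := √(‖x‖ ^ 2 + ε ^ 2)

/-- The kernel `k_ε`, with `Δ k_ε → 1/|x|`. -/
def kk (ε : ℝ) (x : E3) : ℝ := rr ε x / 2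

/-- The approximate identity `-Δ² k_ε / (4π)`. -/
def kap (ε : ℝ) (x : E3) : ℝ := 15 / (8 * Real.pi) * ε ^ 4 / rr ε x ^ 7

/-- Symbol bounds of order `m` for the derivatives up to order `4`. -/
def Symb (ε C0 : ℝ) (m : ℤ) (g : E3 → ℝ) : Prop :=
  ContDiff ℝ (⊤ : ℕ∞) g ∧ ∀ j ≤ 4, ∀ x, ‖iteratedFDeriv ℝ j g x‖ ≤ C0 * rr ε x ^ (m - (j : ℤ))

/-- The kernel. -/
def KerStmt : Prop := ∃ C : ℝ, 1 ≤ C ∧ ∀ ε : ℝ, 0 < ε →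
  Symb ε C 1 (kk ε) ∧ (∀ j, Symb ε C 0 (pd j (kk ε))) ∧
  (∀ j ≤ 2, ∀ x, ‖iteratedFDeriv ℝ j (lap (kk ε)) x‖ ≤ C * rr ε x ^ (-1 - (j : ℤ))) ∧
  (∀ x, lap (lap (kk ε)) x = -(4 * Real.pi) * kap ε x) ∧
  (∀ x, x ≠ 0 → |1 / ‖x‖ - lap (kk ε) x| ≤ 2 * ε / ‖x‖ ^ 2) ∧
  Continuous (kap ε) ∧ (∀ x, 0 ≤ kap ε x) ∧ Integrable (kap ε) ∧ ∫ x, kap ε x = 1 ∧
  Integrable (fun x => ‖x‖ * kap ε x) ∧ ∫ x, ‖x‖ * kap ε x ≤ C * ε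

/-- Closed cube of side `d` centred at `y`. -/
def cube (d : ℝ) (y : E3) : Set E3 := {x | ∀ j, |x j - y j| ≤ d / 2}

/-- The corrected midpoint rule on one cell. -/
def MidStmt : Prop := ∃ C : ℝ, 1 ≤ C ∧ ∀ (d M : ℝ) (y : E3) (φ : E3 → ℝ), 0 < d → ContDiff ℝ 4 φ →
  (∀ x ∈ cube d y, ‖iteratedFDeriv ℝ 4 φ x‖ ≤ M) →
  |φ y - (∫ x in cube d y, φ x) / d ^ 3 + (∫ x in cube d y, lap φ x) / (24 * d)| ≤ C * d ^ 4 * M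

/-- The slab `[-A,A]² × [-1,1]`. -/
def box (A : ℝ) : Set E3 := {y | |y 0| ≤ A ∧ |y 1| ≤ A ∧ |y 2| ≤ 1}

/-- Indices of the lattice points. -/
abbrev LatIdx (N1 NA : ℕ) := Fin (2 * NA) × Fin (2 * NA) × Fin (2 * N1)

/-- Midpoints of the cells of side `1 / N1` of the slab with `A = NA / N1`. -/
def lat (N1 NA : ℕ) (α : LatIdx N1 NA) : E3 := WithLp.toLp 2
  ![(((α.1 : ℕ) : ℝ) + 1 / 2 - NA) / N1, (((α.2.1 : ℕ) : ℝ) + 1 / 2 - NA) / N1,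
    (((α.2.2 : ℕ) : ℝ) + 1 / 2 - N1) / N1]

/-- The cells tile the slab. -/
def TileStmt : Prop := ∀ (N1 NA : ℕ), 0 < N1 → ∀ f : E3 → ℝ, IntegrableOn f (box (NA / N1)) →
  ∫ y in box (NA / N1), f y = ∑ α : LatIdx N1 NA, ∫ y in cube (1 / N1) (lat N1 NA α), f y

/-- Admissible displacement fields. -/
structure Disp (u : E3 → E3) (Rr η : ℝ) : Prop where
  smooth : ContDiff ℝ 4 u
  supp : ∀ y, u y ≠ 0 → |y 0| ≤ Rr ∧ |y 1| ≤ Rr ∧ |y 2| ≤ 1 / 2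
  d1 : ∀ y, ‖iteratedFDeriv ℝ 1 u y‖ ≤ 1 / 2
  d2 : ∀ y, ‖iteratedFDeriv ℝ 2 u y‖ ^ 3 ≤ η
  d3 : ∀ y, ‖iteratedFDeriv ℝ 3 u y‖ ^ 3 ≤ η ^ 2
  d4 : ∀ y, ‖iteratedFDeriv ℝ 4 u y‖ ≤ η

/-- Error of the corrected lattice quadrature applied to the kernel `g (x - ·)`. -/
def Ep (N1 NA : ℕ) (u : E3 → E3) (g : E3 → ℝ) (x : E3) : ℝ :=
  ∑ α : LatIdx N1 NA, g (x - (lat N1 NA α + u (lat N1 NA α))) -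
    (N1 : ℝ) ^ 3 * (∫ y in box (NA / N1), g (x - (y + u y))) +
    (N1 : ℝ) / 24 * ∫ y in box (NA / N1), lap g (x - y)

/-- Differentiation of `Ep`. -/
def EpSmoothStmt : Prop := ∀ (N1 NA : ℕ) (u : E3 → E3) (g : E3 → ℝ), Continuous u →
  ContDiff ℝ (⊤ : ℕ∞) g → ContDiff ℝ 2 (Ep N1 NA u g) ∧
    (∀ j, pd j (Ep N1 NA u g) = Ep N1 NA u (pd j g)) ∧ lap (Ep N1 NA u g) = Ep N1 NA u (lap g)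

/-- Chain rule bounds for `y ↦ g (x - (y + u y))`. -/
def CompStmt : Prop := ∃ C : ℝ, 1 ≤ C ∧ ∀ (u : E3 → E3) (Rr η ε C0 : ℝ) (m : ℤ) (g : E3 → ℝ) (x : E3),
  Disp u Rr η → 0 < ε → 0 ≤ C0 → (m = 0 ∨ m = 1) → Symb ε C0 m g →
  ∃ y0 : E3, y0 + u y0 = x ∧ (∀ y, ‖y - y0‖ / 2 ≤ ‖x - (y + u y)‖) ∧
    ContDiff ℝ 4 (fun y => g (x - (y + u y))) ∧ ∀ y,
    ‖iteratedFDeriv ℝ 1 (fun y => g (x - (y + u y))) y‖ ≤ C * C0 * rr ε (y - y0) ^ (m - 1) ∧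
    ‖iteratedFDeriv ℝ 2 (fun y => g (x - (y + u y))) y‖ ≤
      C * C0 * (rr ε (y - y0) ^ (m - 2) + η ^ (1 / 3 : ℝ) * rr ε (y - y0) ^ (m - 1)) ∧
    ‖iteratedFDeriv ℝ 4 (fun y => g (x - (y + u y))) y‖ ≤
      C * C0 * (rr ε (y - y0) ^ (m - 4) +
        if |y 0| ≤ Rr ∧ |y 1| ≤ Rr ∧ |y 2| ≤ 1 / 2 then η * rr ε (y - y0) ^ (m - 1) else 0)

/-- Size of the quadrature error. -/
def EpBoundStmt : Prop := ∃ C : ℝ, 1 ≤ C ∧ ∀ (N1 NA : ℕ) (u : E3 → E3) (Rr η ε C0 : ℝ) (g : E3 → ℝ),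
  8 ≤ N1 → 2 * N1 ≤ NA → Disp u Rr η → 1 / (N1 : ℝ) ≤ Rr → Rr ≤ 1 / 4 → η ≤ (N1 : ℝ) ^ 3 →
  0 < ε → 0 ≤ C0 →
  (Symb ε C0 1 g → ∀ x, |Ep N1 NA u g x| ≤ C * C0 * (1 + Real.log NA + η * Rr ^ 2) / N1) ∧
  (Symb ε C0 0 g → ∀ x, |Ep N1 NA u g x| ≤ C * C0 * (1 + η / N1))

/-- The displacement field `-κ ∇Φ`. -/
def disp (κ : ℝ) (Φ : E3 → ℝ) (y : E3) : E3 := WithLp.toLp 2 fun j => -(κ * pd j Φ y)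

/-- Potential of the uniformly charged slab (unit density). -/
def gbox (A : ℝ) (x : E3) : ℝ := ∫ y in box A, 1 / ‖x - y‖

/-- The potential of the displaced continuous charge is, to first order, the design potential. -/
def FirstStmt : Prop := ∃ C : ℝ, 1 ≤ C ∧ ∀ (ρ A πq P lam Rr η ε : ℝ) (Φ : E3 → ℝ),
  0 < ρ → 2 ≤ A → 3 ≤ πq → πq ≤ 4 → ContDiff ℝ 5 Φ →
  (∀ y, Φ y ≠ 0 → |y 0| ≤ Rr ∧ |y 1| ≤ Rr ∧ |y 2| ≤ 1 / 2) → Rr ≤ 1 / 4 →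
  (∀ i ≤ 1, ∀ x, ‖iteratedFDeriv ℝ i Φ x‖ ≤ P * lam ^ i) →
  Disp (disp (1 / (4 * πq * ρ)) Φ) Rr η → P * lam ≤ ρ → 0 < ε → ε ≤ 1 / 2 → ∀ x,
  |ρ * (∫ y in box A, lap (kk ε) (x - (y + disp (1 / (4 * πq * ρ)) Φ y))) - (ρ * gbox A x - Φ x)| ≤
    C * ((P * lam) ^ 2 / ρ * (1 + Real.log (1 / ε)) + |πq - Real.pi| * P + ε * P * lam + ρ * ε * A ^ 2)

/-- Potential of the slab. -/
def SlabStmt : Prop := ∃ C : ℝ, 1 ≤ C ∧ ∀ A : ℝ, 2 ≤ A →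
  (∀ x : E3, gbox A x ≤ gbox A 0 - 2 * Real.pi * min (x 2 ^ 2) 1 + C / A) ∧
  (∀ x : E3, ‖x‖ ≤ 1 → gbox A 0 - 2 * Real.pi * x 2 ^ 2 - C / A ≤ gbox A x)

/-- Hardy's inequality. -/
def HardyStmt : Prop := ∀ (ψ : E3 → ℂ) (R : E3), C1c ψ →
  Integrable (fun x => 1 / ‖x - R‖ ^ 2 * ‖ψ x‖ ^ 2) ∧ ∫ x, 1 / ‖x - R‖ ^ 2 * ‖ψ x‖ ^ 2 ≤ 4 * dir ψ

/-- Potential of the displaced lattice of unit nuclei. -/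
def latV (N1 NA : ℕ) (u : E3 → E3) (x : E3) : ℝ :=
  ∑ α : LatIdx N1 NA, -(1 / ‖x - (lat N1 NA α + u (lat N1 NA α))‖)

/-- The displaced lattice realises the design potential. -/
def LatStmt : Prop := ∃ C : ℝ, 1 ≤ C ∧ ∀ (N1 NA : ℕ) (πq P lam Rr ε : ℝ) (Φ : E3 → ℝ),
  8 ≤ N1 → 2 * N1 ≤ NA → 3 ≤ πq → πq ≤ 4 → ContDiff ℝ 5 Φ →
  (∀ y, Φ y ≠ 0 → |y 0| ≤ Rr ∧ |y 1| ≤ Rr ∧ |y 2| ≤ 1 / 2) → 1 / (N1 : ℝ) ≤ Rr → Rr ≤ 1 / 4 →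
  1 ≤ lam → (∀ i ≤ 5, ∀ x, ‖iteratedFDeriv ℝ i Φ x‖ ≤ P * lam ^ i) →
  P * lam ^ 2 ≤ (N1 : ℝ) ^ 3 → P * lam ^ 5 ≤ (N1 : ℝ) ^ 6 → 0 < ε → ε ≤ 1 / 2 →
  Injective (fun α : LatIdx N1 NA =>
    lat N1 NA α + disp (1 / (4 * πq * (N1 : ℝ) ^ 3)) Φ (lat N1 NA α)) ∧
  PotOK (latV N1 NA (disp (1 / (4 * πq * (N1 : ℝ) ^ 3)) Φ)) Φ
    (-((N1 : ℝ) ^ 3 * gbox (NA / N1) 0) - Real.pi * N1 / 6) (√(4 * Real.pi * (N1 : ℝ) ^ 3))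
    (C * ((P * lam) ^ 2 / (N1 : ℝ) ^ 3 * (1 + Real.log (1 / ε)) + |πq - Real.pi| * P + ε * P * lam +
      ε * N1 * (NA : ℝ) ^ 2 + (N1 : ℝ) ^ 4 / NA))
    (C * (1 + Real.log NA + P * lam ^ 5 * Rr ^ 2 / (N1 : ℝ) ^ 3) / N1)
    (C * (1 + P * lam ^ 5 / (N1 : ℝ) ^ 4)) (64 * ε * N1 * (NA : ℝ) ^ 2)

/-! ## Numerical constants -/

/-- Wallis approximation of `π`. -/
def piq (k : ℕ) : ℚ :=
  2 * ∏ i ∈ Finset.range k, ((2 * (i : ℚ) + 2) / (2 * i + 1) * ((2 * i + 2) / (2 * i + 3)))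

/-- Harmonic approximation of `log b`. -/
def logq (b m : ℕ) : ℚ := ∑ j ∈ Finset.range (m * (b - 1)), 1 / ((m : ℚ) + j)

/-- Riemann sum for `gbox A 0`. -/
def gq (A n : ℕ) (r0 : ℚ) : ℚ :=
  8 * (A : ℚ) ^ 2 / (n : ℚ) ^ 3 * ∑ i ∈ Finset.range n, ∑ j ∈ Finset.range n, ∑ k ∈ Finset.range n,
    1 / max (rsq n ((A * (2 * (i : ℚ) / n - 1)) ^ 2 + (A * (2 * (j : ℚ) / n - 1)) ^ 2 +
      (2 * (k : ℚ) / n - 1) ^ 2)) r0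

/-- Precision of the numerical constants. -/
def NumStmt : Prop :=
  (∀ k : ℕ, 0 ≤ Real.pi - piq k ∧ Real.pi - piq k ≤ 2 / (k + 1)) ∧
  (∀ b m : ℕ, 1 ≤ b → 2 ≤ m → 0 ≤ logq b m - Real.log b ∧ logq b m - Real.log b ≤ 2 / m) ∧
  ∀ (A n : ℕ) (r0 : ℚ), 1 ≤ A → 1 ≤ n → 0 < r0 →
    |gbox A 0 - gq A n r0| ≤ 7 * r0 ^ 2 + 48 * (A : ℝ) ^ 3 / (n * r0 ^ 2)

end Crest.Agent.R338
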