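import Crest.Agent.R338.Defs

/-!
# Row 338: definitions and interface statements, part 2 (the planar design and the slab direction)
-/

noncomputable section

open MeasureTheory Function
open scoped ENNReal ComplexConjugate

namespace Crest.Agent.R338

/-! ## The smooth step and explicit derivatives (over any ordered field: `ℚ` and `ℝ`) -/

section generic
variable {K : Type} [Field K] [LinearOrder K]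

/-- Positive part. -/
def pp (t : K) : K := max t 0

/-- `t ^ 8 * Qs t + (1 - t) ^ 8 * Qs (1 - t) = 1`. -/
def Qs (t : K) : K := 1 + 8 * (1 - t) + 36 * (1 - t) ^ 2 + 120 * (1 - t) ^ 3 + 330 * (1 - t) ^ 4 +
  792 * (1 - t) ^ 5 + 1716 * (1 - t) ^ 6 + 3432 * (1 - t) ^ 7

/-- The `C⁷` step: `0` on `(-∞,0]`, `1` on `[1,∞)`. -/
def S0 (t : K) : K := pp t ^ 8 * Qs t + pp (t - 1) ^ 8 * Qs (1 - t)

/-- First derivative of the step. -/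
def S1 (t : K) : K := 51480 * pp t ^ 7 * pp (1 - t) ^ 7

/-- Second derivative of the step. -/
def S2 (t : K) : K := 360360 * pp t ^ 6 * pp (1 - t) ^ 6 * (1 - 2 * t)

/-- Third derivative of the step. -/
def S3 (t : K) : K := 360360 * pp t ^ 5 * pp (1 - t) ^ 5 * (6 * (1 - 2 * t) ^ 2 - 2 * t * (1 - t))

/-- The step and its first three derivatives. -/
def Sd (k : ℕ) (t : K) : K :=
  if k = 0 then S0 t else if k = 1 then S1 t else if k = 2 then S2 t else S3 t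

/-- `k`-th derivative of the cell bump (`= 1` on `[θ,1]`, supported in `[0,1+θ]`). -/
def Bd (k : ℕ) (θ t : K) : K := (Sd k (t / θ) - Sd k ((t - 1) / θ)) / θ ^ k

/-- Partial derivative of order `(k0,k1)` of the interpolation of the table `a` on the grid of
`G × G` cells of side `l`. -/
def tabD (G : ℕ) (θ l : K) (a : ℤ × ℤ → K) (k0 k1 : ℕ) (x0 x1 : K) : K :=
  (∑ i ∈ Finset.range G, ∑ j ∈ Finset.range G,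
    a ((i : ℤ), (j : ℤ)) * (Bd k0 θ (x0 / l - i) * Bd k1 θ (x1 / l - j))) / l ^ (k0 + k1)

/-- Cut-off in the slab direction: `1` on `[-1/4,1/4]`, `0` outside `(-1/2,1/2)`. -/
def eta (z : K) : K := S0 (4 * z + 2) - S0 (4 * z - 1)

/-- Derivative of `eta`. -/
def eta1 (z : K) : K := 4 * (S1 (4 * z + 2) - S1 (4 * z - 1))

/-- Explicit gradient of the design potential `Φ = (|∇f|²/2 - Δf/2 + m) η`, where `f`, `m` interpolate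
the tables `a`, `mu`. -/
def gradK (G : ℕ) (θ l : K) (a mu : ℤ × ℤ → K) (x0 x1 z : K) (j : ℕ) : K :=
  if j = 0 then
    (tabD G θ l a 1 0 x0 x1 * tabD G θ l a 2 0 x0 x1 + tabD G θ l a 0 1 x0 x1 * tabD G θ l a 1 1 x0 x1
      - (tabD G θ l a 3 0 x0 x1 + tabD G θ l a 1 2 x0 x1) / 2 + tabD G θ l mu 1 0 x0 x1) * eta z
  else if j = 1 then
    (tabD G θ l a 1 0 x0 x1 * tabD G θ l a 1 1 x0 x1 + tabD G θ l a 0 1 x0 x1 * tabD G θ l a 0 2 x0 x1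
      - (tabD G θ l a 2 1 x0 x1 + tabD G θ l a 0 3 x0 x1) / 2 + tabD G θ l mu 0 1 x0 x1) * eta z
  else
    ((tabD G θ l a 1 0 x0 x1 ^ 2 + tabD G θ l a 0 1 x0 x1 ^ 2) / 2
      - (tabD G θ l a 2 0 x0 x1 + tabD G θ l a 0 2 x0 x1) / 2 + tabD G θ l mu 0 0 x0 x1) * eta1 z

end generic

/-! ## The slab direction -/

/-- `γ z = z - z³/3` on `[-1,1]`, constant `± 2/3` outside. -/
def gam (z : ℝ) : ℝ := max (-1) (min z 1) - max (-1) (min z 1) ^ 3 / 3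

/-- Primitive of `γ`. -/
def Gam (z : ℝ) : ℝ := ∫ t in (0 : ℝ)..z, gam t

/-- Ground state profile in the slab direction. -/
def chi (Ω z : ℝ) : ℝ := Real.exp (-(Ω * Gam z))

/-- Logarithmic gradient of the reference state `exp (-f) χ`. -/
def Xf (f : E3 → ℝ) (Ω : ℝ) (j : Fin 3) (x : E3) : ℝ :=
  pd j f x + if j = 2 then Ω * gam (x 2) else 0

/-- The factorised form `½ ∫ |∇ψ + X ψ|²`. -/
def qq (f : E3 → ℝ) (Ω : ℝ) (ψ : E3 → ℂ) : ℝ :=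
  (1 / 2) * ∑ j, ∫ x, ‖pd j ψ x + (Xf f Ω j x : ℂ) * ψ x‖ ^ 2

/-- Planar potential of the factorisation. -/
def Wf (f : E3 → ℝ) (x : E3) : ℝ := (1 / 2) * ∑ j, pd j f x ^ 2 - (1 / 2) * lap f x

/-! ## Planar parameters -/

/-- Parameters of the planar design: grid size, cell side, layer width, half thickness, frequency,
void level and table of levels. -/
structure Pl where
  G : ℕ
  l : ℝ
  th : ℝ
  h : ℝ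
  Om : ℝ
  fv : ℝ
  F : ℤ × ℤ → ℝ

/-- `ℓ¹` distance of two cells. -/
def l1 (c c' : ℤ × ℤ) : ℤ := |c.1 - c'.1| + |c.2 - c'.2|

/-- Cells of the grid. -/
def inG (G : ℕ) (c : ℤ × ℤ) : Prop := 0 ≤ c.1 ∧ c.1 < G ∧ 0 ≤ c.2 ∧ c.2 < G

namespace Pl
variable (P : Pl)

/-- Interpolation of a table. -/
def tab (a : ℤ × ℤ → ℝ) (x : E3) : ℝ := tabD P.G P.th P.l a 0 0 (x 0) (x 1)

/-- Logarithmic weight. -/
def fl (x : E3) : ℝ := P.fv + P.tab (fun c => P.F c - P.fv) x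

/-- Cut-off of the grid. -/
def zeta (x : E3) : ℝ := P.tab (fun _ => 1) x

/-- Reference state. -/
def psi0 (x : E3) : ℝ := Real.exp (-P.fl x) * chi P.Om (x 2)

/-- The factorised form. -/
def q (ψ : E3 → ℂ) : ℝ := qq P.fl P.Om ψ

/-- Design potential. -/
def Phi (mu : ℤ × ℤ → ℝ) (Λ : ℝ) (x : E3) : ℝ := (Wf P.fl x + P.tab mu x - Λ * P.zeta x) * eta (x 2)

/-- Normalisation in the slab direction. -/
def Z : ℝ := ∫ z in (-P.h)..P.h, chi P.Om z ^ 2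

/-- The ratio `h / Z` (at least `1/2`). -/
def kz : ℝ := P.h / P.Z

/-- Relative weight of the tails `h ≤ |z| ≤ 2 h`. -/
def tl : ℝ := 2 * P.kz * Real.exp (-(P.Om * P.h ^ 2 / 2))

/-- Weighted volume of a core box. -/
def m0 : ℝ := P.l ^ 2 * (1 - P.th) ^ 2 * P.Z

/-- Core box of a cell. -/
def Q (c : ℤ × ℤ) : Set E3 := {x | (c.1 + P.th) * P.l ≤ x 0 ∧ x 0 ≤ (c.1 + 1) * P.l ∧
  (c.2 + P.th) * P.l ≤ x 1 ∧ x 1 ≤ (c.2 + 1) * P.l ∧ |x 2| ≤ P.h}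

/-- Normalised reference state on the core box of a cell. -/
def th0 (c : ℤ × ℤ) : E3 → ℝ := (P.Q c).indicator fun x => chi P.Om (x 2) / √P.m0

/-- `ψ / ψ₀`. -/
def v (ψ : E3 → ℂ) (x : E3) : ℂ := ψ x / (P.psi0 x : ℂ)

/-- Weighted average of `ψ / ψ₀` on a core box. -/
def avg (ψ : E3 → ℂ) (c : ℤ × ℤ) : ℂ :=
  (∫ x in P.Q c, ((chi P.Om (x 2) ^ 2 : ℝ) : ℂ) * P.v ψ x) / (P.m0 : ℂ)

/-- Weighted mass of `ψ / ψ₀` on a core box. -/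
def mass (ψ : E3 → ℂ) (c : ℤ × ℤ) : ℝ := ∫ x in P.Q c, chi P.Om (x 2) ^ 2 * ‖P.v ψ x‖ ^ 2

/-- Standing hypotheses on the parameters. -/
structure OK : Prop where
  G_pos : 1 ≤ P.G
  l_pos : 0 < P.l
  Gl : (P.G + 1) * P.l ≤ 1 / 8
  th_pos : 0 < P.th
  th_le : P.th ≤ 1 / 10
  h_pos : 0 < P.h
  h_le : P.h ≤ P.l
  Om_pos : 0 < P.Om
  Omhl : 1 ≤ P.Om * P.h * P.l
  Omh : 1 ≤ P.Om * P.h ^ 2
  out : ∀ c, ¬ inG P.G c → P.F c = P.fv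
  F_nonneg : ∀ c, 0 ≤ P.F c
  F_le : ∀ c, P.F c ≤ P.fv

end Pl

/-- Bilinear interpolation of four values. -/
def bil (a00 a10 a01 a11 s t : ℝ) : ℝ :=
  (a00 * (1 - s) + a10 * s) * (1 - t) + (a01 * (1 - s) + a11 * s) * t

open Classical in
/-- Extension of a table by zero outside the grid. -/
def ext (G : ℕ) (a : ℤ × ℤ → ℝ) (c : ℤ × ℤ) : ℝ := if inG G c then a c else 0

/-- Basic facts on the step, `γ`, `χ`, and the local form of the interpolation. -/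
structure LocStmt : Prop where
  S_zero : ∀ t : ℝ, t ≤ 0 → S0 t = 0
  S_one : ∀ t : ℝ, 1 ≤ t → S0 t = 1
  S_mono : Monotone (S0 : ℝ → ℝ)
  S_smooth : ContDiff ℝ 7 (S0 : ℝ → ℝ)
  S_deriv : ∀ t : ℝ, HasDerivAt S0 (S1 t) t ∧ HasDerivAt S1 (S2 t) t ∧ HasDerivAt S2 (S3 t) t
  S1_bd : ∀ t : ℝ, 0 ≤ S1 t ∧ S1 t ≤ 4
  gam_c1 : ContDiff ℝ 1 gam
  gam_deriv : ∀ z : ℝ, HasDerivAt gam (1 - min (z ^ 2) 1) z
  gam_abs : ∀ z : ℝ, 2 / 3 * min |z| 1 ≤ |gam z| ∧ |gam z| ≤ min |z| 1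
  gam_sq : ∀ z : ℝ, |z| ≤ 1 → z ^ 2 - gam z ^ 2 = 2 / 3 * z ^ 4 - z ^ 6 / 9
  gam_out : ∀ z : ℝ, 1 ≤ |z| → gam z ^ 2 = 4 / 9
  Gam_deriv : ∀ z : ℝ, HasDerivAt Gam (gam z) z
  Gam_in : ∀ z : ℝ, |z| ≤ 1 → Gam z = z ^ 2 / 2 - z ^ 4 / 12
  chi_pos : ∀ Ω z : ℝ, 0 < chi Ω z
  chi_c2 : ∀ Ω : ℝ, ContDiff ℝ 2 (chi Ω)
  chi_anti : ∀ Ω z z' : ℝ, 0 ≤ Ω → |z| ≤ |z'| → chi Ω z' ≤ chi Ω z
  chi_le : ∀ Ω z : ℝ, 0 ≤ Ω → chi Ω z ≤ 1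
  Z_pos : ∀ P : Pl, P.OK → 0 < P.Z
  kz_ge : ∀ P : Pl, P.OK → 1 / 2 ≤ P.kz
  kz_le : ∀ P : Pl, P.OK → P.kz ≤ 2 * P.h * √P.Om
  tail : ∀ P : Pl, P.OK → ∫ z in (-(2 * P.h))..(2 * P.h), chi P.Om z ^ 2 ≤ (1 + P.tl) * P.Z
  /-- local form on the square `[c - 1 + θ, c + 1]²` (in units of the cell side) -/
  tab_loc : ∀ P : Pl, P.OK → ∀ (a : ℤ × ℤ → ℝ) (c : ℤ × ℤ) (x : E3),
    (c.1 - 1 + P.th) * P.l ≤ x 0 → x 0 ≤ (c.1 + 1) * P.l →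
    (c.2 - 1 + P.th) * P.l ≤ x 1 → x 1 ≤ (c.2 + 1) * P.l →
    P.tab a x = bil (ext P.G a (c.1 - 1, c.2 - 1)) (ext P.G a (c.1, c.2 - 1))
      (ext P.G a (c.1 - 1, c.2)) (ext P.G a c) (S0 ((x 0 / P.l - c.1) / P.th))
      (S0 ((x 1 / P.l - c.2) / P.th))
  fl_loc : ∀ P : Pl, P.OK → ∀ (c : ℤ × ℤ) (x : E3),
    (c.1 - 1 + P.th) * P.l ≤ x 0 → x 0 ≤ (c.1 + 1) * P.l →
    (c.2 - 1 + P.th) * P.l ≤ x 1 → x 1 ≤ (c.2 + 1) * P.l →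
    P.fl x = bil (P.F (c.1 - 1, c.2 - 1)) (P.F (c.1, c.2 - 1)) (P.F (c.1 - 1, c.2)) (P.F c)
      (S0 ((x 0 / P.l - c.1) / P.th)) (S0 ((x 1 / P.l - c.2) / P.th))
  fl_Q : ∀ P : Pl, P.OK → ∀ c, ∀ x ∈ P.Q c, P.fl x = P.F c
  fl_mem : ∀ P : Pl, P.OK → ∀ x, 0 ≤ P.fl x ∧ P.fl x ≤ P.fv
  tab_smooth : ∀ (P : Pl) (a : ℤ × ℤ → ℝ), ContDiff ℝ 7 (P.tab a)
  fl_smooth : ∀ P : Pl, ContDiff ℝ 7 P.fl
  fl_pd2 : ∀ (P : Pl) (x : E3), pd 2 P.fl x = 0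
  zeta_mem : ∀ P : Pl, P.OK → ∀ x, 0 ≤ P.zeta x ∧ P.zeta x ≤ 1
  zeta_one : ∀ P : Pl, P.OK → ∀ x : E3, P.th * P.l ≤ x 0 → x 0 ≤ P.G * P.l → P.th * P.l ≤ x 1 →
    x 1 ≤ P.G * P.l → P.zeta x = 1
  tab_abs : ∀ P : Pl, P.OK → ∀ (a : ℤ × ℤ → ℝ) (M : ℝ), (∀ c, |a c| ≤ M) → ∀ x, |P.tab a x| ≤ M
  /-- the factorised form in terms of `v = ψ / ψ₀` -/
  v_c1 : ∀ (P : Pl) (ψ : E3 → ℂ), C1c ψ → C1c (P.v ψ)
  q_eq : ∀ (P : Pl) (ψ : E3 → ℂ), C1c ψ →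
    2 * P.q ψ = ∑ j, ∫ x, P.psi0 x ^ 2 * ‖pd j (P.v ψ) x‖ ^ 2
  vol_Q : ∀ P : Pl, P.OK → ∀ c, ∫ x in P.Q c, chi P.Om (x 2) ^ 2 = P.m0
  coef_th0 : ∀ P : Pl, P.OK → ∀ (ψ : E3 → ℂ) (c : ℤ × ℤ), Continuous ψ →
    ∫ x, (P.th0 c x : ℂ) * ψ x = ((Real.exp (-P.F c) * √P.m0 : ℝ) : ℂ) * P.avg ψ c

/-- Size of the design potential and its derivatives. -/
def ProfStmt : Prop := ∃ C : ℝ, 1 ≤ C ∧ ∀ P : Pl, P.OK → 1 ≤ P.fv → ∀ (mu : ℤ × ℤ → ℝ) (Λ M : ℝ),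
  (∀ c, |mu c| ≤ M) → 0 ≤ Λ →
  ContDiff ℝ 5 (P.Phi mu Λ) ∧
  (∀ x, P.Phi mu Λ x ≠ 0 → |x 0| ≤ (P.G + 1) * P.l ∧ |x 1| ≤ (P.G + 1) * P.l ∧ |x 2| ≤ 1 / 2) ∧
  (∀ i ≤ 5, ∀ x, ‖iteratedFDeriv ℝ i (P.Phi mu Λ) x‖ ≤
    C * ((P.G ^ 2 * P.fv / (P.th * P.l)) ^ 2 + P.G ^ 2 * (M + Λ)) * (1 / (P.th * P.l)) ^ i) ∧
  (∀ j x, |pd j P.fl x| ≤ C * (P.G ^ 2 * P.fv / (P.th * P.l))) ∧
  (∀ x, |lap P.fl x| ≤ C * (P.G ^ 2 * P.fv / (P.th * P.l)) ^ 2) ∧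
  (∀ x, |Wf P.fl x| ≤ C * (P.G ^ 2 * P.fv / (P.th * P.l)) ^ 2)

/-- The explicit gradient, and its compatibility with the cast `ℚ → ℝ`. -/
def GradStmt : Prop :=
  (∀ (P : Pl) (mu : ℤ × ℤ → ℝ) (Λ : ℝ) (x : E3) (j : Fin 3), pd j (P.Phi mu Λ) x =
    gradK P.G P.th P.l (fun c => P.F c - P.fv) (fun c => mu c - Λ) (x 0) (x 1) (x 2) j) ∧
  ∀ (G : ℕ) (θ l : ℚ) (a mu : ℤ × ℤ → ℚ) (x0 x1 z : ℚ) (j : ℕ),
    ((gradK G θ l a mu x0 x1 z j : ℚ) : ℝ) =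
      gradK G (θ : ℝ) (l : ℝ) (fun c => (a c : ℝ)) (fun c => (mu c : ℝ)) x0 x1 z j

/-! ## Removing the lattice fluctuations -/

/-- Decomposition of the true potential `V` into a slab part `U`, the design potential `Φ`, the
Laplacian of a small function `G`, and a form-small part `S`. -/
def PotOK (V Φ : E3 → ℝ) (v1 Ω e g0 g1 sε : ℝ) : Prop :=
  ∃ U G S : E3 → ℝ, Continuous U ∧ ContDiff ℝ 2 G ∧ (∀ x, V x = U x + Φ x - lap G x - S x) ∧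
    (∀ x, |G x| ≤ g0) ∧ (∀ j x, |pd j G x| ≤ g1) ∧
    (∀ ψ : E3 → ℂ, C1c ψ → Integrable (fun x => S x * ‖ψ x‖ ^ 2) ∧ |pot S ψ| ≤ sε * dir ψ) ∧
    (∀ x : E3, v1 + Ω ^ 2 / 2 * min (x 2 ^ 2) 1 - e ≤ U x) ∧
    (∀ x : E3, ‖x‖ ≤ 1 / 2 → U x ≤ v1 + Ω ^ 2 / 2 * x 2 ^ 2 + e)

/-- Confinement in the slab direction. -/
def ZStmt : Prop := ∀ (f : E3 → ℝ) (Ω : ℝ) (ψ : E3 → ℂ), ContDiff ℝ 2 f → (∀ x, pd 2 f x = 0) →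
  0 ≤ Ω → C1c ψ → Ω ^ 2 * ∫ x : E3, gam (x 2) ^ 2 * ‖ψ x‖ ^ 2 ≤ 2 * qq f Ω ψ + Ω * nsq ψ

/-- The energy form is the factorised form plus the designed offsets. -/
def FluctStmt : Prop := ∀ (f m ζ V : E3 → ℝ) (Λ v1 Ω e g0 g1 sε δ h : ℝ),
  ContDiff ℝ 2 f → (∀ x, pd 2 f x = 0) → Continuous m → Continuous ζ →
  (∀ j x, pd j f x ^ 2 ≤ Ω) → (∀ x, |lap f x| ≤ Ω) → (∀ x, |Wf f x| ≤ Ω) → (∀ x, |m x| ≤ Ω) →
  (∀ x, 0 ≤ ζ x ∧ ζ x ≤ 1) → 0 ≤ Λ → 2500 ≤ Ω → 0 ≤ e → 0 < δ → 0 ≤ sε → 64 * g0 ≤ δ →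
  32 * sε ≤ δ → 0 ≤ h → h ≤ 1 / 8 →
  PotOK V (fun x => (Wf f x + m x - Λ * ζ x) * eta (x 2)) v1 Ω e g0 g1 sε →
  ∀ ψ : E3 → ℂ, C1c ψ →
    ((v1 - Λ + Ω / 2 - (e + 1 + 12 * g1 ^ 2 / δ + 22 * g0 * Ω + 6 * sε * Ω)) * nsq ψ +
      (1 - δ) * qq f Ω ψ + pot m ψ + Λ * pot (fun x => 1 - ζ x) ψ ≤ dir ψ / 2 + pot V ψ) ∧
    ((∀ x, ψ x ≠ 0 → ‖x‖ ≤ 1 / 2 ∧ ζ x = 1 ∧ |x 2| ≤ 2 * h) →
      dir ψ / 2 + pot V ψ ≤ (v1 - Λ + Ω / 2 +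
        (e + 6 * Ω ^ 2 * h ^ 4 + 12 * g1 ^ 2 / δ + 22 * g0 * Ω + 6 * sε * Ω)) * nsq ψ +
        (1 + δ) * qq f Ω ψ + pot m ψ)

/-! ## Layouts -/

/-- A planar layout: sites (sets of cells with a distinguished dot) and resistor cells. -/
structure Lay (ι ρ : Type) where
  G : ℕ
  cel : ι → ℤ × ℤ → Prop
  dot : ι → ℤ × ℤ
  pos : ρ → ℤ × ℤ
  ver : ρ → Bool
  src : ρ → ι
  tgt : ρ → ι

/-- Unit vector (vertical or horizontal). -/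
def un (v : Bool) : ℤ × ℤ := if v then (0, 1) else (1, 0)

namespace Lay
variable {ι ρ : Type} [Fintype ι] [DecidableEq ι] [Fintype ρ] (L : Lay ι ρ)

/-- Geometric hypotheses on a layout. -/
structure OK : Prop where
  ne : Nonempty ι
  dot_mem : ∀ a, L.cel a (L.dot a)
  bd : ∀ a c, L.cel a c → 1 ≤ c.1 ∧ c.1 + 2 ≤ L.G ∧ 1 ≤ c.2 ∧ c.2 + 2 ≤ L.G
  sep : ∀ a b c c', L.cel a c → L.cel b c' → |c.1 - c'.1| ≤ 1 → |c.2 - c'.2| ≤ 1 → a = b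
  conn : ∀ a c, L.cel a c → c ≠ L.dot a →
    ∃ c', L.cel a c' ∧ l1 c c' = 1 ∧ l1 c' (L.dot a) < l1 c (L.dot a)
  pos_inj : Injective L.pos
  pos_not : ∀ r a, ¬ L.cel a (L.pos r)
  ends : ∀ r, (L.cel (L.src r) (L.pos r - un (L.ver r)) ∧ L.cel (L.tgt r) (L.pos r + un (L.ver r))) ∨
    (L.cel (L.tgt r) (L.pos r - un (L.ver r)) ∧ L.cel (L.src r) (L.pos r + un (L.ver r)))
  card_ι : Fintype.card ι ≤ L.G ^ 2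
  card_ρ : Fintype.card ρ ≤ L.G ^ 2

/-- The table of levels: dots at most `fl`, buses `fb`, resistors `fr`, void `P.fv`. -/
structure Lev (P : Pl) (fl fb fr : ℝ) : Prop where
  G_eq : P.G = L.G
  dot : ∀ a, P.F (L.dot a) ≤ fl
  bus : ∀ a c, L.cel a c → c ≠ L.dot a → P.F c = fb
  res : ∀ r, P.F (L.pos r) = fr
  void : ∀ c, (∀ a, ¬ L.cel a c) → (∀ r, L.pos r ≠ c) → P.F c = P.fv
  ord : 0 ≤ fl ∧ fl ≤ fb ∧ fb ≤ fr ∧ fr ≤ P.fv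

/-- The orthonormal system of the dots. -/
def th (P : Pl) (a : ι) : E3 → ℝ := P.th0 (L.dot a)

/-- Resistor vector `ω_src e_src - ω_tgt e_tgt`. -/
def rv (ω : ι → ℝ) (r : ρ) (a : ι) : ℝ :=
  (if a = L.src r then ω a else 0) - if a = L.tgt r then ω a else 0

/-- The hopping form. -/
def hop (P : Pl) (fr : ℝ) (c : ι → ℂ) : ℝ := Real.exp (-(2 * fr)) / (2 * P.l ^ 2) *
  ∑ r, ‖c (L.src r) * (Real.exp (P.F (L.dot (L.src r))) : ℂ) -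
    c (L.tgt r) * (Real.exp (P.F (L.dot (L.tgt r))) : ℂ)‖ ^ 2

/-- Table of the offsets. -/
def mu (μ : ι → ℝ) (c : ℤ × ℤ) : ℝ := ∑ a, if L.dot a = c then μ a else 0

/-- The vertex `v` is a corner of a cell of the site `a`. -/
def touch (a : ι) (v : ℤ × ℤ) : Prop :=
  ∃ c, L.cel a c ∧ (c.1 = v.1 ∨ c.1 + 1 = v.1) ∧ (c.2 = v.2 ∨ c.2 + 1 = v.2)

end Lay

/-- `C¹` ramp from `0` (on `(-∞,0]`) to `1` (on `[1,∞)`) with slope in `[0, 1/(1-θ)]`. -/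
def ramp (θ t : ℝ) : ℝ :=
  (pp t ^ 2 - pp (t - θ) ^ 2 - pp (t - 1 + θ) ^ 2 + pp (t - 1) ^ 2) / (2 * θ * (1 - θ))

/-- Hat function of the vertex `0`: `1` on `[0,θ]`, supported in `[-1+θ, 1]`. -/
def hat (θ t : ℝ) : ℝ := ramp θ ((t + 1 - θ) / (1 - θ)) - ramp θ ((t - θ) / (1 - θ))

/-- Cut-off of the trial functions: `1` on `[-h,h]`, `0` outside `(-2h,2h)`. -/
def cut (h z : ℝ) : ℝ := S0 (z / h + 2) - S0 (z / h - 1)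

namespace Lay
variable {ι ρ : Type} [Fintype ι] [DecidableEq ι] [Fintype ρ] (L : Lay ι ρ)

open Classical in
/-- Planar shape of the trial function of the site `a`. -/
def U (P : Pl) (a : ι) (x : E3) : ℝ := ∑ i ∈ Finset.range P.G, ∑ j ∈ Finset.range P.G,
  if L.touch a ((i : ℤ), (j : ℤ)) then hat P.th (x 0 / P.l - i) * hat P.th (x 1 / P.l - j) else 0

/-- Trial function of the site `a`. -/
def phi (P : Pl) (a : ι) (x : E3) : ℝ :=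
  P.psi0 x * L.U P a x * cut P.h (x 2) * (Real.exp (P.F (L.dot a)) / √P.m0)

end Lay

/-- The translation lemma. -/
def TrStmt : Prop := ∀ (v : E3 → ℂ) (T : E3) (W1 W2 : E3 → ℝ≥0∞), ContDiff ℝ 1 v → Measurable W1 →
  (∀ y, ∫⁻ s in Set.Icc (0 : ℝ) 1, W1 (y - s • T) ≤ W2 y) →
  ∫⁻ x, W1 x * ‖v (x + T) - v x‖ₑ ^ 2 ≤ ∫⁻ y, W2 y * ‖fderiv ℝ v y T‖ₑ ^ 2

/-- Poincaré inequality on a core box, and comparison of neighbouring cells. -/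
def CellStmt : Prop := ∀ P : Pl, P.OK → ∀ ψ : E3 → ℂ, C1c ψ →
  (∀ c, ∫ x in P.Q c, chi P.Om (x 2) ^ 2 * ‖P.v ψ x - P.avg ψ c‖ ^ 2 ≤
    200 * P.kz * P.l ^ 2 * Real.exp (2 * P.F c) * (2 * P.q ψ)) ∧
  ∀ (c c' : ℤ × ℤ) (f : ℝ), l1 c c' = 1 → P.F c ≤ f → P.F c' ≤ f →
    √(P.mass ψ c) ≤ √(P.mass ψ c') + P.l * Real.exp f * √(2 * P.q ψ) ∧
    ‖P.avg ψ c - P.avg ψ c'‖ ≤ P.l * Real.exp f * √(2 * P.q ψ / P.m0)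

/-- Mass in the transition layers and in the tails. -/
def LayerStmt : Prop := ∀ P : Pl, P.OK → ∀ ψ : E3 → ℂ, C1c ψ →
  ∫ x in (⋃ c, P.Q c)ᶜ, ‖ψ x‖ ^ 2 ≤
    (16 * P.th + 3 / (P.Om * P.h ^ 2)) * nsq ψ + 22 * P.l ^ 2 * P.q ψ

/-- Mass outside the span of the dots. -/
def LeakStmt : Prop := ∀ (ι ρ : Type) [Fintype ι] [DecidableEq ι] [Fintype ρ] (L : Lay ι ρ) (P : Pl)
  (fl fb fr : ℝ), L.OK → P.OK → L.Lev P fl fb fr → ONS (L.th P) ∧ ∀ ψ : E3 → ℂ, C1c ψ →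
  nsq ψ - n1 (coef (L.th P) ψ) ≤
    (16 * P.th + 2 * P.G ^ 2 * Real.exp (-(2 * (fb - fl))) + 3 / (P.Om * P.h ^ 2)) * nsq ψ +
    1000 * P.G ^ 4 * P.kz * P.l ^ 2 * P.q ψ + pot (fun x => 1 - P.zeta x) ψ

/-- The hopping form is dominated by the factorised form. -/
def HopStmt : Prop := ∀ (ι ρ : Type) [Fintype ι] [DecidableEq ι] [Fintype ρ] (L : Lay ι ρ) (P : Pl)
  (fl fb fr : ℝ), L.OK → P.OK → L.Lev P fl fb fr → ∀ ψ : E3 → ℂ, C1c ψ →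
  L.hop P fr (coef (L.th P) ψ) ≤
    (1 + 2 * P.th + 7200 * P.G ^ 4 * P.kz * Real.exp (-(2 * (fr - fb))) / P.th ^ 2) * P.q ψ

/-- The offsets act diagonally on the dots. -/
def OffStmt : Prop := ∀ (ι ρ : Type) [Fintype ι] [DecidableEq ι] [Fintype ρ] (L : Lay ι ρ) (P : Pl)
  (μ : ι → ℝ) (M : ℝ), L.OK → P.OK → P.G = L.G → (∀ a, |μ a| ≤ M) → 0 ≤ M →
  (∀ c, |L.mu μ c| ≤ M) ∧ ∀ ψ : E3 → ℂ, C1c ψ →
  |pot (P.tab (L.mu μ)) ψ - ∑ a, μ a * ‖coef (L.th P) ψ a‖ ^ 2| ≤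
    M * (nsq ψ - n1 (coef (L.th P) ψ))

/-- Shape functions: regularity, support, values, and pointwise gradient bound. -/
def ShapeStmt : Prop := ∀ (ι ρ : Type) [Fintype ι] [DecidableEq ι] [Fintype ρ] (L : Lay ι ρ) (P : Pl)
  (fl fb fr : ℝ), L.OK → P.OK → L.Lev P fl fb fr →
  (∀ a, ContDiff ℝ 1 (L.U P a)) ∧ (∀ a x, pd 2 (L.U P a) x = 0) ∧ (∀ a x, 0 ≤ L.U P a x) ∧
  (∀ x, ∑ a, L.U P a x ≤ 1) ∧
  (∀ a (x : E3), L.U P a x ≠ 0 →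
    P.th * P.l ≤ x 0 ∧ x 0 ≤ P.G * P.l ∧ P.th * P.l ≤ x 1 ∧ x 1 ≤ P.G * P.l) ∧
  (∀ a b, ∀ x ∈ P.Q (L.dot b), L.U P a x = if a = b then 1 else 0) ∧
  ∀ (u : ι → ℂ) (M : ℝ), (∀ a, ‖u a‖ ≤ M) → ∀ (x : E3) (j : Fin 3), j ≠ 2 →
    Real.exp (-(2 * P.fl x)) * ‖∑ a, u a * ((pd j (L.U P a) x : ℝ) : ℂ)‖ ^ 2 * ((1 - P.th) ^ 4 * P.l ^ 2) ≤
      4 * Real.exp (-(2 * P.fv)) * M ^ 2 +
      Real.exp (-(2 * fr)) * ∑ r ∈ Finset.univ.filter (fun r => L.ver r = decide (j = 1)),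
        {y : E3 | ((L.pos r).1 + if j = 0 then P.th else 0) * P.l ≤ y 0 ∧
            y 0 ≤ ((L.pos r).1 + 1 + if j = 0 then 0 else P.th) * P.l ∧
            ((L.pos r).2 + if j = 1 then P.th else 0) * P.l ≤ y 1 ∧
            y 1 ≤ ((L.pos r).2 + 1 + if j = 1 then 0 else P.th) * P.l}.indicator
          (fun _ => ‖u (L.src r) - u (L.tgt r)‖ ^ 2) x

/-- Trial functions: regularity, support, biorthogonality, Gram bound, Coulomb tail. -/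
def TrialStmt : Prop := ∀ (ι ρ : Type) [Fintype ι] [DecidableEq ι] [Fintype ρ] (L : Lay ι ρ) (P : Pl)
  (fl fb fr : ℝ), L.OK → P.OK → L.Lev P fl fb fr → P.tl ≤ 1 →
  (∀ a, C1c (L.phi P a)) ∧
  (∀ a x, L.phi P a x ≠ 0 → ‖x‖ ≤ 1 / 2 ∧ P.zeta x = 1 ∧ |x 2| ≤ 2 * P.h) ∧
  (∀ a b, ∫ x, L.th P a x * L.phi P b x = if a = b then 1 else 0) ∧
  (∀ c, nsq (lin (L.phi P) c) ≤
    (1 + 32 * P.G ^ 2 * Real.exp (2 * fl) * (P.tl + Real.exp (-(2 * fb)) + P.th)) * n1 c) ∧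
  ∀ τ : ℝ, 0 < τ → ∀ x, ∫⁻ y, ENNReal.ofReal ((1 / ‖x - y‖ - wt τ (x - y)) * ∑ a, L.phi P a y ^ 2) ≤
    ENNReal.ofReal (128 * Real.exp (2 * fl) / (τ * P.l ^ 2))

/-- Factorised energy of the trial functions. -/
def TrialQStmt : Prop := ∀ (ι ρ : Type) [Fintype ι] [DecidableEq ι] [Fintype ρ] (L : Lay ι ρ) (P : Pl)
  (fl fb fr : ℝ), L.OK → P.OK → L.Lev P fl fb fr → P.tl ≤ 1 → ∀ c : ι → ℂ,
  P.q (lin (L.phi P) c) ≤ (1 + P.tl) * (1 + 20 * P.th) * L.hop P fr c +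
    P.G ^ 2 * Real.exp (2 * fl) *
      (400 * Real.exp (-(2 * P.fv)) / P.l ^ 2 + 128 * P.tl / P.h ^ 2) * n1 c

/-! ## The interaction of two dots -/

/-- Rational approximation from below of `√q` with precision `2 / n`. -/
def rsq (n : ℕ) (q : ℚ) : ℚ := (Nat.sqrt ⌊q * n ^ 2⌋₊ : ℚ) / n

/-- Riemann sum for the truncated interaction of two unit squares at displacement `Δ`. -/
def Kq (n : ℕ) (θ τ : ℚ) (Δ : ℤ × ℤ) : ℚ :=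
  (∑ i0 ∈ Finset.range n, ∑ i1 ∈ Finset.range n, ∑ j0 ∈ Finset.range n, ∑ j1 ∈ Finset.range n,
    1 / max (rsq n ((Δ.1 + (1 - θ) * ((i0 : ℚ) - j0) / n) ^ 2 +
      (Δ.2 + (1 - θ) * ((i1 : ℚ) - j1) / n) ^ 2)) (1 / τ)) / n ^ 4

/-- Properties of `Kq`. -/
def KqStmt : Prop := ∀ (n : ℕ) (θ τ : ℚ), 2 ≤ n → 0 < θ → θ ≤ 1 / 10 → 1 ≤ τ →
  (∀ Δ, Kq n θ τ (-Δ) = Kq n θ τ Δ) ∧ (∀ Δ, 0 ≤ Kq n θ τ Δ ∧ Kq n θ τ Δ ≤ τ) ∧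
  (∀ (Δ : ℤ × ℤ) (D : ℕ), 3 ≤ D → ((D : ℤ) ≤ |Δ.1| ∨ (D : ℤ) ≤ |Δ.2|) → Kq n θ τ Δ ≤ 1 / (D - 2)) ∧
  (∀ (Δ : ℤ × ℤ) (D : ℕ), |Δ.1| ≤ D → |Δ.2| ≤ D → 1 / (2 * D + 2) ≤ Kq n θ τ Δ) ∧
  ∀ P : Pl, P.OK → P.th = θ → ∀ c c' : ℤ × ℤ,
    |(∫ x, ∫ y, P.th0 c x ^ 2 * P.th0 c' y ^ 2 * wt (τ / P.l) (x - y)) - Kq n θ τ (c - c') / P.l| ≤
      τ ^ 2 / P.l * (5 / n + 4 * P.h / P.l)

end Crest.Agent.R338
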