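import Crest.Agent.R338.Defs

/-!
# Row 338: density of `C¹_c` functions in the form domain
-/

noncomputable section

open MeasureTheory Filter Topology
open scoped ENNReal FourierTransform SchwartzMap ContDiff LineDeriv
open Crest.MathPhysics.ElectronicCoulomb

namespace Crest.Agent.R338

namespace Dens

theorem lint_sq {α : Type} [MeasurableSpace α] (μ : Measure α) (F : α → ℂ) :
    ∫⁻ x, ‖F x‖ₑ ^ 2 ∂μ = eLpNorm F 2 μ ^ 2 := by
  rw [eLpNorm_eq_lintegral_rpow_enorm_toReal two_ne_zero ENNReal.ofNat_ne_top, ← ENNReal.rpow_two,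
    ← ENNReal.rpow_mul]
  simp

theorem int_sq {α : Type} [MeasurableSpace α] {μ : Measure α} {F : α → ℂ}
    (hF : AEStronglyMeasurable F μ) : ∫ x, ‖F x‖ ^ 2 ∂μ = (eLpNorm F 2 μ).toReal ^ 2 := by
  rw [← ENNReal.toReal_pow, ← lint_sq, integral_eq_lintegral_of_nonneg_ae
    (f := fun x => ‖F x‖ ^ 2) (ae_of_all _ fun x => by positivity) (hF.norm.pow 2)]
  congr 1
  refine lintegral_congr fun x => ?_
  rw [ENNReal.ofReal_pow (norm_nonneg _), ofReal_norm]

variable {J : Type} [Fintype J] [DecidableEq J]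

omit [DecidableEq J] in
/-- Simultaneous approximation in `L²(dξ)` and in `L²(w dξ)`. -/
theorem approx (w : EuclideanSpace ℝ J → ℝ) (hw : Continuous w) (hw0 : ∀ x, 0 ≤ w x)
    (G : EuclideanSpace ℝ J → ℂ) (hG : MemLp G 2 volume)
    (hG' : eLpNorm G 2 (volume.withDensity fun x => ENNReal.ofReal (w x)) < ⊤) {δ : ℝ}
    (hδ : 0 < δ) : ∃ g : 𝓢(EuclideanSpace ℝ J, ℂ), eLpNorm (G - ⇑g) 2 volume ≤ ENNReal.ofReal δ ∧
      eLpNorm g 2 (volume.withDensity fun x => ENNReal.ofReal (w x)) ≤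
        eLpNorm G 2 (volume.withDensity fun x => ENNReal.ofReal (w x)) + ENNReal.ofReal δ := by
  set μ' : Measure (EuclideanSpace ℝ J) := volume.withDensity fun x => ENNReal.ofReal (w x)
    with hμ'
  set μ : Measure (EuclideanSpace ℝ J) := volume.withDensity fun x => ENNReal.ofReal (1 + w x)
    with hμ
  have e : μ = volume + μ' := by
    have : (fun x => ENNReal.ofReal (1 + w x)) = 1 + fun x => ENNReal.ofReal (w x) := by
      funext x
      rw [ENNReal.ofReal_add zero_le_one (hw0 x), ENNReal.ofReal_one]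
      rfl
    rw [hμ, this, withDensity_add_left measurable_one, withDensity_one]
  have : IsLocallyFiniteMeasure μ :=
    IsLocallyFiniteMeasure.withDensity_ofReal (continuous_const.add hw)
  have hGμ : MemLp G 2 μ := by
    refine ⟨hG.1.mono_ac (withDensity_absolutelyContinuous _ _), ?_⟩
    have h1 : eLpNorm G 2 μ ^ 2 < ⊤ := by
      rw [← lint_sq, e, lintegral_add_measure, lint_sq, lint_sq]
      exact ENNReal.add_lt_top.2 ⟨ENNReal.pow_lt_top hG.2, ENNReal.pow_lt_top hG'⟩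
    by_contra h
    rw [not_lt, top_le_iff] at h
    simp [h] at h1
  obtain ⟨g, hg1, hg2, hg3⟩ := hGμ.exist_eLpNorm_sub_le ENNReal.ofNat_ne_top one_le_two hδ
  have hle : volume ≤ μ := by rw [e]; exact Measure.le_add_right le_rfl
  have hle' : μ' ≤ μ := by rw [e]; exact Measure.le_add_left le_rfl
  refine ⟨hg1.toSchwartzMap hg2, (eLpNorm_mono_measure _ hle).trans hg3, ?_⟩
  change eLpNorm g 2 μ' ≤ _
  have hG1 : AEStronglyMeasurable G μ' := hG.1.mono_ac (withDensity_absolutelyContinuous _ _)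
  calc eLpNorm g 2 μ' = eLpNorm (G - (G - g)) 2 μ' := by rw [sub_sub_cancel]
    _ ≤ eLpNorm G 2 μ' + eLpNorm (G - g) 2 μ' :=
      eLpNorm_sub_le hG1 (hG1.sub hg2.continuous.aestronglyMeasurable) one_le_two
    _ ≤ _ := add_le_add le_rfl ((eLpNorm_mono_measure _ hle').trans hg3)

/-- Cutting off. -/
theorem cutoff (u : EuclideanSpace ℝ J → ℂ) (hu : ContDiff ℝ 1 u) (hu2 : MemLp u 2 volume)
    (hu3 : ∀ j, MemLp (pd j u) 2 volume) {ε : ℝ} (hε : 0 < ε) :
    ∃ g, C1c g ∧ ∫ x, ‖u x - g x‖ ^ 2 ≤ ε ∧ dir g ≤ dir u + ε := by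
  let χ : ContDiffBump (0 : EuclideanSpace ℝ J) := ⟨1, 2, one_pos, one_lt_two⟩
  have hχ : ContDiff ℝ 1 χ := χ.contDiff
  obtain ⟨C, hC⟩ := (hχ.continuous_fderiv one_ne_zero).bounded_above_of_compact_support
    (χ.hasCompactSupport.fderiv ℝ)
  have hC0 : 0 ≤ C := (norm_nonneg _).trans (hC 0)
  let c : ℕ → EuclideanSpace ℝ J → ℝ := fun m x => χ (((m : ℝ) + 1)⁻¹ • x)
  have hc1 : ∀ m, ContDiff ℝ 1 (c m) := fun m => hχ.comp (contDiff_const_smul _)
  have hc2 : ∀ m, HasCompactSupport (c m) := fun m =>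
    χ.hasCompactSupport.comp_smul (by positivity)
  have hc3 : ∀ m x, |c m x| ≤ 1 := fun m x => by
    rw [abs_of_nonneg χ.nonneg]; exact χ.le_one
  have hc3' : ∀ m x, |1 - c m x| ≤ 1 := fun m x => by
    rw [abs_of_nonneg (sub_nonneg.2 χ.le_one)]
    have : 0 ≤ c m x := χ.nonneg
    linarith
  have hc4 : ∀ m x, ‖fderiv ℝ (c m) x‖ ≤ C * ((m : ℝ) + 1)⁻¹ := by
    intro m x
    have h1 : HasFDerivAt (c m) (((m : ℝ) + 1)⁻¹ • fderiv ℝ χ (((m : ℝ) + 1)⁻¹ • x)) x := by
      have := ((hχ.differentiable one_ne_zero) (((m : ℝ) + 1)⁻¹ • x)).hasFDerivAt.comp x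
        ((hasFDerivAt_id x).const_smul ((m : ℝ) + 1)⁻¹)
      refine this.congr_fderiv ?_
      ext v
      simp
    rw [h1.fderiv, norm_smul, mul_comm, Real.norm_of_nonneg (by positivity)]
    exact mul_le_mul_of_nonneg_right (hC _) (by positivity)
  let g : ℕ → EuclideanSpace ℝ J → ℂ := fun m x => c m x • u x
  have hg1 : ∀ m, C1c (g m) := fun m => ⟨(hc1 m).smul hu, (hc2 m).smul_right⟩
  have iu : Integrable fun x => ‖u x‖ ^ 2 := (memLp_two_iff_integrable_sq_norm hu2.1).1 hu2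
  have ipd : ∀ j, Integrable fun x => ‖pd j u x‖ ^ 2 := fun j =>
    (memLp_two_iff_integrable_sq_norm (hu3 j).1).1 (hu3 j)
  have t1 : Tendsto (fun m => ∫ x, ‖u x - g m x‖ ^ 2) atTop (𝓝 0) := by
    have := tendsto_integral_of_dominated_convergence (μ := volume)
      (F := fun m x => ‖u x - g m x‖ ^ 2) (f := fun _ => (0 : ℝ)) (fun x => ‖u x‖ ^ 2)
      (fun m => ((hu.continuous.sub (hg1 m).1.continuous).norm.pow 2).aestronglyMeasurable) iu
      (fun m => ae_of_all _ fun x => by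
        have e : u x - g m x = (1 - c m x) • u x := by simp only [g, sub_smul, one_smul]
        rw [Real.norm_of_nonneg (by positivity), e, norm_smul]
        refine pow_le_pow_left₀ (by positivity) ?_ 2
        exact mul_le_of_le_one_left (norm_nonneg _) (hc3' m x))
      (ae_of_all _ fun x => by
        refine tendsto_const_nhds.congr' ?_
        filter_upwards [eventually_ge_atTop ⌈‖x‖⌉₊] with m hm
        have h1 : c m x = 1 := by
          refine χ.one_of_mem_closedBall ?_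
          rw [mem_closedBall_zero_iff, norm_smul, Real.norm_of_nonneg (by positivity),
            inv_mul_le_iff₀ (by positivity)]
          have : ‖x‖ ≤ m := Nat.ceil_le.1 hm
          change ‖x‖ ≤ ((m : ℝ) + 1) * 1
          linarith
        simp [g, h1])
    simpa using this
  have hdir : ∀ m, dir (g m) ≤ dir u + (C * ((m : ℝ) + 1)⁻¹) * (dir u + ∑ _j : J, nsq u) +
      (C * ((m : ℝ) + 1)⁻¹) ^ 2 * ∑ _j : J, nsq u := by
    intro m
    set t := C * ((m : ℝ) + 1)⁻¹ with ht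
    have ht0 : 0 ≤ t := by positivity
    change ∑ j, ∫ x, ‖pd j (g m) x‖ ^ 2 ≤ (∑ j, ∫ x, ‖pd j u x‖ ^ 2) +
      t * ((∑ j, ∫ x, ‖pd j u x‖ ^ 2) + ∑ _j : J, ∫ x, ‖u x‖ ^ 2) +
      t ^ 2 * ∑ _j : J, ∫ x, ‖u x‖ ^ 2
    rw [← Finset.sum_add_distrib, Finset.mul_sum, Finset.mul_sum, ← Finset.sum_add_distrib,
      ← Finset.sum_add_distrib]
    refine Finset.sum_le_sum fun j _ => ?_
    have i1 : Integrable fun x => t * (‖pd j u x‖ ^ 2 + ‖u x‖ ^ 2) := ((ipd j).add iu).const_mul t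
    have i2 : Integrable fun x => ‖pd j u x‖ ^ 2 + t * (‖pd j u x‖ ^ 2 + ‖u x‖ ^ 2) :=
      (ipd j).add i1
    have i3 : Integrable fun x => t ^ 2 * ‖u x‖ ^ 2 := iu.const_mul _
    rw [← integral_add (ipd j) iu, ← integral_const_mul, ← integral_const_mul,
      ← integral_add (ipd j) i1, ← integral_add i2 i3]
    refine integral_mono_of_nonneg (ae_of_all _ fun x => by positivity) (i2.add i3)
      (ae_of_all _ fun x => ?_)
    have e : pd j (g m) x = c m x • pd j u x +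
        (fderiv ℝ (c m) x (EuclideanSpace.single j (1 : ℝ))) • u x := by
      change fderiv ℝ (fun x => c m x • u x) x _ = c m x • fderiv ℝ u x _ + _
      rw [fderiv_fun_smul ((hc1 m).differentiable one_ne_zero x) (hu.differentiable one_ne_zero x)]
      simp
    have h1 : ‖pd j (g m) x‖ ≤ ‖pd j u x‖ + t * ‖u x‖ := by
      rw [e]
      refine (norm_add_le _ _).trans (add_le_add ?_ ?_)
      · rw [norm_smul]
        exact mul_le_of_le_one_left (norm_nonneg _) (hc3 m x)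
      · rw [norm_smul]
        refine mul_le_mul_of_nonneg_right ?_ (norm_nonneg _)
        refine ((fderiv ℝ (c m) x).le_opNorm _).trans ?_
        rw [EuclideanSpace.norm_single, norm_one, mul_one]
        exact hc4 m x
    have h2 := pow_le_pow_left₀ (norm_nonneg _) h1 2
    have h3 := mul_nonneg ht0 (sq_nonneg (‖pd j u x‖ - ‖u x‖))
    change ‖pd j (g m) x‖ ^ 2 ≤ ‖pd j u x‖ ^ 2 + t * (‖pd j u x‖ ^ 2 + ‖u x‖ ^ 2) +
      t ^ 2 * ‖u x‖ ^ 2
    nlinarith
  have t2 : Tendsto (fun m : ℕ => C * ((m : ℝ) + 1)⁻¹) atTop (𝓝 0) := by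
    have := (tendsto_one_div_add_atTop_nhds_zero_nat (𝕜 := ℝ)).const_mul C
    simpa using this
  have t3 := (t2.mul_const (dir u + ∑ _j : J, nsq u)).add ((t2.pow 2).mul_const (∑ _j : J, nsq u))
  rw [zero_mul, zero_pow two_ne_zero, zero_mul, add_zero] at t3
  obtain ⟨m, hm1, hm2⟩ := ((t1.eventually (gt_mem_nhds hε)).and
    (t3.eventually (gt_mem_nhds hε))).exists
  exact ⟨g m, hg1 m, hm1.le, (hdir m).trans (by rw [add_assoc]; exact add_le_add le_rfl hm2.le)⟩

theorem kin_eq {n : ℕ} {f : Config n → ℂ} (hf : MemLp f 2 volume) : kineticOne f =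
    (1 / 2) * eLpNorm (𝓕 (hf.toLp f) : Lp ℂ 2 (volume : Measure (Config n))) 2
      (volume.withDensity fun ξ => ENNReal.ofReal ((2 * Real.pi * ‖ξ‖) ^ 2)) ^ 2 := by
  rw [← lint_sq, lintegral_withDensity_eq_lintegral_mul_non_measurable _ (by fun_prop)
    (ae_of_all _ fun _ => ENNReal.ofReal_lt_top)]
  exact dif_pos hf

end Dens

open Dens in
theorem dens (hK : KinStmt) : DensStmt := by
  intro n f hf hfin ε hε
  set μ' : Measure (Config n) :=
    volume.withDensity fun ξ => ENNReal.ofReal ((2 * Real.pi * ‖ξ‖) ^ 2) with hμ'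
  set G : Lp ℂ 2 (volume : Measure (Config n)) := 𝓕 (hf.toLp f) with hG
  have hk : kineticOne f = (1 / 2) * eLpNorm G 2 μ' ^ 2 := kin_eq hf
  have hG' : eLpNorm G 2 μ' < ⊤ := by
    by_contra h
    rw [not_lt, top_le_iff] at h
    rw [hk, h] at hfin
    simp at hfin
  set a := (eLpNorm G 2 μ').toReal with ha
  have ha0 : 0 ≤ a := ENNReal.toReal_nonneg
  have hka : (kineticOne f).toReal = a ^ 2 / 2 := by
    rw [hk, ENNReal.toReal_mul, ENNReal.toReal_pow]
    simp [ha, div_eq_inv_mul]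
  obtain ⟨δ, hδ0, hδ1, hδ2⟩ : ∃ δ : ℝ, 0 < δ ∧ δ ≤ 1 ∧ δ * (a + 2) ≤ ε / 2 := by
    refine ⟨min 1 (ε / 2 / (a + 2)), by positivity, min_le_left _ _, ?_⟩
    rw [← le_div_iff₀ (by positivity)]
    exact min_le_right _ _
  obtain ⟨g, hg1, hg2⟩ := approx (fun ξ : Config n => (2 * Real.pi * ‖ξ‖) ^ 2) (by fun_prop)
    (fun _ => by positivity) G (Lp.memLp G) hG' hδ0
  set u : 𝓢(Config n, ℂ) := 𝓕⁻ g with hu
  have hu2 : MemLp u 2 volume := u.memLp 2
  have hpd : ∀ j, pd j u = (∂_{EuclideanSpace.single j (1 : ℝ)} u : 𝓢(Config n, ℂ)) :=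
    fun j => funext fun x => (SchwartzMap.lineDerivOp_apply_eq_fderiv _ u x).symm
  have hF : (𝓕 (hu2.toLp u) : Lp ℂ 2 (volume : Measure (Config n))) = g.toLp 2 volume := by
    change 𝓕 (u.toLp 2 volume) = _
    rw [SchwartzMap.toLp_fourier_eq, hu, FourierTransform.fourier_fourierInv_eq]
  have hku := hK n u (u.smooth 1) u.integrable hu2
    (fun j => by rw [hpd]; exact SchwartzMap.integrable _)
    (fun j => by rw [hpd]; exact SchwartzMap.memLp _ 2 volume)
  have hd0 : 0 ≤ dir u := Finset.sum_nonneg fun j _ => integral_nonneg fun x => by positivity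
  have hdu : dir u / 2 ≤ (a + δ) ^ 2 / 2 := by
    have h0 : (g.toLp 2 volume : Config n → ℂ) =ᵐ[μ'] g :=
      (withDensity_absolutelyContinuous _ _).ae_eq (g.coeFn_toLp 2 volume)
    rw [kin_eq hu2, hF, ← hμ', eLpNorm_congr_ae h0] at hku
    have h1 : eLpNorm g 2 μ' ≤ ENNReal.ofReal (a + δ) := by
      rw [ENNReal.ofReal_add ha0 hδ0.le, ha, ENNReal.ofReal_toReal hG'.ne]
      exact hg2
    have h2 : ENNReal.ofReal (dir u / 2) ≤ ENNReal.ofReal ((a + δ) ^ 2 / 2) := by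
      rw [← hku, ENNReal.ofReal_div_of_pos two_pos, ENNReal.ofReal_pow (by positivity),
        ENNReal.ofReal_ofNat, one_div, ← ENNReal.div_eq_inv_mul]
      gcongr
    exact (ENNReal.ofReal_le_ofReal_iff (by positivity)).1 h2
  have hfu : ∫ x, ‖f x - u x‖ ^ 2 ≤ δ ^ 2 := by
    have h1 := int_sq (hf.sub hu2).1
    have h2 : (eLpNorm (f - ⇑u) 2 volume).toReal = ‖hf.toLp f - hu2.toLp u‖ := by
      rw [← MemLp.toLp_sub, Lp.norm_toLp]
    have h3 : ‖hf.toLp f - hu2.toLp u‖ = ‖G - g.toLp 2 volume‖ := by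
      rw [← hF, hG, ← Lp.norm_fourier_eq]
      congr 1
      exact map_sub (Lp.fourierTransformₗᵢ (Config n) ℂ) _ _
    have h4 : ‖G - g.toLp 2 volume‖ ≤ δ := by
      rw [Lp.norm_def]
      refine ENNReal.toReal_le_of_le_ofReal hδ0.le (le_trans (le_of_eq ?_) hg1)
      refine eLpNorm_congr_ae ((Lp.coeFn_sub _ _).trans ?_)
      filter_upwards [g.coeFn_toLp 2 volume] with x hx
      rw [Pi.sub_apply, Pi.sub_apply, hx]
    change ∫ x, ‖(f - ⇑u) x‖ ^ 2 ≤ _
    rw [h1, h2, h3]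
    exact pow_le_pow_left₀ (norm_nonneg _) h4 2
  obtain ⟨v, hv1, hv2, hv3⟩ := cutoff u (u.smooth 1) hu2
    (fun j => by rw [hpd]; exact SchwartzMap.memLp _ 2 volume) (ε := ε / 4) (by positivity)
  have hv : MemLp v 2 volume := hv1.1.continuous.memLp_of_hasCompactSupport hv1.2
  clear hd0 hku
  refine ⟨v, hv1, ?_, ?_⟩
  · clear hdu hv3
    have i1 : Integrable fun x => ‖f x - u x‖ ^ 2 :=
      (memLp_two_iff_integrable_sq_norm (hf.sub hu2).1).1 (hf.sub hu2)
    have i2 : Integrable fun x => ‖u x - v x‖ ^ 2 :=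
      (memLp_two_iff_integrable_sq_norm (hu2.sub hv).1).1 (hu2.sub hv)
    have h1 : ∫ x, ‖f x - v x‖ ^ 2 ≤ ∫ x, (2 * ‖f x - u x‖ ^ 2 + 2 * ‖u x - v x‖ ^ 2) := by
      refine integral_mono_of_nonneg (ae_of_all _ fun x => by positivity)
        ((i1.const_mul 2).add (i2.const_mul 2)) (ae_of_all _ fun x => ?_)
      have h2 := pow_le_pow_left₀ (norm_nonneg _)
        (norm_sub_le_norm_sub_add_norm_sub (f x) (u x) (v x)) 2
      change ‖f x - v x‖ ^ 2 ≤ 2 * ‖f x - u x‖ ^ 2 + 2 * ‖u x - v x‖ ^ 2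
      nlinarith [sq_nonneg (‖f x - u x‖ - ‖u x - v x‖)]
    rw [integral_add (i1.const_mul 2) (i2.const_mul 2), integral_const_mul, integral_const_mul] at h1
    nlinarith [mul_nonneg hδ0.le ha0]
  · rw [hka]
    generalize dir v = y at hv3 ⊢
    generalize dir u = z at hv3 hdu
    nlinarith [mul_nonneg hδ0.le ha0]

end Crest.Agent.R338
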