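import Crest.Agent.R338.EpBoundAux

/-!
# Row 338: size of the quadrature error
-/

noncomputable section

open MeasureTheory Set

namespace Crest.Agent.R338

namespace EpBound

open Radial EpBoundAux

/-- Truncated inverse square of the distance. -/
def iq (y0 : E3) (ρ : ℝ) : E3 → ℝ := (Metric.closedBall y0 ρ).indicator fun y => (‖y - y0‖ ^ 2)⁻¹

theorem iq_nonneg (y0 : E3) (ρ : ℝ) (y : E3) : 0 ≤ iq y0 ρ y :=
  indicator_nonneg (fun _ _ => by positivity) y

theorem iq_eq {y0 y : E3} {ρ : ℝ} (h : ‖y - y0‖ ≤ ρ) : iq y0 ρ y = (‖y - y0‖ ^ 2)⁻¹ :=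
  indicator_of_mem (mem_closedBall_iff_norm.2 h) _

theorem iq_int (y0 : E3) {ρ : ℝ} (hρ : 0 ≤ ρ) :
    Integrable (iq y0 ρ) ∧ ∫ y, iq y0 ρ y = 4 * Real.pi * ρ :=
  ⟨(integrable_indicator_iff measurableSet_closedBall).2 (ball_inv_sq y0 hρ).1,
    (integral_indicator measurableSet_closedBall).trans (ball_inv_sq y0 hρ).2⟩

open Classical in
theorem core {CM : ℝ} (hCM : 1 ≤ CM) (hT : TileStmt) {N1 NA : ℕ} (hN : 0 < N1) {d A : ℝ}
    (hd : d = 1 / N1) (hA : A = NA / N1) (hd2 : d ≤ 1 / 2) (hA0 : 0 < A) {φ : E3 → ℝ} {y0 : E3}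
    {Rr η B D : ℝ} {k : ℕ} (hk : k ≤ 1) (hφ : ContDiff ℝ 2 φ) (hB : 0 ≤ B) (hη : 0 ≤ η)
    (hD : 0 ≤ D) (hR : d ≤ Rr)
    (hM : ∀ M c, (∀ x ∈ cube d c, ‖iteratedFDeriv ℝ 4 φ x‖ ≤ M) → |cellE d φ c| ≤ CM * d ^ 4 * M)
    (h0 : ∀ y y', ‖y' - y‖ ≤ d → |φ y - φ y'| ≤ B * D)
    (h2 : ∀ y, 0 < ‖y - y0‖ → ‖y - y0‖ ≤ 3 * d → |lap φ y| ≤ B * D * (‖y - y0‖ ^ 2)⁻¹)
    (h4 : ∀ y s, 0 < s → s ≤ ‖y - y0‖ → ‖iteratedFDeriv ℝ 4 φ y‖ ≤
      B * ((s ^ (k + 3))⁻¹ + if y ∈ bx Rr (1 / 2) then η * (s ^ k)⁻¹ else 0))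
    (hQ : IntegrableOn (fun y => (‖y - y0‖ ^ (k + 3))⁻¹) (shell y0 d A)) :
    |∑ α, cellE d φ (lat N1 NA α)| ≤ 81 * CM * B * (D * (12 * Real.pi) +
      d * ((∫ y in shell y0 d A, (‖y - y0‖ ^ (k + 3))⁻¹) + (A ^ (k + 3))⁻¹ * (8 * A ^ 2)) +
      d * η * (32 * Rr ^ 2 + k * (4 * Real.pi))) := by
  have hd0 : 0 < d := by rw [hd]; positivity
  obtain ⟨Q, hQe⟩ : ∃ Q, Q = (shell y0 d A).indicator fun y => (‖y - y0‖ ^ (k + 3))⁻¹ := ⟨_, rfl⟩
  obtain ⟨S, hSe⟩ : ∃ S, S = (bx (2 * Rr) 1).indicator fun _ => (1 : ℝ) := ⟨_, rfl⟩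
  have hQ0 : ∀ y, 0 ≤ Q y := hQe ▸ indicator_nonneg fun _ _ => by positivity
  have hS0 : ∀ y, 0 ≤ S y := hSe ▸ indicator_nonneg fun _ _ => zero_le_one
  have hQi : Integrable Q := hQe ▸ (integrable_indicator_iff (measurableSet_shell _ _ _)).2 hQ
  have hSi : Integrable S := hSe ▸ (integrable_indicator_iff (isCompact_bx _ _).measurableSet).2
    (integrableOn_const (isCompact_bx _ _).measure_lt_top.ne)
  have hP := iq_int y0 (ρ := 3 * d) (by positivity)
  have hP1 := iq_int y0 zero_le_one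
  obtain ⟨H, hH⟩ : ∃ H : E3 → ℝ,
    H = fun y => D / d * iq y0 (3 * d) y + d * Q y + d * η * (S y + k * iq y0 1 y) := ⟨_, rfl⟩
  have i1 : Integrable fun y => S y + k * iq y0 1 y := hSi.add (hP1.1.const_mul _)
  have i2 : Integrable fun y => D / d * iq y0 (3 * d) y + d * Q y :=
    (hP.1.const_mul _).add (hQi.const_mul _)
  have hHi : Integrable H := hH ▸ i2.add (i1.const_mul _)
  have hHv : ∫ y, H y = D * (12 * Real.pi) + d * (∫ y in shell y0 d A, (‖y - y0‖ ^ (k + 3))⁻¹) +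
      d * η * (32 * Rr ^ 2 + k * (4 * Real.pi)) := by
    rw [hH, integral_add i2 (i1.const_mul _), integral_add (hP.1.const_mul _) (hQi.const_mul _),
      integral_const_mul, integral_const_mul, integral_const_mul,
      integral_add hSi (hP1.1.const_mul _), integral_const_mul, hP.2, hP1.2, hQe, hSe,
      integral_indicator (measurableSet_shell _ _ _),
      integral_indicator (isCompact_bx _ _).measurableSet, setIntegral_const,
      volume_bx (by linarith) zero_le_one, smul_eq_mul]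
    field_simp
    ring
  have hH0 : ∀ y, 0 ≤ H y := fun y => by
    have := iq_nonneg y0 (3 * d) y
    have := iq_nonneg y0 1 y
    have := hQ0 y
    have := hS0 y
    rw [hH]
    positivity
  have hh : ∀ K : Set E3, IsCompact K →
      IntegrableOn (fun y => 81 * CM * B * (H y + d * (A ^ (k + 3))⁻¹)) K := fun K hK =>
    (hHi.integrableOn.add (integrableOn_const hK.measure_lt_top.ne)).const_mul _
  have hcell : ∀ c, |cellE d φ c| ≤
      ∫ y in cube d c, 81 * CM * B * (H y + d * (A ^ (k + 3))⁻¹) := by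
    intro c
    have hc : ∀ y ∈ cube d c, ‖y - y0‖ ≤ ‖c - y0‖ + d ∧ ‖c - y0‖ ≤ ‖y - y0‖ + d := fun y hy => by
      have h := abs_le.1 (abs_norm_sub_norm_le (y - y0) (c - y0))
      rw [sub_sub_sub_cancel_right] at h
      constructor <;> linarith [h.1, h.2, norm_sub_le_of_mem_cube hy]
    rcases le_or_gt ‖c - y0‖ (2 * d) with hs | hs
    · refine cell_near hd0 hφ (hh _ (isCompact_cube d c)) ?_
      filter_upwards [compl_mem_ae_iff.2 (measure_singleton y0)] with y hy hyc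
      have hr : 0 < ‖y - y0‖ := norm_pos_iff.2 (sub_ne_zero.2 hy)
      have hr3 : ‖y - y0‖ ≤ 3 * d := by linarith [(hc y hyc).1]
      have e1 : D / d * (‖y - y0‖ ^ 2)⁻¹ ≤ H y + d * (A ^ (k + 3))⁻¹ := by
        have := iq_nonneg y0 1 y
        have := hQ0 y
        have := hS0 y
        rw [hH, ← iq_eq hr3, add_assoc, add_assoc]
        exact le_add_of_nonneg_right (by positivity)
      have e2 : (d ^ 2)⁻¹ ≤ 9 * (‖y - y0‖ ^ 2)⁻¹ := by
        rw [← div_eq_mul_inv, inv_eq_one_div, div_le_div_iff₀ (by positivity) (by positivity)]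
        nlinarith
      calc _ ≤ B * D / d ^ 3 + B * D * (‖y - y0‖ ^ 2)⁻¹ / (24 * d) := by
            gcongr
            exacts [h0 _ _ (norm_sub_le_of_mem_cube hyc), h2 y hr hr3]
        _ = B * (D / d) * ((d ^ 2)⁻¹ + (‖y - y0‖ ^ 2)⁻¹ / 24) := by field_simp
        _ ≤ B * (D / d) * (81 * CM * (‖y - y0‖ ^ 2)⁻¹) := by
            have : 0 ≤ (‖y - y0‖ ^ 2)⁻¹ := by positivity
            gcongr
            nlinarith
        _ = 81 * CM * B * (D / d * (‖y - y0‖ ^ 2)⁻¹) := by ring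
        _ ≤ _ := by gcongr
    · obtain ⟨σ, hσ⟩ : ∃ σ, ‖c - y0‖ = 2 * σ := ⟨‖c - y0‖ / 2, by ring⟩
      have hσ0 : 0 < σ := by linarith
      have e1 := hM (B * ((σ ^ (k + 3))⁻¹ +
          if c ∈ bx (Rr + d / 2) (1 / 2 + d / 2) then η * (σ ^ k)⁻¹ else 0)) c fun y hy => by
        refine (h4 y σ hσ0 (by linarith [(hc y hy).2])).trans ?_
        gcongr
        split_ifs with h5 h6 h6
        exacts [le_rfl, absurd ((mem_bx_of_cube hy).1 h5) h6, by positivity, le_rfl]
      refine e1.trans (le_trans (le_of_eq (by ring)) (cell_far (b := CM * d * (B * ((σ ^ (k + 3))⁻¹ +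
          if c ∈ bx (Rr + d / 2) (1 / 2 + d / 2) then η * (σ ^ k)⁻¹ else 0))) hd0
        (hh _ (isCompact_cube d c)) fun y hy => ?_))
      have hr : d < ‖y - y0‖ := by linarith [(hc y hy).2]
      have hr0 := hd0.trans hr
      have hr3 : ‖y - y0‖ ≤ 3 * σ := by linarith [(hc y hy).1]
      have e2 : (σ ^ (k + 3))⁻¹ ≤ 81 * (Q y + (A ^ (k + 3))⁻¹) := by
        refine (inv_pow_le hr0 hr3 (by omega)).trans (mul_le_mul_of_nonneg_left ?_ (by norm_num))
        rcases le_total ‖y - y0‖ A with h | h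
        · rw [hQe, indicator_of_mem (show y ∈ shell y0 d A from ⟨hr, h⟩)]
          exact le_add_of_nonneg_right (by positivity)
        · exact le_add_of_nonneg_of_le (hQ0 y) (by gcongr)
      have e3 : (if c ∈ bx (Rr + d / 2) (1 / 2 + d / 2) then η * (σ ^ k)⁻¹ else 0) ≤
          81 * (η * (S y + k * iq y0 1 y)) := by
        have := iq_nonneg y0 1 y
        have := hS0 y
        split_ifs with h5
        · have h6 := (mem_bx_of_cube hy).2 h5
          have h7 : S y = 1 := by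
            rw [hSe, indicator_of_mem (show y ∈ bx (2 * Rr) 1 from
              ⟨by linarith [h6.1], by linarith [h6.2.1], by linarith [h6.2.2]⟩)]
          rw [h7, mul_left_comm]
          refine mul_le_mul_of_nonneg_left ((inv_pow_le hr0 hr3 (by omega)).trans
            (mul_le_mul_of_nonneg_left ?_ (by norm_num))) hη
          rcases le_total ‖y - y0‖ 1 with h | h
          · interval_cases k
            · simp
            · rw [iq_eq h, Nat.cast_one, one_mul]
              exact le_add_of_nonneg_of_le zero_le_one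
                (inv_anti₀ (by positivity) (pow_le_pow_of_le_one hr0.le h one_le_two))
          · exact le_add_of_le_of_nonneg (inv_le_one_of_one_le₀ (one_le_pow₀ h)) (by positivity)
        · positivity
      have e4 := iq_nonneg y0 (3 * d) y
      calc _ ≤ CM * d * (B * (81 * (Q y + (A ^ (k + 3))⁻¹) + 81 * (η * (S y + k * iq y0 1 y)))) := by
            gcongr
        _ = 81 * CM * B * (0 + d * Q y + d * η * (S y + k * iq y0 1 y) + d * (A ^ (k + 3))⁻¹) := by
            ring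
        _ ≤ _ := by
            simp only [hH]
            gcongr
            positivity
  have hK := isCompact_box A
  calc _ ≤ ∑ α, ∫ y in cube d (lat N1 NA α), 81 * CM * B * (H y + d * (A ^ (k + 3))⁻¹) :=
        (Finset.abs_sum_le_sum_abs _ _).trans (Finset.sum_le_sum fun α _ => hcell _)
    _ = ∫ y in box A, 81 * CM * B * (H y + d * (A ^ (k + 3))⁻¹) := by
        have h := hT N1 NA hN _ (hh _ (isCompact_box _))
        rw [← hA, ← hd] at h
        exact h.symm
    _ = 81 * CM * B * ((∫ y in box A, H y) + 8 * A ^ 2 * (d * (A ^ (k + 3))⁻¹)) := by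
        rw [integral_const_mul, integral_add hHi.integrableOn
          (integrableOn_const hK.measure_lt_top.ne), setIntegral_const, volume_box hA0.le,
          smul_eq_mul]
    _ ≤ 81 * CM * B * ((∫ y, H y) + 8 * A ^ 2 * (d * (A ^ (k + 3))⁻¹)) := by
        have := setIntegral_le_integral (s := box A) hHi (Filter.Eventually.of_forall hH0)
        gcongr
    _ = _ := by rw [hHv]; ring

theorem le_rr (ε : ℝ) (x : E3) : ‖x‖ ≤ rr ε x :=
  Real.le_sqrt_of_sq_le (le_add_of_nonneg_right (sq_nonneg ε))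

theorem rr_zpow {ε s : ℝ} {x : E3} (hs : 0 < s) (h : s ≤ ‖x‖) {m : ℤ} {j : ℕ} (hm : m = -j) :
    rr ε x ^ m ≤ (s ^ j)⁻¹ := by
  rw [hm, zpow_neg, zpow_natCast]
  exact inv_anti₀ (pow_pos hs j) (pow_le_pow_left₀ hs.le (h.trans (le_rr ε x)) j)

end EpBound

open Radial EpBoundAux EpBound Classical in
theorem epBound (hM : MidStmt) (hT : TileStmt) (hC : CompStmt) : EpBoundStmt := by
  obtain ⟨CM, hCM, hM⟩ := hM
  obtain ⟨CC, hCC, hC⟩ := hC
  refine ⟨81 * CM * (36 * CC) * 66, by nlinarith, ?_⟩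
  intro N1 NA u Rr η ε C0 g h8 h2 hu hR hR4 hη hε hC0
  have hN : 0 < N1 := by omega
  have hN8 : (8 : ℝ) ≤ N1 := by exact_mod_cast h8
  have hNA : (2 * N1 : ℝ) ≤ NA := by exact_mod_cast h2
  obtain ⟨d, hd⟩ : ∃ d : ℝ, d = 1 / N1 := ⟨_, rfl⟩
  obtain ⟨A, hA⟩ : ∃ A : ℝ, A = NA / N1 := ⟨_, rfl⟩
  have hd0 : 0 < d := by rw [hd]; positivity
  have hd2 : d ≤ 1 / 2 := by rw [hd]; exact one_div_le_one_div_of_le two_pos (by linarith)
  have hA2 : 2 ≤ A := by rw [hA, le_div_iff₀ (by linarith)]; exact hNA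
  have hη0 : 0 ≤ η := (norm_nonneg _).trans (hu.d4 0)
  have hη3 : η ^ (1 / 3 : ℝ) ≤ d⁻¹ := by
    rw [hd, one_div (N1 : ℝ), inv_inv]
    refine (Real.rpow_le_rpow hη0 hη (by norm_num)).trans_eq ?_
    simpa using Real.pow_rpow_inv_natCast (by linarith : (0 : ℝ) ≤ N1) three_ne_zero
  have hπ := Real.pi_le_four
  have hπ0 := Real.pi_pos
  have key : ∀ (m : ℤ) (k : ℕ) (D : ℝ), m = 0 ∧ k = 1 ∧ D = 1 ∨ m = 1 ∧ k = 0 ∧ D = d →
      Symb ε C0 m g → ∀ x, ∃ y0 : E3,
      IntegrableOn (fun y => (‖y - y0‖ ^ (k + 3))⁻¹) (shell y0 d A) →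
      |Ep N1 NA u g x| ≤ 81 * CM * (36 * CC * C0) * (D * (12 * Real.pi) +
        d * ((∫ y in shell y0 d A, (‖y - y0‖ ^ (k + 3))⁻¹) + (A ^ (k + 3))⁻¹ * (8 * A ^ 2)) +
        d * η * (32 * Rr ^ 2 + k * (4 * Real.pi))) := by
    intro m k D hm hg x
    obtain ⟨y0, -, -, hφ, hb⟩ := hC u Rr η ε C0 m g x hu hε hC0 (hm.imp And.left And.left) hg
    have hφ2 : ContDiff ℝ 2 fun y => g (x - (y + u y)) := hφ.of_le (by norm_num)
    have hB : 0 ≤ CC * C0 := by positivity
    have hk : k ≤ 1 ∧ m - 1 = -k ∧ m - 4 = -(k + 3 : ℕ) ∧ 0 < D := by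
      rcases hm with ⟨rfl, rfl, rfl⟩ | ⟨rfl, rfl, rfl⟩ <;> simp [hd0]
    refine ⟨y0, fun hQ => ?_⟩
    rw [Ep_eq hT hN (fun y hy => ?_) (hg.1.of_le (by norm_cast)) hφ2, ← hd]
    · refine core hCM hT hN hd hA hd2 (by linarith) hk.1 hφ2 (by positivity) hη0 hk.2.2.2.le
        (hd ▸ hR) (fun M c h => hM d M c _ hd0 hφ h) (fun y y' hy => ?_) (fun y hr hr3 => ?_)
        (fun y s hs hsy => ?_) hQ
      · rcases hm with ⟨rfl, -, rfl⟩ | ⟨rfl, -, rfl⟩
        · have h1 : ∀ z, |g z| ≤ C0 := fun z => by simpa using hg.2 0 (by norm_num) z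
          refine (abs_sub _ _).trans ((add_le_add (h1 _) (h1 _)).trans ?_)
          nlinarith
        · have h1 := convex_univ.norm_image_sub_le_of_norm_fderiv_le (C := CC * C0)
            (fun z _ => hφ.differentiable (by norm_num) z)
            (fun z _ => by simpa [← norm_iteratedFDeriv_one] using (hb z).1)
            (mem_univ y) (mem_univ y')
          rw [abs_sub_comm]
          refine h1.trans ((mul_le_mul_of_nonneg_left hy hB).trans ?_)
          nlinarith [mul_nonneg hB hd0.le]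
      · have h1 : rr ε (y - y0) ^ (m - 2) + η ^ (1 / 3 : ℝ) * rr ε (y - y0) ^ (m - 1) ≤
            12 * D * (‖y - y0‖ ^ 2)⁻¹ := by
          have h3 := mul_le_mul hη3 (rr_zpow (ε := ε) hr le_rfl hk.2.1)
            (zpow_nonneg (Real.sqrt_nonneg _) _) (by positivity)
          rcases hm with ⟨rfl, rfl, rfl⟩ | ⟨rfl, rfl, rfl⟩
          · refine (add_le_add (rr_zpow (j := 2) hr le_rfl rfl) h3).trans ?_
            generalize ‖y - y0‖ = r at hr hr3
            field_simp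
            nlinarith
          · refine (add_le_add (rr_zpow (j := 1) hr le_rfl rfl) h3).trans ?_
            generalize ‖y - y0‖ = r at hr hr3
            field_simp
            nlinarith
        calc _ ≤ 3 * (CC * C0 * (12 * D * (‖y - y0‖ ^ 2)⁻¹)) := (abs_lap_le hφ2 y).trans
              (mul_le_mul_of_nonneg_left ((hb y).2.1.trans (mul_le_mul_of_nonneg_left h1 hB))
                (by norm_num))
          _ = _ := by ring
      · have h1 := rr_zpow (ε := ε) hs hsy hk.2.1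
        have h3 := rr_zpow (ε := ε) hs hsy hk.2.2.1
        refine (hb y).2.2.trans (mul_le_mul (by nlinarith) (add_le_add h3 ?_)
          (add_nonneg (zpow_nonneg (Real.sqrt_nonneg _) _) ?_) (by positivity))
        · by_cases h : y ∈ bx Rr (1 / 2)
          · rw [if_pos h]
            exact (if_pos h).trans_le (mul_le_mul_of_nonneg_left h1 hη0)
          · rw [if_neg h]
            exact (if_neg h).le
        · split_ifs
          exacts [mul_nonneg hη0 (zpow_nonneg (Real.sqrt_nonneg _) _), le_rfl]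
    · by_contra h
      have h1 := hu.supp y h
      rw [← hA] at hy
      exact hy ⟨by linarith [h1.1], by linarith [h1.2.1], by linarith [h1.2.2]⟩
  have hK : 0 ≤ 81 * CM * (36 * CC * C0) := by positivity
  refine ⟨fun hg x => ?_, fun hg x => ?_⟩
  · obtain ⟨y0, h⟩ := key 1 0 d (Or.inr ⟨rfl, rfl, rfl⟩) hg x
    have h1 := shell_inv_cube y0 hd0 (by linarith : d ≤ A)
    have h3 : A / d = NA := by rw [hA, hd]; field_simp
    have h4 : 0 ≤ Real.log NA := Real.log_natCast_nonneg NA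
    have h5 : (A ^ 3)⁻¹ * (8 * A ^ 2) ≤ 4 := by
      rw [inv_mul_le_iff₀ (by positivity)]
      nlinarith [sq_nonneg A]
    have h6 : 0 ≤ η * Rr ^ 2 := by positivity
    have h7 := h h1.1
    rw [zero_add, h1.2, h3, Nat.cast_zero, zero_mul, add_zero] at h7
    calc _ ≤ 81 * CM * (36 * CC * C0) * (66 * (1 + Real.log NA + η * Rr ^ 2) * d) := by
          refine h7.trans (mul_le_mul_of_nonneg_left ?_ hK)
          have h8 : 12 * Real.pi + (4 * Real.pi * Real.log NA + (A ^ 3)⁻¹ * (8 * A ^ 2)) +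
            32 * (η * Rr ^ 2) ≤ 66 * (1 + Real.log NA + η * Rr ^ 2) := by nlinarith
          linarith [mul_le_mul_of_nonneg_right h8 hd0.le]
      _ = _ := by rw [hd]; ring
  · obtain ⟨y0, h⟩ := key 0 1 1 (Or.inl ⟨rfl, rfl, rfl⟩) hg x
    have h1 := shell_inv_four y0 hd0 (by linarith : d ≤ A)
    have h3 : d * (4 * Real.pi * (d⁻¹ - A⁻¹)) ≤ 16 := by
      have h4 : 0 ≤ d * (4 * Real.pi * A⁻¹) := by positivity
      have h5 : d * (4 * Real.pi * d⁻¹) = 4 * Real.pi := by field_simp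
      linarith
    have h5 : (A ^ 4)⁻¹ * (8 * A ^ 2) ≤ 2 := by
      rw [inv_mul_le_iff₀ (by positivity)]
      nlinarith [sq_nonneg A, mul_self_le_mul_self zero_le_two hA2]
    have h6 : Rr ^ 2 ≤ 1 := pow_le_one₀ (by linarith) (by linarith)
    have h7 := h h1.1
    rw [show 1 + 3 = 4 from rfl, h1.2, Nat.cast_one] at h7
    calc _ ≤ 81 * CM * (36 * CC * C0) * (66 * (1 + d * η)) := by
          refine h7.trans (mul_le_mul_of_nonneg_left ?_ hK)
          have h8 : d * η * (32 * Rr ^ 2 + 1 * (4 * Real.pi)) ≤ d * η * 66 :=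
            mul_le_mul_of_nonneg_left (by linarith) (by positivity)
          have h9 : d * ((A ^ 4)⁻¹ * (8 * A ^ 2)) ≤ 1 / 2 * 2 :=
            mul_le_mul hd2 h5 (by positivity) (by norm_num)
          linarith
      _ = _ := by rw [hd]; ring

end Crest.Agent.R338
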