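import Crest.Agent.R338.Radial

/-!
# Row 338: the quadrature error as a sum over the cells
-/

noncomputable section

open MeasureTheory Set

namespace Crest.Agent.R338.EpBoundAux

open Radial

theorem pd_contDiff {f : E3 → ℝ} (hf : ContDiff ℝ 2 f) (j : Fin 3) : ContDiff ℝ 1 (pd j f) :=
  (hf.fderiv_right (m := 1) le_rfl).clm_apply contDiff_const

theorem pd_continuous {f : E3 → ℝ} (hf : ContDiff ℝ 1 f) (j : Fin 3) : Continuous (pd j f) :=
  (hf.continuous_fderiv one_ne_zero).clm_apply continuous_const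

theorem pd_pd {f : E3 → ℝ} (hf : ContDiff ℝ 2 f) (j : Fin 3) (x : E3) : pd j (pd j f) x =
    iteratedFDeriv ℝ 2 f x fun _ => EuclideanSpace.single j (1 : ℝ) := by
  have h : DifferentiableAt ℝ (fderiv ℝ f) x :=
    (hf.fderiv_right (m := 1) le_rfl).differentiable one_ne_zero x
  rw [iteratedFDeriv_two_apply]
  unfold pd
  rw [fderiv_clm_apply h (differentiableAt_const _)]
  simp

theorem abs_lap_le {f : E3 → ℝ} (hf : ContDiff ℝ 2 f) (x : E3) :
    |lap f x| ≤ 3 * ‖iteratedFDeriv ℝ 2 f x‖ := by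
  refine (Finset.abs_sum_le_sum_abs _ _).trans
    ((Finset.sum_le_card_nsmul _ _ ‖iteratedFDeriv ℝ 2 f x‖ fun j _ => ?_).trans (by simp))
  rw [pd_pd hf]
  simpa using (iteratedFDeriv ℝ 2 f x).le_opNorm fun _ => EuclideanSpace.single j (1 : ℝ)

theorem continuous_lap {f : E3 → ℝ} (hf : ContDiff ℝ 2 f) : Continuous (lap f) :=
  continuous_finsetSum _ fun j _ => pd_continuous (pd_contDiff hf j) j

theorem lap_sub {f g : E3 → ℝ} (hf : ContDiff ℝ 2 f) (hg : ContDiff ℝ 2 g) (x : E3) :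
    lap (f - g) x = lap f x - lap g x := by
  simp only [lap, pd_pd hf, pd_pd hg, pd_pd (f := f - g) (hf.sub hg), ← Finset.sum_sub_distrib]
  rw [iteratedFDeriv_sub_apply hf.contDiffAt hg.contDiffAt]
  rfl

theorem pd_const_sub {g : E3 → ℝ} (hg : ContDiff ℝ 1 g) (j : Fin 3) (x : E3) :
    pd j (fun y => g (x - y)) = fun y => -pd j g (x - y) := by
  funext y
  have h := (hg.differentiable one_ne_zero (x - y)).hasFDerivAt.comp y
    ((hasFDerivAt_id y).const_sub x)
  unfold pd
  rw [show (fun y => g (x - y)) = g ∘ HSub.hSub x from rfl, h.fderiv]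
  simp

theorem lap_const_sub {g : E3 → ℝ} (hg : ContDiff ℝ 2 g) (x y : E3) :
    lap (fun y => g (x - y)) y = lap g (x - y) := by
  refine Finset.sum_congr rfl fun j _ => ?_
  rw [pd_const_sub (hg.of_le one_le_two), pd_const_sub (g := fun z => -pd j g z)
    (pd_contDiff hg j).neg]
  exact neg_eq_iff_eq_neg.2 (congrArg (fun L : E3 →L[ℝ] ℝ => L _) fderiv_fun_neg)

theorem integral_pd {f : E3 → ℝ} (h : ContDiff ℝ 1 f) (hs : HasCompactSupport f) (j : Fin 3) :
    Integrable (pd j f) ∧ ∫ x, pd j f x = 0 := by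
  have h1 : Integrable (pd j f) :=
    (pd_continuous h j).integrable_of_hasCompactSupport (hs.fderiv_apply ℝ _)
  refine ⟨h1, ?_⟩
  simpa [pd] using integral_smul_fderiv_eq_neg_fderiv_smul_of_integrable (μ := volume)
    (f := fun _ : E3 => (1 : ℝ)) (g := f) (v := EuclideanSpace.single j (1 : ℝ)) (by simp)
    (by simp only [one_smul]; exact h1) (by simpa using h.continuous.integrable_of_hasCompactSupport hs)
    (fun _ _ => differentiableAt_const _) fun x _ => h.differentiable one_ne_zero x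

theorem integral_lap {ψ : E3 → ℝ} (hψ : ContDiff ℝ 2 ψ) {K : Set E3} (hK : IsCompact K)
    (hs : ∀ y, y ∉ K → ψ y = 0) : ∫ y in K, lap ψ y = 0 := by
  have h1 : tsupport ψ ⊆ K := closure_minimal (Function.support_subset_iff'.2 hs) hK.isClosed
  have h2 : HasCompactSupport ψ := HasCompactSupport.intro hK hs
  have h3 := fun j => integral_pd (pd_contDiff hψ j) (h2.fderiv_apply ℝ _) j
  rw [setIntegral_eq_integral_of_forall_compl_eq_zero fun y hy => ?_]
  · unfold lap
    rw [integral_finsetSum _ fun j _ => (h3 j).1]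
    exact Finset.sum_eq_zero fun j _ => (h3 j).2
  · have h4 : iteratedFDeriv ℝ 2 ψ y = 0 :=
      Function.notMem_support.1 fun h => hy (h1 (support_iteratedFDeriv_subset 2 h))
    simpa [h4] using abs_lap_le hψ y

/-- The error on one cell. -/
def cellE (d : ℝ) (φ : E3 → ℝ) (c : E3) : ℝ :=
  φ c - (∫ x in cube d c, φ x) / d ^ 3 + (∫ x in cube d c, lap φ x) / (24 * d)

theorem Ep_eq (hT : TileStmt) {N1 NA : ℕ} (hN : 0 < N1) {u : E3 → E3} {g : E3 → ℝ} {x : E3}
    (hu : ∀ y, y ∉ box (NA / N1) → u y = 0) (hg : ContDiff ℝ 2 g)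
    (hφ : ContDiff ℝ 2 fun y => g (x - (y + u y))) :
    Ep N1 NA u g x = ∑ α, cellE (1 / N1) (fun y => g (x - (y + u y))) (lat N1 NA α) := by
  have hK := isCompact_box ((NA : ℝ) / N1)
  have hg' : ContDiff ℝ 2 fun y => g (x - y) := hg.comp (contDiff_const.sub contDiff_id)
  have h1 := integral_lap (ψ := (fun y => g (x - (y + u y))) - fun y => g (x - y)) (hφ.sub hg') hK
    fun y hy => by simp [hu y hy]
  simp only [lap_sub hφ hg'] at h1
  rw [integral_sub ((continuous_lap hφ).continuousOn.integrableOn_compact hK)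
    ((continuous_lap hg').continuousOn.integrableOn_compact hK), sub_eq_zero] at h1
  simp only [lap_const_sub hg] at h1
  rw [Ep, ← h1, hT N1 NA hN _ (hφ.continuous.continuousOn.integrableOn_compact hK),
    hT N1 NA hN _ ((continuous_lap hφ).continuousOn.integrableOn_compact hK), Finset.mul_sum,
    Finset.mul_sum, ← Finset.sum_sub_distrib, ← Finset.sum_add_distrib]
  refine Finset.sum_congr rfl fun α _ => ?_
  rw [cellE]
  field_simp

theorem cell_near {d : ℝ} (hd : 0 < d) {φ h : E3 → ℝ} {c : E3} (hφ : ContDiff ℝ 2 φ)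
    (hh : IntegrableOn h (cube d c))
    (hb : ∀ᵐ y, y ∈ cube d c → |φ c - φ y| / d ^ 3 + |lap φ y| / (24 * d) ≤ h y) :
    |cellE d φ c| ≤ ∫ y in cube d c, h y := by
  have hK := isCompact_cube d c
  have h1 : IntegrableOn φ (cube d c) := hφ.continuous.continuousOn.integrableOn_compact hK
  have h2 : IntegrableOn (lap φ) (cube d c) :=
    (continuous_lap hφ).continuousOn.integrableOn_compact hK
  have h3 : IntegrableOn (fun _ => φ c) (cube d c) := integrableOn_const hK.measure_lt_top.ne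
  have h4 : cellE d φ c = ∫ y in cube d c, ((φ c - φ y) / d ^ 3 + lap φ y / (24 * d)) := by
    rw [integral_add (f := fun y => (φ c - φ y) / d ^ 3) ((h3.sub h1).div_const _)
      (h2.div_const _), integral_div, integral_div,
      integral_sub h3 h1, setIntegral_const, volume_cube hd.le, cellE, smul_eq_mul]
    field_simp
  rw [h4, ← Real.norm_eq_abs]
  refine norm_integral_le_of_norm_le hh ((ae_restrict_iff' hK.measurableSet).2
    (hb.mono fun y hy hy' => le_trans ?_ (hy hy')))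
  refine (abs_add_le _ _).trans_eq ?_
  rw [abs_div, abs_div, abs_of_pos (pow_pos hd 3), abs_of_pos (by positivity : 0 < 24 * d)]

theorem cell_far {d b : ℝ} (hd : 0 < d) {h : E3 → ℝ} {c : E3} (hh : IntegrableOn h (cube d c))
    (hb : ∀ y ∈ cube d c, b ≤ h y) : d ^ 3 * b ≤ ∫ y in cube d c, h y := by
  have hK := isCompact_cube d c
  have h1 := setIntegral_mono_on (integrableOn_const (C := b) hK.measure_lt_top.ne) hh
    hK.measurableSet hb
  rwa [setIntegral_const, volume_cube hd.le, smul_eq_mul] at h1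

theorem inv_pow_le {σ r : ℝ} (hr : 0 < r) (h : r ≤ 3 * σ) {j : ℕ} (hj : j ≤ 4) :
    (σ ^ j)⁻¹ ≤ 81 * (r ^ j)⁻¹ := by
  have hσ : 0 < σ := by linarith
  have h1 : (3 : ℝ) ^ j ≤ 3 ^ 4 := pow_le_pow_right₀ (by norm_num) hj
  rw [← div_eq_mul_inv, inv_eq_one_div, div_le_div_iff₀ (pow_pos hσ j) (pow_pos hr j), one_mul]
  calc r ^ j ≤ (3 * σ) ^ j := pow_le_pow_left₀ hr.le h j
    _ = 3 ^ j * σ ^ j := mul_pow _ _ _
    _ ≤ 81 * σ ^ j := mul_le_mul_of_nonneg_right (h1.trans_eq (by norm_num)) (pow_pos hσ j).le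

theorem mem_bx_of_cube {d a b : ℝ} {c y : E3} (hy : y ∈ cube d c) :
    (y ∈ bx a b → c ∈ bx (a + d / 2) (b + d / 2)) ∧
      (c ∈ bx a b → y ∈ bx (a + d / 2) (b + d / 2)) := by
  have h : ∀ j, |c j| ≤ |y j| + d / 2 ∧ |y j| ≤ |c j| + d / 2 := fun j => by
    have h1 := abs_le.1 ((abs_abs_sub_abs_le_abs_sub (y j) (c j)).trans (hy j))
    constructor <;> linarith [h1.1, h1.2]
  exact ⟨fun h1 => ⟨by linarith [(h 0).1, h1.1], by linarith [(h 1).1, h1.2.1],
      by linarith [(h 2).1, h1.2.2]⟩,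
    fun h1 => ⟨by linarith [(h 0).2, h1.1], by linarith [(h 1).2, h1.2.1],
      by linarith [(h 2).2, h1.2.2]⟩⟩

end Crest.Agent.R338.EpBoundAux
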