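import Crest.Agent.R338.DefsF

/-!
# Row 338: differentiation of the quadrature error and chain rule bounds
-/

noncomputable section

open MeasureTheory Function Filter Topology

namespace Crest.Agent.R338

namespace EpSmooth

section integ
variable {K : Set E3} {T : E3 → E3}

theorem integrableOn {F : Type} [NormedAddCommGroup F] (hK : IsCompact K) (hT : Continuous T)
    {g : E3 → F} (hg : Continuous g) (x : E3) : IntegrableOn (fun y => g (x - T y)) K :=
  (hg.comp (continuous_const.sub hT)).continuousOn.integrableOn_compact hK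

theorem hasFDerivAt_int {F : Type} [NormedAddCommGroup F] [NormedSpace ℝ F] (hK : IsCompact K)
    (hT : Continuous T) {g : E3 → F} (hg : ContDiff ℝ 1 g) (x : E3) :
    HasFDerivAt (fun x => ∫ y in K, g (x - T y)) (∫ y in K, fderiv ℝ g (x - T y)) x := by
  have hc : Continuous (fderiv ℝ g) := hg.continuous_fderiv one_ne_zero
  have hc2 : Continuous fun p : E3 × E3 => fderiv ℝ g (p.1 - T p.2) :=
    hc.comp (continuous_fst.sub (hT.comp continuous_snd))
  obtain ⟨B, hB⟩ := ((isCompact_closedBall x 1).prod hK).exists_bound_of_continuousOn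
    hc2.continuousOn
  refine hasFDerivAt_integral_of_dominated_of_fderiv_le (F' := fun x y => fderiv ℝ g (x - T y))
    (bound := fun _ => B) (Metric.closedBall_mem_nhds x one_pos)
    (Eventually.of_forall fun x => (integrableOn hK hT hg.continuous x).aestronglyMeasurable)
    (integrableOn hK hT hg.continuous x) (integrableOn hK hT hc x).aestronglyMeasurable
    ?_ (continuousOn_const.integrableOn_compact hK) (Eventually.of_forall fun y z _ => ?_)
  · exact (ae_restrict_iff' hK.measurableSet).2 (Eventually.of_forall fun y hy z hz =>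
      hB (z, y) ⟨hz, hy⟩)
  · simpa [Function.comp_def] using ((hg.differentiable one_ne_zero) (z - T y)).hasFDerivAt.comp z
      ((hasFDerivAt_id z).sub_const (T y))

theorem contDiff_int (hK : IsCompact K) (hT : Continuous T) (n : ℕ) :
    ∀ {F : Type} [NormedAddCommGroup F] [NormedSpace ℝ F] {g : E3 → F}, ContDiff ℝ n g →
      ContDiff ℝ n fun x => ∫ y in K, g (x - T y) := by
  induction n with
  | zero =>
    intro F _ _ g hg
    exact contDiff_zero.2 (continuous_parametric_integral_of_continuous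
      (f := fun x y => g (x - T y)) (hg.continuous.comp (continuous_fst.sub (hT.comp continuous_snd))) hK)
  | succ n ih =>
    intro F _ _ g hg
    have h1 : ContDiff ℝ 1 g := hg.of_le (by exact_mod_cast Nat.le_add_left 1 n)
    push_cast at hg ⊢
    rw [contDiff_succ_iff_fderiv] at hg ⊢
    refine ⟨fun x => (hasFDerivAt_int hK hT h1 x).differentiableAt, by simp, ?_⟩
    rw [show fderiv ℝ (fun x => ∫ y in K, g (x - T y)) = fun x => ∫ y in K, fderiv ℝ g (x - T y)
      from funext fun x => (hasFDerivAt_int hK hT h1 x).fderiv]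
    exact ih hg.2.2

theorem int_apply (hK : IsCompact K) (hT : Continuous T) {g : E3 → ℝ} (hg : ContDiff ℝ 1 g)
    (x : E3) (j : Fin 3) :
    (∫ y in K, fderiv ℝ g (x - T y)) (EuclideanSpace.single j 1) = ∫ y in K, pd j g (x - T y) :=
  ContinuousLinearMap.integral_apply (integrableOn hK hT (hg.continuous_fderiv one_ne_zero) x) _

end integ

theorem two_le : (2 : WithTop ℕ∞) ≤ (⊤ : ℕ∞) := WithTop.coe_le_coe.2 (le_top : (2 : ℕ∞) ≤ ⊤)

theorem pd_smooth {g : E3 → ℝ} (hg : ContDiff ℝ (⊤ : ℕ∞) g) (j : Fin 3) :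
    ContDiff ℝ (⊤ : ℕ∞) (pd j g) :=
  (contDiff_infty_iff_fderiv.1 hg).2.clm_apply contDiff_const

theorem lap_smooth {g : E3 → ℝ} (hg : ContDiff ℝ (⊤ : ℕ∞) g) : ContDiff ℝ (⊤ : ℕ∞) (lap g) :=
  ContDiff.sum fun j _ => pd_smooth (pd_smooth hg j) j

theorem pd_comm {g : E3 → ℝ} (hg : ContDiff ℝ (⊤ : ℕ∞) g) (i j : Fin 3) :
    pd i (pd j g) = pd j (pd i g) := by
  have h : ∀ i j x, pd i (pd j g) x = fderiv ℝ (fderiv ℝ g) x (EuclideanSpace.single i 1)
      (EuclideanSpace.single j 1) := fun i j x => by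
    unfold pd
    rw [fderiv_clm_apply ((contDiff_infty_iff_fderiv.1 hg).2.differentiable (by simp) x)
      (differentiableAt_const _)]
    simp
  ext x
  rw [h, h]
  exact (hg.contDiffAt.isSymmSndFDerivAt (by simpa using two_le)).eq _ _

theorem pd_lap {g : E3 → ℝ} (hg : ContDiff ℝ (⊤ : ℕ∞) g) (j : Fin 3) :
    pd j (lap g) = lap (pd j g) := by
  ext x
  have h : pd j (lap g) x = ∑ i, pd j (pd i (pd i g)) x := by
    show fderiv ℝ (fun x => ∑ i, pd i (pd i g) x) x _ = _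
    rw [fderiv_fun_sum fun i _ => (pd_smooth (pd_smooth hg i) i).differentiable (by simp) x,
      sum_apply]
    rfl
  rw [h, lap]
  refine Finset.sum_congr rfl fun i _ => ?_
  rw [pd_comm (pd_smooth hg i) j i, pd_comm hg j i]

theorem isClosed_box3 (a b c : ℝ) : IsClosed {y : E3 | |y 0| ≤ a ∧ |y 1| ≤ b ∧ |y 2| ≤ c} :=
  have h : ∀ (j : Fin 3) (a : ℝ), IsClosed {y : E3 | |y j| ≤ a} := fun j a =>
    isClosed_le (by fun_prop) continuous_const
  (h 0 a).inter ((h 1 b).inter (h 2 c))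

theorem isCompact_box (A : ℝ) : IsCompact (box A) := by
  refine Metric.isCompact_of_isClosed_isBounded (isClosed_box3 A A 1)
    ((Metric.isBounded_closedBall (x := 0) (r := 2 * A + 1)).subset fun y hy => ?_)
  obtain ⟨h0, h1, h2⟩ := hy
  rw [mem_closedBall_zero_iff, EuclideanSpace.norm_eq, Fin.sum_univ_three]
  simp only [Real.norm_eq_abs]
  have := abs_nonneg (y 0)
  have := abs_nonneg (y 1)
  have := abs_nonneg (y 2)
  refine Real.sqrt_le_iff.2 ⟨by linarith, by nlinarith⟩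

theorem pd_Ep (N1 NA : ℕ) {u : E3 → E3} {g : E3 → ℝ} (hu : Continuous u)
    (hg : ContDiff ℝ (⊤ : ℕ∞) g) (j : Fin 3) : pd j (Ep N1 NA u g) = Ep N1 NA u (pd j g) := by
  ext x
  have hK := isCompact_box ((NA : ℝ) / N1)
  have hT : Continuous fun y => y + u y := continuous_id.add hu
  have hg1 : ContDiff ℝ 1 g := hg.of_le (by simp)
  have hl1 : ContDiff ℝ 1 (lap g) := (lap_smooth hg).of_le (by simp)
  have h1 : HasFDerivAt (fun x => ∑ α : LatIdx N1 NA, g (x - (lat N1 NA α + u (lat N1 NA α))))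
      (∑ α : LatIdx N1 NA, fderiv ℝ g (x - (lat N1 NA α + u (lat N1 NA α)))) x :=
    HasFDerivAt.fun_sum fun α _ => by
      simpa [Function.comp_def] using (hg1.differentiable one_ne_zero _).hasFDerivAt.comp x
        ((hasFDerivAt_id x).sub_const (lat N1 NA α + u (lat N1 NA α)))
  have h2 := (h1.sub ((hasFDerivAt_int hK hT hg1 x).const_mul ((N1 : ℝ) ^ 3))).add
    ((hasFDerivAt_int hK continuous_id hl1 x).const_mul ((N1 : ℝ) / 24))
  have h3 : pd j (Ep N1 NA u g) x = _ :=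
    congrArg (fun L : E3 →L[ℝ] ℝ => L (EuclideanSpace.single j 1)) h2.fderiv
  rw [h3, Ep, ← pd_lap hg]
  simp only [add_apply, sub_apply, smul_apply, sum_apply, int_apply hK hT hg1,
    int_apply hK continuous_id hl1, smul_eq_mul]
  rfl

theorem norm_iter_of_fderiv {F : Type} [NormedAddCommGroup F] [NormedSpace ℝ F] {f f' : E3 → F}
    (h : fderiv ℝ f = fderiv ℝ f' ∨ fderiv ℝ f = -fderiv ℝ f') {k : ℕ} (hk : 1 ≤ k) (y : E3) :
    ‖iteratedFDeriv ℝ k f y‖ = ‖iteratedFDeriv ℝ k f' y‖ := by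
  obtain ⟨k, rfl⟩ := Nat.exists_eq_add_of_le' hk
  rw [← norm_iteratedFDeriv_fderiv, ← norm_iteratedFDeriv_fderiv]
  rcases h with h | h
  · rw [h]
  · rw [h, iteratedFDeriv_neg_apply, norm_neg]

theorem inner_bound {u : E3 → E3} (hu : ContDiff ℝ 4 u) (x y : E3) :
    ‖iteratedFDeriv ℝ 1 (fun y => x - (y + u y)) y‖ ≤ 1 + ‖iteratedFDeriv ℝ 1 u y‖ ∧
    ∀ k, 2 ≤ k → ‖iteratedFDeriv ℝ k (fun y => x - (y + u y)) y‖ = ‖iteratedFDeriv ℝ k u y‖ := by
  have h : fderiv ℝ (fun y => x - (y + u y)) =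
      fun y => -(ContinuousLinearMap.id ℝ E3 + fderiv ℝ u y) := funext fun y =>
    (((hasFDerivAt_id y).add (hu.differentiable (by simp) y).hasFDerivAt).const_sub x).fderiv
  constructor
  · rw [norm_iteratedFDeriv_one, norm_iteratedFDeriv_one, h, norm_neg]
    exact norm_add_le_of_le ContinuousLinearMap.norm_id_le le_rfl
  · intro k hk
    obtain ⟨k, rfl⟩ := Nat.exists_eq_add_of_le' (show 1 ≤ k by omega)
    rw [← norm_iteratedFDeriv_fderiv, ← norm_iteratedFDeriv_fderiv, h]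
    refine norm_iter_of_fderiv (Or.inr ?_) (by omega) y
    ext1 z
    rw [fderiv_fun_neg, fderiv_const_add]
    rfl

theorem comp_bound {f : E3 → E3} {g : E3 → ℝ} (hf : ContDiff ℝ 4 f) (hg : ContDiff ℝ 4 g) (y : E3)
    {ρ τ B : ℝ} (hρ : 0 < ρ) (hτ : 0 ≤ τ) (hB : 0 ≤ B)
    (h1 : ∀ i, i + 1 ≤ 4 → ‖iteratedFDeriv ℝ (i + 1) g (f y)‖ ≤ B * ρ⁻¹ ^ i)
    (h2 : ‖iteratedFDeriv ℝ 1 f y‖ ≤ 2)
    (h3 : ∀ i, 1 ≤ i → i + 1 ≤ 4 → ‖iteratedFDeriv ℝ (i + 1) f y‖ ≤ τ ^ i) {n : ℕ} (hn : n + 1 ≤ 4) :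
    ‖iteratedFDeriv ℝ (n + 1) (fun y => g (f y)) y‖ ≤
      (n + 1).factorial * 2 ^ (n + 1) * B * (ρ⁻¹ + τ) ^ n := by
  set s := ρ⁻¹ + τ with hs
  have hρ' : 0 < ρ⁻¹ := inv_pos.2 hρ
  have hs0 : 0 < s := by positivity
  have hle : ∀ {i : ℕ}, i ≤ 4 → (i : WithTop ℕ∞) ≤ 4 := fun h => by exact_mod_cast h
  have hG : ContDiff ℝ 4 fun w => g (s⁻¹ • w) := hg.comp (contDiff_const_smul _)
  have key := norm_iteratedFDeriv_comp_le (g := fun w => g (s⁻¹ • w) - g (f y))
    (f := fun z => s • f z) (n := n + 1) (hG.sub contDiff_const) (hf.const_smul s) (hle hn) y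
    (C := B * s⁻¹) (D := 2 * s) ?_ ?_
  · rw [norm_iter_of_fderiv (f' := fun y => g (f y)) (Or.inl ?_) (by omega)] at key
    · refine key.trans_eq ?_
      rw [mul_pow, pow_succ s]
      field_simp
    · ext1 z
      simp only [Function.comp_def, inv_smul_smul₀ hs0.ne']
      exact fderiv_sub_const _
  · intro i hi
    rcases i with _ | i
    · simp only [norm_iteratedFDeriv_zero, inv_smul_smul₀ hs0.ne', sub_self, norm_zero]
      positivity
    · rw [norm_iter_of_fderiv (f' := fun w => g (s⁻¹ • w))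
        (Or.inl (funext fun z => fderiv_sub_const _)) (by omega),
        iteratedFDeriv_comp_const_smul _ (hg.of_le (hle (hi.trans hn))), norm_smul,
        inv_smul_smul₀ hs0.ne', norm_pow, Real.norm_of_nonneg (by positivity)]
      calc s⁻¹ ^ (i + 1) * ‖iteratedFDeriv ℝ (i + 1) g (f y)‖
          ≤ s⁻¹ ^ (i + 1) * (B * s ^ i) := by
            gcongr
            refine (h1 i (hi.trans hn)).trans ?_
            gcongr
            linarith
        _ = B * s⁻¹ := by
            rw [pow_succ, inv_pow]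
            field_simp
  · intro i hi hi'
    rw [iteratedFDeriv_const_smul_apply' (hf.of_le (hle (hi'.trans hn))).contDiffAt, norm_smul,
      Real.norm_of_nonneg hs0.le]
    obtain ⟨i, rfl⟩ := Nat.exists_eq_add_of_le' hi
    rcases Nat.eq_zero_or_pos i with rfl | hi0
    · simp only [zero_add, pow_one]
      nlinarith
    · calc s * ‖iteratedFDeriv ℝ (i + 1) f y‖ ≤ (2 * s) * (2 * s) ^ i := by
            gcongr
            · linarith
            · refine (h3 i hi0 (hi'.trans hn)).trans ?_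
              gcongr
              linarith
        _ = _ := by ring

theorem rr_pos {ε : ℝ} (hε : 0 < ε) (x : E3) : 0 < rr ε x := Real.sqrt_pos.2 (by positivity)

theorem rr_le {ε : ℝ} {x y : E3} (h : ‖x‖ / 2 ≤ ‖y‖) : rr ε x ≤ 2 * rr ε y := by
  have h0 := norm_nonneg x
  refine Real.sqrt_le_iff.2 ⟨by unfold rr; positivity, ?_⟩
  rw [mul_pow, rr, Real.sq_sqrt (by positivity)]
  nlinarith [sq_nonneg ε]

end EpSmooth

open EpSmooth in
theorem comp : CompStmt := by
  refine ⟨24576, by norm_num, fun u Rr η ε C0 m g x hu hε hC hm hg => ?_⟩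
  have hlip : LipschitzWith (1 / 2) u :=
    lipschitzWith_of_nnnorm_fderiv_le (hu.smooth.differentiable (by simp)) fun y => by
      have := hu.d1 y
      rw [norm_iteratedFDeriv_one] at this
      exact_mod_cast this
  have hct : ContractingWith (1 / 2) fun y => x - u y :=
    ⟨by norm_num, LipschitzWith.of_dist_le_mul fun a b => by
      rw [dist_sub_left]; exact hlip.dist_le_mul a b⟩
  obtain ⟨y0, hy0⟩ : ∃ y0, y0 + u y0 = x := ⟨_, eq_sub_iff_add_eq.1 hct.fixedPoint_isFixedPt.symm⟩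
  have hlow : ∀ y, ‖y - y0‖ / 2 ≤ ‖x - (y + u y)‖ := fun y => by
    have h1 := hlip.dist_le_mul y y0
    rw [dist_eq_norm, dist_eq_norm] at h1
    have h2 := norm_sub_le (-(x - (y + u y))) (u y - u y0)
    rw [norm_neg, show -(x - (y + u y)) - (u y - u y0) = y - y0 by rw [← hy0]; abel] at h2
    push_cast at h1
    linarith
  have hf : ContDiff ℝ 4 fun y => x - (y + u y) := contDiff_const.sub (contDiff_id.add hu.smooth)
  have hg4 : ContDiff ℝ 4 g := hg.1.of_le (WithTop.coe_le_coe.2 (le_top : (4 : ℕ∞) ≤ ⊤))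
  refine ⟨y0, hy0, hlow, hg4.comp hf, fun y => ?_⟩
  have hη : 0 ≤ η := (norm_nonneg _).trans (hu.d4 y)
  have hr := rr_pos hε (y - y0)
  have hρ := rr_pos hε (x - (y + u y))
  have hrρ : rr ε (y - y0) ≤ 2 * rr ε (x - (y + u y)) := rr_le (hlow y)
  have hs := hg.2
  set r := rr ε (y - y0)
  have hz : ∀ {t : ℝ}, 0 < t → ∀ i : ℕ, t ^ (m - ((i + 1 : ℕ) : ℤ)) = t ^ (m - 1) * t⁻¹ ^ i :=
    fun ht i => by
      rw [inv_pow, ← zpow_natCast, ← zpow_neg, ← zpow_add₀ ht.ne']
      congr 1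
      push_cast
      ring
  have hinv : (rr ε (x - (y + u y)))⁻¹ ≤ 2 * r⁻¹ := by
    rw [← div_eq_mul_inv, inv_eq_one_div, div_le_div_iff₀ hρ hr]
    linarith
  have hm1 : rr ε (x - (y + u y)) ^ (m - 1) ≤ 2 * r ^ (m - 1) := by
    rcases hm with rfl | rfl
    · simpa using hinv
    · simp
  have hR : 0 < r ^ (m - 1) := zpow_pos hr _
  have main : ∀ τ : ℝ, 0 ≤ τ → (∀ i, 1 ≤ i → i + 1 ≤ 4 → ‖iteratedFDeriv ℝ (i + 1) u y‖ ≤ τ ^ i) →
      ∀ n, n + 1 ≤ 4 → ‖iteratedFDeriv ℝ (n + 1) (fun y => g (x - (y + u y))) y‖ ≤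
        (n + 1).factorial * 2 ^ (n + 1) * (C0 * (2 * r ^ (m - 1))) * (2 * r⁻¹ + τ) ^ n := by
    intro τ hτ h n hn
    refine (comp_bound hf hg4 y hρ hτ (B := C0 * (2 * r ^ (m - 1))) (by positivity)
      (fun i hi => (hs _ hi _).trans ?_) ?_ (fun i hi hi' => ?_) hn).trans ?_
    · rw [hz hρ, ← mul_assoc]
      gcongr
    · linarith [(inner_bound hu.smooth x y).1, hu.d1 y]
    · rw [(inner_bound hu.smooth x y).2 _ (by omega)]
      exact h i hi hi'
    · gcongr
  have hτ0 : 0 ≤ η ^ (1 / 3 : ℝ) := Real.rpow_nonneg hη _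
  have hτ3 : (η ^ (1 / 3 : ℝ)) ^ 3 = η := by
    rw [← Real.rpow_natCast, ← Real.rpow_mul hη]
    norm_num
  have hτ : ∀ i, 1 ≤ i → i + 1 ≤ 4 → ‖iteratedFDeriv ℝ (i + 1) u y‖ ≤ (η ^ (1 / 3 : ℝ)) ^ i := by
    intro i hi hi'
    obtain rfl | rfl | rfl : i = 1 ∨ i = 2 ∨ i = 3 := by omega
    · refine le_of_pow_le_pow_left₀ three_ne_zero (by positivity) ?_
      rw [pow_one, hτ3]
      exact hu.d2 y
    · refine le_of_pow_le_pow_left₀ three_ne_zero (by positivity) ?_
      rw [← pow_mul, mul_comm, pow_mul, hτ3]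
      exact hu.d3 y
    · rw [hτ3]
      exact hu.d4 y
  have e2 : r ^ (m - 2) = r ^ (m - 1) * r⁻¹ := by simpa using hz hr 1
  have e4 : r ^ (m - 4) = r ^ (m - 1) * r⁻¹ ^ 3 := by simpa using hz hr 3
  have hr' : 0 < r⁻¹ := inv_pos.2 hr
  have hCR : 0 ≤ C0 * r ^ (m - 1) := by positivity
  refine ⟨(main _ hτ0 hτ 0 (by norm_num)).trans ?_, (main _ hτ0 hτ 1 (by norm_num)).trans ?_, ?_⟩
  · simp only [Nat.factorial, Nat.succ_eq_add_one, Nat.reduceAdd, Nat.reduceMul]
    push_cast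
    nlinarith
  · simp only [Nat.factorial, Nat.succ_eq_add_one, Nat.reduceAdd, Nat.reduceMul, e2]
    push_cast
    nlinarith [mul_nonneg hCR hr'.le, mul_nonneg hCR hτ0]
  · have fin : ∀ τ : ℝ, 0 ≤ τ →
        ((3 + 1).factorial : ℝ) * 2 ^ (3 + 1) * (C0 * (2 * r ^ (m - 1))) * (2 * r⁻¹ + τ) ^ 3 ≤
          24576 * C0 * (r ^ (m - 4) + τ ^ 3 * r ^ (m - 1)) := fun τ hτ => by
      have h : (2 * r⁻¹ + τ) ^ 3 ≤ 32 * (r⁻¹ ^ 3 + τ ^ 3) := by
        nlinarith [mul_nonneg (add_nonneg (mul_nonneg zero_le_two hr'.le) hτ)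
          (sq_nonneg (2 * r⁻¹ - τ)), pow_nonneg hτ 3]
      simp only [Nat.factorial, Nat.succ_eq_add_one, Nat.reduceAdd, Nat.reduceMul, e4]
      push_cast
      nlinarith [mul_le_mul_of_nonneg_left h hCR]
    split_ifs with hb
    · have := fin _ hτ0
      rw [hτ3] at this
      exact (main _ hτ0 hτ 3 le_rfl).trans this
    · have h0 : u =ᶠ[𝓝 y] fun _ => 0 := by
        filter_upwards [(isClosed_box3 Rr Rr (1 / 2)).isOpen_compl.mem_nhds hb] with z hz
        by_contra h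
        exact hz (hu.supp z h)
      have := fin 0 le_rfl
      rw [zero_pow three_ne_zero, zero_mul] at this
      refine (main 0 le_rfl (fun i _ _ => ?_) 3 le_rfl).trans this
      rw [(h0.iteratedFDeriv ℝ (i + 1)).eq_of_nhds, iteratedFDeriv_fun_zero]
      simp

open EpSmooth in
theorem epSmooth : EpSmoothStmt := by
  intro N1 NA u g hu hg
  have hK := isCompact_box ((NA : ℝ) / N1)
  have hT : Continuous fun y => y + u y := continuous_id.add hu
  have h2 : ∀ {g : E3 → ℝ}, ContDiff ℝ (⊤ : ℕ∞) g → ContDiff ℝ (2 : ℕ) g := fun h =>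
    h.of_le two_le
  refine ⟨?_, pd_Ep N1 NA hu hg, ?_⟩
  · exact ((ContDiff.sum fun α _ => (h2 hg).comp (contDiff_id.sub contDiff_const)).sub
      (contDiff_const.mul (contDiff_int hK hT 2 (h2 hg)))).add
      (contDiff_const.mul (contDiff_int hK continuous_id 2 (h2 (lap_smooth hg))))
  · ext x
    have h3 : ∀ {g : E3 → ℝ} {T : E3 → E3}, ContDiff ℝ (⊤ : ℕ∞) g → Continuous T →
        ∫ y in box (NA / N1), lap g (x - T y) =
          ∑ j, ∫ y in box (NA / N1), pd j (pd j g) (x - T y) := fun hg hT =>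
      integral_finsetSum _ fun j _ =>
        integrableOn hK hT (pd_smooth (pd_smooth hg j) j).continuous x
    have h4 : ∀ j, lap (pd j (pd j g)) = pd j (pd j (lap g)) := fun j => by
      rw [← pd_lap (pd_smooth hg j), ← pd_lap hg]
    have h5 := h3 (lap_smooth hg) continuous_id
    simp only [id] at h5
    rw [lap]
    simp only [pd_Ep N1 NA hu hg, pd_Ep N1 NA hu (pd_smooth hg _)]
    simp only [Ep, h4, h3 hg hT, h5, Finset.sum_add_distrib, Finset.sum_sub_distrib,
      Finset.mul_sum]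
    rw [Finset.sum_comm]
    rfl

end Crest.Agent.R338
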