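import Crest.Agent.R338.DefsB

/-!
# Row 338: the final composition
-/

noncomputable section

open Crest.Quantum.GateCircuit Crest.Quantum.QMA Crest.MathPhysics.CoulombProblem
open Crest.MathPhysics.ElectronicCoulomb Crest.Agent.Lib.PolyTime

namespace Crest.Agent.R338

theorem final (hR : RedStmt) (hO : OfPolyStmt) (hA : APolyStmt) (hB : BPolyStmt) (hY : AYesStmt)
    (hN : ANoStmt) : QMAHard groundEnergyProblem := by
  obtain ⟨b0, hR⟩ := hR
  obtain ⟨⟨parse, hparse, hpv⟩, hstar, hnum⟩ := hA
  rintro P ⟨V, hV, ⟨gen, hgen, hgv⟩, ⟨p, hp⟩, hyes, hno⟩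
  have hg : Poly gen := hO gen hgen
  let r : List Bool → Raw := fun x => parse (gen x)
  have hr : ∀ x, r x = rawOf (V x) := fun x => by simp only [r, hgv, hpv _ (hV x)]
  have hrP : Poly r := hparse.comp hg
  have hrB : PB fun x => (r x).1 := by
    have h1 : PB fun x : List Bool => p.eval x.length := PB.eval (PB.length Lib.PolyTime.Poly.id') p
    refine h1.mono fun x => ?_
    rw [hr]
    exact le_trans (Nat.le_add_right _ _) (hp x)
  have hS : PolyStar fun x => starOf (r x) := hstar _ r hrP hrB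
  let b : List Bool → ℕ := fun x => b0 + (starOf (r x)).size ^ 12
  have hsz : Poly fun x => (starOf (r x)).size := by
    unfold Star.size
    exact ((hS.N.add hS.R).add hS.S).add (Lib.PolyTime.Poly.const 10)
  have hsz' : PB fun x => (starOf (r x)).size := by
    unfold Star.size
    exact ((hS.N'.add hS.R').add hS.S').add (PB.const 10)
  have hb : Poly b := (Lib.PolyTime.Poly.const b0).add (hsz.pow (Lib.PolyTime.Poly.const 12) (PB.const 12))
  have hb' : PB b := (PB.const b0).add (hsz'.pow 12)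
  have key : ∀ x, (Bld.inst (starOf (r x)) (b x)).Valid ∧
      ((starOf (r x)).Yes → InfEnergyLE (Bld.inst (starOf (r x)) (b x)).potential
        (Bld.lower (starOf (r x)) (b x) : ℝ)) ∧
      ((starOf (r x)).No → InfEnergyGE (Bld.inst (starOf (r x)) (b x)).potential
        (Bld.upper (starOf (r x)) (b x) : ℝ)) := by
    intro x
    obtain ⟨h1, h2, h3⟩ := hnum (r x)
    refine hR _ _ (Nat.le_add_right _ _) (Nat.le_add_left _ _) ?_ h1 h2 (h3 _ (Nat.le_add_left _ _))
    rw [hr]
    exact Nat.succ_le_of_lt (lt_of_le_of_lt (Nat.zero_le _) (V x).out.2)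
  refine ⟨fun x => (Bld.inst (starOf (r x)) (b x)).code, (hB _ _ b hS hb hb').polyTime, ?_, ?_⟩
  · intro x hx
    refine ⟨_, (key x).1, rfl, (key x).2.1 ?_⟩
    rw [hr]; exact hY _ (hV x) (hyes x hx)
  · intro x hx
    refine ⟨_, (key x).1, rfl, (key x).2.2 ?_⟩
    rw [hr]; exact hN _ (hV x) (hno x hx)

end Crest.Agent.R338
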