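import Crest.Agent.R338.FirstAux

/-!
# Row 338: the potential of the displaced continuous charge
-/

noncomputable section

open MeasureTheory Set Metric

namespace Crest.Agent.R338

namespace First

open FirstRad FirstAux

/-- The majorant of the second order remainder. -/
def maj (K ε U : ℝ) (x y0 y : E3) : ℝ :=
  16 * K * U ^ 2 * (ind x 1 (fun t => 1 / (t ^ 2 * (t + ε))) y + ind 0 1 (fun _ => 1) y) +
    (2 * K * ind y0 (3 * U) (fun t => 1 / t) y + K * ind x (2 * U) (fun t => 1 / t) y +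
      K * U * ind x (2 * U) (fun t => 1 / t ^ 2) y)

theorem maj_int {K ε U : ℝ} (hK : 0 ≤ K) (hε : 0 < ε) (hε1 : ε ≤ 1) (hU : 0 ≤ U) (x y0 : E3) :
    Integrable (maj K ε U x y0) ∧ (∀ y, 0 ≤ maj K ε U x y0 y) ∧
      ∫ y, maj K ε U x y0 y ≤ 560 * K * U ^ 2 * (1 + Real.log (1 / ε)) := by
  obtain ⟨i0, e0⟩ := rad0 0
  obtain ⟨i1, e1⟩ := rad1 y0 (R := 3 * U) (by positivity)
  obtain ⟨i2, e2⟩ := rad1 x (R := 2 * U) (by positivity)
  obtain ⟨i3, e3⟩ := rad2 x (R := 2 * U) (by positivity)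
  obtain ⟨i4, e4⟩ := rad3 x hε hε1
  have j1 := (i4.fun_add i0).const_mul (16 * K * U ^ 2)
  have j2 := (i1.const_mul (2 * K)).fun_add (i2.const_mul K)
  have j3 := i3.const_mul (K * U)
  refine ⟨j1.add (j2.add j3), fun y => ?_, ?_⟩
  · have a0 := ind_nonneg 0 1 (f := fun _ => 1) (fun _ _ => zero_le_one) y
    have a1 := ind_nonneg y0 (3 * U) (f := fun t => 1 / t) (fun _ _ => by positivity) y
    have a2 := ind_nonneg x (2 * U) (f := fun t => 1 / t) (fun _ _ => by positivity) y
    have a3 := ind_nonneg x (2 * U) (f := fun t => 1 / t ^ 2) (fun _ _ => by positivity) y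
    have a4 := ind_nonneg x 1 (f := fun t => 1 / (t ^ 2 * (t + ε))) (fun _ _ => by positivity) y
    unfold maj
    positivity
  · unfold maj
    rw [integral_add j1 (j2.fun_add j3), integral_add j2 j3,
      integral_add (i1.const_mul _) (i2.const_mul _), integral_const_mul, integral_const_mul,
      integral_const_mul, integral_const_mul, integral_add i4 i0, e0, e1, e2, e3]
    have hl : 0 ≤ Real.log (1 / ε) := Real.log_nonneg (one_le_one_div hε hε1)
    have hp := Real.pi_le_four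
    have hp0 := Real.pi_pos
    have hKU : 0 ≤ K * U ^ 2 := by positivity
    have b1 : 4 * Real.pi * (1 + Real.log (1 / ε)) ≤ 16 * (1 + Real.log (1 / ε)) :=
      mul_le_mul_of_nonneg_right (by linarith) (by linarith)
    have b2 := mul_le_mul_of_nonneg_left (e4.trans b1) hKU
    have b3 := mul_le_mul_of_nonneg_left hp hKU
    have b4 := mul_nonneg hKU hl
    nlinarith

theorem rem_le {L : E3 → ℝ} (hL : ContDiff ℝ (⊤ : ℕ∞) L) {K ε U : ℝ} (hK : 0 ≤ K) (hε : 0 < ε)
    (hb : ∀ j ≤ 2, ∀ w, ‖iteratedFDeriv ℝ j L w‖ ≤ K * (1 / rr ε w ^ (j + 1)))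
    {u : E3 → E3} (hU : ∀ y, ‖u y‖ ≤ U) (hs : ∀ y, u y ≠ 0 → ‖y‖ < 1) {x y0 : E3}
    (h0 : y0 + u y0 = x) (h1 : ∀ y, ‖y - y0‖ / 2 ≤ ‖x - (y + u y)‖) (y : E3) (hx : y ≠ x)
    (hy : y ≠ y0) :
    |L (x - (y + u y)) - L (x - y) + fderiv ℝ L (x - y) (u y)| ≤ maj K ε U x y0 y := by
  have hU0 : 0 ≤ U := (norm_nonneg _).trans (hU y)
  have a0 := ind_nonneg 0 1 (f := fun _ => 1) (fun _ _ => zero_le_one) y
  have a1 := ind_nonneg y0 (3 * U) (f := fun t => 1 / t) (fun _ _ => by positivity) y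
  have a2 := ind_nonneg x (2 * U) (f := fun t => 1 / t) (fun _ _ => by positivity) y
  have a3 := ind_nonneg x (2 * U) (f := fun t => 1 / t ^ 2) (fun _ _ => by positivity) y
  have a4 := ind_nonneg x 1 (f := fun t => 1 / (t ^ 2 * (t + ε))) (fun _ _ => by positivity) y
  have hw : 0 < ‖x - y‖ := norm_pos_iff.2 (sub_ne_zero.2 hx.symm)
  unfold maj
  by_cases hu : u y = 0
  · rw [hu, add_zero, sub_self, map_zero, add_zero, abs_zero]
    positivity
  rcases le_or_gt (2 * U) ‖x - y‖ with hfar | hnear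
  · have key := taylor2 hL (x - y) (u y)
      (M := K * (16 * (1 / (‖x - y‖ ^ 2 * (‖x - y‖ + ε))))) fun z hz => by
        refine (hb 2 le_rfl z).trans (mul_le_mul_of_nonneg_left ?_ hK)
        have c1 := mem_closedBall_iff_norm.1 hz
        have c2 := norm_sub_norm_le (x - y) z
        rw [norm_sub_rev (x - y) z] at c2
        have c3 : ‖x - y‖ / 2 ≤ rr ε z := le_trans (by linarith [hU y]) (norm_le_rr ε z)
        have c4 : (‖x - y‖ + ε) / 4 ≤ rr ε z := le_trans (by linarith [hU y]) (add_le_rr ε z)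
        have c5 : (‖x - y‖ / 2) ^ 2 * ((‖x - y‖ + ε) / 4) ≤ rr ε z ^ (2 + 1) := by
          rw [pow_succ _ 2]
          exact mul_le_mul (pow_le_pow_left₀ (by positivity) c3 2) c4 (by positivity)
            (by positivity)
        refine (one_div_le_one_div_of_le (by positivity) c5).trans (le_of_eq ?_)
        field_simp
        norm_num
    rw [sub_sub] at key
    have c6 : 1 / (‖x - y‖ ^ 2 * (‖x - y‖ + ε)) ≤
        ind x 1 (fun t => 1 / (t ^ 2 * (t + ε))) y + ind 0 1 (fun _ => 1) y := by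
      rcases lt_or_ge ‖x - y‖ 1 with c | c
      · rw [ind_of_lt _ c]; linarith
      · rw [ind_of_lt (c := 0) _ (by simpa using hs y hu)]
        have : 1 / (‖x - y‖ ^ 2 * (‖x - y‖ + ε)) ≤ 1 := by
          rw [div_le_one (by positivity)]
          exact one_le_mul_of_one_le_of_one_le (one_le_pow₀ c) (by linarith)
        linarith
    have c7 : ‖u y‖ ^ 2 ≤ U ^ 2 := pow_le_pow_left₀ (norm_nonneg _) (hU y) 2
    refine key.trans (le_add_of_le_of_nonneg ?_ (by positivity))
    calc K * (16 * (1 / (‖x - y‖ ^ 2 * (‖x - y‖ + ε)))) * ‖u y‖ ^ 2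
        ≤ K * (16 * (ind x 1 (fun t => 1 / (t ^ 2 * (t + ε))) y + ind 0 1 (fun _ => 1) y)) * U ^ 2 := by
          gcongr
      _ = _ := by ring
  · have hw0 : 0 < ‖y0 - y‖ := norm_pos_iff.2 (sub_ne_zero.2 hy.symm)
    have c0 : ‖y0 - y‖ < 3 * U := by
      have e : y0 - y = (x - y) - u y0 := by rw [← h0]; abel
      have := norm_sub_le (x - y) (u y0)
      rw [← e] at this
      linarith [hU y0]
    rw [ind_of_lt _ c0, ind_of_lt _ hnear, ind_of_lt _ hnear]
    have c1 : |L (x - (y + u y))| ≤ 2 * K * (1 / ‖y0 - y‖) := by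
      have d1 := hb 0 (by norm_num) (x - (y + u y))
      rw [norm_iteratedFDeriv_zero, Real.norm_eq_abs, zero_add, pow_one] at d1
      have d2 := (h1 y).trans (norm_le_rr ε _)
      rw [norm_sub_rev] at d2
      have d3 := one_div_le_one_div_of_le (by positivity) d2
      refine d1.trans ((mul_le_mul_of_nonneg_left d3 hK).trans (le_of_eq ?_))
      field_simp
    have c2 : |L (x - y)| ≤ K * (1 / ‖x - y‖) := by
      have d1 := hb 0 (by norm_num) (x - y)
      rw [norm_iteratedFDeriv_zero, Real.norm_eq_abs, zero_add, pow_one] at d1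
      exact d1.trans (mul_le_mul_of_nonneg_left
        (one_div_le_one_div_of_le hw (norm_le_rr ε _)) hK)
    have c3 : |fderiv ℝ L (x - y) (u y)| ≤ K * U * (1 / ‖x - y‖ ^ 2) := by
      have d1 := hb 1 (by norm_num) (x - y)
      rw [norm_iteratedFDeriv_one] at d1
      have d2 := d1.trans (mul_le_mul_of_nonneg_left (one_div_le_one_div_of_le (by positivity)
        (pow_le_pow_left₀ hw.le (norm_le_rr ε _) 2)) hK)
      refine ((fderiv ℝ L (x - y)).le_opNorm (u y)).trans ?_
      rw [mul_right_comm]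
      exact mul_le_mul d2 (hU y) (norm_nonneg _) (by positivity)
    refine le_add_of_nonneg_of_le (by positivity) ?_
    have c4 := abs_add_le (L (x - (y + u y)) - L (x - y)) (fderiv ℝ L (x - y) (u y))
    have c5 := abs_sub (L (x - (y + u y))) (L (x - y))
    linarith

/-- The zeroth order term. -/
theorem zeroth {L : E3 → ℝ} (hL : Continuous L) {ε A : ℝ} (hε : 0 < ε) (hA : 2 ≤ A)
    (h : ∀ w, w ≠ 0 → |1 / ‖w‖ - L w| ≤ 2 * ε / ‖w‖ ^ 2) (x : E3) :
    |(∫ y in box A, L (x - y)) - gbox A x| ≤ 24 * ε * A ^ 2 := by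
  have hc := isCompact_box A
  have hm := hc.measurableSet
  have hfin : volume (box A) ≠ ⊤ := hc.measure_lt_top.ne
  obtain ⟨i1, -⟩ := rad1 x zero_le_one
  obtain ⟨i2, e2⟩ := rad2 x zero_le_one
  have j0 : IntegrableOn (fun _ => (1 : ℝ)) (box A) := integrableOn_const hfin
  have j1 : IntegrableOn (fun y => 1 / ‖x - y‖) (box A) := by
    refine (i1.integrableOn.add j0).mono' (Measurable.aestronglyMeasurable (by fun_prop))
      (Filter.Eventually.of_forall fun y => ?_)
    rw [Real.norm_of_nonneg (by positivity), Pi.add_apply]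
    rcases lt_or_ge ‖x - y‖ 1 with c | c
    · rw [ind_of_lt _ c]; linarith
    · have := ind_nonneg x 1 (f := fun t => 1 / t) (fun _ _ => by positivity) y
      have : 1 / ‖x - y‖ ≤ 1 := (div_le_one (by linarith)).2 c
      linarith
  have j2 : IntegrableOn (fun y => L (x - y)) (box A) :=
    (hL.comp (continuous_const.sub continuous_id)).continuousOn.integrableOn_compact hc
  have hnn := ind_nonneg x 1 (f := fun t => 1 / t ^ 2) (fun _ _ => by positivity)
  rw [gbox, ← integral_sub j2 j1]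
  refine (abs_setIntegral_le (H := fun y => 2 * ε * (ind x 1 (fun t => 1 / t ^ 2) y + 1)) hm x x
    ((i2.integrableOn.add j0).const_mul _) fun y _ hy _ => ?_).trans ?_
  · rw [abs_sub_comm]
    refine (h _ (sub_ne_zero.2 hy.symm)).trans ?_
    rw [div_eq_mul_one_div]
    refine mul_le_mul_of_nonneg_left ?_ (by positivity)
    rcases lt_or_ge ‖x - y‖ 1 with c | c
    · rw [ind_of_lt _ c]; linarith
    · have : 1 / ‖x - y‖ ^ 2 ≤ 1 := (div_le_one (by positivity)).2 (one_le_pow₀ c)
      linarith [hnn y]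
  · rw [integral_const_mul, integral_add i2.integrableOn j0, setIntegral_const,
      volume_box (by linarith), smul_eq_mul, mul_one]
    have k1 := setIntegral_le_integral (s := box A) i2 (Filter.Eventually.of_forall hnn)
    have k2 : (∫ y in box A, ind x 1 (fun t => 1 / t ^ 2) y) + 8 * A ^ 2 ≤ 12 * A ^ 2 := by
      nlinarith [Real.pi_le_four]
    calc _ ≤ 2 * ε * (12 * A ^ 2) := mul_le_mul_of_nonneg_left k2 (by positivity)
      _ = _ := by ring

theorem norm_lt_one {y : E3} {Rr : ℝ} (hR : Rr ≤ 1 / 4)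
    (h : |y 0| ≤ Rr ∧ |y 1| ≤ Rr ∧ |y 2| ≤ 1 / 2) : ‖y‖ < 1 := by
  have a0 := pow_le_pow_left₀ (abs_nonneg _) (h.1.trans hR) 2
  have a1 := pow_le_pow_left₀ (abs_nonneg _) (h.2.1.trans hR) 2
  have a2 := pow_le_pow_left₀ (abs_nonneg _) h.2.2 2
  rw [sq_abs] at a0 a1 a2
  refine (pow_lt_one_iff_of_nonneg (norm_nonneg _) two_ne_zero).1 ?_
  rw [norm_sq_eq]
  linarith

end First

open FirstRad FirstAux First

theorem first (hK : KerStmt) (hC : CompStmt) : FirstStmt := by
  obtain ⟨K, hK1, hK⟩ := hK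
  obtain ⟨C, -, hC⟩ := hC
  refine ⟨40 * K, by linarith, ?_⟩
  intro ρ A πq P lam Rr η ε Φ hρ hA hq3 hq4 hΦ hsupp hR hb hd hρ' hε hε1 x
  obtain ⟨hS, -, hL, hlap, hz, -, k0, ki, k1, km, kB⟩ := hK ε hε
  have hK0 : 0 ≤ K := by linarith
  set κ := 1 / (4 * πq * ρ) with hκ
  have hκ0 : 0 < κ := by positivity
  set u := disp κ Φ with hu
  set L := lap (kk ε) with hLdef
  have hLs : ContDiff ℝ (⊤ : ℕ∞) L := contDiff_lap hS.1
  have hΦ1 : ContDiff ℝ 1 Φ := hΦ.of_le (by norm_num)
  have hP : ∀ y, |Φ y| ≤ P := fun y => by simpa using hb 0 zero_le_one y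
  have ha : ∀ y, ‖iteratedFDeriv ℝ 1 Φ y‖ ≤ P * lam := fun y => by
    have := hb 1 le_rfl y
    rwa [pow_one] at this
  have hP0 : 0 ≤ P := (abs_nonneg _).trans (hP 0)
  set a := P * lam with hadef
  have ha0 : 0 ≤ a := (norm_nonneg _).trans (ha 0)
  have hU : ∀ y, ‖u y‖ ≤ a / (4 * ρ) := fun y => by
    refine (norm_disp_le hκ0.le (ha y)).trans ?_
    rw [div_eq_mul_one_div a, mul_comm a]
    refine mul_le_mul_of_nonneg_right ?_ ha0
    rw [hκ, mul_one_div, div_le_div_iff₀ (by positivity) (by positivity)]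
    nlinarith
  obtain ⟨y0, h0, h1, -⟩ := hC u Rr η ε K 1 (kk ε) x hd hε hK0 (Or.inr rfl) hS
  have hb' : ∀ j ≤ 2, ∀ w, ‖iteratedFDeriv ℝ j L w‖ ≤ K * (1 / rr ε w ^ (j + 1)) := by
    intro j hj w
    have := hL j hj w
    rwa [show (-1 - (j : ℤ)) = -((j + 1 : ℕ) : ℤ) by push_cast; ring, zpow_neg, zpow_natCast,
      ← one_div] at this
  have hc := isCompact_box A
  have hsub : Continuous fun y : E3 => x - y := continuous_const.sub continuous_id
  have huc : Continuous u := hd.smooth.continuous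
  have j1 : IntegrableOn (fun y => L (x - (y + u y))) (box A) :=
    (hLs.continuous.comp (continuous_const.sub (continuous_id.add huc))).continuousOn.integrableOn_compact hc
  have j2 : IntegrableOn (fun y => L (x - y)) (box A) :=
    (hLs.continuous.comp hsub).continuousOn.integrableOn_compact hc
  have j3 : IntegrableOn (fun y => fderiv ℝ L (x - y) (u y)) (box A) :=
    (((hLs.continuous_fderiv (by simp)).comp hsub).clm_apply huc).continuousOn.integrableOn_compact hc
  -- second order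
  obtain ⟨mi, m0, mI⟩ := maj_int hK0 hε (by linarith) (U := a / (4 * ρ)) (by positivity) x y0
  have T2 := (abs_setIntegral_le hc.measurableSet x y0 mi.integrableOn fun y _ hx hy =>
    rem_le hLs hK0 hε hb' hU (fun y hy => norm_lt_one hR (hd.supp y hy)) h0 h1 y hx hy).trans
    ((setIntegral_le_integral mi (Filter.Eventually.of_forall m0)).trans mI)
  rw [integral_add (Integrable.sub' j1 j2) j3, integral_sub j1 j2] at T2
  -- first order
  have hcs : HasCompactSupport Φ := HasCompactSupport.intro (isCompact_closedBall 0 1) fun y hy => by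
    by_contra h
    exact hy (mem_closedBall_zero_iff.2 (norm_lt_one hR (hsupp y h)).le)
  have T1 : ∫ y in box A, fderiv ℝ L (x - y) (u y)
      = κ * (4 * Real.pi) * ∫ y, kap ε (x - y) * Φ y := by
    rw [setIntegral_eq_integral_of_forall_compl_eq_zero]
    · have e : ∀ y, fderiv ℝ L (x - y) (u y) = -κ * ∑ j, pd j Φ y * pd j L (x - y) := by
        intro y
        rw [fderiv_eq_sum, Finset.mul_sum]
        refine Finset.sum_congr rfl fun j _ => ?_
        change -(κ * pd j Φ y) * _ = _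
        ring
      simp only [e]
      rw [integral_const_mul, by_parts hLs hΦ1 hcs]
      simp only [hlap, mul_assoc]
      rw [integral_const_mul]
      ring
    · intro y hy
      have : u y = 0 := by
        by_contra h
        obtain ⟨b0, b1, b2⟩ := hd.supp y h
        exact hy ⟨by linarith, by linarith, by linarith⟩
      rw [this, map_zero]
  obtain ⟨J1, J2⟩ := approx_id k0 ki k1 km kB hΦ1 hP ha x
  set J := ∫ y, kap ε (x - y) * Φ y
  have T0 := zeroth hLs.continuous hε hA hz x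
  rw [T1] at T2
  set I1 := ∫ y in box A, L (x - (y + u y))
  set I0 := ∫ y in box A, L (x - y)
  have e : ρ * I1 - (ρ * gbox A x - Φ x) = ρ * (I1 - I0 + κ * (4 * Real.pi) * J) +
      ρ * (I0 - gbox A x) + (Φ x - J) + (πq - Real.pi) / πq * J := by
    rw [hκ]; field_simp; ring
  have hl : 0 ≤ Real.log (1 / ε) := Real.log_nonneg (one_le_one_div hε (by linarith))
  have b2 : |ρ * (I1 - I0 + κ * (4 * Real.pi) * J)|
      ≤ 35 * K * (a ^ 2 / ρ * (1 + Real.log (1 / ε))) := by
    rw [abs_mul, abs_of_pos hρ]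
    refine (mul_le_mul_of_nonneg_left T2 hρ.le).trans (le_of_eq ?_)
    field_simp
    ring
  have b0 : |ρ * (I0 - gbox A x)| ≤ 24 * (ρ * ε * A ^ 2) := by
    rw [abs_mul, abs_of_pos hρ]
    exact (mul_le_mul_of_nonneg_left T0 hρ.le).trans (le_of_eq (by ring))
  have b1 : |(πq - Real.pi) / πq * J| ≤ |πq - Real.pi| * P := by
    rw [abs_mul, abs_div, abs_of_pos (by linarith : 0 < πq)]
    exact mul_le_mul (div_le_self (abs_nonneg _) (by linarith)) J1 (abs_nonneg _) (abs_nonneg _)
  have c1 : 0 ≤ a ^ 2 / ρ * (1 + Real.log (1 / ε)) := by positivity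
  have c2 : 0 ≤ |πq - Real.pi| * P := by positivity
  have c3 : 0 ≤ ε * a := by positivity
  have c4 : 0 ≤ ρ * ε * A ^ 2 := by positivity
  rw [e, mul_assoc ε P lam]
  have d1 := abs_add_le (ρ * (I1 - I0 + κ * (4 * Real.pi) * J) + ρ * (I0 - gbox A x) + (Φ x - J))
    ((πq - Real.pi) / πq * J)
  have d2 := abs_add_three (ρ * (I1 - I0 + κ * (4 * Real.pi) * J)) (ρ * (I0 - gbox A x)) (Φ x - J)
  nlinarith [mul_nonneg hK0 c1, mul_nonneg hK0 c3, mul_le_mul_of_nonneg_right hK1 c2,
    mul_le_mul_of_nonneg_right hK1 c4]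

end Crest.Agent.R338
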