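import Crest.Agent.R338.FirstRad

/-!
# Row 338: calculus for the first order expansion
-/

noncomputable section

open MeasureTheory Set Metric

namespace Crest.Agent.R338.FirstAux

open FirstRad

theorem contDiff_pd {f : E3 → ℝ} (hf : ContDiff ℝ (⊤ : ℕ∞) f) (j : Fin 3) :
    ContDiff ℝ (⊤ : ℕ∞) (pd j f) :=
  (hf.fderiv_right (m := (⊤ : ℕ∞)) le_rfl).clm_apply contDiff_const

theorem contDiff_lap {f : E3 → ℝ} (hf : ContDiff ℝ (⊤ : ℕ∞) f) : ContDiff ℝ (⊤ : ℕ∞) (lap f) :=
  ContDiff.sum fun j _ => contDiff_pd (contDiff_pd hf j) j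

theorem fderiv_eq_sum (f : E3 → ℝ) (w v : E3) : fderiv ℝ f w v = ∑ j, v j * pd j f w := by
  have h : v = ∑ j, v j • EuclideanSpace.single j (1 : ℝ) := by
    ext i
    fin_cases i <;> simp [Fin.sum_univ_three]
  conv_lhs => rw [h]
  simp only [map_sum, map_smul, smul_eq_mul, pd]

theorem abs_pd_le (f : E3 → ℝ) (j : Fin 3) (y : E3) : |pd j f y| ≤ ‖iteratedFDeriv ℝ 1 f y‖ := by
  have := (fderiv ℝ f y).le_opNorm (EuclideanSpace.single j (1 : ℝ))
  rw [norm_iteratedFDeriv_one]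
  simpa [pd] using this

theorem norm_disp_le {κ a : ℝ} {Φ : E3 → ℝ} (hκ : 0 ≤ κ) {y : E3}
    (h : ‖iteratedFDeriv ℝ 1 Φ y‖ ≤ a) : ‖disp κ Φ y‖ ≤ 3 * κ * a := by
  have ha : 0 ≤ a := (norm_nonneg _).trans h
  have hj : ∀ j, disp κ Φ y j ^ 2 ≤ (κ * a) ^ 2 := by
    intro j
    change (-(κ * pd j Φ y)) ^ 2 ≤ _
    rw [neg_sq, ← sq_abs, abs_mul, abs_of_nonneg hκ]
    exact pow_le_pow_left₀ (by positivity)
      (mul_le_mul_of_nonneg_left ((abs_pd_le Φ j y).trans h) hκ) 2
  refine (pow_le_pow_iff_left₀ (norm_nonneg _) (by positivity) two_ne_zero).1 ?_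
  rw [norm_sq_eq]
  nlinarith [hj 0, hj 1, hj 2, sq_nonneg (κ * a)]

theorem taylor2 {L : E3 → ℝ} (hL : ContDiff ℝ (⊤ : ℕ∞) L) (w v : E3) {M : ℝ}
    (hM : ∀ z ∈ closedBall w ‖v‖, ‖iteratedFDeriv ℝ 2 L z‖ ≤ M) :
    |L (w - v) - L w + fderiv ℝ L w v| ≤ M * ‖v‖ ^ 2 := by
  have hc := convex_closedBall w ‖v‖
  have hw : w ∈ closedBall w ‖v‖ := mem_closedBall_self (norm_nonneg _)
  have hM0 : 0 ≤ M := (norm_nonneg _).trans (hM w hw)
  have hD : Differentiable ℝ (fderiv ℝ L) :=
    (hL.fderiv_right (m := (⊤ : ℕ∞)) le_rfl).differentiable (by simp)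
  have h1 : ∀ z ∈ closedBall w ‖v‖, ‖fderiv ℝ L z - fderiv ℝ L w‖ ≤ M * ‖v‖ := by
    intro z hz
    refine (hc.norm_image_sub_le_of_norm_fderiv_le (fun z _ => hD z) (fun z hz => ?_) hw hz).trans
      (mul_le_mul_of_nonneg_left (mem_closedBall_iff_norm.1 hz) hM0)
    rw [← norm_iteratedFDeriv_one, norm_iteratedFDeriv_fderiv]
    exact hM z hz
  have h2 := hc.norm_image_sub_le_of_norm_fderiv_le'
    (fun z _ => hL.differentiable (by simp) z) h1 hw
    (y := w - v) (by rw [mem_closedBall_iff_norm]; simp)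
  rw [sub_sub_cancel_left, map_neg, sub_neg_eq_add, norm_neg, Real.norm_eq_abs] at h2
  rw [sq, ← mul_assoc]
  exact h2

theorem by_parts {L Φ : E3 → ℝ} (hL : ContDiff ℝ (⊤ : ℕ∞) L) (hΦ : ContDiff ℝ 1 Φ)
    (hc : HasCompactSupport Φ) (x : E3) :
    ∫ y, ∑ j, pd j Φ y * pd j L (x - y) = ∫ y, lap L (x - y) * Φ y := by
  have hcd : ∀ j, Continuous (pd j Φ) := fun j =>
    (hΦ.continuous_fderiv one_ne_zero).clm_apply continuous_const
  have hsd : ∀ j, HasCompactSupport (pd j Φ) := fun j => hc.fderiv_apply ℝ _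
  have hsub : Continuous fun y : E3 => x - y := continuous_const.sub continuous_id
  have i1 : ∀ j, Integrable fun y => pd j L (x - y) * pd j Φ y := fun j =>
    (((contDiff_pd hL j).continuous.comp hsub).mul (hcd j)).integrable_of_hasCompactSupport
      (hsd j).mul_left
  have i2 : ∀ j, Integrable fun y => pd j (pd j L) (x - y) * Φ y := fun j =>
    (((contDiff_pd (contDiff_pd hL j) j).continuous.comp hsub).mul
      hΦ.continuous).integrable_of_hasCompactSupport hc.mul_left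
  have i3 : ∀ j, Integrable fun y => pd j L (x - y) * Φ y := fun j =>
    (((contDiff_pd hL j).continuous.comp hsub).mul
      hΦ.continuous).integrable_of_hasCompactSupport hc.mul_left
  have hd : ∀ j y, HasFDerivAt (fun y => pd j L (x - y)) (-fderiv ℝ (pd j L) (x - y)) y := by
    intro j y
    have h1 := ((contDiff_pd hL j).differentiable (by simp) (x - y)).hasFDerivAt
    have h2 := h1.comp y ((hasFDerivAt_id y).const_sub x)
    simpa [Function.comp_def] using h2
  have key : ∀ j, ∫ y, pd j L (x - y) * pd j Φ y = ∫ y, pd j (pd j L) (x - y) * Φ y := by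
    intro j
    have e : ∀ y, fderiv ℝ (fun y => pd j L (x - y)) y (EuclideanSpace.single j (1 : ℝ)) * Φ y
        = -(pd j (pd j L) (x - y) * Φ y) := by
      intro y
      rw [(hd j y).fderiv, neg_apply, neg_mul]
      rfl
    have := integral_mul_fderiv_eq_neg_fderiv_mul_of_integrable (μ := volume)
      (f := fun y => pd j L (x - y)) (g := Φ) (v := EuclideanSpace.single j (1 : ℝ))
      (by simp only [e]; exact (i2 j).neg) (i1 j) (i3 j) (fun y _ => (hd j y).differentiableAt)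
      (fun y _ => hΦ.differentiable one_ne_zero y)
    simp only [e, integral_neg, neg_neg] at this
    exact this
  simp only [lap, Finset.sum_mul, mul_comm (pd _ Φ _)]
  rw [integral_finsetSum _ fun j _ => i1 j, integral_finsetSum _ fun j _ => i2 j]
  exact Finset.sum_congr rfl fun j _ => key j

theorem norm_le_rr (ε : ℝ) (w : E3) : ‖w‖ ≤ rr ε w :=
  Real.le_sqrt_of_sq_le (by linarith [sq_nonneg ε])

theorem add_le_rr (ε : ℝ) (w : E3) : (‖w‖ + ε) / 2 ≤ rr ε w :=
  Real.le_sqrt_of_sq_le (by nlinarith [sq_nonneg (‖w‖ - ε), sq_nonneg ‖w‖, sq_nonneg ε])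

/-- bounding a set integral by an integrable majorant -/
theorem abs_setIntegral_le {F H : E3 → ℝ} {s : Set E3} (hs : MeasurableSet s) (x y0 : E3)
    (hH : IntegrableOn H s) (h : ∀ y ∈ s, y ≠ x → y ≠ y0 → |F y| ≤ H y) :
    |∫ y in s, F y| ≤ ∫ y in s, H y := by
  refine norm_integral_le_of_norm_le (f := F) hH ?_
  have h1 : ∀ᵐ y : E3, y ≠ x := by simp [ae_iff]
  have h2 : ∀ᵐ y : E3, y ≠ y0 := by simp [ae_iff]
  rw [ae_restrict_iff' hs]
  filter_upwards [h1, h2] with y a b c using h y c a b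

/-- the approximate identity -/
theorem approx_id {k Φ : E3 → ℝ} {P a B : ℝ} (hk0 : ∀ w, 0 ≤ k w) (hki : Integrable k)
    (hk1 : ∫ w, k w = 1) (hkm : Integrable fun w => ‖w‖ * k w) (hkB : ∫ w, ‖w‖ * k w ≤ B)
    (hΦ : ContDiff ℝ 1 Φ) (hP : ∀ y, |Φ y| ≤ P) (ha : ∀ y, ‖iteratedFDeriv ℝ 1 Φ y‖ ≤ a) (x : E3) :
    |∫ y, k (x - y) * Φ y| ≤ P ∧ |Φ x - ∫ y, k (x - y) * Φ y| ≤ a * B := by
  have ha0 : 0 ≤ a := (norm_nonneg _).trans (ha 0)
  have e : ∫ y, k (x - y) * Φ y = ∫ w, k w * Φ (x - w) := by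
    rw [← integral_sub_left_eq_self (fun w => k w * Φ (x - w)) volume x]
    simp only [sub_sub_cancel]
  have i1 : Integrable fun w => k w * Φ (x - w) :=
    hki.mul_bdd (hΦ.continuous.comp (continuous_const.sub continuous_id)).aestronglyMeasurable
      (Filter.Eventually.of_forall fun w => hP _)
  rw [e]
  constructor
  · have := norm_integral_le_of_norm_le (f := fun w => k w * Φ (x - w)) (hki.mul_const P)
      (Filter.Eventually.of_forall fun w => by
        rw [norm_mul, Real.norm_of_nonneg (hk0 w)]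
        exact mul_le_mul_of_nonneg_left (hP _) (hk0 w))
    rwa [integral_mul_const, hk1, one_mul] at this
  · have e2 : Φ x - ∫ w, k w * Φ (x - w) = ∫ w, (k w * Φ x - k w * Φ (x - w)) := by
      rw [integral_sub (hki.mul_const _) i1, integral_mul_const, hk1, one_mul]
    have := norm_integral_le_of_norm_le (f := fun w => k w * Φ x - k w * Φ (x - w))
      (hkm.const_mul a) (Filter.Eventually.of_forall fun w => by
        rw [← mul_sub, norm_mul, Real.norm_of_nonneg (hk0 w), ← mul_assoc, mul_comm _ (k w)]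
        refine mul_le_mul_of_nonneg_left ?_ (hk0 w)
        have := convex_univ.norm_image_sub_le_of_norm_fderiv_le (𝕜 := ℝ) (f := Φ) (C := a)
          (fun z _ => hΦ.differentiable one_ne_zero z)
          (fun z _ => by rw [← norm_iteratedFDeriv_one]; exact ha z) (mem_univ (x - w)) (mem_univ x)
        rwa [sub_sub_cancel] at this)
    rw [integral_const_mul] at this
    rw [e2]
    exact this.trans (mul_le_mul_of_nonneg_left hkB ha0)

end Crest.Agent.R338.FirstAux
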