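import Crest.Agent.R338.DefsF

/-!
# Row 338: radial integrals and the slab
-/

noncomputable section

open MeasureTheory Set Metric

namespace Crest.Agent.R338.FirstRad

/-- A radial function about `c`, cut off at radius `R`. -/
def ind (c : E3) (R : ℝ) (f : ℝ → ℝ) (y : E3) : ℝ := (Iio R).indicator f ‖c - y‖

theorem ind_of_lt {c y : E3} {R : ℝ} (f : ℝ → ℝ) (h : ‖c - y‖ < R) : ind c R f y = f ‖c - y‖ :=
  indicator_of_mem (s := Iio R) h f

theorem ind_nonneg (c : E3) (R : ℝ) {f : ℝ → ℝ} (hf : ∀ t, 0 ≤ t → 0 ≤ f t) (y : E3) :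
    0 ≤ ind c R f y := indicator_apply_nonneg fun _ => hf _ (norm_nonneg _)

theorem radial {f g : ℝ → ℝ} {R : ℝ} (hR : 0 ≤ R) (c : E3) (hg : ContinuousOn g (Icc 0 R))
    (h : ∀ t, 0 < t → t ^ 2 * f t = g t) :
    Integrable (ind c R f) ∧ ∫ y, ind c R f y = 4 * Real.pi * ∫ t in (0 : ℝ)..R, g t := by
  have hd : Module.finrank ℝ E3 - 1 = 2 := by simp
  have e : ∀ t ∈ Ioi (0 : ℝ), t ^ 2 • (Iio R).indicator f t = (Iio R).indicator g t := by
    intro t ht
    by_cases htR : t < R
    · rw [indicator_of_mem (s := Iio R) htR, indicator_of_mem (s := Iio R) htR, smul_eq_mul, h t ht]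
    · rw [indicator_of_notMem (s := Iio R) htR, indicator_of_notMem (s := Iio R) htR, smul_zero]
  have hgi : IntegrableOn g (Iio R ∩ Ioi 0) :=
    (hg.integrableOn_Icc).mono_set fun t ht => ⟨le_of_lt ht.2, le_of_lt ht.1⟩
  constructor
  · have h1 : Integrable (fun w : E3 => (Iio R).indicator f ‖w‖) := by
      rw [integrable_fun_norm_addHaar, hd, integrableOn_congr_fun e measurableSet_Ioi,
        IntegrableOn, integrable_indicator_iff measurableSet_Iio, IntegrableOn,
        Measure.restrict_restrict measurableSet_Iio]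
      exact hgi
    exact h1.comp_sub_left c
  · have h2 := integral_sub_left_eq_self (fun w : E3 => (Iio R).indicator f ‖w‖) volume c
    unfold ind
    rw [h2, integral_fun_norm_addHaar, hd, setIntegral_congr_fun measurableSet_Ioi e,
      setIntegral_indicator measurableSet_Iio, Ioi_inter_Iio, intervalIntegral.integral_of_le hR,
      integral_Ioc_eq_integral_Ioo, Measure.real, EuclideanSpace.volume_ball_fin_three]
    simp only [finrank_euclideanSpace, Fintype.card_fin, ENNReal.ofReal_one, one_pow, one_mul,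
      smul_eq_mul, nsmul_eq_mul]
    rw [ENNReal.toReal_ofReal (by positivity)]
    push_cast
    ring

theorem rad0 (c : E3) : Integrable (ind c 1 fun _ => 1) ∧
    ∫ y, ind c 1 (fun _ => 1) y = 4 * Real.pi / 3 := by
  have := radial (f := fun _ => 1) (g := fun t => t ^ 2) zero_le_one c (by fun_prop)
    (fun t _ => mul_one _)
  refine ⟨this.1, ?_⟩
  rw [this.2, integral_pow]; norm_num; ring

theorem rad1 (c : E3) {R : ℝ} (hR : 0 ≤ R) : Integrable (ind c R fun t => 1 / t) ∧
    ∫ y, ind c R (fun t => 1 / t) y = 2 * Real.pi * R ^ 2 := by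
  have := radial (f := fun t => 1 / t) (g := fun t => t) hR c (by fun_prop)
    (fun t ht => by field_simp)
  refine ⟨this.1, ?_⟩
  rw [this.2, integral_id]; ring

theorem rad2 (c : E3) {R : ℝ} (hR : 0 ≤ R) : Integrable (ind c R fun t => 1 / t ^ 2) ∧
    ∫ y, ind c R (fun t => 1 / t ^ 2) y = 4 * Real.pi * R := by
  have := radial (f := fun t => 1 / t ^ 2) (g := fun _ => 1) hR c (by fun_prop)
    (fun t ht => by field_simp)
  refine ⟨this.1, ?_⟩
  rw [this.2]; simp

theorem rad3 (c : E3) {ε : ℝ} (hε : 0 < ε) (hε1 : ε ≤ 1) :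
    Integrable (ind c 1 fun t => 1 / (t ^ 2 * (t + ε))) ∧
    ∫ y, ind c 1 (fun t => 1 / (t ^ 2 * (t + ε))) y ≤ 4 * Real.pi * (1 + Real.log (1 / ε)) := by
  have := radial (f := fun t => 1 / (t ^ 2 * (t + ε))) (g := fun t => (t + ε)⁻¹) zero_le_one c
    (ContinuousOn.inv₀ (by fun_prop) fun t ht => by linarith [ht.1])
    (fun t ht => by field_simp)
  refine ⟨this.1, ?_⟩
  rw [this.2, intervalIntegral.integral_comp_add_right (fun t => t⁻¹) ε,
    integral_inv_of_pos (by linarith) (by linarith), zero_add, div_eq_mul_one_div,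
    Real.log_mul (by linarith) (by positivity)]
  have h1 := Real.log_le_sub_one_of_pos (x := 1 + ε) (by linarith)
  exact mul_le_mul_of_nonneg_left (by linarith) (by positivity)

theorem norm_sq_eq (y : E3) : ‖y‖ ^ 2 = y 0 ^ 2 + y 1 ^ 2 + y 2 ^ 2 := by
  rw [EuclideanSpace.real_norm_sq_eq, Fin.sum_univ_three]

theorem isCompact_box (A : ℝ) : IsCompact (box A) := by
  refine isCompact_of_isClosed_isBounded ?_ ((isBounded_closedBall (x := 0)
    (r := 2 * |A| + 1)).subset fun y hy => ?_)
  · have h : ∀ (j : Fin 3) (r : ℝ), IsClosed {y : E3 | |y j| ≤ r} := fun j r =>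
      isClosed_le (by fun_prop) continuous_const
    exact (h 0 A).inter ((h 1 A).inter (h 2 1))
  · obtain ⟨h0, h1, h2⟩ := hy
    rw [mem_closedBall_zero_iff]
    refine (pow_le_pow_iff_left₀ (norm_nonneg _) (by positivity) two_ne_zero).1 ?_
    have a0 := pow_le_pow_left₀ (abs_nonneg _) (h0.trans (le_abs_self A)) 2
    have a1 := pow_le_pow_left₀ (abs_nonneg _) (h1.trans (le_abs_self A)) 2
    have a2 := pow_le_pow_left₀ (abs_nonneg _) h2 2
    rw [sq_abs] at a0 a1 a2
    rw [norm_sq_eq]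
    nlinarith [abs_nonneg A]

theorem volume_box {A : ℝ} (hA : 0 ≤ A) : volume.real (box A) = 8 * A ^ 2 := by
  have e : box A = (WithLp.ofLp : E3 → Fin 3 → ℝ) ⁻¹' Icc ![-A, -A, -1] ![A, A, 1] := by
    ext y
    simp only [box, mem_ofPred_eq, mem_preimage, mem_Icc, Pi.le_def, Fin.forall_fin_succ, abs_le]
    simp
    tauto
  rw [Measure.real, e, (PiLp.volume_preserving_ofLp (Fin 3)).measure_preimage
    measurableSet_Icc.nullMeasurableSet, Real.volume_Icc_pi_toReal, Fin.prod_univ_three]
  · simp; ring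
  · intro i
    fin_cases i <;> simp <;> linarith

end Crest.Agent.R338.FirstRad
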