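import Crest.Agent.R338.DefsP

/-!
# Row 338: removing the lattice fluctuations
-/

noncomputable section

open MeasureTheory Function

namespace Crest.Agent.R338

namespace Fluct

section calc1
variable {F : Type} [NormedAddCommGroup F] [NormedSpace ℝ F]

theorem contDiff_pd {g : E3 → F} (hg : ContDiff ℝ 2 g) (j : Fin 3) : ContDiff ℝ 1 (pd j g) :=
  (hg.fderiv_right (m := 1) (by norm_num)).clm_apply contDiff_const

theorem cont_pd {g : E3 → F} (hg : ContDiff ℝ 1 g) (j : Fin 3) : Continuous (pd j g) :=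
  (hg.continuous_fderiv one_ne_zero).clm_apply continuous_const

theorem integ {ψ : E3 → F} (hψ : C1c ψ) {g : E3 → ℝ} (hg : Continuous g)
    (h : ∀ x, ψ x = 0 → (∀ j, pd j ψ x = 0) → g x = 0) : Integrable g := by
  refine hg.integrable_of_hasCompactSupport (HasCompactSupport.intro hψ.2 fun x hx => ?_)
  refine h x (image_eq_zero_of_notMem_tsupport hx) fun j => ?_
  have : fderiv ℝ ψ x = 0 := by
    by_contra hne
    exact hx (support_fderiv_subset ℝ hne)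
  simp [pd, this]

end calc1

theorem pd_mul {g k : E3 → ℝ} (hg : ContDiff ℝ 1 g) (hk : ContDiff ℝ 1 k) (j : Fin 3) (x : E3) :
    pd j (fun y => g y * k y) x = g x * pd j k x + k x * pd j g x := by
  unfold pd
  rw [fderiv_fun_mul (hg.differentiable one_ne_zero x) (hk.differentiable one_ne_zero x)]
  simp

theorem pd_add {g k : E3 → ℝ} (hg : ContDiff ℝ 1 g) (hk : ContDiff ℝ 1 k) (j : Fin 3) (x : E3) :
    pd j (fun y => g y + k y) x = pd j g x + pd j k x := by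
  unfold pd
  rw [fderiv_fun_add (hg.differentiable one_ne_zero x) (hk.differentiable one_ne_zero x)]
  simp

theorem int_pd {k : E3 → ℝ} (hk : C1c k) (j : Fin 3) : ∫ x, pd j k x = 0 := by
  have i1 : Integrable (pd j k) := integ hk (cont_pd hk.1 j) fun x _ h => h j
  have i2 : Integrable k := integ hk hk.1.continuous fun x h _ => h
  have := integral_mul_fderiv_eq_neg_fderiv_mul_of_integrable (μ := (volume : Measure E3))
    (f := fun _ => (1 : ℝ)) (g := k) (v := EuclideanSpace.single j (1 : ℝ)) (by simp)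
    (by simp only [one_mul]; exact i1) (by simpa using i2) (fun _ _ => differentiableAt_const _)
    (fun x _ => hk.1.differentiable one_ne_zero x)
  simpa [pd] using this

variable {ψ : E3 → ℂ}

theorem pd_nsq (hψ : C1c ψ) (j : Fin 3) (x : E3) :
    pd j (fun y => ‖ψ y‖ ^ 2) x = 2 * inner ℝ (ψ x) (pd j ψ x) := by
  unfold pd
  rw [(hψ.1.differentiable one_ne_zero x).hasFDerivAt.norm_sq.fderiv]
  simp
  ring

theorem c1c_mul (hψ : C1c ψ) {g : E3 → ℝ} (hg : ContDiff ℝ 1 g) :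
    C1c fun y => g y * ‖ψ y‖ ^ 2 :=
  ⟨hg.mul (hψ.1.norm_sq ℝ), HasCompactSupport.intro hψ.2 fun x hx => by
    simp [image_eq_zero_of_notMem_tsupport hx]⟩

/-- `∫ (∂ g) |ψ|² = - 2 ∫ g ⟪ψ, ∂ψ⟫` -/
theorem ibp (hψ : C1c ψ) {g : E3 → ℝ} (hg : ContDiff ℝ 1 g) (j : Fin 3) :
    ∫ x, (pd j g x * ‖ψ x‖ ^ 2 + 2 * g x * inner ℝ (ψ x) (pd j ψ x)) = 0 := by
  rw [← int_pd (c1c_mul hψ hg) j]
  refine integral_congr_ae (.of_forall fun x => ?_)
  simp only [pd_mul hg (hψ.1.norm_sq ℝ), pd_nsq hψ]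
  ring

theorem ipot (hψ : C1c ψ) {g : E3 → ℝ} (hg : Continuous g) :
    Integrable fun x => g x * ‖ψ x‖ ^ 2 :=
  integ hψ (hg.mul (hψ.1.continuous.norm.pow 2)) fun x h _ => by simp [h]

theorem pot_add (hψ : C1c ψ) {g k : E3 → ℝ} (hg : Continuous g) (hk : Continuous k) :
    pot (fun x => g x + k x) ψ = pot g ψ + pot k ψ := by
  unfold pot
  rw [← integral_add (ipot hψ hg) (ipot hψ hk)]
  simp only [add_mul]

theorem pot_smul (c : ℝ) (g : E3 → ℝ) : pot (fun x => c * g x) ψ = c * pot g ψ := by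
  unfold pot
  rw [← integral_const_mul]
  simp only [mul_assoc]

theorem pot_const (c : ℝ) : pot (fun _ => c) ψ = c * nsq ψ := by
  unfold pot nsq
  rw [integral_const_mul]

theorem pot_mono (hψ : C1c ψ) {g k : E3 → ℝ} (hg : Continuous g) (hk : Continuous k)
    (h : ∀ x, ψ x ≠ 0 → g x ≤ k x) : pot g ψ ≤ pot k ψ := by
  refine integral_mono (ipot hψ hg) (ipot hψ hk) fun x => ?_
  by_cases hx : ψ x = 0
  · simp [hx]
  · exact mul_le_mul_of_nonneg_right (h x hx) (sq_nonneg _)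

theorem pot_sum (hψ : C1c ψ) {g : Fin 3 → E3 → ℝ} (hg : ∀ j, Continuous (g j)) :
    pot (fun x => ∑ j, g j x) ψ = ∑ j, pot (g j) ψ := by
  unfold pot
  rw [← integral_finsetSum _ fun j _ => ipot hψ (hg j)]
  simp only [Finset.sum_mul]

theorem nsq_nonneg : 0 ≤ nsq ψ := integral_nonneg fun _ => sq_nonneg _

theorem dir_nonneg : 0 ≤ dir ψ :=
  Finset.sum_nonneg fun _ _ => integral_nonneg fun _ => sq_nonneg _

theorem norm_D (u v : ℂ) (c : ℝ) :
    ‖u + (c : ℂ) * v‖ ^ 2 = ‖u‖ ^ 2 + 2 * c * inner ℝ v u + c ^ 2 * ‖v‖ ^ 2 := by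
  rw [← Complex.real_smul, norm_add_sq_real, real_inner_smul_right, norm_smul, mul_pow,
    Real.norm_eq_abs, sq_abs, real_inner_comm]
  ring

theorem iD (hψ : C1c ψ) {X : E3 → ℝ} (hX : Continuous X) (j : Fin 3) :
    Integrable fun x => ‖pd j ψ x + (X x : ℂ) * ψ x‖ ^ 2 := by
  have h1 := cont_pd hψ.1 j
  have h2 := hψ.1.continuous
  exact integ hψ (by fun_prop) fun x h h' => by simp [h, h']

/-- the factorisation identity in the direction `j` -/
theorem fact (hψ : C1c ψ) {X : E3 → ℝ} (hX : ContDiff ℝ 1 X) (j : Fin 3) :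
    ∫ x, ‖pd j ψ x + (X x : ℂ) * ψ x‖ ^ 2 =
      (∫ x, ‖pd j ψ x‖ ^ 2) + pot (fun x => X x ^ 2 - pd j X x) ψ := by
  have h1 := cont_pd hψ.1 j
  have h2 := hψ.1.continuous
  have h3 := hX.continuous
  have h4 := cont_pd hX j
  have i1 : Integrable fun x => ‖pd j ψ x‖ ^ 2 := integ hψ (by fun_prop) fun x h h' => by simp [h']
  have i2 : Integrable fun x => (X x ^ 2 - pd j X x) * ‖ψ x‖ ^ 2 := ipot hψ (by fun_prop)
  have i3 : Integrable fun x => pd j X x * ‖ψ x‖ ^ 2 + 2 * X x * inner ℝ (ψ x) (pd j ψ x) :=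
    integ hψ (by fun_prop) fun x h h' => by simp [h]
  have i4 : Integrable fun x => ‖pd j ψ x‖ ^ 2 + (X x ^ 2 - pd j X x) * ‖ψ x‖ ^ 2 := i1.add i2
  unfold pot
  rw [← integral_add i1 i2, ← add_zero (∫ x, ‖pd j ψ x‖ ^ 2 + _), ← ibp hψ hX j,
    ← integral_add i4 i3]
  refine integral_congr_ae (.of_forall fun x => ?_)
  simp only [norm_D]
  ring

theorem pt_bound {δ g0 g1 G G' X a p d : ℝ} (hδ : 0 < δ) (h0 : |G| ≤ g0) (h1 : |G'| ≤ g1)
    (ha : |a| ≤ p * d) :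
    |2 * G' * a + 4 * G * X * a - 4 * G * X ^ 2 * p ^ 2| ≤
      (δ / 4 + 2 * g0) * d ^ 2 + (4 * g1 ^ 2 / δ + 6 * g0 * X ^ 2) * p ^ 2 := by
  have g0n : 0 ≤ g0 := (abs_nonneg _).trans h0
  have g1n : 0 ≤ g1 := (abs_nonneg _).trans h1
  have e1 : |2 * G' * a| ≤ 2 * g1 * (p * d) := by
    rw [abs_mul, abs_mul, abs_two]
    gcongr
  have e2 : |4 * G * X * a| ≤ 4 * g0 * |X| * (p * d) := by
    rw [abs_mul, abs_mul, abs_mul, abs_of_pos (by norm_num : (0 : ℝ) < 4)]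
    gcongr
  have e3 : |4 * G * X ^ 2 * p ^ 2| ≤ 4 * g0 * X ^ 2 * p ^ 2 := by
    rw [abs_mul, abs_mul, abs_mul, abs_of_pos (by norm_num : (0 : ℝ) < 4), abs_sq, abs_sq]
    gcongr
  have e4 : 2 * g1 * (p * d) ≤ δ / 4 * d ^ 2 + 4 * g1 ^ 2 / δ * p ^ 2 := by
    have : δ / 4 * d ^ 2 + 4 * g1 ^ 2 / δ * p ^ 2 - 2 * g1 * (p * d) =
        (δ * d - 4 * g1 * p) ^ 2 / (4 * δ) := by
      field_simp
      ring
    have h : 0 ≤ (δ * d - 4 * g1 * p) ^ 2 / (4 * δ) := by positivity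
    linarith
  have e5 : 4 * g0 * |X| * (p * d) ≤ 2 * g0 * (d ^ 2 + X ^ 2 * p ^ 2) := by
    have : 2 * |X| * (p * d) ≤ d ^ 2 + X ^ 2 * p ^ 2 := by
      rw [← sq_abs X]
      nlinarith [sq_nonneg (d - |X| * p)]
    nlinarith
  have e6 := abs_sub (2 * G' * a + 4 * G * X * a) (4 * G * X ^ 2 * p ^ 2)
  have e7 := abs_add_le (2 * G' * a) (4 * G * X * a)
  linarith

/-- the double integration by parts, in the direction `j` -/
theorem gtrick (hψ : C1c ψ) {X G : E3 → ℝ} (hX : ContDiff ℝ 1 X) (hG : ContDiff ℝ 2 G) (j : Fin 3)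
    {δ g0 g1 : ℝ} (hδ : 0 < δ) (h0 : ∀ x, |G x| ≤ g0) (h1 : ∀ x, |pd j G x| ≤ g1) :
    |pot (fun x => pd j (pd j G) x + 2 * (G x * pd j X x)) ψ| ≤
      (δ / 4 + 2 * g0) * (∫ x, ‖pd j ψ x + (X x : ℂ) * ψ x‖ ^ 2) + 4 * g1 ^ 2 / δ * nsq ψ +
        6 * g0 * pot (fun x => X x ^ 2) ψ := by
  have c1 := cont_pd hψ.1 j
  have c2 := hψ.1.continuous
  have c3 := hX.continuous
  have c4 := cont_pd hX j
  have hG1 : ContDiff ℝ 1 G := hG.of_le (by norm_num)
  have hG' := contDiff_pd hG j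
  have c5 := hG.continuous
  have c6 := hG'.continuous
  have c7 := cont_pd hG' j
  have hg : ContDiff ℝ 1 fun x => 2 * (G x * X x) := contDiff_const.mul (hG1.mul hX)
  have h := ibp hψ (hG'.add hg) j
  set r : E3 → ℝ := fun x => 2 * pd j G x * inner ℝ (ψ x) (pd j ψ x + (X x : ℂ) * ψ x) +
    4 * G x * X x * inner ℝ (ψ x) (pd j ψ x + (X x : ℂ) * ψ x) - 4 * G x * X x ^ 2 * ‖ψ x‖ ^ 2
    with hr
  have i1 : Integrable fun x => (pd j (pd j G) x + 2 * (G x * pd j X x)) * ‖ψ x‖ ^ 2 :=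
    ipot hψ (by fun_prop)
  have i2 : Integrable r := integ hψ (by rw [hr]; fun_prop) fun x h h' => by simp [hr, h]
  have e : pot (fun x => pd j (pd j G) x + 2 * (G x * pd j X x)) ψ + ∫ x, r x = 0 := by
    unfold pot
    rw [← integral_add i1 i2, ← h]
    refine integral_congr_ae (.of_forall fun x => ?_)
    simp only [hr, pd_add hG' hg, pd_mul contDiff_const (hG1.mul hX), pd_mul hG1 hX,
      inner_add_right, ← Complex.real_smul, real_inner_smul_right, real_inner_self_eq_norm_sq]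
    have : pd j (fun _ : E3 => (2 : ℝ)) x = 0 := by simp [pd]
    rw [this]
    ring
  rw [eq_neg_of_add_eq_zero_left e, abs_neg]
  have i3 := (iD hψ c3 j).const_mul (δ / 4 + 2 * g0)
  have i4 : Integrable fun x => (4 * g1 ^ 2 / δ + 6 * g0 * X x ^ 2) * ‖ψ x‖ ^ 2 :=
    ipot hψ (by fun_prop)
  have e2 : pot (fun x => 4 * g1 ^ 2 / δ + 6 * g0 * X x ^ 2) ψ =
      4 * g1 ^ 2 / δ * nsq ψ + 6 * g0 * pot (fun x => X x ^ 2) ψ := by
    rw [pot_add hψ (by fun_prop) (by fun_prop), pot_const, pot_smul]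
  rw [add_assoc, ← e2, ← integral_const_mul, pot, ← integral_add i3 i4]
  refine abs_integral_le_integral_abs.trans (integral_mono i2.abs (i3.add i4) fun x => ?_)
  exact pt_bound hδ (h0 x) (h1 x) (abs_real_inner_le_norm _ _)

/-! ### The field `Xf` -/

theorem contDiff_Xf (hL : LocStmt) {f : E3 → ℝ} (hf : ContDiff ℝ 2 f) (Ω : ℝ) (j : Fin 3) :
    ContDiff ℝ 1 (Xf f Ω j) := by
  unfold Xf
  refine (contDiff_pd hf j).add ?_
  split_ifs
  · exact contDiff_const.mul (hL.gam_c1.comp (EuclideanSpace.proj (2 : Fin 3) : E3 →L[ℝ] ℝ).contDiff)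
  · exact contDiff_const

theorem pd_Xf (hL : LocStmt) {f : E3 → ℝ} (hf : ContDiff ℝ 2 f) (Ω : ℝ) (j : Fin 3) (x : E3) :
    pd j (Xf f Ω j) x = pd j (pd j f) x + if j = 2 then Ω * (1 - min (x 2 ^ 2) 1) else 0 := by
  unfold Xf
  split_ifs with h
  · subst h
    have hp := (EuclideanSpace.proj (2 : Fin 3) : E3 →L[ℝ] ℝ).hasFDerivAt (x := x)
    have h1 := ((hL.gam_deriv (x 2)).comp_hasFDerivAt x hp).const_mul Ω
    have h2 := ((contDiff_pd hf 2).differentiable one_ne_zero x).hasFDerivAt.add h1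
    refine (congrArg (fun T => T (EuclideanSpace.single 2 (1 : ℝ))) h2.fderiv).trans ?_
    simp [pd]
  · simp

theorem sum_sq_Xf {f : E3 → ℝ} (h2 : ∀ x, pd 2 f x = 0) (Ω : ℝ) (x : E3) :
    ∑ j, Xf f Ω j x ^ 2 = ∑ j, pd j f x ^ 2 + Ω ^ 2 * gam (x 2) ^ 2 := by
  simp [Xf, Fin.sum_univ_three, h2, mul_pow]

theorem sum_pd_Xf (hL : LocStmt) {f : E3 → ℝ} (hf : ContDiff ℝ 2 f) (Ω : ℝ) (x : E3) :
    ∑ j, pd j (Xf f Ω j) x = lap f x + Ω * (1 - min (x 2 ^ 2) 1) := by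
  simp [pd_Xf hL hf, Finset.sum_add_distrib, lap]

theorem eta_mem (hL : LocStmt) (z : ℝ) : 0 ≤ eta z ∧ eta z ≤ 1 := by
  have h1 : S0 (4 * z - 1) ≤ S0 (4 * z + 2) := hL.S_mono (by linarith)
  have h2 : S0 (4 * z + 2) ≤ 1 :=
    (hL.S_mono (le_max_left _ 1)).trans (hL.S_one _ (le_max_right _ _)).le
  have h3 : 0 ≤ S0 (4 * z - 1) :=
    (hL.S_zero _ (min_le_right _ _)).ge.trans (hL.S_mono (min_le_left _ 0))
  unfold eta
  constructor <;> linarith

theorem eta_one (hL : LocStmt) {z : ℝ} (hz : |z| ≤ 1 / 4) : eta z = 1 := by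
  obtain ⟨h1, h2⟩ := abs_le.1 hz
  unfold eta
  rw [hL.S_one _ (by linarith), hL.S_zero _ (by linarith), sub_zero]

theorem gam_le (hL : LocStmt) (z : ℝ) :
    5 / 9 * min (z ^ 2) 1 ^ 2 ≤ min (z ^ 2) 1 - gam z ^ 2 := by
  rcases le_total |z| 1 with h | h
  · have h1 : z ^ 2 ≤ 1 := (sq_le_one_iff_abs_le_one z).2 h
    rw [min_eq_left h1, hL.gam_sq z h]
    have : z ^ 6 ≤ z ^ 4 := by nlinarith [sq_nonneg (z ^ 2)]
    nlinarith
  · rw [min_eq_right ((one_le_sq_iff_one_le_abs z).2 h), hL.gam_out z h]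
    norm_num

theorem sigma (hL : LocStmt) {Ω : ℝ} (hΩ : 2500 ≤ Ω) (z : ℝ) :
    -1 + 2 * Ω * (1 - eta z) ≤
      Ω ^ 2 / 2 * (min (z ^ 2) 1 - gam z ^ 2) - Ω / 2 * min (z ^ 2) 1 := by
  have h := mul_le_mul_of_nonneg_left (gam_le hL z) (by positivity : 0 ≤ Ω ^ 2 / 2)
  refine le_trans ?_ (sub_le_sub_right h _)
  rcases le_total |z| (1 / 4) with hz | hz
  · rw [eta_one hL hz]
    nlinarith [sq_nonneg (Ω * min (z ^ 2) 1 - 1)]
  · have h1 : 1 / 16 ≤ min (z ^ 2) 1 := by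
      refine le_min ?_ (by norm_num)
      rw [← sq_abs]
      nlinarith
    have h2 := (eta_mem hL z).1
    generalize min (z ^ 2) 1 = w at h1
    have h3 : Ω / 16 ≤ Ω * w := by nlinarith
    have h4 : 150 ≤ Ω * w := by linarith
    have h5 : 0 ≤ Ω * eta z := by positivity
    nlinarith [mul_le_mul h3 h4 (by norm_num) (by linarith)]

end Fluct

open Fluct

theorem zst (hL : LocStmt) : ZStmt := by
  intro f Ω ψ hf h2 hΩ hψ
  have hX := contDiff_Xf hL hf Ω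
  have e1 := fact hψ (hX 2) 2
  have e2 : ∫ x, ‖pd 2 ψ x + (Xf f Ω 2 x : ℂ) * ψ x‖ ^ 2 ≤ 2 * qq f Ω ψ := by
    unfold qq
    rw [← mul_assoc, show (2 : ℝ) * (1 / 2) = 1 by norm_num, one_mul]
    exact Finset.single_le_sum (f := fun j => ∫ x, ‖pd j ψ x + (Xf f Ω j x : ℂ) * ψ x‖ ^ 2)
      (fun _ _ => integral_nonneg fun _ => sq_nonneg _) (Finset.mem_univ 2)
  have e3 : 0 ≤ ∫ x, ‖pd 2 ψ x‖ ^ 2 := integral_nonneg fun _ => sq_nonneg _
  have c1 := hL.gam_c1.continuous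
  have c2 := (hX 2).continuous
  have c3 := cont_pd (hX 2) 2
  have e4 : pot (fun x => Ω ^ 2 * gam (x 2) ^ 2 + -Ω) ψ ≤
      pot (fun x => Xf f Ω 2 x ^ 2 - pd 2 (Xf f Ω 2) x) ψ := by
    refine pot_mono hψ (by fun_prop) (by fun_prop) fun x _ => ?_
    have : pd 2 (pd 2 f) x = 0 := by
      rw [show pd 2 f = fun _ => 0 from funext h2]
      simp [pd]
    rw [pd_Xf hL hf, this]
    have : 0 ≤ Ω * min (x 2 ^ 2) 1 := mul_nonneg hΩ (le_min (sq_nonneg _) zero_le_one)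
    simp only [Xf, h2, if_true, zero_add, mul_pow]
    linarith
  rw [pot_add hψ (by fun_prop) (by fun_prop), pot_const, pot_smul] at e4
  unfold pot at e4 e1
  linarith

theorem fluct (hL : LocStmt) : FluctStmt := by
  intro f m ζ V Λ v1 Ω e g0 g1 sε δ h hf h2 hm hζ _ hlap hW hmΩ hζ1 hΛ hΩ he hδ hs hg0 hsδ hh0 hh
    hP ψ hψ
  obtain ⟨U, G, S, hU, hG, hV, hG0, hG1, hS, hUl, hUu⟩ := hP
  obtain ⟨iS, hSb⟩ := hS ψ hψ
  have hX := contDiff_Xf hL hf Ω
  have cX := fun j => (hX j).continuous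
  have cX' := fun j => cont_pd (hX j) j
  have cG := hG.continuous
  have cG2 := fun j => cont_pd (contDiff_pd hG j) j
  have g0n : 0 ≤ g0 := (abs_nonneg _).trans (hG0 0)
  have hn := nsq_nonneg (ψ := ψ)
  have hd := dir_nonneg (ψ := ψ)
  set XX : E3 → ℝ := fun x => ∑ j, Xf f Ω j x ^ 2 with hXX
  set dX : E3 → ℝ := fun x => ∑ j, pd j (Xf f Ω j) x with hdX
  have cXX : Continuous XX := by rw [hXX]; fun_prop
  have cdX : Continuous dX := by rw [hdX]; fun_prop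
  have hq : 2 * qq f Ω ψ = ∑ j, ∫ x, ‖pd j ψ x + (Xf f Ω j x : ℂ) * ψ x‖ ^ 2 := by
    unfold qq
    ring
  have hq0 : 0 ≤ qq f Ω ψ := by
    have : 0 ≤ ∑ j, ∫ x, ‖pd j ψ x + (Xf f Ω j x : ℂ) * ψ x‖ ^ 2 :=
      Finset.sum_nonneg fun _ _ => integral_nonneg fun _ => sq_nonneg _
    linarith
  have e1 : 2 * qq f Ω ψ = dir ψ + pot XX ψ - pot dX ψ := by
    rw [hq, Finset.sum_congr rfl fun j _ => fact hψ (hX j) j, Finset.sum_add_distrib,
      ← pot_sum hψ (fun j => by fun_prop), add_sub_assoc, sub_eq_add_neg (pot XX ψ),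
      ← neg_one_mul (pot dX ψ), ← pot_smul, ← pot_add hψ cXX (by fun_prop)]
    congr 2
    funext x
    simp only [hXX, hdX, Finset.sum_sub_distrib]
    ring
  have hdiv : ∀ x, |dX x| ≤ 2 * Ω := fun x => by
    have a1 := abs_le.1 (hlap x)
    have a2 : 0 ≤ min (x 2 ^ 2) 1 := le_min (sq_nonneg _) zero_le_one
    have a3 : min (x 2 ^ 2) 1 ≤ 1 := min_le_right _ _
    simp only [hdX, sum_pd_Xf hL hf]
    rw [abs_le]
    constructor <;> nlinarith
  have e2 : pot dX ψ ≤ 2 * Ω * nsq ψ := by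
    rw [← pot_const]
    exact pot_mono hψ cdX continuous_const fun x _ => (abs_le.1 (hdiv x)).2
  have e3 : 0 ≤ pot XX ψ :=
    integral_nonneg fun x => mul_nonneg (Finset.sum_nonneg fun _ _ => sq_nonneg _) (sq_nonneg _)
  have clap : Continuous (lap G) := by unfold lap; fun_prop
  have e4 : |pot (lap G) ψ + 2 * pot (fun x => G x * dX x) ψ| ≤
      (δ / 4 + 2 * g0) * (2 * qq f Ω ψ) + 12 * g1 ^ 2 / δ * nsq ψ + 6 * g0 * pot XX ψ := by
    have a1 : pot (lap G) ψ + 2 * pot (fun x => G x * dX x) ψ =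
        ∑ j, pot (fun x => pd j (pd j G) x + 2 * (G x * pd j (Xf f Ω j) x)) ψ := by
      rw [← pot_sum hψ (fun j => by fun_prop), ← pot_smul, ← pot_add hψ clap (by fun_prop)]
      congr 1
      funext x
      simp only [hdX, lap, Finset.sum_add_distrib, Finset.mul_sum]
    rw [a1]
    refine (Finset.abs_sum_le_sum_abs _ _).trans ((Finset.sum_le_sum fun j _ =>
      gtrick hψ (hX j) hG j hδ hG0 (hG1 j)).trans (le_of_eq ?_))
    rw [hq, hXX, pot_sum hψ (fun j => by fun_prop)]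
    simp only [Fin.sum_univ_three]
    ring
  have hGd : ∀ x, |G x * dX x| ≤ g0 * (2 * Ω) := fun x => by
    rw [abs_mul]
    exact mul_le_mul (hG0 x) (hdiv x) (abs_nonneg _) g0n
  have e5 : pot (fun x => G x * dX x) ψ ≤ g0 * (2 * Ω) * nsq ψ := by
    rw [← pot_const]
    exact pot_mono hψ (by fun_prop) continuous_const fun x _ => (abs_le.1 (hGd x)).2
  have e6 : -(g0 * (2 * Ω)) * nsq ψ ≤ pot (fun x => G x * dX x) ψ := by
    rw [← pot_const]
    exact pot_mono hψ continuous_const (by fun_prop) fun x _ => (abs_le.1 (hGd x)).1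
  -- total error
  have herr : |pot (lap G) ψ + pot S ψ| ≤
      δ * qq f Ω ψ + (12 * g1 ^ 2 / δ + 22 * g0 * Ω + 6 * sε * Ω) * nsq ψ := by
    have a1 : g0 * pot XX ψ ≤ g0 * (2 * qq f Ω ψ + 2 * Ω * nsq ψ) :=
      mul_le_mul_of_nonneg_left (by linarith) g0n
    have a2 : sε * dir ψ ≤ sε * (2 * qq f Ω ψ + 2 * Ω * nsq ψ) :=
      mul_le_mul_of_nonneg_left (by linarith) hs
    have a3 := mul_le_mul_of_nonneg_right hg0 hq0
    have a4 := mul_le_mul_of_nonneg_right hsδ hq0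
    have a5 : 0 ≤ g0 * Ω * nsq ψ := by positivity
    have a6 : 0 ≤ sε * Ω * nsq ψ := by positivity
    have a7 : 0 ≤ δ * qq f Ω ψ := by positivity
    obtain ⟨b1, b2⟩ := abs_le.1 e4
    obtain ⟨b3, b4⟩ := abs_le.1 hSb
    rw [abs_le]
    constructor <;> linarith
  have cS := hL.S_smooth.continuous
  have ceta : Continuous fun x : E3 => eta (x 2) := by unfold eta; fun_prop
  have cW : Continuous (Wf f) := by
    have a1 := fun j => (contDiff_pd hf j).continuous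
    have a2 := fun j => cont_pd (contDiff_pd hf j) j
    unfold Wf lap
    fun_prop
  set W : E3 → ℝ := fun x => U x + (Wf f x + m x - Λ * ζ x) * eta (x 2) with hWdef
  have cW' : Continuous W := by rw [hWdef]; fun_prop
  have e7 : pot V ψ = pot W ψ - (pot (lap G) ψ + pot S ψ) := by
    have i1 : Integrable fun x => lap G x * ‖ψ x‖ ^ 2 + S x * ‖ψ x‖ ^ 2 := (ipot hψ clap).add iS
    unfold pot
    rw [← integral_add (ipot hψ clap) iS, ← integral_sub (ipot hψ cW') i1]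
    refine integral_congr_ae (.of_forall fun x => ?_)
    simp only [hV, hWdef]
    ring
  set T : E3 → ℝ := fun x => W x + (-(1 / 2) * XX x + 1 / 2 * dX x) with hT
  have cT : Continuous T := by rw [hT]; fun_prop
  have e8 : dir ψ / 2 + pot W ψ = qq f Ω ψ + pot T ψ := by
    rw [hT, pot_add hψ cW' (by fun_prop), pot_add (g := fun x => -(1 / 2) * XX x) hψ (by fun_prop)
      (by fun_prop), pot_smul, pot_smul]
    linarith
  have hTx : ∀ x, T x = U x + (Wf f x + m x - Λ * ζ x) * eta (x 2) - Wf f x -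
      Ω ^ 2 / 2 * gam (x 2) ^ 2 + Ω / 2 * (1 - min (x 2 ^ 2) 1) := fun x => by
    simp only [hT, hWdef, hXX, hdX, sum_sq_Xf h2, sum_pd_Xf hL hf]
    simp only [Wf]
    ring
  obtain ⟨b1, b2⟩ := abs_le.1 herr
  refine ⟨?_, fun hsupp => ?_⟩
  · have a1 : pot (fun x => (v1 - Λ + Ω / 2 - (e + 1)) + (m x + Λ * (1 - ζ x))) ψ ≤ pot T ψ := by
      refine pot_mono hψ (by fun_prop) cT fun x _ => ?_
      have p1 := sigma hL hΩ (x 2)
      have p2 := hUl x
      obtain ⟨p3, p4⟩ := eta_mem hL (x 2)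
      have p5 : (Wf f x + m x - Λ * ζ x) * (1 - eta (x 2)) ≤ 2 * Ω * (1 - eta (x 2)) := by
        refine mul_le_mul_of_nonneg_right ?_ (by linarith)
        have := mul_nonneg hΛ (hζ1 x).1
        linarith [(abs_le.1 (hW x)).2, (abs_le.1 (hmΩ x)).2]
      rw [hTx]
      linarith
    rw [pot_add hψ (by fun_prop) (by fun_prop), pot_add hψ (by fun_prop) (by fun_prop), pot_const,
      pot_smul] at a1
    linarith
  · have a1 : pot T ψ ≤ pot (fun x => (v1 - Λ + Ω / 2 + (e + 6 * Ω ^ 2 * h ^ 4)) + m x) ψ := by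
      refine pot_mono hψ cT (by fun_prop) fun x hx => ?_
      obtain ⟨s1, s2, s3⟩ := hsupp x hx
      have p1 := hUu x s1
      have p2 := hL.gam_sq (x 2) (by linarith)
      have p3 : 0 ≤ Ω * min (x 2 ^ 2) 1 :=
        mul_nonneg (by linarith) (le_min (sq_nonneg _) zero_le_one)
      have p4 : x 2 ^ 4 ≤ (2 * h) ^ 4 := by
        rw [← abs_of_nonneg (by positivity : 0 ≤ x 2 ^ 4), abs_pow]
        exact pow_le_pow_left₀ (abs_nonneg _) s3 4
      have p5 : x 2 ^ 2 - gam (x 2) ^ 2 ≤ 12 * h ^ 4 := by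
        have : 0 ≤ x 2 ^ 6 := by positivity
        have : 0 ≤ h ^ 4 := by positivity
        linarith
      have p6 := mul_le_mul_of_nonneg_left p5 (by positivity : 0 ≤ Ω ^ 2 / 2)
      rw [hTx, eta_one hL (by linarith), s2]
      linarith
    rw [pot_add hψ (by fun_prop) hm, pot_const] at a1
    linarith

end Crest.Agent.R338
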