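import Crest.Agent.R338.HopA

/-!
# Row 338: the hopping form is dominated by the factorised form
-/

noncomputable section

open MeasureTheory Function Set
open scoped ENNReal ComplexConjugate

namespace Crest.Agent.R338

namespace Hop

/-- direction of a resistor -/
def dj (b : Bool) : Fin 3 := if b then 1 else 0
/-- the other planar direction -/
def dk (b : Bool) : Fin 3 := if b then 0 else 1
/-- coordinate along the resistor -/
def cj (b : Bool) (c : ℤ × ℤ) : ℤ := if b then c.2 else c.1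
/-- coordinate across the resistor -/
def ck (b : Bool) (c : ℤ × ℤ) : ℤ := if b then c.1 else c.2

theorem jk (b : Bool) : JK (dj b) (dk b) := by
  cases b
  · exact Or.inl ⟨rfl, rfl⟩
  · exact Or.inr ⟨rfl, rfl⟩

theorem Q_eq (P : Pl) (b : Bool) (c : ℤ × ℤ) : P.Q c = bx (dj b) (dk b) ((cj b c + P.th) * P.l)
    ((cj b c + 1) * P.l) ((ck b c + P.th) * P.l) ((ck b c + 1) * P.l) P.h := by
  cases b
  · rfl
  · rw [bx_swap]
    rfl

theorem cj_add (b : Bool) (c : ℤ × ℤ) : cj b (c + un b) = cj b c + 1 := by cases b <;> rfl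
theorem cj_sub (b : Bool) (c : ℤ × ℤ) : cj b (c - un b) = cj b c - 1 := by cases b <;> rfl
theorem ck_add (b : Bool) (c : ℤ × ℤ) : ck b (c + un b) = ck b c := by cases b <;> simp [ck, un]
theorem ck_sub (b : Bool) (c : ℤ × ℤ) : ck b (c - un b) = ck b c := by cases b <;> simp [ck, un]

theorem eq_of_cjk {b : Bool} {c c' : ℤ × ℤ} (h1 : cj b c = cj b c') (h2 : ck b c = ck b c') :
    c = c' := by
  cases b
  · exact Prod.ext h1 h2
  · exact Prod.ext h2 h1

/-- the path through a resistor -/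
def pth (P : Pl) (b : Bool) (c : ℤ × ℤ) : Set E3 :=
  bx (dj b) (dk b) ((cj b c - P.th) * P.l) ((cj b c - P.th) * P.l + P.th * P.l + (1 + 2 * P.th) * P.l)
    ((ck b c + P.th) * P.l) ((ck b c + 1) * P.l) P.h

theorem fl_le (hL : LocStmt) {P : Pl} (hP : P.OK) {f : ℝ} (b : Bool) (c : ℤ × ℤ)
    (h1 : P.F (c - un b) ≤ f) (h2 : P.F c ≤ f) (h3 : P.F (c + un b) ≤ f) {x : E3}
    (hx : x ∈ pth P b c) : P.fl x ≤ f := by
  have hl := hP.l_pos
  have hθ := hP.th_pos
  have hθ' := hP.th_le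
  have hS : ∀ t : ℝ, 0 ≤ S0 t ∧ S0 t ≤ 1 := fun t =>
    ⟨(hL.S_zero _ (min_le_right t 0)).symm.trans_le (hL.S_mono (min_le_left t 0)),
      (hL.S_mono (le_max_left t 1)).trans_eq (hL.S_one _ (le_max_right t 1))⟩
  have h1' : ∀ (y : ℝ) (m : ℤ), (m + P.th) * P.l ≤ y → S0 ((y / P.l - m) / P.th) = 1 := by
    intro y m hy
    refine hL.S_one _ ?_
    rw [le_div_iff₀ hθ, le_sub_iff_add_le, le_div_iff₀ hl]
    linarith
  have key : ∀ c : ℤ × ℤ, P.F (c - un b) ≤ f → P.F c ≤ f →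
      (cj b c - 1 + P.th) * P.l ≤ x (dj b) → x (dj b) ≤ (cj b c + 1) * P.l →
      (ck b c + P.th) * P.l ≤ x (dk b) → x (dk b) ≤ (ck b c + 1) * P.l → P.fl x ≤ f := by
    intro c g1 g2 a1 a2 a3 a4
    have a5 : (ck b c - 1 + P.th) * P.l ≤ x (dk b) := le_trans (by nlinarith) a3
    cases b
    · rw [hL.fl_loc P hP c x a1 a2 a5 a4, h1' (x 1) c.2 a3, bil]
      have e : P.F (c.1 - 1, c.2) = P.F (c - un false) := by
        congr 1
        ext <;> simp [un]
      rw [e]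
      obtain ⟨s0, s1⟩ := hS ((x 0 / P.l - c.1) / P.th)
      nlinarith
    · rw [hL.fl_loc P hP c x a5 a4 a1 a2, h1' (x 0) c.1 a3, bil]
      have e : P.F (c.1, c.2 - 1) = P.F (c - un true) := by
        congr 1
        ext <;> simp [un]
      rw [e]
      obtain ⟨s0, s1⟩ := hS ((x 1 / P.l - c.2) / P.th)
      nlinarith
  obtain ⟨x1, x2, x3, x4, -⟩ := hx
  rcases le_total (x (dj b)) ((cj b c + 1) * P.l) with h | h
  · exact key c h1 h2 (le_trans (by nlinarith) x1) h x3 x4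
  · refine key (c + un b) (by rwa [add_sub_cancel_right]) h3 ?_ ?_ ?_ ?_
    · rw [cj_add]
      push_cast
      nlinarith
    · rw [cj_add]
      push_cast
      nlinarith
    · rwa [ck_add]
    · rwa [ck_add]

theorem pth_disjoint {P : Pl} (hP : P.OK) (b : Bool) {c c' : ℤ × ℤ} (h0 : c ≠ c')
    (h1 : c + un b ≠ c') (h2 : c - un b ≠ c') : Disjoint (pth P b c) (pth P b c') := by
  have hl := hP.l_pos
  have hθ := hP.th_pos
  have hθ' := hP.th_le
  refine Set.disjoint_left.2 fun x ⟨x1, x2, x3, x4, _⟩ ⟨y1, y2, y3, y4, _⟩ => ?_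
  have a1 : (ck b c : ℝ) < ck b c' + 1 := by
    have := le_of_mul_le_mul_right (x3.trans y4) hl
    linarith
  have a2 : (ck b c' : ℝ) < ck b c + 1 := by
    have := le_of_mul_le_mul_right (y3.trans x4) hl
    linarith
  have a3 : (cj b c : ℝ) < cj b c' + 2 := by
    have h := x1.trans y2
    rw [← add_mul, ← add_mul] at h
    have := le_of_mul_le_mul_right h hl
    linarith
  have a4 : (cj b c' : ℝ) < cj b c + 2 := by
    have h := y1.trans x2
    rw [← add_mul, ← add_mul] at h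
    have := le_of_mul_le_mul_right h hl
    linarith
  have b1 : ck b c < ck b c' + 1 := by exact_mod_cast a1
  have b2 : ck b c' < ck b c + 1 := by exact_mod_cast a2
  have b3 : cj b c < cj b c' + 2 := by exact_mod_cast a3
  have b4 : cj b c' < cj b c + 2 := by exact_mod_cast a4
  have e : ck b c = ck b c' := by omega
  rcases (by omega : cj b c = cj b c' ∨ cj b c + 1 = cj b c' ∨ cj b c - 1 = cj b c') with h | h | h
  · exact h0 (eq_of_cjk h e)
  · exact h1 (eq_of_cjk ((cj_add b c).trans h) ((ck_add b c).trans e))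
  · exact h2 (eq_of_cjk ((cj_sub b c).trans h) ((ck_sub b c).trans e))

theorem continuous_psi0 (hL : LocStmt) (P : Pl) : Continuous P.psi0 := by
  have h1 := (hL.fl_smooth P).continuous
  have h2 := (hL.chi_c2 P.Om).continuous
  unfold Pl.psi0
  fun_prop

/-- the estimate for one resistor -/
theorem res (hL : LocStmt) (hT : TrStmt) {P : Pl} (hP : P.OK) {ψ : E3 → ℂ} (hψ : C1c ψ) {f : ℝ}
    (b : Bool) (c : ℤ × ℤ) (hf : ∀ x ∈ pth P b c, P.fl x ≤ f) {dL dR : ℂ} {Pc Ch : ℝ}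
    (h1 : ∫ x in P.Q (c - un b), chi P.Om (x 2) ^ 2 * ‖P.v ψ x - P.avg ψ (c - un b)‖ ^ 2 ≤ Pc)
    (h2 : ∫ x in P.Q (c + un b), chi P.Om (x 2) ^ 2 * ‖P.v ψ x - P.avg ψ (c + un b)‖ ^ 2 ≤ Pc)
    (h3 : ‖P.avg ψ (c - un b) - dL‖ ^ 2 ≤ Ch) (h4 : ‖P.avg ψ (c + un b) - dR‖ ^ 2 ≤ Ch) :
    P.th * (1 - P.th) * P.l ^ 2 * P.Z * ‖dL - dR‖ ^ 2 ≤
      (1 + P.th) * (P.th * (1 + 2 * P.th) * P.l ^ 2 * (Real.exp (2 * f) *
        ∫ x in pth P b c, P.psi0 x ^ 2 * ‖pd (dj b) (P.v ψ) x‖ ^ 2)) +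
      (1 + P.th⁻¹) * 8 * (Pc + P.th * (1 - P.th) * P.l ^ 2 * P.Z * Ch) := by
  have hl := hP.l_pos
  have hθ := hP.th_pos
  have hθ' := hP.th_le
  have hv := (hL.v_c1 P ψ hψ).1
  have hχ : Continuous fun z => chi P.Om z ^ 2 := (hL.chi_c2 P.Om).continuous.pow 2
  have hQ : ∀ c, IsCompact (P.Q c) := fun c => by
    rw [Q_eq P b]
    exact isCompact_bx (jk b) ..
  have k1 := core (S := bx (dj b) (dk b) ((cj b c - P.th) * P.l)
      ((cj b c - P.th) * P.l + P.th * P.l) ((ck b c + P.th) * P.l) ((ck b c + 1) * P.l) P.h)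
    (isCompact_bx (jk b) ..) (hQ (c - un b)) (hQ (c + un b))
    (T := EuclideanSpace.single (dj b) ((1 + 2 * P.th) * P.l)) (by simp [(jk b).ne.2])
    (by
      rw [Q_eq P b, cj_sub, ck_sub]
      rintro x ⟨x1, x2, x3⟩
      push_cast
      exact ⟨by nlinarith, by nlinarith, x3⟩)
    (by
      rw [Q_eq P b, cj_add, ck_add]
      rintro x ⟨x1, x2, x3, x4, x5⟩
      push_cast
      simp only [bx, mem_ofPred_eq, PiLp.add_apply, PiLp.single_apply, if_true, (jk b).ne.1,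
        (jk b).ne.2, if_false, add_zero]
      exact ⟨by nlinarith, by nlinarith, x3, x4, x5⟩)
    hχ (fun z => sq_nonneg _) hv.continuous hθ h1 h2 h3 h4
  have k2 := transl hT (jk b) hv hχ (fun z => sq_nonneg _) ((cj b c - P.th) * P.l)
    ((ck b c + P.th) * P.l) ((ck b c + 1) * P.l) P.h (s := P.th * P.l)
    (t := (1 + 2 * P.th) * P.l) (by positivity) (by positivity)
  rw [vol_bx (jk b) (by nlinarith) (by nlinarith) hP.h_pos.le (fun z => chi P.Om z ^ 2),
    show ((cj b c - P.th) * P.l + P.th * P.l - (cj b c - P.th) * P.l) *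
      ((ck b c + 1) * P.l - (ck b c + P.th) * P.l) * ∫ z in (-P.h)..P.h, chi P.Om z ^ 2 =
      P.th * (1 - P.th) * P.l ^ 2 * P.Z by rw [Pl.Z]; ring] at k1
  have hp : IsCompact (pth P b c) := isCompact_bx (jk b) ..
  have hpd := continuous_pd hv (dj b)
  have hψ0 := continuous_psi0 hL P
  have hχ0 := (hL.chi_c2 P.Om).continuous
  have k3 : ∫ x in pth P b c, chi P.Om (x 2) ^ 2 * ‖pd (dj b) (P.v ψ) x‖ ^ 2 ≤
      Real.exp (2 * f) * ∫ x in pth P b c, P.psi0 x ^ 2 * ‖pd (dj b) (P.v ψ) x‖ ^ 2 := by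
    rw [← integral_const_mul]
    refine setIntegral_mono_on
      (Continuous.continuousOn (by fun_prop) |>.integrableOn_compact hp)
      (Continuous.continuousOn (by fun_prop) |>.integrableOn_compact hp) hp.measurableSet
      fun x hx => ?_
    rw [← mul_assoc]
    refine mul_le_mul_of_nonneg_right ?_ (sq_nonneg _)
    rw [Pl.psi0, mul_pow, ← mul_assoc, ← Real.exp_nat_mul, ← Real.exp_add]
    refine le_mul_of_one_le_left (sq_nonneg _) (Real.one_le_exp ?_)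
    have := hf x hx
    push_cast
    linarith
  have k4 := mul_le_mul_of_nonneg_left k3
    (show 0 ≤ P.th * P.l * ((1 + 2 * P.th) * P.l) by positivity)
  have k5 := mul_le_mul_of_nonneg_left (k2.trans k4) (show 0 ≤ 1 + P.th by positivity)
  refine k1.trans (add_le_add (k5.trans_eq ?_) le_rfl)
  ring

variable {ι ρ : Type} [Fintype ι] [DecidableEq ι] [Fintype ρ] {L : Lay ι ρ} {P : Pl}
  {fl fb fr : ℝ}

omit [Fintype ι] [DecidableEq ι] [Fintype ρ] in
theorem F_le (hV : L.Lev P fl fb fr) {a : ι} {c : ℤ × ℤ} (hc : L.cel a c) : P.F c ≤ fb := by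
  by_cases h : c = L.dot a
  · rw [h]
    exact (hV.dot a).trans hV.ord.2.1
  · exact (hV.bus a c hc h).le

theorem chain (hC : CellStmt) (hO : L.OK) (hP : P.OK) (hV : L.Lev P fl fb fr) {ψ : E3 → ℂ}
    (hψ : C1c ψ) (a : ι) (m : ℕ) : ∀ c, L.cel a c → l1 c (L.dot a) ≤ m →
      ‖P.avg ψ c - P.avg ψ (L.dot a)‖ ≤ m * (P.l * Real.exp fb * √(2 * P.q ψ / P.m0)) := by
  have hl := hP.l_pos
  induction m with
  | zero =>
    intro c hc hm
    by_cases h : c = L.dot a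
    · simp [h]
    · obtain ⟨c', -, -, h3⟩ := hO.conn a c hc h
      have : 0 ≤ l1 c' (L.dot a) := add_nonneg (abs_nonneg _) (abs_nonneg _)
      omega
  | succ m ih =>
    intro c hc hm
    by_cases h : c = L.dot a
    · rw [h, sub_self, norm_zero]
      positivity
    · obtain ⟨c', h1, h2, h3⟩ := hO.conn a c hc h
      have h4 := ih c' h1 (by omega)
      have h5 := ((hC P hP ψ hψ).2 c c' fb h2 (F_le hV hc) (F_le hV h1)).2
      have h6 := norm_sub_le_norm_sub_add_norm_sub (P.avg ψ c) (P.avg ψ c') (P.avg ψ (L.dot a))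
      push_cast
      linarith

theorem q_nonneg (P : Pl) (ψ : E3 → ℂ) : 0 ≤ P.q ψ :=
  mul_nonneg (by norm_num) (Finset.sum_nonneg fun _ _ => integral_nonneg fun _ => sq_nonneg _)

theorem chain_sq (hL : LocStmt) (hC : CellStmt) (hO : L.OK) (hP : P.OK) (hV : L.Lev P fl fb fr)
    {ψ : E3 → ℂ} (hψ : C1c ψ) {a : ι} {c : ℤ × ℤ} (hc : L.cel a c) :
    ‖P.avg ψ c - P.avg ψ (L.dot a)‖ ^ 2 ≤
      8 * P.G ^ 2 * Real.exp (2 * fb) * P.q ψ / ((1 - P.th) ^ 2 * P.Z) := by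
  have h1 := chain hC hO hP hV hψ a (2 * P.G) c hc (by
    obtain ⟨a1, a2, a3, a4⟩ := hO.bd a c hc
    obtain ⟨b1, b2, b3, b4⟩ := hO.bd a _ (hO.dot_mem a)
    rw [hV.G_eq, l1]
    have c1 : |c.1 - (L.dot a).1| ≤ L.G := abs_le.2 ⟨by omega, by omega⟩
    have c2 : |c.2 - (L.dot a).2| ≤ L.G := abs_le.2 ⟨by omega, by omega⟩
    push_cast
    omega)
  have hl := hP.l_pos
  have hZ := hL.Z_pos P hP
  have hθ : 0 < 1 - P.th := by linarith [hP.th_le]
  have hq := q_nonneg P ψ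
  refine (pow_le_pow_left₀ (norm_nonneg _) h1 2).trans_eq ?_
  rw [mul_pow, mul_pow, mul_pow, Real.sq_sqrt (by rw [Pl.m0]; positivity), ← Real.exp_nat_mul,
    Pl.m0]
  push_cast
  field_simp
  ring

theorem sum_pth (hL : LocStmt) (hO : L.OK) (hP : P.OK) {ψ : E3 → ℂ} (hψ : C1c ψ) :
    ∑ r, ∫ x in pth P (L.ver r) (L.pos r), P.psi0 x ^ 2 * ‖pd (dj (L.ver r)) (P.v ψ) x‖ ^ 2 ≤
      2 * P.q ψ := by
  classical
  obtain ⟨hv, hs⟩ := hL.v_c1 P ψ hψ
  have hψ0 := continuous_psi0 hL P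
  have hi : ∀ j, Integrable fun x => P.psi0 x ^ 2 * ‖pd j (P.v ψ) x‖ ^ 2 := fun j => by
    have hpd := continuous_pd hv j
    refine Continuous.integrable_of_hasCompactSupport (by fun_prop) (HasCompactSupport.mul_left ?_)
    have h1 : HasCompactSupport (pd j (P.v ψ)) := hs.fderiv_apply ℝ _
    exact h1.comp_left (g := fun u : ℂ => ‖u‖ ^ 2) (by simp)
  have hb : ∀ b : Bool, ∑ r ∈ Finset.univ.filter (fun r => L.ver r = b),
      ∫ x in pth P (L.ver r) (L.pos r), P.psi0 x ^ 2 * ‖pd (dj (L.ver r)) (P.v ψ) x‖ ^ 2 ≤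
      ∫ x, P.psi0 x ^ 2 * ‖pd (dj b) (P.v ψ) x‖ ^ 2 := by
    intro b
    rw [Finset.sum_congr rfl fun r hr => by rw [(Finset.mem_filter.1 hr).2],
      ← integral_biUnion_finset (s := fun r => pth P b (L.pos r)) _
        (fun r _ => (isCompact_bx (jk b) ..).measurableSet) ?_
        (fun r _ => (hi _).integrableOn)]
    · exact setIntegral_le_integral (hi _)
        (Filter.Eventually.of_forall fun x => mul_nonneg (sq_nonneg _) (sq_nonneg _))
    · intro r hr r' _ hrr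
      have hr' : L.ver r = b := (Finset.mem_filter.1 hr).2
      have he := hO.ends r
      rw [hr'] at he
      refine pth_disjoint hP b (fun h => hrr (hO.pos_inj h)) (fun h => ?_) (fun h => ?_)
      · rw [h] at he
        rcases he with he | he <;> exact hO.pos_not r' _ he.2
      · rw [h] at he
        rcases he with he | he <;> exact hO.pos_not r' _ he.1
  rw [← Finset.sum_fiberwise Finset.univ L.ver, Fintype.sum_bool, hL.q_eq P ψ hψ,
    Fin.sum_univ_three]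
  have h1 := hb true
  have h0 := hb false
  have h2 : 0 ≤ ∫ x, P.psi0 x ^ 2 * ‖pd 2 (P.v ψ) x‖ ^ 2 :=
    integral_nonneg fun x => mul_nonneg (sq_nonneg _) (sq_nonneg _)
  simp only [dj, if_true, Bool.false_eq_true, if_false] at h0 h1 ⊢
  linarith

end Hop

open Hop

theorem hopLe (hL : LocStmt) (hT : TrStmt) (hC : CellStmt) : HopStmt := by
  intro ι ρ _ _ _ L P fl fb fr hO hP hV ψ hψ
  have hl := hP.l_pos
  have hθ := hP.th_pos
  have hθ' := hP.th_le
  have hZ := hL.Z_pos P hP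
  have hθ1 : 0 < 1 - P.th := by linarith
  have hq := q_nonneg P ψ
  have hkz := hL.kz_ge P hP
  have hG : (1 : ℝ) ≤ P.G := by exact_mod_cast hP.G_pos
  set E : ρ → ℝ := fun r =>
    ∫ x in pth P (L.ver r) (L.pos r), P.psi0 x ^ 2 * ‖pd (dj (L.ver r)) (P.v ψ) x‖ ^ 2 with hE
  set D : ρ → ℝ := fun r => ‖P.avg ψ (L.dot (L.src r)) - P.avg ψ (L.dot (L.tgt r))‖ ^ 2 with hD
  set Pc : ℝ := 200 * P.kz * P.l ^ 2 * Real.exp (2 * fb) * (2 * P.q ψ) with hPc
  set Ch : ℝ := 8 * P.G ^ 2 * Real.exp (2 * fb) * P.q ψ / ((1 - P.th) ^ 2 * P.Z) with hCh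
  have hpc : ∀ a c, L.cel a c →
      ∫ x in P.Q c, chi P.Om (x 2) ^ 2 * ‖P.v ψ x - P.avg ψ c‖ ^ 2 ≤ Pc := by
    intro a c hc
    refine ((hC P hP ψ hψ).1 c).trans ?_
    have := F_le hV hc
    rw [hPc]
    gcongr
  have hr : ∀ r, P.th * (1 - P.th) * P.l ^ 2 * P.Z * D r ≤
      (1 + P.th) * (P.th * (1 + 2 * P.th) * P.l ^ 2 * (Real.exp (2 * fr) * E r)) +
      (1 + P.th⁻¹) * 8 * (Pc + P.th * (1 - P.th) * P.l ^ 2 * P.Z * Ch) := by
    intro r
    have hbr := hV.ord.2.2.1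
    rcases hO.ends r with ⟨h1, h2⟩ | ⟨h1, h2⟩
    · exact res hL hT hP hψ _ _ (fun x hx => fl_le hL hP _ _ ((F_le hV h1).trans hbr)
        (hV.res r).le ((F_le hV h2).trans hbr) hx) (hpc _ _ h1) (hpc _ _ h2)
        (chain_sq hL hC hO hP hV hψ h1) (chain_sq hL hC hO hP hV hψ h2)
    · simp only [hD]
      rw [norm_sub_rev]
      exact res hL hT hP hψ _ _ (fun x hx => fl_le hL hP _ _ ((F_le hV h1).trans hbr)
        (hV.res r).le ((F_le hV h2).trans hbr) hx) (hpc _ _ h1) (hpc _ _ h2)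
        (chain_sq hL hC hO hP hV hψ h1) (chain_sq hL hC hO hP hV hψ h2)
  have hcoef : ∀ a, coef (L.th P) ψ a * (Real.exp (P.F (L.dot a)) : ℂ) =
      ((√P.m0 : ℝ) : ℂ) * P.avg ψ (L.dot a) := by
    intro a
    rw [coef, Lay.th, hL.coef_th0 P hP ψ _ hψ.1.continuous, mul_right_comm, ← Complex.ofReal_mul,
      mul_right_comm, ← Real.exp_add, neg_add_cancel, Real.exp_zero, one_mul]
  have hm0 : 0 ≤ P.m0 := by
    rw [Pl.m0]
    positivity
  have hhop : L.hop P fr (coef (L.th P) ψ) =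
      Real.exp (-(2 * fr)) * (1 - P.th) ^ 2 * P.Z / 2 * ∑ r, D r := by
    rw [Lay.hop]
    simp only [hcoef, ← mul_sub, norm_mul, mul_pow, Complex.norm_real, Real.norm_eq_abs, sq_abs,
      Real.sq_sqrt hm0, ← Finset.mul_sum]
    rw [Pl.m0]
    field_simp
    rfl
  have hsum := Finset.sum_le_sum fun r (_ : r ∈ Finset.univ) => hr r
  simp only [Finset.sum_add_distrib, ← Finset.mul_sum, Finset.sum_const, Finset.card_univ,
    nsmul_eq_mul] at hsum
  have hsE : ∑ r, E r ≤ 2 * P.q ψ := sum_pth hL hO hP hψ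
  have hcard : (Fintype.card ρ : ℝ) ≤ P.G ^ 2 := by
    rw [hV.G_eq]
    exact_mod_cast hO.card_ρ
  have hsum2 : P.th * (1 - P.th) * P.l ^ 2 * P.Z * ∑ r, D r ≤
      (1 + P.th) * (P.th * (1 + 2 * P.th) * P.l ^ 2 * (Real.exp (2 * fr) * (2 * P.q ψ))) +
      (1 + P.th⁻¹) * 8 * (P.G ^ 2 * Pc + P.th * (1 - P.th) * P.l ^ 2 * P.Z * (P.G ^ 2 * Ch)) := by
    refine hsum.trans ?_
    gcongr
  have hc : 0 ≤ Real.exp (-(2 * fr)) * (1 - P.th) / (2 * P.th * P.l ^ 2) := by positivity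
  have h1 := mul_le_mul_of_nonneg_left hsum2 hc
  have e1 : Real.exp (-(2 * (fr - fb))) = Real.exp (2 * fb) / Real.exp (2 * fr) := by
    rw [← Real.exp_sub]
    congr 1
    ring
  have hx := Real.exp_pos (2 * fr)
  have hy := Real.exp_pos (2 * fb)
  rw [hhop, e1]
  rw [Real.exp_neg] at h1 ⊢
  rw [hPc, hCh] at h1
  generalize Real.exp (2 * fr) = X at *
  generalize Real.exp (2 * fb) = Y at *
  have h2 : X⁻¹ * (1 - P.th) ^ 2 * P.Z / 2 * ∑ r, D r ≤
      ((1 - P.th ^ 2) * (1 + 2 * P.th) + (4 * (1 + P.th) * P.G ^ 2 *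
        (400 * P.kz * (1 - P.th) + 8 * P.th * P.G ^ 2)) * (Y / X / P.th ^ 2)) * P.q ψ := by
    refine le_of_eq_of_le ?_ (h1.trans_eq ?_)
    · field_simp
    · field_simp
      ring
  refine h2.trans (mul_le_mul_of_nonneg_right (add_le_add (by nlinarith [sq_nonneg P.th]) ?_) hq)
  have h3 : 4 * (1 + P.th) * P.G ^ 2 * (400 * P.kz * (1 - P.th) + 8 * P.th * P.G ^ 2) ≤
      7200 * P.G ^ 4 * P.kz := by
    have g2 : (1 : ℝ) ≤ P.G ^ 2 := one_le_pow₀ hG
    have a1 : 400 * P.kz * (1 - P.th) ≤ 400 * (P.kz * P.G ^ 2) := by nlinarith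
    have a2 : 8 * P.th * P.G ^ 2 ≤ 16 * (P.kz * P.G ^ 2) := by nlinarith
    have a3 : 4 * (1 + P.th) * P.G ^ 2 ≤ 8 * P.G ^ 2 := by nlinarith
    calc _ ≤ 8 * P.G ^ 2 * (416 * (P.kz * P.G ^ 2)) :=
          mul_le_mul a3 (by linarith) (by positivity) (by positivity)
      _ = 3328 * (P.G ^ 4 * P.kz) := by ring
      _ ≤ 7200 * P.G ^ 4 * P.kz := by
          have : 0 ≤ (P.G : ℝ) ^ 4 * P.kz := by positivity
          linarith
  refine (mul_le_mul_of_nonneg_right h3 (by positivity)).trans_eq ?_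
  ring

end Crest.Agent.R338
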