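import Crest.Agent.R338.DefsP

/-!
# Row 338: boxes, weighted volumes and the translation estimate for the hopping bound
-/

noncomputable section

open MeasureTheory Function Set
open scoped ENNReal ComplexConjugate

namespace Crest.Agent.R338.Hop

/-- a box, with the planar coordinates `j`, `k` -/
def bx (j k : Fin 3) (a0 b0 a1 b1 h : ℝ) : Set E3 :=
  {x | a0 ≤ x j ∧ x j ≤ b0 ∧ a1 ≤ x k ∧ x k ≤ b1 ∧ |x 2| ≤ h}

/-- the two orders of the planar coordinates -/
def JK (j k : Fin 3) : Prop := (j = 0 ∧ k = 1) ∨ (j = 1 ∧ k = 0)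

theorem bx_swap (j k : Fin 3) (a0 b0 a1 b1 h : ℝ) :
    bx j k a0 b0 a1 b1 h = bx k j a1 b1 a0 b0 h := by
  ext x
  simp only [bx, mem_ofPred_eq]
  tauto

theorem bx_eq (a0 b0 a1 b1 h : ℝ) : bx 0 1 a0 b0 a1 b1 h =
    (WithLp.ofLp : E3 → Fin 3 → ℝ) ⁻¹' Set.pi univ fun i => Icc (![a0, a1, -h] i) (![b0, b1, h] i) := by
  ext x
  simp [bx, Fin.forall_fin_succ, abs_le, and_assoc, -pi_univ_Icc]

theorem isCompact_bx {j k : Fin 3} (hjk : JK j k) (a0 b0 a1 b1 h : ℝ) :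
    IsCompact (bx j k a0 b0 a1 b1 h) := by
  have H : ∀ a0 b0 a1 b1 : ℝ, IsCompact (bx 0 1 a0 b0 a1 b1 h) := fun a0 b0 a1 b1 => by
    rw [bx_eq]
    exact (PiLp.homeomorph 2 fun _ : Fin 3 => ℝ).isCompact_preimage.2
      (isCompact_univ_pi fun i => isCompact_Icc)
  rcases hjk with ⟨rfl, rfl⟩ | ⟨rfl, rfl⟩
  · exact H _ _ _ _
  · rw [bx_swap]
    exact H _ _ _ _

theorem vol_bx {j k : Fin 3} (hjk : JK j k) {a0 b0 a1 b1 h : ℝ} (h0 : a0 ≤ b0) (h1 : a1 ≤ b1)
    (hh : 0 ≤ h) (g : ℝ → ℝ) :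
    ∫ x in bx j k a0 b0 a1 b1 h, g (x 2) = (b0 - a0) * (b1 - a1) * ∫ z in (-h)..h, g z := by
  have H : ∀ a0 b0 a1 b1 : ℝ, a0 ≤ b0 → a1 ≤ b1 →
      ∫ x in bx 0 1 a0 b0 a1 b1 h, g (x 2) = (b0 - a0) * (b1 - a1) * ∫ z in (-h)..h, g z := by
    intro a0 b0 a1 b1 h0 h1
    let f : Fin 3 → ℝ → ℝ :=
      ![(Icc a0 b0).indicator 1, (Icc a1 b1).indicator 1, (Icc (-h) h).indicator g]
    have e : (bx 0 1 a0 b0 a1 b1 h).indicator (fun x : E3 => g (x 2)) =
        fun x : E3 => ∏ i, f i (x i) := by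
      funext x
      rw [Fin.prod_univ_three]
      simp only [f, Matrix.cons_val_zero, Matrix.cons_val_one, Matrix.cons_val, indicator, bx,
        mem_ofPred_eq, mem_Icc, abs_le, Pi.one_apply]
      by_cases c0 : a0 ≤ x 0 ∧ x 0 ≤ b0 <;> by_cases c1 : a1 ≤ x 1 ∧ x 1 ≤ b1 <;>
        by_cases c2 : -h ≤ x 2 ∧ x 2 ≤ h <;> simp [c0, c1, c2]
    rw [← integral_indicator (isCompact_bx (Or.inl ⟨rfl, rfl⟩) ..).measurableSet, e,
      ← (PiLp.volume_preserving_toLp (Fin 3)).integral_comp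
        (MeasurableEquiv.toLp 2 _).measurableEmbedding]
    simp only
    rw [integral_fintype_prod_volume_eq_prod, Fin.prod_univ_three]
    simp only [f, Matrix.cons_val_zero, Matrix.cons_val_one, Matrix.cons_val]
    rw [integral_indicator_one measurableSet_Icc, integral_indicator_one measurableSet_Icc,
      integral_indicator measurableSet_Icc, Real.volume_real_Icc_of_le h0,
      Real.volume_real_Icc_of_le h1, intervalIntegral.integral_of_le (by linarith),
      integral_Icc_eq_integral_Ioc]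
  rcases hjk with ⟨rfl, rfl⟩ | ⟨rfl, rfl⟩
  · exact H _ _ _ _ h0 h1
  · rw [bx_swap, H _ _ _ _ h1 h0]
    ring

theorem JK.ne {j k : Fin 3} (hjk : JK j k) : k ≠ j ∧ (2 : Fin 3) ≠ j := by
  rcases hjk with ⟨rfl, rfl⟩ | ⟨rfl, rfl⟩ <;> decide

theorem continuous_pd {v : E3 → ℂ} (hv : ContDiff ℝ 1 v) (j : Fin 3) : Continuous (pd j v) :=
  (hv.continuous_fderiv one_ne_zero).clm_apply continuous_const

theorem ofReal_setIntegral {S : Set E3} (hS : IsCompact S) {f : E3 → ℝ} {u : E3 → ℂ}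
    (hf : Continuous f) (hu : Continuous u) (h0 : ∀ x, 0 ≤ f x) :
    ENNReal.ofReal (∫ x in S, f x * ‖u x‖ ^ 2) =
      ∫⁻ x, S.indicator (fun x => ENNReal.ofReal (f x)) x * ‖u x‖ₑ ^ 2 := by
  have hi : IntegrableOn (fun x => f x * ‖u x‖ ^ 2) S :=
    (show Continuous fun x => f x * ‖u x‖ ^ 2 by fun_prop).continuousOn.integrableOn_compact hS
  rw [ofReal_integral_eq_lintegral_ofReal hi
    (Filter.Eventually.of_forall fun x => mul_nonneg (h0 x) (sq_nonneg _)),
    ← lintegral_indicator hS.measurableSet]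
  refine lintegral_congr fun x => ?_
  by_cases hx : x ∈ S
  · rw [indicator_of_mem hx, indicator_of_mem hx, ENNReal.ofReal_mul (h0 x),
      ENNReal.ofReal_pow (norm_nonneg _), ofReal_norm]
  · rw [indicator_of_notMem hx, indicator_of_notMem hx, zero_mul]

/-- the translation estimate on a slab -/
theorem transl (hT : TrStmt) {j k : Fin 3} (hjk : JK j k) {v : E3 → ℂ} (hv : ContDiff ℝ 1 v)
    {g : ℝ → ℝ} (hg : Continuous g) (hg0 : ∀ z, 0 ≤ g z) (a a1 b1 h : ℝ) {s t : ℝ} (hs : 0 ≤ s)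
    (ht : 0 < t) :
    ∫ x in bx j k a (a + s) a1 b1 h, g (x 2) * ‖v (x + EuclideanSpace.single j t) - v x‖ ^ 2 ≤
      s * t * ∫ x in bx j k a (a + s + t) a1 b1 h, g (x 2) * ‖pd j v x‖ ^ 2 := by
  set T : E3 := EuclideanSpace.single j t with hTdef
  have hvc := hv.continuous
  have hpc := continuous_pd hv j
  have hS := isCompact_bx hjk a (a + s) a1 b1 h
  have hP := isCompact_bx hjk a (a + s + t) a1 b1 h
  have key := hT v T ((bx j k a (a + s) a1 b1 h).indicator fun x => ENNReal.ofReal (g (x 2)))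
    ((bx j k a (a + s + t) a1 b1 h).indicator fun x => ENNReal.ofReal (s / t * g (x 2))) hv
    (Measurable.indicator (by fun_prop) hS.measurableSet) (fun y => ?_)
  · rw [← ofReal_setIntegral hS (by fun_prop) (by fun_prop) (fun x => hg0 _),
      ← ofReal_setIntegral hP (u := fun y => fderiv ℝ v y T) (by fun_prop)
        ((hv.continuous_fderiv one_ne_zero).clm_apply continuous_const)
        (fun x => mul_nonneg (div_nonneg hs ht.le) (hg0 _))] at key
    have e : ∀ y, s / t * g (y 2) * ‖fderiv ℝ v y T‖ ^ 2 = s * t * (g (y 2) * ‖pd j v y‖ ^ 2) := by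
      intro y
      have : T = t • EuclideanSpace.single j (1 : ℝ) := by
        ext i
        by_cases hi : i = j <;> simp [hTdef, hi]
      rw [this, map_smul, norm_smul, Real.norm_eq_abs, mul_pow, sq_abs, pd]
      field_simp
    simp only [e] at key
    rw [integral_const_mul] at key
    exact (ENNReal.ofReal_le_ofReal_iff (mul_nonneg (mul_nonneg hs ht.le)
      (integral_nonneg fun x => mul_nonneg (hg0 _) (sq_nonneg _)))).1 key
  · have ej : ∀ σ : ℝ, (y - σ • T) j = y j - σ * t := fun σ => by simp [hTdef]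
    have ek : ∀ σ : ℝ, (y - σ • T) k = y k := fun σ => by simp [hTdef, hjk.ne.1]
    have e2 : ∀ σ : ℝ, (y - σ • T) 2 = y 2 := fun σ => by simp [hTdef, hjk.ne.2]
    by_cases hy : y ∈ bx j k a (a + s + t) a1 b1 h
    · rw [indicator_of_mem hy]
      calc ∫⁻ σ in Icc (0 : ℝ) 1, (bx j k a (a + s) a1 b1 h).indicator
            (fun x => ENNReal.ofReal (g (x 2))) (y - σ • T)
          ≤ ∫⁻ σ, (Icc ((y j - a - s) / t) ((y j - a) / t)).indicator
              (fun _ => ENNReal.ofReal (g (y 2))) σ := by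
            refine (setLIntegral_le_lintegral _ _).trans (lintegral_mono fun σ => ?_)
            by_cases hσ : y - σ • T ∈ bx j k a (a + s) a1 b1 h
            · rw [indicator_of_mem hσ, e2, indicator_of_mem]
              obtain ⟨h1, h2, -⟩ := hσ
              rw [ej] at h1 h2
              exact ⟨by rw [div_le_iff₀ ht]; linarith, by rw [le_div_iff₀ ht]; linarith⟩
            · rw [indicator_of_notMem hσ]
              exact zero_le
        _ = ENNReal.ofReal (s / t * g (y 2)) := by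
            rw [lintegral_indicator_const measurableSet_Icc, Real.volume_Icc,
              ← ENNReal.ofReal_mul (hg0 _)]
            congr 1
            ring
    · rw [indicator_of_notMem hy]
      refine le_of_eq (setLIntegral_eq_zero measurableSet_Icc fun σ hσ => ?_)
      refine indicator_of_notMem (fun hm => hy ?_) _
      obtain ⟨h1, h2, h3, h4, h5⟩ := hm
      rw [ej] at h1 h2
      rw [ek] at h3 h4
      rw [e2] at h5
      have h6 := mul_nonneg hσ.1 ht.le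
      have h7 := mul_le_mul_of_nonneg_right hσ.2 ht.le
      exact ⟨by linarith, by linarith, h3, h4, h5⟩

theorem sq_five {θ : ℝ} (hθ : 0 < θ) (u1 u2 u3 u4 u5 : ℂ) :
    ‖u1 + u2 + u3 + u4 + u5‖ ^ 2 ≤ (1 + θ) * ‖u1‖ ^ 2 +
      (1 + θ⁻¹) * 4 * (‖u2‖ ^ 2 + ‖u3‖ ^ 2 + ‖u4‖ ^ 2 + ‖u5‖ ^ 2) := by
  have h1 : ‖u1 + u2 + u3 + u4 + u5‖ ≤ ‖u1‖ + (‖u2‖ + ‖u3‖ + ‖u4‖ + ‖u5‖) := by
    linarith [norm_add_le (u1 + u2 + u3 + u4) u5, norm_add_le (u1 + u2 + u3) u4,
      norm_add_le (u1 + u2) u3, norm_add_le u1 u2]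
  have h2 := pow_le_pow_left₀ (norm_nonneg _) h1 2
  generalize ‖u1‖ = a at *
  generalize ‖u2‖ = b at *
  generalize ‖u3‖ = c at *
  generalize ‖u4‖ = d at *
  generalize ‖u5‖ = e at *
  have h3 : (b + c + d + e) ^ 2 ≤ 4 * (b ^ 2 + c ^ 2 + d ^ 2 + e ^ 2) := by
    nlinarith [sq_nonneg (b - c), sq_nonneg (b - d), sq_nonneg (b - e), sq_nonneg (c - d),
      sq_nonneg (c - e), sq_nonneg (d - e)]
  have h4 : (a + (b + c + d + e)) ^ 2 ≤ (1 + θ) * a ^ 2 + (1 + θ⁻¹) * (b + c + d + e) ^ 2 := by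
    have h5 : (1 + θ) * a ^ 2 + (1 + θ⁻¹) * (b + c + d + e) ^ 2 - (a + (b + c + d + e)) ^ 2 =
        θ⁻¹ * (θ * a - (b + c + d + e)) ^ 2 := by
      field_simp
      ring
    have h6 : 0 ≤ θ⁻¹ * (θ * a - (b + c + d + e)) ^ 2 := by positivity
    linarith
  have h7 := mul_le_mul_of_nonneg_left h3 (show 0 ≤ 1 + θ⁻¹ by positivity)
  linarith

/-- comparison of two numbers close to the averages on the two sides of a resistor -/
theorem core {S QL QR : Set E3} (hS : IsCompact S) (hQL : IsCompact QL) (hQR : IsCompact QR)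
    {T : E3} (hT2 : T 2 = 0) (hL : S ⊆ QL) (hR : ∀ x ∈ S, x + T ∈ QR) {g : ℝ → ℝ}
    (hg : Continuous g) (hg0 : ∀ z, 0 ≤ g z) {v : E3 → ℂ} (hv : Continuous v) {θ : ℝ} (hθ : 0 < θ)
    {aL aR dL dR : ℂ} {Pc Ch : ℝ} (h1 : ∫ x in QL, g (x 2) * ‖v x - aL‖ ^ 2 ≤ Pc)
    (h2 : ∫ x in QR, g (x 2) * ‖v x - aR‖ ^ 2 ≤ Pc) (h3 : ‖aL - dL‖ ^ 2 ≤ Ch)
    (h4 : ‖aR - dR‖ ^ 2 ≤ Ch) :
    (∫ x in S, g (x 2)) * ‖dL - dR‖ ^ 2 ≤
      (1 + θ) * (∫ x in S, g (x 2) * ‖v (x + T) - v x‖ ^ 2) +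
        (1 + θ⁻¹) * 8 * (Pc + (∫ x in S, g (x 2)) * Ch) := by
  have I : ∀ {K : Set E3}, IsCompact K → ∀ {f : E3 → ℝ}, Continuous f → IntegrableOn f K :=
    fun hK _ hf => hf.continuousOn.integrableOn_compact hK
  have i0 : IntegrableOn (fun x : E3 => g (x 2)) S := I hS (by fun_prop)
  have i1 : IntegrableOn (fun x : E3 => g (x 2) * ‖v (x + T) - v x‖ ^ 2) S := I hS (by fun_prop)
  have i2 : IntegrableOn (fun x : E3 => g (x 2) * ‖v x - aL‖ ^ 2) S := I hS (by fun_prop)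
  have i3 : IntegrableOn (fun x : E3 => g (x 2) * ‖v (x + T) - aR‖ ^ 2) S := I hS (by fun_prop)
  have b2 : ∫ x in S, g (x 2) * ‖v x - aL‖ ^ 2 ≤ Pc :=
    (setIntegral_mono_set (I hQL (by fun_prop))
      (Filter.Eventually.of_forall fun x => mul_nonneg (hg0 _) (sq_nonneg _))
      hL.eventuallyLE).trans h1
  have b3 : ∫ x in S, g (x 2) * ‖v (x + T) - aR‖ ^ 2 ≤ Pc := by
    refine le_trans ?_ h2
    have i4 : IntegrableOn (fun x : E3 => g (x 2) * ‖v x - aR‖ ^ 2) QR := I hQR (by fun_prop)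
    rw [← integral_indicator hQR.measurableSet, ← integral_indicator hS.measurableSet,
      ← integral_add_right_eq_self (QR.indicator _) T]
    refine integral_mono ((integrable_indicator_iff hS.measurableSet).2 i3)
      (((integrable_indicator_iff hQR.measurableSet).2 i4).comp_add_right T) fun x => ?_
    by_cases hx : x ∈ S
    · simp only [indicator_of_mem hx, indicator_of_mem (hR x hx), PiLp.add_apply, hT2, add_zero,
        le_refl]
    · simp only [indicator_of_notMem hx]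
      exact indicator_nonneg (fun y _ => mul_nonneg (hg0 _) (sq_nonneg _)) _
  have hc : 0 ≤ (1 + θ⁻¹) * 4 := by positivity
  have m : ∫ x in S, g (x 2) * ‖dL - dR‖ ^ 2 ≤
      ∫ x in S, ((1 + θ) * (g (x 2) * ‖v (x + T) - v x‖ ^ 2) + (1 + θ⁻¹) * 4 *
        (g (x 2) * ‖v x - aL‖ ^ 2 + g (x 2) * ‖v (x + T) - aR‖ ^ 2 + g (x 2) * (2 * Ch))) := by
    refine integral_mono (i0.mul_const _)
      ((i1.const_mul _).add (((i2.add i3).add (i0.mul_const _)).const_mul _)) fun x => ?_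
    have h5 := sq_five hθ (-(v (x + T) - v x)) (-(v x - aL)) (v (x + T) - aR) (-(aL - dL))
      (aR - dR)
    rw [show -(v (x + T) - v x) + -(v x - aL) + (v (x + T) - aR) + -(aL - dL) + (aR - dR) =
      dL - dR by ring, norm_neg, norm_neg, norm_neg] at h5
    have h6 : ‖dL - dR‖ ^ 2 ≤ (1 + θ) * ‖v (x + T) - v x‖ ^ 2 + (1 + θ⁻¹) * 4 *
        (‖v x - aL‖ ^ 2 + ‖v (x + T) - aR‖ ^ 2 + 2 * Ch) := by
      have := mul_le_mul_of_nonneg_left (add_le_add h3 h4) hc
      linarith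
    have h7 := mul_le_mul_of_nonneg_left h6 (hg0 (x 2))
    simp only
    linarith
  rw [integral_add (g := fun x : E3 => (1 + θ⁻¹) * 4 * (g (x 2) * ‖v x - aL‖ ^ 2 +
      g (x 2) * ‖v (x + T) - aR‖ ^ 2 + g (x 2) * (2 * Ch))) (i1.const_mul _)
      (((i2.add i3).add (i0.mul_const _)).const_mul _),
    integral_const_mul, integral_const_mul,
    integral_add (f := fun x : E3 => g (x 2) * ‖v x - aL‖ ^ 2 + g (x 2) * ‖v (x + T) - aR‖ ^ 2)
      (Integrable.add i2 i3) (i0.mul_const _), integral_add i2 i3, integral_mul_const,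
    integral_mul_const] at m
  have h8 := mul_le_mul_of_nonneg_left (add_le_add b2 b3) hc
  linarith

end Crest.Agent.R338.Hop
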