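import Crest.Agent.R338.DefsF

/-!
# Row 338: Hardy's inequality
-/

noncomputable section

open MeasureTheory Function Filter Topology
open scoped ENNReal

namespace Crest.Agent.R338

namespace KerHardy

/-- The regularised weight. -/
def hh (R : E3) (δ : ℝ) (x : E3) : ℝ := (‖x - R‖ ^ 2 + δ ^ 2)⁻¹

theorem den_pos (R : E3) {δ : ℝ} (hδ : 0 < δ) (x : E3) : 0 < ‖x - R‖ ^ 2 + δ ^ 2 := by positivity

theorem hasFDerivAt_den (R : E3) (δ : ℝ) (x : E3) :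
    HasFDerivAt (fun x : E3 => ‖x - R‖ ^ 2 + δ ^ 2) ((2 : ℕ) • innerSL ℝ (x - R)) x := by
  have h := ((hasFDerivAt_id x).sub_const R).norm_sq.add_const (δ ^ 2)
  simpa using h

theorem contDiff_hh (R : E3) {δ : ℝ} (hδ : 0 < δ) : ContDiff ℝ 1 (hh R δ) :=
  (((contDiff_id.sub contDiff_const).norm_sq ℝ).add contDiff_const).inv
    fun x => (den_pos R hδ x).ne'

/-- The vector field. -/
def VV (R : E3) (δ : ℝ) (j : Fin 3) (x : E3) : ℝ := (x j - R j) * hh R δ x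

theorem contDiff_coord (j : Fin 3) : ContDiff ℝ 1 fun x : E3 => x j :=
  (EuclideanSpace.proj j : E3 →L[ℝ] ℝ).contDiff

theorem contDiff_VV (R : E3) {δ : ℝ} (hδ : 0 < δ) (j : Fin 3) : ContDiff ℝ 1 (VV R δ j) :=
  ((contDiff_coord j).sub contDiff_const).mul (contDiff_hh R hδ)

theorem fderiv_VV (R : E3) {δ : ℝ} (hδ : 0 < δ) (j : Fin 3) (x : E3) :
    fderiv ℝ (VV R δ j) x (EuclideanSpace.single j (1 : ℝ)) =
      hh R δ x - 2 * (x j - R j) ^ 2 * hh R δ x ^ 2 := by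
  have h1 : HasFDerivAt (fun x : E3 => x j - R j) (EuclideanSpace.proj j : E3 →L[ℝ] ℝ) x :=
    (EuclideanSpace.proj j : E3 →L[ℝ] ℝ).hasFDerivAt.sub_const _
  have h2 := (hasDerivAt_inv (den_pos R hδ x).ne').comp_hasFDerivAt x (hasFDerivAt_den R δ x)
  have h3 := (h1.mul h2).fderiv
  have e : VV R δ j = (fun x : E3 => x j - R j) *
      ((fun y : ℝ => y⁻¹) ∘ fun x : E3 => ‖x - R‖ ^ 2 + δ ^ 2) := rfl
  rw [e, h3]
  simp [hh, EuclideanSpace.inner_single_right]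
  ring

theorem sum_sq (R x : E3) : ∑ j, (x j - R j) ^ 2 = ‖x - R‖ ^ 2 := by
  rw [EuclideanSpace.real_norm_sq_eq]
  simp

theorem integrable_mul {f g : E3 → ℝ} (hf : Continuous f) (hg : Continuous g)
    (hs : HasCompactSupport g) : Integrable fun x => f x * g x :=
  (hf.mul hg).integrable_of_hasCompactSupport hs.mul_left

theorem cont_pd {F : Type} [NormedAddCommGroup F] [NormedSpace ℝ F] {f : E3 → F}
    (hf : ContDiff ℝ 1 f) (j : Fin 3) : Continuous (pd j f) :=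
  (hf.continuous_fderiv one_ne_zero).clm_apply continuous_const

theorem supp_pd {F : Type} [NormedAddCommGroup F] [NormedSpace ℝ F] {f : E3 → F}
    (hf : HasCompactSupport f) (j : Fin 3) : HasCompactSupport (pd j f) :=
  hf.fderiv_apply ℝ _

theorem ibp {V u : E3 → ℝ} (hV : ContDiff ℝ 1 V) (hu : C1c u) (j : Fin 3) :
    Integrable (fun x => pd j V x * u x + V x * pd j u x) ∧
      ∫ x, (pd j V x * u x + V x * pd j u x) = 0 := by
  have i1 := integrable_mul (cont_pd hV j) hu.1.continuous hu.2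
  have i2 := integrable_mul hV.continuous (cont_pd hu.1 j) (supp_pd hu.2 j)
  have i3 := integrable_mul hV.continuous hu.1.continuous hu.2
  refine ⟨i1.add i2, ?_⟩
  have h : ∫ x, V x * pd j u x = -∫ x, pd j V x * u x :=
    integral_mul_fderiv_eq_neg_fderiv_mul_of_integrable i1 i2 i3
      (fun x _ => (hV.differentiable one_ne_zero) x) (fun x _ => (hu.1.differentiable one_ne_zero) x)
  rw [integral_add i1 i2, h, add_neg_cancel]

theorem c1c_sq {ψ : E3 → ℂ} (hψ : C1c ψ) : C1c fun x => ‖ψ x‖ ^ 2 :=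
  ⟨hψ.1.norm_sq ℂ, hψ.2.comp_left (g := fun z : ℂ => ‖z‖ ^ 2) (by simp)⟩

theorem pd_sq {ψ : E3 → ℂ} (hψ : C1c ψ) (j : Fin 3) (x : E3) :
    |pd j (fun x => ‖ψ x‖ ^ 2) x| ≤ 2 * ‖ψ x‖ * ‖pd j ψ x‖ := by
  have h := ((hψ.1.differentiable one_ne_zero) x).hasFDerivAt.norm_sq.fderiv
  have e : pd j (fun x => ‖ψ x‖ ^ 2) x = 2 * inner ℝ (ψ x) (pd j ψ x) := by
    rw [pd, h]; simp [pd]; ring
  rw [e, abs_mul, abs_two, mul_assoc]
  exact mul_le_mul_of_nonneg_left (abs_real_inner_le_norm _ _) zero_le_two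

theorem aux1 (h t a b w : ℝ) (hw : |w| ≤ 2 * a * b) :
    h * a ^ 2 - (5 / 2) * (t ^ 2 * (h ^ 2 * a ^ 2)) ≤
      (h - 2 * t ^ 2 * h ^ 2) * a ^ 2 + t * h * w + 2 * b ^ 2 := by
  have h2 : -(|t * h| * (2 * a * b)) ≤ t * h * w := by
    refine le_trans ?_ (neg_abs_le _)
    rw [abs_mul (t * h)]
    exact neg_le_neg (mul_le_mul_of_nonneg_left hw (abs_nonneg _))
  have h3 : |t * h| ^ 2 * a ^ 2 = t ^ 2 * (h ^ 2 * a ^ 2) := by rw [sq_abs]; ring
  nlinarith [sq_nonneg (|t * h| * a - 2 * b)]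

theorem key {ψ : E3 → ℂ} (hψ : C1c ψ) (R : E3) {δ : ℝ} (hδ : 0 < δ) (x : E3) :
    (1 / 2) * (hh R δ x * ‖ψ x‖ ^ 2) ≤
      ∑ j, (pd j (VV R δ j) x * ‖ψ x‖ ^ 2 + VV R δ j x * pd j (fun x => ‖ψ x‖ ^ 2) x +
        2 * ‖pd j ψ x‖ ^ 2) := by
  have hp := den_pos R hδ x
  have hh0 : 0 < hh R δ x := inv_pos.2 hp
  have hr : ‖x - R‖ ^ 2 * hh R δ x ≤ 1 := by
    rw [hh, ← div_eq_mul_inv, div_le_one hp]; nlinarith [sq_nonneg δ]
  have h1 : ∀ j, hh R δ x * ‖ψ x‖ ^ 2 -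
      (5 / 2) * ((x j - R j) ^ 2 * (hh R δ x ^ 2 * ‖ψ x‖ ^ 2)) ≤
      pd j (VV R δ j) x * ‖ψ x‖ ^ 2 + VV R δ j x * pd j (fun x => ‖ψ x‖ ^ 2) x +
        2 * ‖pd j ψ x‖ ^ 2 := by
    intro j
    rw [pd, fderiv_VV R hδ, VV]
    exact aux1 _ _ _ _ _ (pd_sq hψ j x)
  refine le_trans ?_ (Finset.sum_le_sum fun j _ => h1 j)
  rw [Finset.sum_sub_distrib, ← Finset.mul_sum (a := 5 / 2), 
    ← Finset.sum_mul (f := fun j => (x j - R j) ^ 2), sum_sq]
  simp only [Finset.sum_const, Finset.card_univ, Fintype.card_fin, nsmul_eq_mul, Nat.cast_ofNat]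
  have h2 := mul_le_mul_of_nonneg_right hr (mul_nonneg hh0.le (sq_nonneg ‖ψ x‖))
  have h3 := mul_nonneg hh0.le (sq_nonneg ‖ψ x‖)
  generalize ‖x - R‖ ^ 2 = r at *
  generalize ‖ψ x‖ ^ 2 = a at *
  generalize hh R δ x = h at *
  have : r * (h ^ 2 * a) = r * h * (h * a) := by ring
  linarith

theorem bound (ψ : E3 → ℂ) (R : E3) (hψ : C1c ψ) {δ : ℝ} (hδ : 0 < δ) :
    ∫ x, hh R δ x * ‖ψ x‖ ^ 2 ≤ 4 * dir ψ := by
  have hu := c1c_sq hψ
  have hpi : ∀ j, Integrable fun x => ‖pd j ψ x‖ ^ 2 := fun j => by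
    have h1 : Continuous fun x => ‖pd j ψ x‖ ^ 2 := (cont_pd hψ.1 j).norm.pow 2
    have h2 : HasCompactSupport fun x => ‖pd j ψ x‖ ^ 2 :=
      (supp_pd hψ.2 j).comp_left (g := fun z : ℂ => ‖z‖ ^ 2) (by simp)
    exact h1.integrable_of_hasCompactSupport h2
  have ih := integrable_mul (contDiff_hh R hδ).continuous hu.1.continuous hu.2
  have i4 : ∀ j, Integrable fun x => pd j (VV R δ j) x * ‖ψ x‖ ^ 2 +
      VV R δ j x * pd j (fun x => ‖ψ x‖ ^ 2) x + 2 * ‖pd j ψ x‖ ^ 2 := fun j =>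
    (ibp (contDiff_VV R hδ j) hu j).1.add ((hpi j).const_mul 2)
  have e : ∀ j, ∫ x, (pd j (VV R δ j) x * ‖ψ x‖ ^ 2 +
      VV R δ j x * pd j (fun x => ‖ψ x‖ ^ 2) x + 2 * ‖pd j ψ x‖ ^ 2) =
      2 * ∫ x, ‖pd j ψ x‖ ^ 2 := fun j => by
    rw [integral_add (ibp (contDiff_VV R hδ j) hu j).1 ((hpi j).const_mul 2),
      (ibp (contDiff_VV R hδ j) hu j).2, integral_const_mul, zero_add]
  have h := integral_mono (ih.const_mul (1 / 2)) (integrable_finsetSum _ fun j _ => i4 j)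
    (fun x => key hψ R hδ x)
  rw [integral_const_mul, integral_finsetSum _ fun j _ => i4 j,
    Finset.sum_congr rfl fun j _ => e j, ← Finset.mul_sum] at h
  rw [dir]
  linarith

end KerHardy

open KerHardy in
theorem hardy : HardyStmt := by
  intro ψ R hψ
  have hd : 0 ≤ 4 * dir ψ :=
    mul_nonneg (by norm_num) (Finset.sum_nonneg fun j _ => integral_nonneg fun x => sq_nonneg _)
  have hδ : ∀ n : ℕ, (0 : ℝ) < 1 / ((n : ℝ) + 1) := fun n => by positivity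
  have huc : Continuous fun x => ‖ψ x‖ ^ 2 := hψ.1.continuous.norm.pow 2
  have hus : HasCompactSupport fun x => ‖ψ x‖ ^ 2 :=
    hψ.2.comp_left (g := fun z : ℂ => ‖z‖ ^ 2) (by simp)
  have hc : ∀ n : ℕ, Continuous fun x => hh R (1 / ((n : ℝ) + 1)) x * ‖ψ x‖ ^ 2 := fun n =>
    (contDiff_hh R (hδ n)).continuous.mul huc
  have hb : ∀ n : ℕ, ∫⁻ x, ENNReal.ofReal (hh R (1 / ((n : ℝ) + 1)) x * ‖ψ x‖ ^ 2) ≤
      ENNReal.ofReal (4 * dir ψ) := fun n => by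
    rw [← ofReal_integral_eq_lintegral_ofReal ((hc n).integrable_of_hasCompactSupport hus.mul_left)
      (Eventually.of_forall fun x => mul_nonneg (inv_pos.2 (den_pos R (hδ n) x)).le (sq_nonneg _))]
    exact ENNReal.ofReal_le_ofReal (bound ψ R hψ (hδ n))
  have hne : ∀ᵐ x : E3, x ≠ R := by
    simp [ae_iff]
  have hlim : ∀ᵐ x : E3, ENNReal.ofReal (1 / ‖x - R‖ ^ 2 * ‖ψ x‖ ^ 2) =
      liminf (fun n : ℕ => ENNReal.ofReal (hh R (1 / ((n : ℝ) + 1)) x * ‖ψ x‖ ^ 2)) atTop := by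
    filter_upwards [hne] with x hx
    refine (Tendsto.liminf_eq (ENNReal.tendsto_ofReal (Tendsto.mul_const _ ?_))).symm
    have h0 : ‖x - R‖ ^ 2 + (0 : ℝ) ^ 2 ≠ 0 := by
      have := norm_pos_iff.2 (sub_ne_zero.2 hx)
      positivity
    have := ((tendsto_one_div_add_atTop_nhds_zero_nat (𝕜 := ℝ)).pow 2).const_add (‖x - R‖ ^ 2)
    simpa [hh] using this.inv₀ h0
  have hl : ∫⁻ x, ENNReal.ofReal (1 / ‖x - R‖ ^ 2 * ‖ψ x‖ ^ 2) ≤ ENNReal.ofReal (4 * dir ψ) := by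
    rw [lintegral_congr_ae hlim]
    refine (lintegral_liminf_le fun n => (hc n).measurable.ennreal_ofReal).trans ?_
    exact liminf_le_of_frequently_le' (Frequently.of_forall hb)
  have hm : Measurable fun x : E3 => 1 / ‖x - R‖ ^ 2 * ‖ψ x‖ ^ 2 :=
    (measurable_const.div ((measurable_id.sub_const R).norm.pow_const 2)).mul huc.measurable
  have h0 : ∀ x : E3, 0 ≤ 1 / ‖x - R‖ ^ 2 * ‖ψ x‖ ^ 2 := fun x => by positivity
  refine ⟨⟨hm.aestronglyMeasurable, ?_⟩, ?_⟩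
  · rw [hasFiniteIntegral_iff_ofReal (Eventually.of_forall h0)]
    exact hl.trans_lt ENNReal.ofReal_lt_top
  · rw [integral_eq_lintegral_of_nonneg_ae (Eventually.of_forall h0) hm.aestronglyMeasurable]
    exact ENNReal.toReal_le_of_le_ofReal hd hl

end Crest.Agent.R338
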