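import Crest.Agent.R338.KerSymb
import Crest.Agent.R338.KerHardy

/-!
# Row 338: the kernel `k_ε`
-/

noncomputable section

open MeasureTheory Function Filter Topology Set

namespace Crest.Agent.R338

namespace Ker

open KerSymb

variable {ε : ℝ}

/-- Two-term combinations. -/
def G2 (ε a s b t : ℝ) (x : E3) : ℝ := a * PP ε s x + b * PP ε t x

theorem pd_G2 (hε : 0 < ε) (a s b t : ℝ) (j : Fin 3) :
    pd j (G2 ε a s b t) = fun x => x j * G2 ε (2 * s * a) (s - 1) (2 * t * b) (t - 1) x := by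
  funext x
  have h := (((hasFDerivAt_PP hε s x).const_mul a).add
    ((hasFDerivAt_PP hε t x).const_mul b)).fderiv
  have e : G2 ε a s b t = (fun y => a * PP ε s y) + fun y => b * PP ε t y := rfl
  rw [pd, e, h]
  simp [G2, EuclideanSpace.inner_single_right]
  ring

theorem diff_G2 (hε : 0 < ε) (a s b t : ℝ) (x : E3) : DifferentiableAt ℝ (G2 ε a s b t) x :=
  (((hasFDerivAt_PP hε s x).const_mul a).add ((hasFDerivAt_PP hε t x).const_mul b)).differentiableAt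

theorem lap_G2 (hε : 0 < ε) (a s b t : ℝ) (x : E3) :
    lap (G2 ε a s b t) x = 3 * G2 ε (2 * s * a) (s - 1) (2 * t * b) (t - 1) x +
      ‖x‖ ^ 2 * G2 ε (2 * (s - 1) * (2 * s * a)) (s - 1 - 1) (2 * (t - 1) * (2 * t * b))
        (t - 1 - 1) x := by
  have h : ∀ j, pd j (pd j (G2 ε a s b t)) x = G2 ε (2 * s * a) (s - 1) (2 * t * b) (t - 1) x +
      x j ^ 2 * G2 ε (2 * (s - 1) * (2 * s * a)) (s - 1 - 1) (2 * (t - 1) * (2 * t * b))
        (t - 1 - 1) x := by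
    intro j
    have h1 : HasFDerivAt (fun x : E3 => x j) (EuclideanSpace.proj j : E3 →L[ℝ] ℝ) x :=
      (EuclideanSpace.proj j : E3 →L[ℝ] ℝ).hasFDerivAt
    have h2 := (h1.mul (diff_G2 hε (2 * s * a) (s - 1) (2 * t * b) (t - 1) x).hasFDerivAt).fderiv
    have h3 := congrFun (pd_G2 hε (2 * s * a) (s - 1) (2 * t * b) (t - 1) j) x
    have e : (fun x : E3 => x j * G2 ε (2 * s * a) (s - 1) (2 * t * b) (t - 1) x) =
        (fun x : E3 => x j) * G2 ε (2 * s * a) (s - 1) (2 * t * b) (t - 1) := rfl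
    rw [pd] at h3
    rw [pd_G2 hε, pd, e, h2]
    simp [h3]
    ring
  rw [lap, Finset.sum_congr rfl fun j _ => h j, Finset.sum_add_distrib, ← Finset.sum_mul,
    EuclideanSpace.real_norm_sq_eq]
  simp

theorem nsq_mul (hε : 0 < ε) (s : ℝ) (x : E3) :
    ‖x‖ ^ 2 * PP ε (s - 1) x = PP ε s x - ε ^ 2 * PP ε (s - 1) x := by
  have h := PP_add hε 1 (s - 1) x
  have h1 : PP ε 1 x = ‖x‖ ^ 2 + ε ^ 2 := Real.rpow_one _
  rw [add_sub_cancel, h1] at h
  linarith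

theorem lap_kk (hε : 0 < ε) : lap (kk ε) = G2 ε 1 (-1 / 2) (ε ^ 2 / 2) (-3 / 2) := by
  funext x
  have e : kk ε = G2 ε (1 / 2) (1 / 2) 0 0 := by
    rw [kk_eq]; funext x; simp [G2]
  have h := nsq_mul hε (-1 / 2) x
  rw [e, lap_G2 hε]
  simp only [G2]
  norm_num at h ⊢
  linarith

theorem lap_lap_kk (hε : 0 < ε) (x : E3) :
    lap (lap (kk ε)) x = -(15 / 2) * ε ^ 4 * PP ε (-7 / 2) x := by
  have h1 := nsq_mul hε (-3 / 2) x
  have h2 := nsq_mul hε (-5 / 2) x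
  rw [lap_kk hε, lap_G2 hε]
  simp only [G2]
  norm_num at h1 h2 ⊢
  linear_combination 3 * h1 + (15 / 2) * ε ^ 2 * h2

theorem rr_pos (hε : 0 < ε) (x : E3) : 0 < rr ε x := Real.sqrt_pos.2 (by positivity)

theorem PP_neg (hε : 0 < ε) (m : ℕ) (x : E3) : PP ε (-m / 2) x = (rr ε x ^ m)⁻¹ := by
  have := rr_zpow hε (-(m : ℤ)) x
  rw [zpow_neg, zpow_natCast] at this
  rw [this]; push_cast; rfl

theorem near (hε : 0 < ε) (x : E3) (hx : x ≠ 0) : |1 / ‖x‖ - lap (kk ε) x| ≤ 2 * ε / ‖x‖ ^ 2 := by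
  have h1 := PP_neg hε 1 x
  have h3 := PP_neg hε 3 x
  rw [Nat.cast_one, pow_one] at h1
  rw [Nat.cast_ofNat] at h3
  rw [lap_kk hε, G2, h1, h3]
  have hr := norm_pos_iff.2 hx
  have a1 : ‖x‖ ≤ rr ε x := Real.le_sqrt_of_sq_le (by nlinarith [sq_nonneg ε])
  have a2 : ε ≤ rr ε x := Real.le_sqrt_of_sq_le (by nlinarith [sq_nonneg ‖x‖])
  have a3 : rr ε x ≤ ‖x‖ + ε := Real.sqrt_le_iff.2 ⟨by positivity, by nlinarith⟩
  generalize rr ε x = ρ at *
  generalize ‖x‖ = r at *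
  have hρ : 0 < ρ := hr.trans_le a1
  have b1 : 0 ≤ 1 / r - ρ⁻¹ := by rw [one_div]; exact sub_nonneg.2 (inv_anti₀ hr a1)
  have b2 : 1 / r - ρ⁻¹ ≤ ε / r ^ 2 := by
    rw [show 1 / r - ρ⁻¹ = (ρ - r) / (r * ρ) by field_simp]
    exact div_le_div₀ hε.le (by linarith) (by positivity) (by nlinarith)
  have b3 : ε ^ 2 / 2 * (ρ ^ 3)⁻¹ ≤ ε / r ^ 2 := by
    rw [← div_eq_mul_inv, div_div, div_le_div_iff₀ (by positivity) (by positivity)]
    have : r ^ 2 ≤ ρ ^ 2 := by nlinarith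
    have : ε * r ^ 2 ≤ ρ * ρ ^ 2 := mul_le_mul a2 this (by positivity) hρ.le
    nlinarith [pow_pos hρ 3]
  have b4 : 0 ≤ ε ^ 2 / 2 * (ρ ^ 3)⁻¹ := by positivity
  have b5 : 0 ≤ ε / r ^ 2 := by positivity
  rw [abs_le, mul_div_assoc]
  constructor <;> linarith

/-- The one-dimensional regularised distance. -/
def r1 (ε y : ℝ) : ℝ := √(y ^ 2 + ε ^ 2)

theorem r1_pos (hε : 0 < ε) (y : ℝ) : 0 < r1 ε y := Real.sqrt_pos.2 (by positivity)

theorem r1_sq (ε y : ℝ) : r1 ε y ^ 2 = y ^ 2 + ε ^ 2 := Real.sq_sqrt (by positivity)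

theorem hasDerivAt_r1 (hε : 0 < ε) (y : ℝ) : HasDerivAt (r1 ε) (y / r1 ε y) y := by
  have h := ((hasDerivAt_pow 2 y).add_const (ε ^ 2)).sqrt (by positivity)
  refine HasDerivAt.congr_deriv h ?_
  have := r1_pos hε y
  rw [r1] at this ⊢
  norm_num
  field_simp

theorem tendsto_r1 (ε : ℝ) : Tendsto (r1 ε) atTop atTop :=
  tendsto_atTop_mono (f := fun y => y)
    (fun y => Real.le_sqrt_of_sq_le (by nlinarith [sq_nonneg ε])) tendsto_id

theorem tendsto_ratio (hε : 0 < ε) : Tendsto (fun y => y / r1 ε y) atTop (𝓝 1) := by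
  have h : Tendsto (fun y => 1 - ε * (r1 ε y)⁻¹) atTop (𝓝 1) := by
    simpa using ((tendsto_r1 ε).inv_tendsto_atTop.const_mul ε).const_sub 1
  refine tendsto_of_tendsto_of_tendsto_of_le_of_le' h tendsto_const_nhds ?_ ?_
  · filter_upwards [eventually_ge_atTop 0] with y hy
    have hp := r1_pos hε y
    have a3 : r1 ε y ≤ y + ε := Real.sqrt_le_iff.2 ⟨by positivity, by nlinarith⟩
    rw [le_div_iff₀ hp, sub_mul, mul_assoc, inv_mul_cancel₀ hp.ne']
    linarith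
  · filter_upwards with y
    rw [div_le_one (r1_pos hε y)]
    exact Real.le_sqrt_of_sq_le (by nlinarith [sq_nonneg ε])

theorem mass (hε : 0 < ε) : IntegrableOn (fun y => y ^ 2 * (ε ^ 4 / r1 ε y ^ 7)) (Ioi 0) ∧
    ∫ y in Ioi (0 : ℝ), y ^ 2 * (ε ^ 4 / r1 ε y ^ 7) = 2 / 15 := by
  have hd : ∀ y ∈ Ici (0 : ℝ), HasDerivAt (fun y => (y / r1 ε y) ^ 3 / 3 - (y / r1 ε y) ^ 5 / 5)
      (y ^ 2 * (ε ^ 4 / r1 ε y ^ 7)) y := by
    intro y _
    have hp := r1_pos hε y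
    have h1 := (hasDerivAt_id y).div (hasDerivAt_r1 hε y) hp.ne'
    have h2 := ((h1.pow 3).div_const 3).sub ((h1.pow 5).div_const 5)
    refine HasDerivAt.congr_deriv h2 ?_
    have hs : ε ^ 4 = (r1 ε y ^ 2 - y ^ 2) ^ 2 := by rw [r1_sq]; ring
    rw [hs]
    simp only [id, Pi.div_apply]
    norm_num
    field_simp
  have hp : ∀ y ∈ Ioi (0 : ℝ), 0 ≤ y ^ 2 * (ε ^ 4 / r1 ε y ^ 7) := fun y _ => by
    have := r1_pos hε y; positivity
  have hl := (((tendsto_ratio hε).pow 3).div_const 3).sub (((tendsto_ratio hε).pow 5).div_const 5)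
  refine ⟨integrableOn_Ioi_deriv_of_nonneg' hd hp hl, ?_⟩
  rw [integral_Ioi_of_hasDerivAt_of_nonneg' hd hp hl]
  norm_num

theorem moment (hε : 0 < ε) : IntegrableOn (fun y => y ^ 2 * (y * (ε ^ 4 / r1 ε y ^ 7))) (Ioi 0) ∧
    ∫ y in Ioi (0 : ℝ), y ^ 2 * (y * (ε ^ 4 / r1 ε y ^ 7)) = 2 / 15 * ε := by
  have hd : ∀ y ∈ Ici (0 : ℝ), HasDerivAt
      (fun y => ε ^ 6 / 5 * (r1 ε y)⁻¹ ^ 5 - ε ^ 4 / 3 * (r1 ε y)⁻¹ ^ 3)
      (y ^ 2 * (y * (ε ^ 4 / r1 ε y ^ 7))) y := by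
    intro y _
    have hp := r1_pos hε y
    have h1 := (hasDerivAt_r1 hε y).inv hp.ne'
    have h2 := ((h1.pow 5).const_mul (ε ^ 6 / 5)).sub ((h1.pow 3).const_mul (ε ^ 4 / 3))
    refine HasDerivAt.congr_deriv h2 ?_
    have hs : ε ^ 6 = ε ^ 4 * (r1 ε y ^ 2 - y ^ 2) := by rw [r1_sq]; ring
    rw [hs]
    simp only [Pi.inv_apply]
    norm_num
    field_simp
    ring
  have hp : ∀ y ∈ Ioi (0 : ℝ), 0 ≤ y ^ 2 * (y * (ε ^ 4 / r1 ε y ^ 7)) := fun y hy => by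
    have := r1_pos hε y
    have : 0 < y := hy
    positivity
  have hi := (tendsto_r1 ε).inv_tendsto_atTop
  have hl := ((hi.pow 5).const_mul (ε ^ 6 / 5)).sub ((hi.pow 3).const_mul (ε ^ 4 / 3))
  refine ⟨integrableOn_Ioi_deriv_of_nonneg' hd hp hl, ?_⟩
  rw [integral_Ioi_of_hasDerivAt_of_nonneg' hd hp hl]
  have : r1 ε 0 = ε := by simp [r1, hε.le]
  simp only [this]
  field_simp
  norm_num

theorem radial (f : ℝ → ℝ) (c : ℝ) (h : IntegrableOn (fun y => y ^ 2 * f y) (Ioi 0)) :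
    Integrable (fun x : E3 => c * f ‖x‖) ∧
      ∫ x : E3, c * f ‖x‖ = c * (4 * Real.pi * ∫ y in Ioi (0 : ℝ), y ^ 2 * f y) := by
  have hd : Module.finrank ℝ E3 = 3 := by simp
  refine ⟨Integrable.const_mul ((integrable_fun_norm_addHaar volume).2 ?_) c, ?_⟩
  · simpa [hd] using h
  · rw [integral_const_mul, integral_fun_norm_addHaar, hd, Measure.real,
      EuclideanSpace.volume_ball_fin_three]
    simp only [ENNReal.toReal_mul, ENNReal.toReal_pow, smul_eq_mul, nsmul_eq_mul]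
    rw [ENNReal.toReal_ofReal zero_le_one, ENNReal.toReal_ofReal (by positivity)]
    norm_num
    left
    ring

end Ker

open Ker KerSymb in
theorem ker : KerStmt := by
  obtain ⟨C, hC1, hC⟩ := kk_bound
  refine ⟨3 * C, by linarith, fun ε hε => ?_⟩
  have hs : ContDiff ℝ (⊤ : ℕ∞) (kk ε) := by
    rw [kk_eq]; exact (contDiff_PP hε _).const_smul (1 / 2 : ℝ)
  have hup : ∀ (m : ℤ) (x : E3), C * rr ε x ^ m ≤ 3 * C * rr ε x ^ m := fun m x =>
    mul_le_mul_of_nonneg_right (by linarith) (zpow_pos (rr_pos hε x) m).le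
  have hπ := Real.pi_pos
  have k1 : kap ε = fun x => 15 / (8 * Real.pi) * (ε ^ 4 / r1 ε ‖x‖ ^ 7) := by
    funext x; rw [kap, mul_div_assoc]; rfl
  have k2 : (fun x => ‖x‖ * kap ε x) =
      fun x => 15 / (8 * Real.pi) * (‖x‖ * (ε ^ 4 / r1 ε ‖x‖ ^ 7)) := by
    funext x; rw [k1]; ring
  have m1 := radial (fun y => ε ^ 4 / r1 ε y ^ 7) (15 / (8 * Real.pi)) (mass hε).1
  have m2 := radial (fun y => y * (ε ^ 4 / r1 ε y ^ 7)) (15 / (8 * Real.pi)) (moment hε).1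
  refine ⟨⟨hs, fun j hj x => (hC ε hε j (by omega) x).trans (hup _ x)⟩,
    fun j => ⟨contDiff_pd hs j, fun i hi x => ?_⟩, fun j hj x => ?_, fun x => ?_, near hε, ?_,
    fun x => ?_, k1 ▸ m1.1, ?_, k2 ▸ m2.1, ?_⟩
  · refine ((norm_pd hs j i x).trans (hC ε hε (i + 1) (by omega) x)).trans ?_
    rw [show (1 - ((i + 1 : ℕ) : ℤ)) = 0 - i by push_cast; ring]
    exact hup _ x
  · refine (norm_lap hs j x).trans ?_
    have := hC ε hε (j + 2) (by omega) x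
    rw [show (1 - ((j + 2 : ℕ) : ℤ)) = -1 - j by push_cast; ring] at this
    linarith
  · have h7 := PP_neg hε 7 x
    rw [Nat.cast_ofNat] at h7
    rw [lap_lap_kk hε, h7, kap]
    field_simp
    norm_num
  · refine continuous_const.div ?_ fun x => (pow_pos (rr_pos hε x) 7).ne'
    unfold rr
    fun_prop
  · have := rr_pos hε x
    rw [kap]; positivity
  · rw [k1, m1.2, (mass hε).2]
    field_simp
    norm_num
  · rw [k2, m2.2, (moment hε).2]
    have : 15 / (8 * Real.pi) * (4 * Real.pi * (2 / 15 * ε)) = ε := by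
      field_simp
      norm_num
    rw [this]
    nlinarith

end Crest.Agent.R338
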