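import Crest.Agent.R338.DefsF

/-!
# Row 338: symbol estimates for powers of `‖x‖² + ε²`
-/

noncomputable section

open MeasureTheory Function Filter Topology

namespace Crest.Agent.R338

namespace KerSymb

/-- `‖x‖² + ε²`. -/
def qq (ε : ℝ) (x : E3) : ℝ := ‖x‖ ^ 2 + ε ^ 2

/-- Its real powers. -/
def PP (ε s : ℝ) (x : E3) : ℝ := qq ε x ^ s

variable {ε : ℝ}

theorem qq_pos (hε : 0 < ε) (x : E3) : 0 < qq ε x := by rw [qq]; positivity

theorem PP_pos (hε : 0 < ε) (s : ℝ) (x : E3) : 0 < PP ε s x := Real.rpow_pos_of_pos (qq_pos hε x) s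

theorem PP_add (hε : 0 < ε) (s t : ℝ) (x : E3) : PP ε (s + t) x = PP ε s x * PP ε t x :=
  Real.rpow_add (qq_pos hε x) s t

theorem contDiff_PP (hε : 0 < ε) (s : ℝ) {n : WithTop ℕ∞} : ContDiff ℝ n (PP ε s) :=
  ((contDiff_norm_sq ℝ).add contDiff_const).rpow_const_of_ne fun x => (qq_pos hε x).ne'

theorem hasFDerivAt_PP (hε : 0 < ε) (s : ℝ) (x : E3) :
    HasFDerivAt (PP ε s) ((2 * s * PP ε (s - 1) x) • innerSL ℝ x) x := by
  have h1 : HasFDerivAt (qq ε) ((2 : ℕ) • innerSL ℝ x) x :=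
    (hasStrictFDerivAt_norm_sq x).hasFDerivAt.add_const (ε ^ 2)
  have h2 := h1.rpow_const (p := s) (Or.inl (qq_pos hε x).ne')
  have e : (2 * s * PP ε (s - 1) x) • innerSL ℝ x =
      (s * qq ε x ^ (s - 1)) • ((2 : ℕ) • innerSL ℝ x) := by
    rw [← Nat.cast_smul_eq_nsmul ℝ, smul_smul, PP]
    congr 1
    push_cast
    ring
  rw [e]
  exact h2

theorem norm_le_PP (x : E3) : ‖x‖ ≤ PP ε (1 / 2) x := by
  rw [PP, ← Real.sqrt_eq_rpow, qq]
  exact Real.le_sqrt_of_sq_le (by nlinarith [sq_nonneg ε])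

theorem lin_bound (hε : 0 < ε) (k : ℕ) (x : E3) :
    ‖iteratedFDeriv ℝ k (fun x : E3 => innerSL ℝ x) x‖ ≤ PP ε (1 / 2 - k / 2) x := by
  let L : E3 →L[ℝ] E3 →L[ℝ] ℝ := innerSL ℝ
  have hL : ‖L‖ ≤ 1 := ContinuousLinearMap.opNorm_le_bound _ zero_le_one fun v => by
    rw [one_mul]; exact (innerSL_apply_norm ℝ v).le
  change ‖iteratedFDeriv ℝ k L x‖ ≤ _
  rcases k with _ | _ | k
  · rw [norm_iteratedFDeriv_zero]
    refine (innerSL_apply_norm ℝ x).le.trans ?_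
    simpa using norm_le_PP (ε := ε) x
  · rw [← norm_iteratedFDeriv_fderiv, norm_iteratedFDeriv_zero, L.fderiv]
    simpa [PP] using hL
  · rw [← norm_iteratedFDeriv_fderiv]
    have : fderiv ℝ L = fun _ => L := funext fun _ => L.fderiv
    rw [this, iteratedFDeriv_const_of_ne (Nat.succ_ne_zero k)]
    simpa using (PP_pos hε _ x).le

theorem symb (j : ℕ) : ∀ s : ℝ, ∃ C : ℝ, 0 ≤ C ∧ ∀ ε : ℝ, 0 < ε → ∀ x,
    ‖iteratedFDeriv ℝ j (PP ε s) x‖ ≤ C * PP ε (s - j / 2) x := by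
  induction j using Nat.strong_induction_on with
  | _ j ih =>
  intro s
  rcases j with _ | j
  · exact ⟨1, zero_le_one, fun ε hε x => by simp [abs_of_pos (PP_pos hε s x)]⟩
  have ih' : ∀ i : ℕ, ∃ C : ℝ, 0 ≤ C ∧ (i ≤ j → ∀ ε : ℝ, 0 < ε → ∀ x,
      ‖iteratedFDeriv ℝ i (PP ε (s - 1)) x‖ ≤ C * PP ε (s - 1 - i / 2) x) := fun i => by
    by_cases hi : i ≤ j
    · obtain ⟨C, h0, h⟩ := ih i (Nat.lt_succ_of_le hi) (s - 1)
      exact ⟨C, h0, fun _ => h⟩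
    · exact ⟨0, le_rfl, fun h => absurd h hi⟩
  choose C hC0 hC using ih'
  refine ⟨∑ i ∈ Finset.range (j + 1), (j.choose i : ℝ) * (|2 * s| * C i),
    Finset.sum_nonneg fun i _ => by have := hC0 i; positivity, fun ε hε x => ?_⟩
  have e : fderiv ℝ (PP ε s) = fun x => (2 * s * PP ε (s - 1) x) • innerSL ℝ x :=
    funext fun x => (hasFDerivAt_PP hε s x).fderiv
  have c1 : ContDiff ℝ (j : ℕ) fun x => 2 * s * PP ε (s - 1) x :=
    contDiff_const.mul (contDiff_PP hε _)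
  have c2 : ContDiff ℝ (j : ℕ) fun x : E3 => innerSL ℝ x :=
    (innerSL ℝ : E3 →L[ℝ] E3 →L[ℝ] ℝ).contDiff
  rw [← norm_iteratedFDeriv_fderiv, e, Finset.sum_mul]
  refine (norm_iteratedFDeriv_smul_le c1 c2 x le_rfl).trans (Finset.sum_le_sum fun i hi => ?_)
  have hi' : i ≤ j := Nat.lt_succ_iff.1 (Finset.mem_range.1 hi)
  have h1 : ‖iteratedFDeriv ℝ i (fun x => 2 * s * PP ε (s - 1) x) x‖ ≤
      |2 * s| * C i * PP ε (s - 1 - i / 2) x := by
    have : (fun x => 2 * s * PP ε (s - 1) x) = (2 * s) • PP ε (s - 1) := rfl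
    rw [this, iteratedFDeriv_const_smul_apply (contDiff_PP hε _).contDiffAt, norm_smul,
      Real.norm_eq_abs, mul_assoc]
    exact mul_le_mul_of_nonneg_left (hC i hi' ε hε x) (abs_nonneg _)
  have h2 := lin_bound hε (j - i) x
  have h3 : PP ε (s - ((j + 1 : ℕ) : ℝ) / 2) x =
      PP ε (s - 1 - i / 2) x * PP ε (1 / 2 - ((j - i : ℕ) : ℝ) / 2) x := by
    rw [← PP_add hε, Nat.cast_sub hi']
    congr 1
    push_cast
    ring
  have h4 := hC0 i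
  have h5 := (PP_pos hε (s - 1 - i / 2) x).le
  rw [h3, mul_assoc, mul_assoc, ← mul_assoc (|2 * s| * C i)]
  exact mul_le_mul_of_nonneg_left (mul_le_mul h1 h2 (norm_nonneg _) (by positivity))
    (Nat.cast_nonneg _)

theorem rr_zpow (hε : 0 < ε) (m : ℤ) (x : E3) : rr ε x ^ m = PP ε (m / 2) x := by
  rw [rr, Real.sqrt_eq_rpow, ← Real.rpow_intCast, PP, qq, ← Real.rpow_mul (by positivity)]
  congr 1
  ring

theorem kk_eq (ε : ℝ) : kk ε = (1 / 2 : ℝ) • PP ε (1 / 2) := by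
  funext x
  simp only [kk, rr, Real.sqrt_eq_rpow, PP, qq, Pi.smul_apply, smul_eq_mul]
  ring

theorem contDiff_pd {f : E3 → ℝ} (hf : ContDiff ℝ (⊤ : ℕ∞) f) (j : Fin 3) :
    ContDiff ℝ (⊤ : ℕ∞) (pd j f) :=
  (hf.fderiv_right (m := (⊤ : ℕ∞)) le_rfl).clm_apply contDiff_const

theorem norm_pd {f : E3 → ℝ} (hf : ContDiff ℝ (⊤ : ℕ∞) f) (j : Fin 3) (i : ℕ) (x : E3) :
    ‖iteratedFDeriv ℝ i (pd j f) x‖ ≤ ‖iteratedFDeriv ℝ (i + 1) f x‖ := by
  have h := norm_iteratedFDeriv_clm_apply_const (𝕜 := ℝ) (f := fderiv ℝ f)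
    (c := EuclideanSpace.single j (1 : ℝ)) (x := x) (n := i) (N := (⊤ : ℕ∞))
    (hf.fderiv_right (m := (⊤ : ℕ∞)) le_rfl).contDiffAt (by exact_mod_cast le_top)
  rw [norm_iteratedFDeriv_fderiv, PiLp.norm_single, norm_one, one_mul] at h
  exact h

theorem norm_lap {f : E3 → ℝ} (hf : ContDiff ℝ (⊤ : ℕ∞) f) (i : ℕ) (x : E3) :
    ‖iteratedFDeriv ℝ i (lap f) x‖ ≤ 3 * ‖iteratedFDeriv ℝ (i + 2) f x‖ := by
  have e : lap f = fun x => ∑ j ∈ Finset.univ, pd j (pd j f) x := rfl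
  rw [e, iteratedFDeriv_sum fun j _ => (contDiff_pd (contDiff_pd hf j) j).of_le
    (by exact_mod_cast le_top), Finset.sum_apply]
  refine (norm_sum_le _ _).trans ?_
  refine (Finset.sum_le_sum fun j _ =>
    (norm_pd (contDiff_pd hf j) j i x).trans (norm_pd hf j (i + 1) x)).trans ?_
  simp

/-- Uniform bounds for the kernel. -/
theorem kk_bound : ∃ C : ℝ, 1 ≤ C ∧ ∀ ε : ℝ, 0 < ε → ∀ j ≤ 5, ∀ x,
    ‖iteratedFDeriv ℝ j (kk ε) x‖ ≤ C * rr ε x ^ (1 - (j : ℤ)) := by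
  choose C hC0 hC using fun j => symb j (1 / 2)
  have hs : 0 ≤ ∑ j ∈ Finset.range 6, C j := Finset.sum_nonneg fun j _ => hC0 j
  refine ⟨1 + ∑ j ∈ Finset.range 6, C j, by linarith, fun ε hε j hj x => ?_⟩
  have h1 : C j ≤ ∑ j ∈ Finset.range 6, C j :=
    Finset.single_le_sum (fun j _ => hC0 j) (Finset.mem_range.2 (by omega))
  have h2 := hC j ε hε x
  have h3 := PP_pos hε (1 / 2 - j / 2) x
  have h4 := hC0 j
  rw [kk_eq, iteratedFDeriv_const_smul_apply (contDiff_PP hε _).contDiffAt, norm_smul,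
    rr_zpow hε, show (((1 - (j : ℤ) : ℤ) : ℝ)) / 2 = 1 / 2 - j / 2 by push_cast; ring,
    Real.norm_eq_abs, abs_of_pos (by norm_num : (0 : ℝ) < 1 / 2)]
  nlinarith [norm_nonneg (iteratedFDeriv ℝ j (PP ε (1 / 2)) x)]

end KerSymb

end Crest.Agent.R338
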