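import Crest.Agent.R338.Slice

/-!
# Row 338: tensorisation of the projection defect
-/

noncomputable section

open MeasureTheory Function
open scoped ComplexConjugate
open Crest.MathPhysics.ElectronicCoulomb

namespace Crest.Agent.R338

namespace Key

open Slice

/-- Commuting projections. -/
theorem abs_fold {V κ : Type} [AddCommGroup V] {S : V → Prop} {N : V → ℝ} {P : κ → V → V}
    (hS : ∀ i x, S x → S (P i x)) (hsub : ∀ x y, S x → S y → S (x - y))
    (hP : ∀ i x y, S x → S y → P i (x - y) = P i x - P i y)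
    (hcomm : ∀ i j x, S x → P i (P j x) = P j (P i x))
    (hidem : ∀ i x, S x → P i (P i x) = P i x)
    (hN : ∀ i x, S x → N (x - P i x) = N x - N (P i x)) (h0 : ∀ x, 0 ≤ N x) (L : List κ) :
    ∀ x, S x → S (L.foldr P x) ∧ N (L.foldr P x) ≤ N x ∧
      (∀ i, P i (L.foldr P x) = L.foldr P (P i x)) ∧
      (∀ y, S y → L.foldr P (x - y) = L.foldr P x - L.foldr P y) ∧
      (∀ i ∈ L, P i (L.foldr P x) = L.foldr P x) ∧
      N x - N (L.foldr P x) ≤ (L.map fun i => N x - N (P i x)).sum := by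
  induction L with
  | nil => intro x hx; simp [hx]
  | cons j L ih =>
    intro x hx
    obtain ⟨h1, h2, h3, h4, h5, h6⟩ := ih x hx
    simp only [List.foldr_cons, List.map_cons, List.sum_cons, List.mem_cons]
    have h7 := hN j _ h1
    refine ⟨hS _ _ h1, by linarith [h0 (L.foldr P x - P j (L.foldr P x))], fun i => ?_,
      fun y hy => ?_, fun i hi => ?_, ?_⟩
    · rw [hcomm _ _ _ h1, h3]
    · rw [h4 y hy, hP _ _ _ h1 (ih y hy).1]
    · rcases hi with rfl | hi
      · exact hidem _ _ h1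
      · rw [hcomm _ _ _ h1, h5 i hi]
    · have h8 := (ih _ (hsub _ _ hx (hS j x hx))).2.1
      rw [h4 _ (hS j x hx), ← h3, h7, hN j x hx] at h8
      linarith

/-- A function that is reproduced by a kernel in every slot is reproduced by the product kernel. -/
theorem repro {k : E3 → E3 → ℂ} (hk : ∀ u, Integrable (k u)) (n : ℕ) :
    ∀ (R : (Fin n → E3) → ℂ) (B : ℝ), Measurable R → (∀ x, ‖R x‖ ≤ B) →
      (∀ i x, R x = ∫ y, k (x i) y * R (update x i y)) →
      ∀ x, R x = ∫ y : Fin n → E3, (∏ i, k (x i) (y i)) * R y := by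
  induction n with
  | zero =>
    intro R B _ _ _ x
    simp only [Finset.univ_eq_empty, Finset.prod_empty, one_mul]
    rw [volume_pi, Measure.pi_of_empty _ x, integral_dirac]
  | succ n ih =>
    intro R B hR hB h x
    let e := (MeasurableEquiv.piFinSuccAbove (fun _ : Fin (n + 1) => E3) 0).symm
    have he : ∀ p, e p = Fin.cons p.1 p.2 := fun p => by
      simp [e, MeasurableEquiv.piFinSuccAbove_symm_apply, Fin.insertNthEquiv, Fin.insertNth_zero']
    have mp : MeasurePreserving e volume volume := (volume_preserving_piFinSuccAbove _ 0).symm _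
    have hi : Integrable fun y : Fin (n + 1) → E3 => (∏ i, k (x i) (y i)) * R y :=
      (Integrable.fintype_prod fun i => hk (x i)).mul_bdd hR.aestronglyMeasurable
        (Filter.Eventually.of_forall hB)
    have hi' := (mp.integrable_comp_emb e.measurableEmbedding).2 hi
    rw [comp_def] at hi'
    rw [← mp.integral_comp', Measure.volume_eq_prod, integral_prod _ hi', h 0]
    refine integral_congr_ae (Filter.Eventually.of_forall fun u => ?_)
    have h1 := ih (fun w => R (Fin.cons u w)) B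
      (by simpa only [he, comp_def] using hR.comp (e.measurable.comp measurable_prodMk_left))
      (fun _ => hB _) (fun i w => by
        rw [h i.succ]
        simp only [Fin.cons_succ, Fin.cons_update]) (Fin.tail x)
    simp only [he, Fin.prod_univ_succ, Fin.cons_zero, Fin.cons_succ, mul_assoc,
      integral_const_mul]
    rw [← Fin.cons_self_tail x, Fin.update_cons_zero, h1]
    rfl

/-- Bounded measurable functions with bounded support. -/
structure Bd {X : Type} [MeasurableSpace X] [Norm X] (Φ : X → ℂ) : Prop where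
  meas : Measurable Φ
  bdd : ∃ B, ∀ x, ‖Φ x‖ ≤ B
  supp : ∃ r, ∀ x, Φ x ≠ 0 → ‖x‖ ≤ r

theorem Bd.integrable {X : Type} [NormedAddCommGroup X] [ProperSpace X] [MeasureSpace X]
    [OpensMeasurableSpace X] [IsFiniteMeasureOnCompacts (volume : Measure X)] {Φ : X → ℂ}
    (h : Bd Φ) : Integrable Φ := by
  obtain ⟨B, hB⟩ := h.bdd
  obtain ⟨r, hr⟩ := h.supp
  refine IntegrableOn.integrable_of_forall_notMem_eq_zero
    (s := Metric.closedBall 0 r) ?_ fun x hx => ?_
  · exact Measure.integrableOn_of_bounded (M := B) (isCompact_closedBall _ _).measure_lt_top.ne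
      h.meas.aestronglyMeasurable (Filter.Eventually.of_forall hB)
  · by_contra h
    exact hx (mem_closedBall_zero_iff.2 (hr x h))

variable {n : ℕ} {ι : Type} [Fintype ι] [DecidableEq ι] {θ : ι → E3 → ℝ}
  {Φ Ψ : (Fin n → E3) → ℂ}

theorem Bd.sub (h : Bd Φ) (h' : Bd Ψ) : Bd (Φ - Ψ) := by
  obtain ⟨B, hB⟩ := h.bdd
  obtain ⟨B', hB'⟩ := h'.bdd
  obtain ⟨r, hr⟩ := h.supp
  obtain ⟨r', hr'⟩ := h'.supp
  refine ⟨h.meas.sub h'.meas, ⟨B + B', fun x => (norm_sub_le _ _).trans
    (add_le_add (hB x) (hB' x))⟩, max r r', fun x hx => ?_⟩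
  by_cases h1 : Φ x = 0
  · exact le_max_of_le_right (hr' x fun h2 => hx (by simp [h1, h2]))
  · exact le_max_of_le_left (hr x h1)

theorem Bd.int_mul (h : Bd Φ) (h' : Bd Ψ) : Integrable fun x => conj (Φ x) * Ψ x := by
  obtain ⟨B, hB⟩ := h.bdd
  exact h'.integrable.bdd_mul (c := B)
    (Complex.continuous_conj.measurable.comp h.meas).aestronglyMeasurable
    (Filter.Eventually.of_forall fun x => by simpa using hB x)

omit [Fintype ι] [DecidableEq ι] in
theorem bd_θ (h : ONS θ) (a : ι) : Bd fun y => (θ a y : ℂ) := by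
  obtain ⟨B, hB⟩ := h.bdd
  obtain ⟨r, hr⟩ := h.supp
  exact ⟨Complex.measurable_ofReal.comp (h.meas a), ⟨B, fun y => by simpa using hB a y⟩,
    r, fun y hy => hr a y (by simpa using hy)⟩

omit [Fintype ι] [DecidableEq ι] in
theorem int_θ (h : ONS θ) (a : ι) {f : E3 → ℂ} (hf : Measurable f) (hb : ∃ B, ∀ y, ‖f y‖ ≤ B) :
    Integrable fun y => (θ a y : ℂ) * f y :=
  (bd_θ h a).integrable.mul_bdd hf.aestronglyMeasurable (Filter.Eventually.of_forall hb.choose_spec)

omit [Fintype ι] [DecidableEq ι] in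
theorem int_upd (h : ONS θ) (a : ι) (hΦ : Bd Φ) (x : Fin n → E3) (i : Fin n) :
    Integrable fun y => (θ a y : ℂ) * Φ (update x i y) :=
  int_θ h a (hΦ.meas.comp (measurable_update x)) (hΦ.bdd.imp fun _ hB _ => hB _)

omit [Fintype ι] in
theorem orth (h : ONS θ) (a b : ι) (D : ℂ) :
    ∫ y, (θ a y : ℂ) * (θ b y * D) = if a = b then D else 0 := by
  simp only [← mul_assoc, integral_mul_const, ← Complex.ofReal_mul]
  split_ifs with hab
  · subst hab
    simp only [← sq]
    rw [integral_complex_ofReal, h.norm, Complex.ofReal_one, one_mul]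
  · simp [h.disj a b _ hab]

/-- The projection in the slot `i`. -/
def P (θ : ι → E3 → ℝ) (i : Fin n) (Φ : (Fin n → E3) → ℂ) (x : Fin n → E3) : ℂ :=
  ∑ a, θ a (x i) * coef θ (fun y => Φ (update x i y)) a

omit [DecidableEq ι] in
theorem Bd.P (h : ONS θ) (i : Fin n) (hΦ : Bd Φ) : Bd (P θ i Φ) := by
  obtain ⟨B, hB⟩ := hΦ.bdd
  obtain ⟨r, hr⟩ := hΦ.supp
  obtain ⟨B', hB'⟩ := h.bdd
  obtain ⟨r', hr'⟩ := h.supp
  refine ⟨Finset.measurable_sum _ fun a _ => Measurable.mul
    ((bd_θ h a).meas.comp (measurable_pi_apply i)) ?_,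
    ⟨∑ a, B' * ∫ y, ‖(θ a y : ℂ)‖ * B, fun x => ?_⟩, max r r', fun x hx => ?_⟩
  · exact (StronglyMeasurable.integral_prod_right (Measurable.stronglyMeasurable
      (((bd_θ h a).meas.comp measurable_snd).mul (hΦ.meas.comp measurable_update')))).measurable
  · refine norm_sum_le_of_le _ fun a _ => ?_
    rw [norm_mul]
    refine mul_le_mul (by simpa using hB' a _) (norm_integral_le_of_norm_le
      ((bd_θ h a).integrable.norm.mul_const B) (Filter.Eventually.of_forall fun y => ?_))
      (norm_nonneg _) ((abs_nonneg _).trans (hB' a 0))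
    rw [norm_mul]
    exact mul_le_mul_of_nonneg_left (hB _) (norm_nonneg _)
  · obtain ⟨a, -, ha⟩ := Finset.exists_ne_zero_of_sum_ne_zero hx
    have h1 := hr' a _ (by simpa using left_ne_zero_of_mul ha)
    obtain ⟨y, hy⟩ : ∃ y, Φ (update x i y) ≠ 0 := by
      by_contra hcon
      push Not at hcon
      simp [coef, hcon] at ha
    refine (pi_norm_le_iff_of_nonneg (le_max_of_le_right ((norm_nonneg _).trans h1))).2 fun j => ?_
    by_cases hj : j = i
    · exact hj ▸ le_max_of_le_right h1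
    · rw [← update_of_ne hj y x]
      exact le_max_of_le_left ((norm_le_pi_norm _ j).trans (hr _ hy))

omit [DecidableEq ι] in
theorem P_sub (h : ONS θ) (i : Fin n) (hΦ : Bd Φ) (hΨ : Bd Ψ) :
    P θ i (Φ - Ψ) = P θ i Φ - P θ i Ψ := by
  funext x
  simp only [P, coef, Pi.sub_apply, mul_sub, ← Finset.sum_sub_distrib,
    integral_sub (int_upd h _ hΦ x i) (int_upd h _ hΨ x i)]

theorem P_idem (h : ONS θ) (i : Fin n) (Φ : (Fin n → E3) → ℂ) : P θ i (P θ i Φ) = P θ i Φ := by
  funext x
  refine Finset.sum_congr rfl fun a _ => congrArg _ ?_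
  simp only [coef, P, update_self, update_idem, Finset.mul_sum]
  rw [integral_finsetSum _ fun b _ => int_θ h a ((bd_θ h b).meas.mul_const _) ?_]
  · simp [orth h]
  · obtain ⟨B, hB⟩ := (bd_θ h b).bdd
    exact ⟨_, fun y => (norm_mul_le _ _).trans (mul_le_mul_of_nonneg_right (hB y) (norm_nonneg _))⟩

omit [DecidableEq ι] in
theorem P_P (h : ONS θ) {i j : Fin n} (hij : i ≠ j) (hΦ : Bd Φ) (x : Fin n → E3) :
    P θ i (P θ j Φ) x = ∑ a, ∑ b, θ a (x i) * θ b (x j) * ∫ p : E3 × E3,
      (θ a p.1 : ℂ) * θ b p.2 * Φ (update (update x i p.1) j p.2) := by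
  refine Finset.sum_congr rfl fun a _ => ?_
  have hi : ∀ b, Integrable fun p : E3 × E3 =>
      (θ a p.1 : ℂ) * θ b p.2 * Φ (update (update x i p.1) j p.2) := fun b =>
    ((bd_θ h a).integrable.mul_prod (bd_θ h b).integrable).mul_bdd
      (hΦ.meas.comp (measurable_update'.comp (((measurable_update x).comp measurable_fst).prodMk
        measurable_snd))).aestronglyMeasurable
      (Filter.Eventually.of_forall fun _ => hΦ.bdd.choose_spec _)
  have h1 : ∀ y, (θ a y : ℂ) * P θ j Φ (update x i y) = ∑ b, θ b (x j) *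
      ∫ y', (θ a y : ℂ) * θ b y' * Φ (update (update x i y) j y') := fun y => by
    simp only [coef, P, update_of_ne hij.symm, Finset.mul_sum, mul_assoc, integral_const_mul,
      mul_left_comm (θ a y : ℂ) (θ _ (x j))]
  rw [coef, integral_congr_ae (Filter.Eventually.of_forall h1),
    integral_finsetSum _ fun b _ => (hi b).integral_prod_left.const_mul _, Finset.mul_sum]
  refine Finset.sum_congr rfl fun b _ => ?_
  rw [integral_const_mul, Measure.volume_eq_prod, integral_prod _ (hi b), mul_assoc]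

omit [DecidableEq ι] in
theorem P_comm (h : ONS θ) (i j : Fin n) (hΦ : Bd Φ) : P θ i (P θ j Φ) = P θ j (P θ i Φ) := by
  by_cases hij : i = j
  · rw [hij]
  funext x
  rw [P_P h hij hΦ, P_P h (Ne.symm hij) hΦ, Finset.sum_comm]
  refine Finset.sum_congr rfl fun a _ => Finset.sum_congr rfl fun b _ => ?_
  rw [mul_comm (θ a _ : ℂ), Measure.volume_eq_prod, ← integral_prod_swap]
  simp only [Prod.fst_swap, Prod.snd_swap, update_comm hij, mul_comm (θ a _ : ℂ)]

/-- Scalar product. -/
def ip (Φ Ψ : (Fin n → E3) → ℂ) : ℂ := ∫ x, conj (Φ x) * Ψ x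

/-- Squared norm. -/
def N (Φ : (Fin n → E3) → ℂ) : ℝ := ∫ x, ‖Φ x‖ ^ 2

theorem ip_self (Φ : (Fin n → E3) → ℂ) : ip Φ Φ = N Φ := by
  simp only [ip, N, Complex.conj_mul', ← Complex.ofReal_pow, integral_complex_ofReal]

theorem conj_ip (Φ Ψ : (Fin n → E3) → ℂ) : conj (ip Φ Ψ) = ip Ψ Φ := by
  simp only [ip, ← integral_conj, map_mul, Complex.conj_conj, mul_comm]

theorem put_self (i : Fin n) (z : Rest n i) (y : E3) : put i (z, y) i = y := dif_pos rfl

theorem update_put (i : Fin n) (z : Rest n i) (y y' : E3) :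
    update (put i (z, y)) i y' = put i (z, y') := by
  funext j
  by_cases h : j = i
  · rw [h, update_self, put_self]
  · rw [update_of_ne h, put, put, dif_neg h, dif_neg h]

omit [DecidableEq ι] in
theorem ip_P (h : ONS θ) (i : Fin n) (hΦ : Bd Φ) (hΨ : Bd Ψ) : ip Φ (P θ i Ψ) = ∫ z : Rest n i,
    ∑ a, conj (coef θ (fun y => Φ (put i (z, y))) a) * coef θ (fun y => Ψ (put i (z, y))) a := by
  have he : MeasurableEmbedding (put i) := by
    have : put i = (insE i).trans unc.symm := funext fun p =>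
      (unc.symm_apply_apply _).symm.trans (congrArg _ (ins_eq i p).symm)
    rw [this]
    exact MeasurableEquiv.measurableEmbedding _
  have hi := ((mp_put i).integrable_comp_emb he).2 (hΦ.int_mul (hΨ.P h i))
  rw [comp_def] at hi
  rw [ip, ← (mp_put i).integral_comp he, integral_prod _ hi]
  refine integral_congr_ae (Filter.Eventually.of_forall fun z => ?_)
  simp only [P, put_self, update_put, Finset.mul_sum, ← mul_assoc, mul_comm _ (θ _ _ : ℂ)]
  rw [integral_finsetSum _ fun a _ => Integrable.mul_const (int_θ h a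
    (f := fun y => conj (Φ (put i (z, y)))) (Complex.continuous_conj.measurable.comp (hΦ.meas.comp
      ((meas_put i).comp measurable_prodMk_left))) (hΦ.bdd.imp fun _ hB y => by simpa using hB _)) _]
  refine Finset.sum_congr rfl fun a _ => ?_
  simp only [integral_mul_const, coef, ← integral_conj, map_mul, Complex.conj_ofReal]

omit [DecidableEq ι] in
theorem P_symm (h : ONS θ) (i : Fin n) (hΦ : Bd Φ) (hΨ : Bd Ψ) :
    ip (P θ i Φ) Ψ = ip Φ (P θ i Ψ) := by
  rw [← conj_ip, ip_P h i hΨ hΦ, ip_P h i hΦ hΨ, ← integral_conj]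
  simp only [map_sum, map_mul, Complex.conj_conj, mul_comm]

theorem N_P (h : ONS θ) (i : Fin n) (hΦ : Bd Φ) :
    N (P θ i Φ) = ∫ z : Rest n i, n1 (coef θ fun y => Φ (put i (z, y))) := by
  refine Complex.ofReal_injective ?_
  rw [← ip_self, P_symm h i hΦ (hΦ.P h i), P_idem h, ip_P h i hΦ hΦ, ← integral_complex_ofReal]
  simp only [n1, Complex.conj_mul', Complex.ofReal_sum, Complex.ofReal_pow]

theorem N_sub_P (h : ONS θ) (i : Fin n) (hΦ : Bd Φ) : N (Φ - P θ i Φ) = N Φ - N (P θ i Φ) := by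
  refine Complex.ofReal_injective ?_
  have h1 := hΦ.P h i
  have h2 : ip (P θ i Φ) (P θ i Φ) = ip Φ (P θ i Φ) := by rw [P_symm h i hΦ h1, P_idem h]
  have h3 : ip (Φ - P θ i Φ) (Φ - P θ i Φ) =
      ip Φ Φ - ip (P θ i Φ) Φ - (ip Φ (P θ i Φ) - ip (P θ i Φ) (P θ i Φ)) := by
    simp only [ip, Pi.sub_apply, map_sub, mul_sub, sub_mul]
    rw [← integral_sub (hΦ.int_mul hΦ) (h1.int_mul hΦ),
      ← integral_sub (hΦ.int_mul h1) (h1.int_mul h1)]
    exact integral_sub ((hΦ.int_mul hΦ).sub (h1.int_mul hΦ))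
      ((hΦ.int_mul h1).sub (h1.int_mul h1))
  rw [Complex.ofReal_sub, ← ip_self, ← ip_self, ← ip_self, h3, h2, P_symm h i hΦ hΦ, sub_self,
    sub_zero]

/-- Product states. -/
def T (θ : ι → E3 → ℝ) (g : Fin n → ι) (x : Fin n → E3) : ℂ := ∏ i, θ (g i) (x i)

omit [Fintype ι] [DecidableEq ι] in
theorem bd_T (h : ONS θ) (g : Fin n → ι) : Bd (T θ g) := by
  obtain ⟨B, hB⟩ := h.bdd
  obtain ⟨r, hr⟩ := h.supp
  refine ⟨Finset.measurable_prod _ fun i _ => (bd_θ h _).meas.comp (measurable_pi_apply i),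
    ⟨∏ _i : Fin n, B, fun x => ?_⟩, max r 0, fun x hx => ?_⟩
  · rw [T, norm_prod]
    exact Finset.prod_le_prod (fun _ _ => norm_nonneg _) fun i _ => by simpa using hB _ _
  · exact (pi_norm_le_iff_of_nonneg (le_max_right _ _)).2 fun i => le_max_of_le_left
      (hr (g i) _ (by simpa using Finset.prod_ne_zero_iff.1 hx i (Finset.mem_univ i)))

theorem P_T (h : ONS θ) (i : Fin n) (g : Fin n → ι) : P θ i (T θ g) = T θ g := by
  funext x
  have h1 : ∀ y, T θ g (update x i y) =
      θ (g i) y * ∏ j ∈ Finset.univ.erase i, (θ (g j) (x j) : ℂ) := fun y => by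
    rw [T, ← Finset.mul_prod_erase _ _ (Finset.mem_univ i), update_self]
    exact congrArg _ (Finset.prod_congr rfl fun j hj => by
      rw [update_of_ne (Finset.ne_of_mem_erase hj)])
  simp only [P, coef, h1, orth h, mul_ite, mul_zero, Finset.sum_ite_eq', Finset.mem_univ, if_true]
  exact Finset.mul_prod_erase _ (fun j => (θ (g j) (x j) : ℂ)) (Finset.mem_univ i)

omit [DecidableEq ι] in
theorem N_eq (h : ONS θ) (hΦ : Bd Φ) (hP : ∀ i, P θ i Φ = Φ) :
    N Φ = nF fun g => ip (T θ g) Φ := by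
  have h1 : ∀ x, Φ x = ∑ g, T θ g x * ip (T θ g) Φ := by
    intro x
    obtain ⟨B, hB⟩ := hΦ.bdd
    rw [repro (k := fun u y => ∑ a, (θ a u : ℂ) * θ a y) (fun u => integrable_finsetSum _
      fun a _ => (bd_θ h a).integrable.const_mul _) n Φ B hΦ.meas hB (fun i x => ?_) x]
    · simp only [Finset.prod_univ_sum, Fintype.piFinset_univ, Finset.prod_mul_distrib,
        Finset.sum_mul, mul_assoc]
      rw [integral_finsetSum _ fun g _ => Integrable.const_mul
        (by simpa only [T, map_prod, Complex.conj_ofReal] using (bd_T h g).int_mul hΦ) _]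
      simp only [integral_const_mul, ip, T, map_prod, Complex.conj_ofReal]
    · simp only [Finset.sum_mul, mul_assoc]
      rw [integral_finsetSum _ fun a _ => (int_upd h a hΦ x i).const_mul _, ← congrFun (hP i) x]
      simp only [integral_const_mul, P, coef]
  refine Complex.ofReal_injective ?_
  have h2 : ∀ x, conj (Φ x) * Φ x = ∑ g, conj (ip (T θ g) Φ) * (conj (T θ g x) * Φ x) := by
    intro x
    conv_lhs => enter [1]; rw [h1 x]
    simp only [map_sum, map_mul, Finset.sum_mul, mul_assoc, mul_left_comm (conj (ip _ _))]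
  rw [← ip_self, ip, integral_congr_ae (Filter.Eventually.of_forall h2),
    integral_finsetSum _ fun g _ => ((bd_T h g).int_mul hΦ).const_mul _]
  simp only [integral_const_mul, nF, Complex.ofReal_sum, Complex.ofReal_pow, ← Complex.conj_mul']
  rfl

theorem main (h : ONS θ) (hΦ : Bd Φ) :
    nF (fun g => ip (T θ g) Φ) ≤ N Φ ∧ (∀ i, N (P θ i Φ) ≤ N Φ) ∧
      N Φ - nF (fun g => ip (T θ g) Φ) ≤ ∑ i, (N Φ - N (P θ i Φ)) := by
  have H := abs_fold (S := Bd) (N := N) (P := P (n := n) θ) (fun i _ hx => hx.P h i)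
    (fun _ _ => Bd.sub) (fun i _ _ => P_sub h i) (fun i j _ => P_comm h i j)
    (fun i x _ => P_idem h i x) (fun i _ => N_sub_P h i)
    fun _ => integral_nonneg fun _ => sq_nonneg _
  have h1 : ∀ (g : Fin n → ι) (L : List (Fin n)),
      ip (T θ g) (L.foldr (P θ) Φ) = ip (T θ g) Φ := by
    intro g L
    induction L with
    | nil => rfl
    | cons i L ih => rw [List.foldr_cons, ← P_symm h i (bd_T h g) (H L Φ hΦ).1, P_T h, ih]
  obtain ⟨h2, h3, -, -, h4, h5⟩ := H (List.finRange n) Φ hΦ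
  rw [N_eq h h2 fun i => h4 i (List.mem_finRange i)] at h3 h5
  simp only [h1] at h3 h5
  exact ⟨h3, fun i => (H [i] Φ hΦ).2.1, by rwa [Fin.sum_univ_def]⟩

end Key

open Key Slice in
theorem key (hS : SliceStmt) : KeyStmt := by
  have _ := hS
  intro n ι _ _ θ Ψ h hΨ
  have hΦ : Bd fun w : Fin n → E3 => Ψ (unc w) := by
    obtain ⟨r, hr⟩ := hΨ.supp
    refine ⟨hΨ.meas.comp unc.measurable, hΨ.bdd.imp fun _ hB _ => hB _, r, fun w hw => ?_⟩
    have h1 := hr _ hw
    exact (pi_norm_le_iff_of_nonneg ((norm_nonneg _).trans h1)).2 fun i =>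
      (norm_elPos_le i (unc w)).trans h1
  have h1 : nsq Ψ = N fun w : Fin n → E3 => Ψ (unc w) :=
    (mp_unc.integral_comp' fun x => ‖Ψ x‖ ^ 2).symm
  have h2 : coefN θ Ψ = fun g => ip (T θ g) fun w => Ψ (unc w) := by
    funext g
    rw [coefN, ← mp_unc.integral_comp']
    simp only [ip, T, map_prod, Complex.conj_ofReal, tens, Complex.ofReal_prod]
    rfl
  have h3 : ∀ i, nP θ i Ψ = N (P θ i fun w => Ψ (unc w)) := fun i => by
    rw [N_P h i hΦ, nP]
    simp only [← ins_eq]
  simp only [h1, h2, h3]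
  exact main h hΦ

end Crest.Agent.R338
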