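import Crest.Agent.R338.Defs

/-!
# Row 338: the kinetic energy of `C¹` functions, upper bounds from trial states
-/

noncomputable section

open MeasureTheory Function
open scoped ENNReal FourierTransform ContDiff SchwartzMap
open Crest.MathPhysics.ElectronicCoulomb

namespace Crest.Agent.R338

namespace Kin

variable {V : Type} [NormedAddCommGroup V] [InnerProductSpace ℝ V] [FiniteDimensional ℝ V]
  [MeasurableSpace V] [BorelSpace V]

/-- On `L¹ ∩ L²` the `L²` Fourier transform is the Fourier integral. -/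
theorem fourier_toLp_ae {f : V → ℂ} (h1 : Integrable f) (h2 : MemLp f 2 volume) :
    ((𝓕 (h2.toLp f) : Lp ℂ 2 (volume : Measure V)) : V → ℂ) =ᵐ[volume] 𝓕 f := by
  have hc : Continuous (𝓕 f) :=
    VectorFourier.fourierIntegral_continuous Real.continuous_fourierChar continuous_inner h1
  refine ae_eq_of_integral_contDiff_smul_eq ((Lp.memLp _).locallyIntegrable one_le_two)
    hc.locallyIntegrable fun g hg hg' => ?_
  have hg₁ : HasCompactSupport (Complex.ofRealCLM ∘ g) := hg'.comp_left rfl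
  have hg₂ : ContDiff ℝ ∞ (Complex.ofRealCLM ∘ g) := by fun_prop
  obtain ⟨φ, hφ⟩ : ∃ φ : 𝓢(V, ℂ), ∀ x, φ x = g x := ⟨hg₁.toSchwartzMap hg₂, fun x => rfl⟩
  have e1 := congrArg (fun T => T φ) (Lp.fourier_toTemperedDistribution_eq (h2.toLp f))
  simp only [TemperedDistribution.fourier_apply, Lp.toTemperedDistribution_apply] at e1
  have e2 : ∫ ξ, 𝓕 (φ : V → ℂ) ξ • f ξ = ∫ x, φ x • 𝓕 f x := by
    simpa using! VectorFourier.integral_fourierIntegral_smul_eq_flip (L := innerₗ V)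
      Real.continuous_fourierChar continuous_inner φ.integrable h1
  have e3 : ∫ ξ, (𝓕 φ : 𝓢(V, ℂ)) ξ • (h2.toLp f : V → ℂ) ξ = ∫ ξ, 𝓕 (φ : V → ℂ) ξ • f ξ :=
    integral_congr_ae (h2.coeFn_toLp.mono fun x hx => by
      simp only [hx, SchwartzMap.fourier_coe])
  rw [e3, e2] at e1
  simpa [hφ] using e1.symm

theorem lint_sq {α : Type} [MeasurableSpace α] {μ : Measure α} (f : α → ℂ) :
    ∫⁻ x, ‖f x‖ₑ ^ 2 ∂μ = eLpNorm f 2 μ ^ 2 := by
  have := eLpNorm_nnreal_pow_eq_lintegral (f := f) (μ := μ) (p := 2) two_ne_zero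
  simpa using this.symm

theorem lint_eq {α : Type} [MeasurableSpace α] {μ : Measure α} {f : α → ℂ} (h : MemLp f 2 μ) :
    ∫⁻ x, ‖f x‖ₑ ^ 2 ∂μ = ENNReal.ofReal (∫ x, ‖f x‖ ^ 2 ∂μ) := by
  rw [ofReal_integral_eq_lintegral_ofReal ((memLp_two_iff_integrable_sq_norm h.1).1 h)
    (Filter.Eventually.of_forall fun x => by positivity)]
  refine lintegral_congr fun x => ?_
  rw [ENNReal.ofReal_pow (norm_nonneg _), ofReal_norm]

/-- Plancherel's theorem on `L¹ ∩ L²`. -/
theorem planch {f : V → ℂ} (h1 : Integrable f) (h2 : MemLp f 2 volume) :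
    ∫⁻ ξ, ‖𝓕 f ξ‖ₑ ^ 2 = ENNReal.ofReal (∫ x, ‖f x‖ ^ 2) := by
  rw [← lint_eq h2, lint_sq, lint_sq, ← eLpNorm_congr_ae (fourier_toLp_ae h1 h2), ← Lp.enorm_def,
    ← Lp.enorm_toLp h2, ← ofReal_norm, ← ofReal_norm, Lp.norm_fourier_eq]

variable {J : Type} [Fintype J] [DecidableEq J]

theorem norm_fderiv_le (f : EuclideanSpace ℝ J → ℂ) (x : EuclideanSpace ℝ J) :
    ‖fderiv ℝ f x‖ ≤ ∑ j, ‖pd j f x‖ := by
  refine ContinuousLinearMap.opNorm_le_bound _ (by positivity) fun v => ?_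
  have hv : v = ∑ j, v j • EuclideanSpace.single j (1 : ℝ) := by
    simpa using ((EuclideanSpace.basisFun J ℝ).sum_repr v).symm
  conv_lhs => rw [hv, map_sum]
  rw [Finset.sum_mul]
  refine (norm_sum_le _ _).trans (Finset.sum_le_sum fun j _ => ?_)
  rw [map_smul, norm_smul, mul_comm]
  exact mul_le_mul_of_nonneg_left (PiLp.norm_apply_le v j) (norm_nonneg _)

theorem fourier_pd {f : EuclideanSpace ℝ J → ℂ} (hf : ContDiff ℝ 1 f) (h1 : Integrable f)
    (h2 : ∀ j, Integrable (pd j f)) (j : J) (ξ : EuclideanSpace ℝ J) :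
    ‖𝓕 (pd j f) ξ‖ = 2 * Real.pi * |ξ j| * ‖𝓕 f ξ‖ := by
  have h3 : Integrable (fderiv ℝ f) :=
    (integrable_finsetSum _ fun j _ => (h2 j).norm).mono'
      (hf.continuous_fderiv one_ne_zero).aestronglyMeasurable
      (Filter.Eventually.of_forall (norm_fderiv_le f))
  have h4 := Real.fourier_continuousLinearMap_apply (a := EuclideanSpace.single j (1 : ℝ)) (v := ξ)
    h3
  rw [Real.fourier_fderiv h1 (hf.differentiable one_ne_zero) h3] at h4
  change _ = 𝓕 (pd j f) ξ at h4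
  rw [← h4, VectorFourier.fourierSMulRight_apply]
  have h5 : innerSL ℝ ξ (EuclideanSpace.single j (1 : ℝ)) = ξ j := by
    rw [innerSL_apply_apply, EuclideanSpace.inner_single_right]
    simp
  simp [h5, abs_of_pos Real.pi_pos, mul_assoc]

theorem cont_pd {F : Type} [NormedAddCommGroup F] [NormedSpace ℝ F] {f : EuclideanSpace ℝ J → F}
    (hf : ContDiff ℝ 1 f) (j : J) : Continuous (pd j f) :=
  (hf.continuous_fderiv one_ne_zero).clm_apply continuous_const

omit [Fintype J] in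
theorem supp_pd {F : Type} [NormedAddCommGroup F] [NormedSpace ℝ F] {f : EuclideanSpace ℝ J → F}
    (hf : HasCompactSupport f) (j : J) : HasCompactSupport (pd j f) :=
  hf.fderiv_apply ℝ _

theorem dir_nonneg (f : EuclideanSpace ℝ J → ℂ) : 0 ≤ dir f :=
  Finset.sum_nonneg fun _ _ => integral_nonneg fun _ => by positivity

omit [DecidableEq J] in
theorem nsq_nonneg (f : EuclideanSpace ℝ J → ℂ) : 0 ≤ nsq f :=
  integral_nonneg fun _ => by positivity

theorem dir_smul (c : ℂ) (f : EuclideanSpace ℝ J → ℂ) :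
    dir (fun x => c * f x) = ‖c‖ ^ 2 * dir f := by
  unfold dir
  rw [Finset.mul_sum]
  refine Finset.sum_congr rfl fun j _ => ?_
  rw [← integral_const_mul]
  refine integral_congr_ae (Filter.Eventually.of_forall fun x => ?_)
  have : pd j (fun x => c * f x) x = c * pd j f x := by
    unfold pd
    change fderiv ℝ (c • f) x _ = _
    rw [fderiv_const_smul_field]
    rfl
  simp only [this, norm_mul, mul_pow]

omit [DecidableEq J] in
theorem nsq_smul (c : ℂ) (f : EuclideanSpace ℝ J → ℂ) :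
    nsq (fun x => c * f x) = ‖c‖ ^ 2 * nsq f := by
  unfold nsq
  simp only [norm_mul, mul_pow, integral_const_mul]

omit [DecidableEq J] in
theorem pot_smul (c : ℂ) (W : EuclideanSpace ℝ J → ℝ) (f : EuclideanSpace ℝ J → ℂ) :
    pot W (fun x => c * f x) = ‖c‖ ^ 2 * pot W f := by
  unfold pot
  rw [← integral_const_mul]
  simp only [norm_mul, mul_pow, mul_left_comm]

end Kin

theorem kin : KinStmt := by
  intro n f hf h1 h2 h3 h4
  have e1 : ∫⁻ ξ, ENNReal.ofReal ((2 * Real.pi * ‖ξ‖) ^ 2) *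
      ‖(𝓕 (h2.toLp f) : Lp ℂ 2 (volume : Measure (Config n))) ξ‖ₑ ^ 2 =
      ∫⁻ ξ, ∑ j, ‖𝓕 (pd j f) ξ‖ₑ ^ 2 := by
    refine lintegral_congr_ae ((Kin.fourier_toLp_ae h1 h2).mono fun ξ hξ => ?_)
    simp only [hξ, ← ofReal_norm, Kin.fourier_pd hf h1 h3]
    rw [← ENNReal.ofReal_pow (norm_nonneg _), ← ENNReal.ofReal_mul (by positivity),
      Finset.sum_congr rfl fun j _ => (ENNReal.ofReal_pow (by positivity) 2).symm,
      ← ENNReal.ofReal_sum_of_nonneg fun j _ => by positivity]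
    congr 1
    simp only [mul_pow, sq_abs, EuclideanSpace.real_norm_sq_eq, Finset.mul_sum, Finset.sum_mul]
  have hm : ∀ j, Measurable fun ξ => ‖𝓕 (pd j f) ξ‖ₑ ^ 2 := fun j =>
    (VectorFourier.fourierIntegral_continuous Real.continuous_fourierChar continuous_inner
      (h3 j)).measurable.enorm.pow_const 2
  rw [kineticOne, dif_pos h2, e1, lintegral_finsetSum _ fun j _ => hm j,
    Finset.sum_congr rfl fun j _ => Kin.planch (h3 j) (h4 j),
    ← ENNReal.ofReal_sum_of_nonneg fun j _ => integral_nonneg fun _ => by positivity,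
    ENNReal.ofReal_div_of_pos two_pos, dir, ENNReal.ofReal_ofNat, one_div, mul_comm,
    div_eq_mul_inv]

theorem upperE (hK : KinStmt) : UpperStmt := by
  intro n W lam Ψ hC hA hW hpos hle ε hε
  obtain ⟨S, hS⟩ : ∃ S, S = ∑ s, nsq (Ψ s) := ⟨_, rfl⟩
  rw [← hS] at hpos hle
  obtain ⟨c, hc⟩ : ∃ c : ℂ, ‖c‖ ^ 2 = S⁻¹ := ⟨((√S)⁻¹ : ℝ), by
    rw [Complex.norm_real, Real.norm_eq_abs, sq_abs, inv_pow, Real.sq_sqrt hpos.le]⟩
  have hC' : ∀ s, C1c fun x => c * Ψ s x := fun s =>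
    ⟨contDiff_const.mul (hC s).1, (hC s).2.mul_left⟩
  have hL : ∀ s, MemLp (fun x => c * Ψ s x) 2 volume := fun s =>
    (hC' s).1.continuous.memLp_of_hasCompactSupport (hC' s).2
  have hk : ∀ s, kineticOne (fun x => c * Ψ s x) = ENNReal.ofReal (S⁻¹ * dir (Ψ s) / 2) := fun s => by
    rw [hK n _ (hC' s).1 ((hC' s).1.continuous.integrable_of_hasCompactSupport (hC' s).2) (hL s)
      (fun j => (Kin.cont_pd (hC' s).1 j).integrable_of_hasCompactSupport (Kin.supp_pd (hC' s).2 j))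
      (fun j => (Kin.cont_pd (hC' s).1 j).memLp_of_hasCompactSupport (Kin.supp_pd (hC' s).2 j)),
      Kin.dir_smul, hc]
  have hk' : kinetic (fun s x => c * Ψ s x) = ENNReal.ofReal (∑ s, S⁻¹ * dir (Ψ s) / 2) := by
    rw [kinetic, ENNReal.ofReal_sum_of_nonneg fun s _ => by have := Kin.dir_nonneg (Ψ s); positivity]
    exact Finset.sum_congr rfl fun s _ => hk s
  refine ⟨fun s x => c * Ψ s x, ⟨⟨hL, fun σ s x => ?_⟩, hk' ▸ ENNReal.ofReal_lt_top, fun s => ?_⟩,
    ?_, ?_⟩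
  · simp only [hA σ s x, mul_left_comm]
  · simpa only [norm_mul, mul_pow, mul_left_comm] using (hW s).const_mul (‖c‖ ^ 2)
  · rw [normSq, Finset.sum_congr rfl fun s _ => Kin.lint_eq (hL s),
      ← ENNReal.ofReal_sum_of_nonneg fun s _ => integral_nonneg fun _ => by positivity]
    have : ∑ s, ∫ x, ‖c * Ψ s x‖ ^ 2 = 1 := by
      rw [← inv_mul_cancel₀ hpos.ne', ← hc, hS, Finset.mul_sum]
      exact Finset.sum_congr rfl fun s _ => Kin.nsq_smul c (Ψ s)
    rw [this, ENNReal.ofReal_one]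
  · have h1 : potentialEnergy W (fun s x => c * Ψ s x) = ∑ s, S⁻¹ * pot W (Ψ s) := by
      rw [← hc]
      exact Finset.sum_congr rfl fun s _ => Kin.pot_smul c W (Ψ s)
    rw [energy, hk', h1, ENNReal.toReal_ofReal (Finset.sum_nonneg fun s _ => by
      have := Kin.dir_nonneg (Ψ s); positivity), ← Finset.sum_add_distrib]
    have h2 : ∑ s, (S⁻¹ * dir (Ψ s) / 2 + S⁻¹ * pot W (Ψ s)) =
        S⁻¹ * ∑ s, (dir (Ψ s) / 2 + pot W (Ψ s)) := by
      rw [Finset.mul_sum]
      exact Finset.sum_congr rfl fun s _ => by ring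
    rw [h2]
    have h3 := mul_le_mul_of_nonneg_left hle (inv_pos.2 hpos).le
    rw [mul_left_comm, inv_mul_cancel₀ hpos.ne', mul_one] at h3
    linarith

end Crest.Agent.R338
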