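import Crest.Agent.R338.DefsP

/-!
# Row 338: the Riemann sum `Kq` for the interaction of two dots
-/

noncomputable section

open MeasureTheory Function

namespace Crest.Agent.R338

namespace Kq

/-! ## The rational square root -/

theorem rsq_le {n : ℕ} (hn : 0 < n) {q : ℚ} (hq : 0 ≤ q) : ((rsq n q : ℚ) : ℝ) ≤ √(q : ℝ) := by
  have hn' : (0 : ℝ) < n := by exact_mod_cast hn
  have h1 : ((Nat.sqrt ⌊q * n ^ 2⌋₊ : ℕ) : ℚ) ^ 2 ≤ q * n ^ 2 := by
    refine le_trans ?_ (Nat.floor_le (by positivity))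
    exact_mod_cast Nat.sqrt_le' _
  have h2 : ((Nat.sqrt ⌊q * n ^ 2⌋₊ : ℕ) : ℝ) ^ 2 ≤ q * n ^ 2 := by exact_mod_cast h1
  rw [rsq]
  push_cast
  refine Real.le_sqrt_of_sq_le ?_
  rw [div_pow, div_le_iff₀ (by positivity)]
  exact h2

theorem le_rsq {n : ℕ} (hn : 0 < n) (q : ℚ) : √(q : ℝ) ≤ ((rsq n q : ℚ) : ℝ) + 1 / n := by
  have hn' : (0 : ℝ) < n := by exact_mod_cast hn
  have h1 : q * n ^ 2 ≤ (((Nat.sqrt ⌊q * n ^ 2⌋₊ : ℕ) : ℚ) + 1) ^ 2 := by
    refine (Nat.lt_floor_add_one _).le.trans ?_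
    have := Nat.lt_succ_sqrt' ⌊q * n ^ 2⌋₊
    exact_mod_cast this
  have h2 : (q : ℝ) * n ^ 2 ≤ (((Nat.sqrt ⌊q * n ^ 2⌋₊ : ℕ) : ℝ) + 1) ^ 2 := by exact_mod_cast h1
  rw [rsq]
  push_cast
  rw [← add_div]
  refine Real.sqrt_le_iff.2 ⟨by positivity, ?_⟩
  rw [div_pow, le_div_iff₀ (by positivity)]
  exact h2

/-- one term of the Riemann sum -/
def tm (n : ℕ) (θ τ : ℚ) (Δ : ℤ × ℤ) (i j : ℕ × ℕ) : ℚ :=
  1 / max (rsq n ((Δ.1 + (1 - θ) * ((i.1 : ℚ) - j.1) / n) ^ 2 +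
      (Δ.2 + (1 - θ) * ((i.2 : ℚ) - j.2) / n) ^ 2)) (1 / τ)

/-- the index set -/
def idx (n : ℕ) : Finset (ℕ × ℕ) := Finset.range n ×ˢ Finset.range n

theorem card_sq (n : ℕ) : (idx n).card = n ^ 2 := by simp [idx, pow_two]

theorem Kq_eq (n : ℕ) (θ τ : ℚ) (Δ : ℤ × ℤ) :
    Kq n θ τ Δ = (∑ i ∈ idx n, ∑ j ∈ idx n, tm n θ τ Δ i j) / n ^ 4 := by
  simp only [Kq, idx, tm, Finset.sum_product]

theorem Kq_le {n : ℕ} (hn : 0 < n) {θ τ : ℚ} {Δ : ℤ × ℤ} {b : ℚ}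
    (h : ∀ i ∈ idx n, ∀ j ∈ idx n, tm n θ τ Δ i j ≤ b) : Kq n θ τ Δ ≤ b := by
  have hn' : (0 : ℚ) < n := by exact_mod_cast hn
  rw [Kq_eq, div_le_iff₀ (by positivity)]
  refine (Finset.sum_le_sum fun i hi => Finset.sum_le_sum fun j hj => h i hi j hj).trans ?_
  simp only [Finset.sum_const, card_sq, nsmul_eq_mul]
  push_cast
  exact le_of_eq (by ring)

theorem le_Kq {n : ℕ} (hn : 0 < n) {θ τ : ℚ} {Δ : ℤ × ℤ} {b : ℚ}
    (h : ∀ i ∈ idx n, ∀ j ∈ idx n, b ≤ tm n θ τ Δ i j) : b ≤ Kq n θ τ Δ := by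
  have hn' : (0 : ℚ) < n := by exact_mod_cast hn
  rw [Kq_eq, le_div_iff₀ (by positivity)]
  refine le_trans ?_ (Finset.sum_le_sum fun i hi => Finset.sum_le_sum fun j hj => h i hi j hj)
  simp only [Finset.sum_const, card_sq, nsmul_eq_mul]
  push_cast
  exact le_of_eq (by ring)

theorem abs_off {n : ℕ} {θ : ℚ} (h0 : 0 < θ) (h1 : θ ≤ 1 / 10) {i j : ℕ} (hi : i < n) (hj : j < n) :
    |(1 - θ) * ((i : ℚ) - j) / n| ≤ 1 := by
  have hn' : (0 : ℚ) < n := by exact_mod_cast (Nat.zero_le i).trans_lt hi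
  have hi' : (i : ℚ) < n := by exact_mod_cast hi
  have hj' : (j : ℚ) < n := by exact_mod_cast hj
  have hi0 : (0 : ℚ) ≤ i := by positivity
  have hj0 : (0 : ℚ) ≤ j := by positivity
  rw [abs_div, abs_of_pos hn', div_le_one hn', abs_le]
  constructor <;> nlinarith

theorem far_aux {D : ℕ} (hD : 3 ≤ D) {z : ℤ} (hz : (D : ℤ) ≤ |z|) {t : ℚ} (ht : |t| ≤ 1) :
    ((D : ℚ) - 1) ^ 2 ≤ ((z : ℚ) + t) ^ 2 := by
  have h1 : (D : ℚ) ≤ |(z : ℚ)| := by exact_mod_cast hz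
  have h2 : (3 : ℚ) ≤ D := by exact_mod_cast hD
  have h3 : |(z : ℚ)| - |t| ≤ |(z : ℚ) + t| := by
    have := abs_sub_abs_le_abs_sub (z : ℚ) (-t)
    rwa [abs_neg, sub_neg_eq_add] at this
  rw [← sq_abs ((z : ℚ) + t)]
  exact pow_le_pow_left₀ (by linarith) (by linarith) 2

theorem near_aux {D : ℕ} {z : ℤ} (hz : |z| ≤ (D : ℤ)) {t : ℚ} (ht : |t| ≤ 1) :
    ((z : ℚ) + t) ^ 2 ≤ ((D : ℚ) + 1) ^ 2 := by
  have h1 : |(z : ℚ)| ≤ D := by exact_mod_cast hz
  rw [← sq_abs ((z : ℚ) + t)]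
  exact pow_le_pow_left₀ (abs_nonneg _) ((abs_add_le _ _).trans (by linarith)) 2

theorem le_rsq_of_sq_le {n : ℕ} (hn : 2 ≤ n) {q a : ℚ} (h : a ^ 2 ≤ q) : a - 1 ≤ rsq n q := by
  have h1 := le_rsq (show 0 < n by omega) q
  have h2 : (a : ℝ) ≤ √(q : ℝ) := Real.le_sqrt_of_sq_le (by exact_mod_cast h)
  have h3 : (1 : ℝ) / n ≤ 1 := by
    rw [div_le_one (by exact_mod_cast (show 0 < n by omega))]
    exact_mod_cast (show 1 ≤ n by omega)
  have : ((a - 1 : ℚ) : ℝ) ≤ ((rsq n q : ℚ) : ℝ) := by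
    push_cast
    linarith
  exact_mod_cast this

theorem rsq_le_of_le_sq {n : ℕ} (hn : 0 < n) {q a : ℚ} (hq : 0 ≤ q) (ha : 0 ≤ a)
    (h : q ≤ a ^ 2) : rsq n q ≤ a := by
  have h1 := rsq_le hn hq
  have h2 : √(q : ℝ) ≤ a := Real.sqrt_le_iff.2 ⟨by exact_mod_cast ha, by exact_mod_cast h⟩
  exact_mod_cast h1.trans h2

/-! ## Averages over pieces -/

theorem avg1 {X ι : Type*} [MeasurableSpace X] {μ : Measure X} {ρ F : X → ℝ} {s : Finset ι}
    {A : ι → Set X} {g : ι → ℝ} {N ε : ℝ} (hρ0 : ∀ x, 0 ≤ ρ x) (hρ1 : ∫ x, ρ x ∂μ = 1)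
    (hF : Integrable (fun x => ρ x * F x) μ) (hA : ∀ i, MeasurableSet (A i))
    (hd : Set.Pairwise (s : Set ι) (Disjoint on A)) (hN : (s.card : ℝ) = N) (hN0 : 0 < N)
    (hv : ∀ i ∈ s, ∫ x in A i, ρ x ∂μ = 1 / N)
    (hb : ∀ i ∈ s, ∀ᵐ x ∂μ, x ∈ A i → |F x - g i| ≤ ε) :
    |∫ x, ρ x * F x ∂μ - (∑ i ∈ s, g i) / N| ≤ ε := by
  have hρ : Integrable ρ μ := Integrable.of_integral_ne_zero (by rw [hρ1]; exact one_ne_zero)
  have hU : MeasurableSet (⋃ i ∈ s, A i) := s.measurableSet_biUnion fun i _ => hA i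
  have h1 : ∫ x in ⋃ i ∈ s, A i, ρ x ∂μ = 1 := by
    rw [integral_biUnion_finset s (fun i _ => hA i) hd fun i _ => hρ.integrableOn,
      Finset.sum_congr rfl hv, Finset.sum_const, nsmul_eq_mul, hN]
    field_simp
  have h2 : ∫ x in (⋃ i ∈ s, A i)ᶜ, ρ x ∂μ = 0 := by
    have := integral_add_compl hU hρ
    linarith
  have h3 := (integral_eq_zero_iff_of_nonneg (μ := μ.restrict (⋃ i ∈ s, A i)ᶜ) hρ0
    hρ.integrableOn).1 h2
  have h4 : ∫ x in (⋃ i ∈ s, A i)ᶜ, ρ x * F x ∂μ = 0 := by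
    refine integral_eq_zero_of_ae ?_
    filter_upwards [h3] with x hx
    simp [hx]
  rw [← integral_add_compl hU hF, h4, add_zero,
    integral_biUnion_finset s (fun i _ => hA i) hd fun i _ => hF.integrableOn, Finset.sum_div,
    ← Finset.sum_sub_distrib]
  refine (Finset.abs_sum_le_sum_abs _ _).trans ?_
  have h5 : ∀ i ∈ s, |∫ x in A i, ρ x * F x ∂μ - g i / N| ≤ ε / N := by
    intro i hi
    have e1 : g i / N = ∫ x in A i, ρ x * g i ∂μ := by
      rw [integral_mul_const, hv i hi]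
      ring
    have e2 : ε / N = ∫ x in A i, ρ x * ε ∂μ := by
      rw [integral_mul_const, hv i hi]
      ring
    rw [e1, e2, ← integral_sub hF.integrableOn (hρ.mul_const _).integrableOn, ← Real.norm_eq_abs]
    refine norm_integral_le_of_norm_le (hρ.mul_const _).integrableOn ?_
    filter_upwards [ae_restrict_of_ae (hb i hi), ae_restrict_mem (hA i)] with x hx hx'
    rw [← mul_sub, Real.norm_eq_abs, abs_mul, abs_of_nonneg (hρ0 x)]
    exact mul_le_mul_of_nonneg_left (hx hx') (hρ0 x)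
  refine (Finset.sum_le_sum h5).trans ?_
  rw [Finset.sum_const, nsmul_eq_mul, hN]
  exact le_of_eq (by field_simp)

theorem integral_prod3 (f0 f1 f2 : ℝ → ℝ) :
    ∫ x : E3, f0 (x 0) * f1 (x 1) * f2 (x 2) = (∫ t, f0 t) * (∫ t, f1 t) * ∫ t, f2 t := by
  rw [← (PiLp.volume_preserving_toLp (Fin 3)).integral_comp
    (MeasurableEquiv.toLp 2 _).measurableEmbedding]
  have := integral_fintype_prod_volume_eq_prod (ι := Fin 3) (E := fun _ => ℝ) ![f0, f1, f2]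
  simpa [Fin.prod_univ_three] using this

/-- the `k`-th piece of a core interval -/
def iv (P : Pl) (n : ℕ) (a : ℤ) (k : ℕ) : Set ℝ :=
  Set.Ico ((a + P.th + (1 - P.th) * k / n) * P.l) ((a + P.th + (1 - P.th) * (k + 1) / n) * P.l)

/-- the pieces of a core box -/
def pc (P : Pl) (n : ℕ) (c : ℤ × ℤ) (i : ℕ × ℕ) : Set E3 :=
  {x | x 0 ∈ iv P n c.1 i.1 ∧ x 1 ∈ iv P n c.2 i.2 ∧ x 2 ∈ Set.Icc (-P.h) P.h}

theorem meas_coord (j : Fin 3) : Measurable fun x : E3 => x j := by fun_prop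

theorem pc_meas (P : Pl) (n : ℕ) (c : ℤ × ℤ) (i : ℕ × ℕ) : MeasurableSet (pc P n c i) :=
  (meas_coord 0 measurableSet_Ico).inter
    ((meas_coord 1 measurableSet_Ico).inter (meas_coord 2 measurableSet_Icc))

theorem Q_meas (P : Pl) (c : ℤ × ℤ) : MeasurableSet (P.Q c) :=
  (measurableSet_le measurable_const (meas_coord 0)).inter
    ((measurableSet_le (meas_coord 0) measurable_const).inter
      ((measurableSet_le measurable_const (meas_coord 1)).inter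
        ((measurableSet_le (meas_coord 1) measurable_const).inter
          (measurableSet_le (meas_coord 2).abs measurable_const))))

variable {P : Pl} {n : ℕ}

theorem iv_lt (hP : P.OK) (a : ℤ) {k k' : ℕ} (h : k < k') {t : ℝ} (ht : t ∈ iv P n a k)
    (ht' : t ∈ iv P n a k') : False := by
  have h1 : ((k : ℝ) + 1) ≤ k' := by exact_mod_cast h
  have h2 : 0 ≤ 1 - P.th := by linarith [hP.th_le]
  have h3 : (1 - P.th) * (k + 1) / n ≤ (1 - P.th) * k' / n := by gcongr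
  have h4 : (a + P.th + (1 - P.th) * (k + 1) / n) * P.l ≤
      (a + P.th + (1 - P.th) * k' / n) * P.l :=
    mul_le_mul_of_nonneg_right (by linarith) hP.l_pos.le
  linarith [ht.2, ht'.1]

theorem iv_eq (hP : P.OK) (a : ℤ) {k k' : ℕ} {t : ℝ} (ht : t ∈ iv P n a k)
    (ht' : t ∈ iv P n a k') : k = k' := by
  rcases lt_trichotomy k k' with h | h | h
  · exact (iv_lt hP a h ht ht').elim
  · exact h
  · exact (iv_lt hP a h ht' ht).elim

theorem pc_disj (hP : P.OK) (c : ℤ × ℤ) :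
    Set.Pairwise (idx n : Set (ℕ × ℕ)) (Disjoint on pc P n c) := by
  intro i _ j _ hij
  refine Set.disjoint_left.2 fun x hx hx' => hij ?_
  exact Prod.ext (iv_eq hP _ hx.1 hx'.1) (iv_eq hP _ hx.2.1 hx'.2.1)

theorem iv_sub (hP : P.OK) (a : ℤ) {k : ℕ} (hk : k < n) {t : ℝ} (ht : t ∈ iv P n a k) :
    (a + P.th) * P.l ≤ t ∧ t ≤ (a + 1) * P.l := by
  have hn : (0 : ℝ) < n := by exact_mod_cast (Nat.zero_le k).trans_lt hk
  have h1 : ((k : ℝ) + 1) ≤ n := by exact_mod_cast hk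
  have h2 : 0 ≤ 1 - P.th := by linarith [hP.th_le]
  have h3 : (1 - P.th) * (k + 1) / n ≤ 1 - P.th := by
    rw [div_le_iff₀ hn]
    gcongr
  have h4 : 0 ≤ (1 - P.th) * k / n := by positivity
  exact ⟨le_trans (mul_le_mul_of_nonneg_right (by linarith) hP.l_pos.le) ht.1,
    ht.2.le.trans (mul_le_mul_of_nonneg_right (by linarith) hP.l_pos.le)⟩

theorem pc_sub (hP : P.OK) (c : ℤ × ℤ) {i : ℕ × ℕ} (hi : i ∈ idx n) : pc P n c i ⊆ P.Q c := by
  intro x hx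
  simp only [idx, Finset.mem_product, Finset.mem_range] at hi
  obtain ⟨a1, a2⟩ := iv_sub hP _ hi.1 hx.1
  obtain ⟨b1, b2⟩ := iv_sub hP _ hi.2 hx.2.1
  exact ⟨a1, a2, b1, b2, abs_le.2 hx.2.2⟩

theorem iv_vol (hP : P.OK) (a : ℤ) (k : ℕ) :
    ∫ t, (iv P n a k).indicator (fun _ => (1 : ℝ)) t = (1 - P.th) * P.l / n := by
  have h2 : 0 ≤ 1 - P.th := by linarith [hP.th_le]
  have h3 := hP.l_pos
  rw [iv, integral_indicator measurableSet_Ico, setIntegral_const, Real.volume_real_Ico,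
    smul_eq_mul, mul_one]
  have : (a + P.th + (1 - P.th) * (k + 1) / n) * P.l - (a + P.th + (1 - P.th) * k / n) * P.l =
      (1 - P.th) * P.l / n := by ring
  rw [this, max_eq_left (by positivity)]

theorem m0_pos (hL : LocStmt) (hP : P.OK) : 0 < P.m0 := by
  have h2 : 0 < 1 - P.th := by linarith [hP.th_le]
  have h3 := hP.l_pos
  have h4 := hL.Z_pos P hP
  rw [Pl.m0]
  positivity

theorem th0_sq (hL : LocStmt) (hP : P.OK) (c : ℤ × ℤ) (x : E3) :
    P.th0 c x ^ 2 = (P.Q c).indicator (fun x => chi P.Om (x 2) ^ 2 / P.m0) x := by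
  by_cases hx : x ∈ P.Q c
  · rw [Pl.th0, Set.indicator_of_mem hx, Set.indicator_of_mem hx, div_pow,
      Real.sq_sqrt (m0_pos hL hP).le]
  · rw [Pl.th0, Set.indicator_of_notMem hx, Set.indicator_of_notMem hx]
    ring

theorem int_th0_sq (hL : LocStmt) (hP : P.OK) (c : ℤ × ℤ) : ∫ x, P.th0 c x ^ 2 = 1 := by
  simp only [th0_sq hL hP]
  rw [integral_indicator (Q_meas P c), integral_div, hL.vol_Q P hP, div_self (m0_pos hL hP).ne']

theorem th0_meas (hL : LocStmt) (P : Pl) (c : ℤ × ℤ) : Measurable (P.th0 c) :=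
  (((hL.chi_c2 P.Om).continuous.measurable.comp (meas_coord 2)).div_const _).indicator (Q_meas P c)

theorem int_pc (hL : LocStmt) (hP : P.OK) (c : ℤ × ℤ) {i : ℕ × ℕ} (hi : i ∈ idx n) :
    ∫ x in pc P n c i, P.th0 c x ^ 2 = 1 / (n : ℝ) ^ 2 := by
  have h1 : ∫ x in pc P n c i, P.th0 c x ^ 2 = ∫ x in pc P n c i, chi P.Om (x 2) ^ 2 / P.m0 :=
    setIntegral_congr_fun (pc_meas P n c i) fun x hx => by
      simp only
      rw [th0_sq hL hP, Set.indicator_of_mem (pc_sub hP c hi hx)]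
  have h2 : (pc P n c i).indicator (fun x : E3 => chi P.Om (x 2) ^ 2) = fun x : E3 =>
      (iv P n c.1 i.1).indicator (fun _ => (1 : ℝ)) (x 0) *
        (iv P n c.2 i.2).indicator (fun _ => (1 : ℝ)) (x 1) *
        (Set.Icc (-P.h) P.h).indicator (fun z => chi P.Om z ^ 2) (x 2) := by
    funext x
    by_cases h0 : x 0 ∈ iv P n c.1 i.1 <;> by_cases h1 : x 1 ∈ iv P n c.2 i.2 <;>
      by_cases h2 : x 2 ∈ Set.Icc (-P.h) P.h <;>
      simp [pc, Set.indicator, h0, h1, h2, -Set.mem_Icc]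
  have h3 : ∫ z, (Set.Icc (-P.h) P.h).indicator (fun z => chi P.Om z ^ 2) z = P.Z := by
    rw [integral_indicator measurableSet_Icc, Pl.Z,
      intervalIntegral.integral_of_le (by linarith [hP.h_pos]), integral_Icc_eq_integral_Ioc]
  have h4 : 0 < 1 - P.th := by linarith [hP.th_le]
  have h5 := hP.l_pos
  have h6 := hL.Z_pos P hP
  rw [h1, integral_div, ← integral_indicator (pc_meas P n c i), h2, integral_prod3, iv_vol hP,
    iv_vol hP, h3, Pl.m0]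
  field_simp

/-! ## The pointwise estimate -/

theorem kap_lip {τ r r' : ℝ} (hτ : 0 < τ) :
    |1 / max r (1 / τ) - 1 / max r' (1 / τ)| ≤ τ ^ 2 * |r - r'| := by
  have h0 : 0 < 1 / τ := by positivity
  have h1 : 1 / τ ≤ max r (1 / τ) := le_max_right _ _
  have h2 : 1 / τ ≤ max r' (1 / τ) := le_max_right _ _
  have h3 := abs_max_sub_max_le_abs r r' (1 / τ)
  have a0 : 0 < max r (1 / τ) := h0.trans_le h1
  have b0 : 0 < max r' (1 / τ) := h0.trans_le h2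
  generalize max r (1 / τ) = a at *
  generalize max r' (1 / τ) = b at *
  have e : 1 / a - 1 / b = -(a - b) * (1 / a) * (1 / b) := by field_simp; ring
  have a1 : 1 / a ≤ τ := by rwa [one_div_le a0 hτ]
  have b1 : 1 / b ≤ τ := by rwa [one_div_le b0 hτ]
  rw [e, abs_mul, abs_mul, abs_neg, abs_of_pos (one_div_pos.2 a0), abs_of_pos (one_div_pos.2 b0)]
  calc |a - b| * (1 / a) * (1 / b) ≤ |r - r'| * τ * τ := by gcongr
    _ = τ ^ 2 * |r - r'| := by ring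

theorem wt_eq {τ l : ℝ} (hτ : 0 < τ) (hl : 0 < l) {z : E3} (hz : z ≠ 0) :
    wt (τ / l) z = 1 / max (‖z‖ / l) (1 / τ) / l := by
  have h0 : 0 < ‖z‖ := norm_pos_iff.2 hz
  rw [wt]
  rcases le_total (‖z‖ / l) (1 / τ) with h | h
  · rw [max_eq_right h, one_div_one_div, min_eq_right]
    rw [div_le_div_iff₀ hl hτ] at h
    rw [div_le_div_iff₀ hl h0]
    linarith
  · rw [max_eq_left h, min_eq_left]
    · field_simp
    · rw [div_le_div_iff₀ hτ hl] at h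
      rw [div_le_div_iff₀ h0 hl]
      linarith

theorem norm_le_three (v : E3) : ‖v‖ ≤ |v 0| + |v 1| + |v 2| := by
  rw [EuclideanSpace.norm_eq]
  refine Real.sqrt_le_iff.2 ⟨by positivity, ?_⟩
  simp only [Fin.sum_univ_three, Real.norm_eq_abs]
  nlinarith [mul_nonneg (abs_nonneg (v 0)) (abs_nonneg (v 1)),
    mul_nonneg (abs_nonneg (v 0)) (abs_nonneg (v 2)),
    mul_nonneg (abs_nonneg (v 1)) (abs_nonneg (v 2))]

theorem norm_close (v : E3) (a b : ℝ) :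
    |‖v‖ - √(a ^ 2 + b ^ 2)| ≤ |v 0 - a| + |v 1 - b| + |v 2| := by
  have h1 : ‖(WithLp.toLp 2 ![a, b, 0] : E3)‖ = √(a ^ 2 + b ^ 2) := by
    rw [EuclideanSpace.norm_eq]
    simp [Fin.sum_univ_three]
  rw [← h1]
  refine (abs_norm_sub_norm_le _ _).trans ((norm_le_three _).trans (le_of_eq ?_))
  simp

theorem iv_close (hP : P.OK) (hn : 0 < n) {a a' : ℤ} {k k' : ℕ} {t t' : ℝ} (ht : t ∈ iv P n a k)
    (ht' : t' ∈ iv P n a' k') :
    |P.l⁻¹ * (t - t') - (((a : ℝ) - a') + (1 - P.th) * ((k : ℝ) - k') / n)| ≤ 1 / n := by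
  have hn' : (0 : ℝ) < n := by exact_mod_cast hn
  have hl := hP.l_pos
  have h1 : (1 - P.th) / n ≤ 1 / n := by
    gcongr
    linarith [hP.th_pos]
  have a1 := (le_div_iff₀ hl).2 ht.1
  have a2 := (div_lt_iff₀ hl).2 ht.2
  have b1 := (le_div_iff₀ hl).2 ht'.1
  have b2 := (div_lt_iff₀ hl).2 ht'.2
  have e1 : P.l⁻¹ * (t - t') = t / P.l - t' / P.l := by ring
  have e2 : (1 - P.th) * ((k : ℝ) - k') / n = (1 - P.th) * k / n - (1 - P.th) * k' / n := by ring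
  have e3 : (1 - P.th) * ((k : ℝ) + 1) / n = (1 - P.th) * k / n + (1 - P.th) / n := by ring
  have e4 : (1 - P.th) * ((k' : ℝ) + 1) / n = (1 - P.th) * k' / n + (1 - P.th) / n := by ring
  rw [e1, e2, abs_le]
  constructor <;> linarith

theorem pointwise (hP : P.OK) (hn : 0 < n) {θ τ : ℚ} (hθ : P.th = θ) (hτ : 1 ≤ τ) {c c' : ℤ × ℤ}
    {i j : ℕ × ℕ} {x y : E3} (hx : x ∈ pc P n c i) (hy : y ∈ pc P n c' j) (hxy : y ≠ x) :
    |wt (τ / P.l) (x - y) - (tm n θ τ (c - c') i j : ℝ) / P.l| ≤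
      τ ^ 2 / P.l * (5 / n + 4 * P.h / P.l) := by
  have hn' : (0 : ℝ) < n := by exact_mod_cast hn
  have hl := hP.l_pos
  have hh := hP.h_pos
  have hτ' : (0 : ℝ) < τ := by exact_mod_cast (zero_lt_one.trans_le hτ)
  set q : ℚ := (((c - c').1 : ℤ) + (1 - θ) * ((i.1 : ℚ) - j.1) / n) ^ 2 +
      (((c - c').2 : ℤ) + (1 - θ) * ((i.2 : ℚ) - j.2) / n) ^ 2 with hq
  have hq0 : 0 ≤ q := by positivity
  have e1 : (tm n θ τ (c - c') i j : ℝ) = 1 / max ((rsq n q : ℚ) : ℝ) (1 / τ) := by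
    rw [tm]
    push_cast
    rfl
  have e2 : (q : ℝ) = (((c.1 : ℝ) - c'.1) + (1 - P.th) * ((i.1 : ℝ) - j.1) / n) ^ 2 +
      (((c.2 : ℝ) - c'.2) + (1 - P.th) * ((i.2 : ℝ) - j.2) / n) ^ 2 := by
    rw [hq, hθ]
    simp
  have h1 := norm_close (P.l⁻¹ • (x - y))
    (((c.1 : ℝ) - c'.1) + (1 - P.th) * ((i.1 : ℝ) - j.1) / n)
    (((c.2 : ℝ) - c'.2) + (1 - P.th) * ((i.2 : ℝ) - j.2) / n)
  rw [← e2, norm_smul, norm_inv, Real.norm_of_nonneg hl.le, inv_mul_eq_div] at h1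
  simp only [PiLp.smul_apply, PiLp.sub_apply, smul_eq_mul] at h1
  have h2 := iv_close hP hn hx.1 hy.1
  have h3 := iv_close hP hn hx.2.1 hy.2.1
  have h4 : |P.l⁻¹ * (x 2 - y 2)| ≤ 2 * P.h / P.l := by
    rw [abs_mul, abs_of_pos (inv_pos.2 hl), inv_mul_eq_div]
    gcongr
    rw [abs_le]
    constructor <;> linarith [hx.2.2.1, hx.2.2.2, hy.2.2.1, hy.2.2.2]
  have h5 := rsq_le hn hq0
  have h6 := le_rsq hn q
  have h7 : |‖x - y‖ / P.l - ((rsq n q : ℚ) : ℝ)| ≤ 5 / n + 4 * P.h / P.l := by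
    have k1 : (5 : ℝ) / n = 5 * (1 / n) := by ring
    have k2 : 4 * P.h / P.l = 2 * (2 * P.h / P.l) := by ring
    have k3 : (0 : ℝ) ≤ 1 / n := by positivity
    have k4 : 0 ≤ 2 * P.h / P.l := by positivity
    have k5 := abs_le.1 (h1.trans (add_le_add (add_le_add h2 h3) h4))
    rw [abs_le]
    constructor <;> linarith [k5.1, k5.2]
  rw [wt_eq hτ' hl (sub_ne_zero.2 hxy.symm), e1, ← sub_div, abs_div, abs_of_pos hl,
    div_mul_eq_mul_div]
  gcongr
  exact (kap_lip hτ').trans (by gcongr)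

theorem wt_meas (τ : ℝ) : Measurable (wt τ) :=
  (measurable_const.div measurable_norm).min measurable_const

theorem wt_abs {τ : ℝ} (hτ : 0 ≤ τ) (z : E3) : ‖wt τ z‖ ≤ τ := by
  rw [wt, Real.norm_of_nonneg (le_min (by positivity) hτ)]
  exact min_le_right _ _

theorem main (hL : LocStmt) (hP : P.OK) (hn : 0 < n) {θ τ : ℚ} (hθ : P.th = θ) (hτ : 1 ≤ τ)
    (c c' : ℤ × ℤ) :
    |(∫ x, ∫ y, P.th0 c x ^ 2 * P.th0 c' y ^ 2 * wt (τ / P.l) (x - y)) -
      Kq n θ τ (c - c') / P.l| ≤ τ ^ 2 / P.l * (5 / n + 4 * P.h / P.l) := by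
  have hn' : (0 : ℝ) < n := by exact_mod_cast hn
  have hl := hP.l_pos
  have hτ' : (0 : ℝ) ≤ τ / P.l := div_nonneg (by exact_mod_cast zero_le_one.trans hτ) hl.le
  have hN : ((idx n).card : ℝ) = (n : ℝ) ^ 2 := by rw [card_sq, Nat.cast_pow]
  have hint : ∀ c, Integrable fun x => P.th0 c x ^ 2 := fun c =>
    Integrable.of_integral_ne_zero (by rw [int_th0_sq hL hP]; exact one_ne_zero)
  have e1 : ∀ x, ∫ y, P.th0 c x ^ 2 * P.th0 c' y ^ 2 * wt (τ / P.l) (x - y) =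
      P.th0 c x ^ 2 * ∫ y, P.th0 c' y ^ 2 * wt (τ / P.l) (x - y) := fun x => by
    simp only [mul_assoc]
    rw [integral_const_mul]
  have e2 : ((Kq n θ τ (c - c') : ℚ) : ℝ) / P.l =
      (∑ i ∈ idx n, (∑ j ∈ idx n, (tm n θ τ (c - c') i j : ℝ) / P.l) / (n : ℝ) ^ 2) / (n : ℝ) ^ 2 := by
    rw [Kq_eq]
    push_cast
    simp only [← Finset.sum_div]
    ring
  have hin : ∀ x : E3, Integrable fun y => P.th0 c' y ^ 2 * wt (τ / P.l) (x - y) := fun x =>
    (hint c').mul_bdd ((wt_meas _).comp (measurable_const.sub measurable_id)).aestronglyMeasurable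
      (Filter.Eventually.of_forall fun y => wt_abs hτ' _)
  have hm : StronglyMeasurable fun x : E3 => ∫ y, P.th0 c' y ^ 2 * wt (τ / P.l) (x - y) :=
    StronglyMeasurable.integral_prod_right
      (f := fun x y : E3 => P.th0 c' y ^ 2 * wt (τ / P.l) (x - y))
      (Measurable.stronglyMeasurable ((((th0_meas hL P c').comp measurable_snd).pow_const 2).mul
        ((wt_meas _).comp (measurable_fst.sub measurable_snd))))
  have hb : ∀ x : E3, ‖∫ y, P.th0 c' y ^ 2 * wt (τ / P.l) (x - y)‖ ≤ τ / P.l := fun x => by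
    refine (norm_integral_le_of_norm_le ((hint c').mul_const (τ / P.l))
      (Filter.Eventually.of_forall fun y => ?_)).trans ?_
    · rw [norm_mul, Real.norm_of_nonneg (sq_nonneg _)]
      exact mul_le_mul_of_nonneg_left (wt_abs hτ' _) (sq_nonneg _)
    · rw [integral_mul_const, int_th0_sq hL hP, one_mul]
  simp only [e1]
  rw [e2]
  refine avg1 (fun x => sq_nonneg _) (int_th0_sq hL hP c)
    ((hint c).mul_bdd hm.aestronglyMeasurable (Filter.Eventually.of_forall hb)) (pc_meas P n c)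
    (pc_disj hP c) hN (by positivity) (fun i hi => int_pc hL hP c hi) fun i _ =>
      Filter.Eventually.of_forall fun x hx => ?_
  refine avg1 (fun x => sq_nonneg _) (int_th0_sq hL hP c') (hin x) (pc_meas P n c')
    (pc_disj hP c') hN (by positivity) (fun i hi => int_pc hL hP c' hi) fun j _ => ?_
  filter_upwards [compl_mem_ae_iff.2 (measure_singleton x)] with y hy hy'
  exact pointwise hP hn hθ hτ hx hy' hy

end Kq

open Kq in
theorem kq (hL : LocStmt) : KqStmt := by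
  intro n θ τ hn h0 h1 hτ
  have hn0 : 0 < n := by omega
  have hτ0 : 0 < τ := zero_lt_one.trans_le hτ
  have hτ1 : 0 < 1 / τ := by positivity
  refine ⟨fun Δ => ?_, fun Δ => ⟨le_Kq hn0 fun i _ j _ => ?_, Kq_le hn0 fun i _ j _ => ?_⟩,
    fun Δ D hD hΔ => Kq_le hn0 fun i hi j hj => ?_,
    fun Δ D hΔ1 hΔ2 => le_Kq hn0 fun i hi j hj => ?_, fun P hP hθ c c' => main hL hP hn0 hθ hτ c c'⟩
  · rw [Kq_eq, Kq_eq, Finset.sum_comm]
    congr 1
    refine Finset.sum_congr rfl fun i _ => Finset.sum_congr rfl fun j _ => ?_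
    simp only [tm, Prod.fst_neg, Prod.snd_neg, Int.cast_neg]
    congr 3
    ring
  · exact (one_div_pos.2 (hτ1.trans_le (le_max_right _ _))).le
  · rw [tm, one_div_le (hτ1.trans_le (le_max_right _ _)) hτ0]
    exact le_max_right _ _
  · simp only [idx, Finset.mem_product, Finset.mem_range] at hi hj
    have h3 : (3 : ℚ) ≤ D := by exact_mod_cast hD
    refine one_div_le_one_div_of_le (by linarith) (le_trans ?_ (le_max_left _ _))
    have e : (D : ℚ) - 2 = (D - 1) - 1 := by ring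
    rw [e]
    refine le_rsq_of_sq_le hn ?_
    rcases hΔ with h | h
    · exact (far_aux hD h (abs_off h0 h1 hi.1 hj.1)).trans (le_add_of_nonneg_right (sq_nonneg _))
    · exact (far_aux hD h (abs_off h0 h1 hi.2 hj.2)).trans (le_add_of_nonneg_left (sq_nonneg _))
  · simp only [idx, Finset.mem_product, Finset.mem_range] at hi hj
    have h3 : (0 : ℚ) ≤ D := by positivity
    refine one_div_le_one_div_of_le (hτ1.trans_le (le_max_right _ _)) (max_le ?_ ?_)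
    · refine rsq_le_of_le_sq hn0 (by positivity) (by positivity) ?_
      have a := near_aux hΔ1 (abs_off h0 h1 hi.1 hj.1)
      have b := near_aux hΔ2 (abs_off h0 h1 hi.2 hj.2)
      nlinarith
    · have : 1 / τ ≤ 1 := by rwa [div_le_one hτ0]
      linarith

end Crest.Agent.R338
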