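import Crest.Agent.R338.DefsF

/-!
# Row 338: the displaced lattice realises the design potential
-/

noncomputable section

open MeasureTheory Function

namespace Crest.Agent.R338

namespace LatAux

/-- The map `ℓ ↦ -κ ℓ^♯`. -/
def dL0 (κ : ℝ) : (E3 →L[ℝ] ℝ) →ₗ[ℝ] E3 where
  toFun ℓ := WithLp.toLp 2 fun j => -(κ * ℓ (EuclideanSpace.single j (1 : ℝ)))
  map_add' a b := by ext j; simp; ring
  map_smul' c a := by ext j; simp; ring

theorem dL0_bound {κ : ℝ} (hκ : 0 ≤ κ) (ℓ : E3 →L[ℝ] ℝ) : ‖dL0 κ ℓ‖ ≤ 2 * κ * ‖ℓ‖ := by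
  have h : ∀ j : Fin 3, (κ * ℓ (EuclideanSpace.single j (1 : ℝ))) ^ 2 ≤ (κ * ‖ℓ‖) ^ 2 := by
    intro j
    have h1 : |ℓ (EuclideanSpace.single j (1 : ℝ))| ≤ ‖ℓ‖ := by
      simpa using ℓ.le_opNorm (EuclideanSpace.single j (1 : ℝ))
    rw [mul_pow, mul_pow, ← sq_abs (ℓ _)]
    gcongr
  refine le_of_sq_le_sq ?_ (by positivity)
  rw [EuclideanSpace.real_norm_sq_eq, Fin.sum_univ_three]
  have h0 := h 0
  have h1 := h 1
  have h2 := h 2
  change (-(κ * ℓ (EuclideanSpace.single 0 (1 : ℝ)))) ^ 2 +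
    (-(κ * ℓ (EuclideanSpace.single 1 (1 : ℝ)))) ^ 2 +
    (-(κ * ℓ (EuclideanSpace.single 2 (1 : ℝ)))) ^ 2 ≤ _
  nlinarith [sq_nonneg (κ * ‖ℓ‖)]

theorem disp_contDiff (κ : ℝ) {Φ : E3 → ℝ} (hΦ : ContDiff ℝ 5 Φ) : ContDiff ℝ 4 (disp κ Φ) := by
  have e : disp κ Φ = (LinearMap.toContinuousLinearMap (dL0 κ)) ∘ fderiv ℝ Φ := rfl
  rw [e]
  exact (ContinuousLinearMap.contDiff _).comp (hΦ.fderiv_right (by norm_num))

theorem disp_bound {κ : ℝ} (hκ : 0 ≤ κ) {Φ : E3 → ℝ} (hΦ : ContDiff ℝ 5 Φ) {i : ℕ} (hi : i ≤ 4)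
    (y : E3) : ‖iteratedFDeriv ℝ i (disp κ Φ) y‖ ≤ 2 * κ * ‖iteratedFDeriv ℝ (i + 1) Φ y‖ := by
  have e : disp κ Φ = ((dL0 κ).mkContinuous _ (dL0_bound hκ)) ∘ fderiv ℝ Φ := rfl
  have h4 : ContDiff ℝ 4 (fderiv ℝ Φ) := hΦ.fderiv_right (by norm_num)
  rw [e, ← norm_iteratedFDeriv_fderiv]
  refine (ContinuousLinearMap.norm_iteratedFDeriv_comp_left _ h4.contDiffAt
    (by exact_mod_cast hi)).trans ?_
  gcongr
  exact LinearMap.mkContinuous_norm_le _ (by positivity) _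

theorem closed_box (a b c : ℝ) : IsClosed {y : E3 | |y 0| ≤ a ∧ |y 1| ≤ b ∧ |y 2| ≤ c} := by
  have h : ∀ (j : Fin 3) (r : ℝ), IsClosed {y : E3 | |y j| ≤ r} := fun j r =>
    isClosed_le (by fun_prop) continuous_const
  exact (h 0 a).inter ((h 1 b).inter (h 2 c))

theorem disp_ok {ρ πq P lam Rr : ℝ} {Φ : E3 → ℝ} (hρ : 0 < ρ) (hq : 3 ≤ πq) (hΦ : ContDiff ℝ 5 Φ)
    (hs : ∀ y, Φ y ≠ 0 → |y 0| ≤ Rr ∧ |y 1| ≤ Rr ∧ |y 2| ≤ 1 / 2) (hl : 1 ≤ lam)
    (hd : ∀ i ≤ 5, ∀ x, ‖iteratedFDeriv ℝ i Φ x‖ ≤ P * lam ^ i) (h2 : P * lam ^ 2 ≤ ρ) :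
    Disp (disp (1 / (4 * πq * ρ)) Φ) Rr (P * lam ^ 5 / ρ) := by
  have hP : 0 ≤ P := by simpa using (norm_nonneg _).trans (hd 0 (by norm_num) 0)
  set a := P * lam ^ 2 / ρ with ha
  have ha0 : 0 ≤ a := by positivity
  have ha1 : a ≤ 1 := (div_le_one hρ).2 h2
  have hη : P * lam ^ 5 / ρ = a * lam ^ 3 := by rw [ha]; ring
  have key : ∀ i ≤ 3, ∀ y,
      ‖iteratedFDeriv ℝ (i + 1) (disp (1 / (4 * πq * ρ)) Φ) y‖ ≤ a * lam ^ i / 2 := by
    intro i hi y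
    refine (disp_bound (by positivity) hΦ (by omega) y).trans ?_
    calc 2 * (1 / (4 * πq * ρ)) * ‖iteratedFDeriv ℝ (i + 1 + 1) Φ y‖
        ≤ 2 * (1 / (4 * 1 * ρ)) * (P * lam ^ (i + 1 + 1)) := by
          gcongr
          · linarith
          · exact hd _ (by omega) y
      _ = a * lam ^ i / 2 := by rw [ha]; field_simp; ring
  have key' : ∀ i ≤ 3, ∀ y,
      ‖iteratedFDeriv ℝ (i + 1) (disp (1 / (4 * πq * ρ)) Φ) y‖ ≤ a * lam ^ i := fun i hi y =>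
    (key i hi y).trans (half_le_self (by positivity))
  refine ⟨disp_contDiff _ hΦ, fun y hy => ?_, fun y => ?_, fun y => ?_, fun y => ?_, fun y => ?_⟩
  · by_contra hc
    apply hy
    have hcl := closed_box Rr Rr (1 / 2)
    have h0 : Φ =ᶠ[nhds y] fun _ => 0 := by
      filter_upwards [hcl.isOpen_compl.mem_nhds hc] with z hz
      by_contra h
      exact hz (hs z h)
    ext j
    simp [disp, pd, h0.fderiv_eq]
  · have := key 0 (by norm_num) y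
    rw [pow_zero] at this
    exact this.trans (by linarith)
  · have := key' 1 (by norm_num) y
    calc _ ≤ (a * lam ^ 1) ^ 3 := by gcongr
      _ = a ^ 2 * (a * lam ^ 3) := by ring
      _ ≤ 1 ^ 2 * (a * lam ^ 3) := by gcongr
      _ = _ := by rw [hη]; ring
  · have := key' 2 (by norm_num) y
    calc _ ≤ (a * lam ^ 2) ^ 3 := by gcongr
      _ = a * (a * lam ^ 3) ^ 2 := by ring
      _ ≤ 1 * (a * lam ^ 3) ^ 2 := by gcongr
      _ = _ := by rw [hη]; ring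
  · rw [hη]
    exact key' 3 (by norm_num) y

theorem lat_inj {N1 NA : ℕ} (h : 0 < N1) : Injective (lat N1 NA) := by
  intro α β hab
  have hN : (N1 : ℝ) ≠ 0 := by positivity
  have h0 := congrArg (fun v : E3 => v 0) hab
  have h1 := congrArg (fun v : E3 => v 1) hab
  have h2 := congrArg (fun v : E3 => v 2) hab
  simp [lat, hN] at h0 h1 h2
  exact Prod.ext (Fin.ext h0) (Prod.ext (Fin.ext h1) (Fin.ext h2))

theorem lap_cont {G : E3 → ℝ} (hG : ContDiff ℝ 2 G) : Continuous (lap G) := by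
  refine continuous_finsetSum _ fun j _ => ?_
  have h1 : ContDiff ℝ 1 (pd j G) :=
    (hG.fderiv_right (m := 1) (by norm_num)).clm_apply contDiff_const
  exact (h1.continuous_fderiv (by norm_num)).clm_apply continuous_const

theorem box_meas (A : ℝ) : MeasurableSet (box A) := (closed_box A A 1).measurableSet

/-- the mass of the mollifier inside the slab -/
theorem mass {k : E3 → ℝ} {B A : ℝ} (hA : 2 ≤ A) (h0 : ∀ x, 0 ≤ k x) (hi : Integrable k)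
    (h1 : ∫ x, k x = 1) (hi' : Integrable fun x => ‖x‖ * k x) (hB : ∫ x, ‖x‖ * k x ≤ B) (x : E3) :
    ∫ y in box A, k (x - y) ≤ 1 ∧ (‖x‖ ≤ 1 / 2 → 1 - 2 * B ≤ ∫ y in box A, k (x - y)) := by
  have e1 : ∫ y, k (x - y) = 1 := by rw [integral_sub_left_eq_self k volume x, h1]
  have i1 : Integrable fun y => k (x - y) := hi.comp_sub_left x
  refine ⟨e1 ▸ setIntegral_le_integral i1 (Filter.Eventually.of_forall fun y => h0 _), fun hx => ?_⟩
  have i2 : Integrable fun y => ‖x - y‖ * k (x - y) := hi'.comp_sub_left x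
  have e2 : ∫ y, ‖x - y‖ * k (x - y) = ∫ y, ‖y‖ * k y :=
    integral_sub_left_eq_self (fun y => ‖y‖ * k y) volume x
  have e3 := integral_add_compl (box_meas A) i1
  have h3 : ∫ y in (box A)ᶜ, k (x - y) ≤ ∫ y in (box A)ᶜ, 2 * (‖x - y‖ * k (x - y)) := by
    refine setIntegral_mono_on i1.integrableOn (i2.const_mul 2).integrableOn (box_meas A).compl
      fun y hy => ?_
    have h4 : ∀ j, 1 < |y j| → 1 / 2 ≤ ‖x - y‖ := by
      intro j hj
      have a1 : |(x - y) j| ≤ ‖x - y‖ := PiLp.norm_apply_le (x - y) j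
      have a2 : |x j| ≤ ‖x‖ := PiLp.norm_apply_le x j
      have a3 := abs_sub_abs_le_abs_sub (y j) (x j)
      rw [PiLp.sub_apply, abs_sub_comm] at a1
      linarith
    have h5 : 1 / 2 ≤ ‖x - y‖ := by
      by_contra hc
      apply hy
      refine ⟨?_, ?_, ?_⟩ <;> by_contra h <;> exact hc (h4 _ (by linarith [not_le.1 h]))
    nlinarith [h0 (x - y)]
  have h4 : ∫ y in (box A)ᶜ, 2 * (‖x - y‖ * k (x - y)) ≤ ∫ y, 2 * (‖x - y‖ * k (x - y)) :=
    setIntegral_le_integral (i2.const_mul 2)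
      (Filter.Eventually.of_forall fun y => by have := h0 (x - y); positivity)
  rw [integral_const_mul (μ := volume), e2] at h4
  linarith

/-- the form-small part -/
theorem small (hH : HardyStmt) {ι : Type} [Fintype ι] (R : ι → E3) {g : E3 → ℝ} (hg : Continuous g)
    {ε : ℝ} (hε : 0 ≤ ε) (hb : ∀ x, x ≠ 0 → |1 / ‖x‖ - g x| ≤ 2 * ε / ‖x‖ ^ 2) (ψ : E3 → ℂ)
    (hψ : C1c ψ) :
    Integrable (fun x => (∑ α, (1 / ‖x - R α‖ - g (x - R α))) * ‖ψ x‖ ^ 2) ∧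
      |pot (fun x => ∑ α, (1 / ‖x - R α‖ - g (x - R α))) ψ| ≤
        8 * ε * Fintype.card ι * dir ψ := by
  have hc : Continuous ψ := hψ.1.continuous
  have hb' : ∀ α, ∀ᵐ x : E3, ‖(1 / ‖x - R α‖ - g (x - R α)) * ‖ψ x‖ ^ 2‖ ≤
      2 * ε * (1 / ‖x - R α‖ ^ 2 * ‖ψ x‖ ^ 2) := by
    intro α
    filter_upwards [Measure.ae_ne volume (R α)] with x hx
    rw [Real.norm_eq_abs, abs_mul, abs_of_nonneg (by positivity : 0 ≤ ‖ψ x‖ ^ 2), ← mul_assoc,
      mul_one_div]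
    gcongr
    exact hb _ (sub_ne_zero.2 hx)
  have hi : ∀ α, Integrable fun x => (1 / ‖x - R α‖ - g (x - R α)) * ‖ψ x‖ ^ 2 := fun α =>
    ((hH ψ (R α) hψ).1.const_mul (2 * ε)).mono' (Measurable.aestronglyMeasurable (by fun_prop))
      (hb' α)
  simp only [pot, Finset.sum_mul]
  refine ⟨integrable_finsetSum _ fun α _ => hi α, ?_⟩
  rw [integral_finsetSum _ fun α _ => hi α]
  refine (Finset.abs_sum_le_sum_abs _ _).trans ?_
  have h1 : ∀ α, |∫ x, (1 / ‖x - R α‖ - g (x - R α)) * ‖ψ x‖ ^ 2| ≤ 8 * ε * dir ψ := by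
    intro α
    have h2 := norm_integral_le_of_norm_le ((hH ψ (R α) hψ).1.const_mul (2 * ε)) (hb' α)
    rw [integral_const_mul, Real.norm_eq_abs] at h2
    have h3 := (hH ψ (R α) hψ).2
    nlinarith
  refine (Finset.sum_le_sum fun α _ => h1 α).trans ?_
  rw [Finset.sum_const, nsmul_eq_mul, Finset.card_univ]
  exact le_of_eq (by ring)

end LatAux

open LatAux

theorem latOK (hK : KerStmt) (hE : EpSmoothStmt) (hB : EpBoundStmt) (hF : FirstStmt)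
    (hS : SlabStmt) (hH : HardyStmt) (hC : CompStmt) : LatStmt := by
  obtain ⟨CK, hCK, hK⟩ := hK
  obtain ⟨CB, hCB, hB⟩ := hB
  obtain ⟨CF, hCF, hF⟩ := hF
  obtain ⟨CS, hCS, hS⟩ := hS
  obtain ⟨CC, -, hC⟩ := hC
  have hBK : 1 ≤ CB * CK := one_le_mul_of_one_le_of_one_le hCB hCK
  refine ⟨CB * CK + CF + CS + 2 * CK, by linarith, ?_⟩
  intro N1 NA πq P lam Rr ε Φ hN hNA hq3 hq4 hΦ hs hR1 hR2 hl hd h2 h5 hε hε2
  obtain ⟨k1, k2, -, k4, k5, -, k7, k8, k9, k10, k11⟩ := hK ε hε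
  have hN0 : (0 : ℝ) < N1 := by exact_mod_cast (by omega : 0 < N1)
  have hNA1 : (1 : ℝ) ≤ NA := by exact_mod_cast (by omega : 1 ≤ NA)
  have hρ : (0 : ℝ) < (N1 : ℝ) ^ 3 := by positivity
  have hP : 0 ≤ P := by simpa using (norm_nonneg _).trans (hd 0 (by norm_num) 0)
  have hA : (2 : ℝ) ≤ NA / N1 := by
    rw [le_div_iff₀ hN0]; exact_mod_cast hNA
  have hD := disp_ok hρ hq3 hΦ hs hl hd h2
  set u := disp (1 / (4 * πq * (N1 : ℝ) ^ 3)) Φ with hu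
  have hη : P * lam ^ 5 / (N1 : ℝ) ^ 3 ≤ (N1 : ℝ) ^ 3 := by
    rw [div_le_iff₀ hρ]; linarith
  refine ⟨fun α β hab => ?_, ?_⟩
  · obtain ⟨y0, -, hy, -⟩ := hC u Rr _ ε CK 1 (kk ε) (lat N1 NA α + u (lat N1 NA α)) hD hε
      (by linarith) (Or.inr rfl) k1
    have a1 := hy (lat N1 NA α)
    have a2 := hy (lat N1 NA β)
    rw [sub_self, norm_zero] at a1
    rw [show lat N1 NA α + u (lat N1 NA α) = _ from hab, sub_self, norm_zero] at a2
    have b1 : lat N1 NA α - y0 = 0 := norm_le_zero_iff.1 (by linarith)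
    have b2 : lat N1 NA β - y0 = 0 := norm_le_zero_iff.1 (by linarith)
    exact lat_inj (by omega) ((sub_eq_zero.1 b1).trans (sub_eq_zero.1 b2).symm)
  obtain ⟨e1, e2, e3⟩ := hE N1 NA u (kk ε) hD.smooth.continuous k1.1
  have hlk : Continuous (lap (kk ε)) := lap_cont (contDiff_infty.1 k1.1 2)
  have hlog : 0 ≤ Real.log NA := Real.log_nonneg hNA1
  have hlog' : 0 ≤ Real.log (1 / ε) := Real.log_nonneg (by rw [le_div_iff₀ hε]; linarith)
  have hU : ∀ x, -(∑ α : LatIdx N1 NA, lap (kk ε) (x - (lat N1 NA α + u (lat N1 NA α)))) - Φ x +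
      lap (Ep N1 NA u (kk ε)) x =
      -((N1 : ℝ) ^ 3 * ∫ y in box (NA / N1), lap (kk ε) (x - (y + u y))) - Φ x -
        Real.pi * N1 / 6 * ∫ y in box (NA / N1), kap ε (x - y) := by
    intro x
    rw [e3, Ep]
    simp only [k4, integral_const_mul]
    ring
  have hPl : P * lam ≤ (N1 : ℝ) ^ 3 := by
    refine le_trans ?_ h2
    have : lam ≤ lam ^ 2 := by nlinarith
    gcongr
  have hF' := fun x => abs_le.1 (hF _ _ πq P lam Rr _ ε Φ hρ hA hq3 hq4 hΦ hs hR2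
    (fun i hi => hd i (by omega)) hD hPl hε hε2 x)
  have e4 : (N1 : ℝ) ^ 3 * ε * ((NA : ℝ) / N1) ^ 2 = ε * N1 * (NA : ℝ) ^ 2 := by field_simp
  have e5 : (N1 : ℝ) ^ 3 * (CS / (NA / N1)) = CS * ((N1 : ℝ) ^ 4 / NA) := by field_simp
  have e6 : √(4 * Real.pi * (N1 : ℝ) ^ 3) ^ 2 / 2 = (N1 : ℝ) ^ 3 * (2 * Real.pi) := by
    rw [Real.sq_sqrt (by positivity)]; ring
  simp only [e4, ← hu] at hF'
  set E0 := (P * lam) ^ 2 / (N1 : ℝ) ^ 3 * (1 + Real.log (1 / ε)) + |πq - Real.pi| * P +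
    ε * P * lam with hE0
  set E1 := ε * N1 * (NA : ℝ) ^ 2 with hE1
  set E2 := (N1 : ℝ) ^ 4 / NA with hE2
  have p0 : 0 ≤ E0 := by positivity
  have p1 : 0 ≤ E1 := by positivity
  have p2 : 0 ≤ E2 := by positivity
  have hpi : Real.pi * N1 / 6 * (2 * (CK * ε)) ≤ 2 * CK * E1 := by
    have a1 : (1 : ℝ) ≤ (NA : ℝ) ^ 2 := one_le_pow₀ hNA1
    calc Real.pi * N1 / 6 * (2 * (CK * ε)) ≤ 6 * N1 / 6 * (2 * (CK * ε)) := by
          gcongr
          linarith [Real.pi_le_four]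
      _ = 2 * CK * (ε * N1 * 1) := by ring
      _ ≤ 2 * CK * E1 := by rw [hE1]; gcongr
  have herr : CF * (E0 + E1) + CS * E2 + 2 * CK * E1 ≤
      (CB * CK + CF + CS + 2 * CK) * (E0 + E1 + E2) := by
    have a1 : 0 ≤ CB * CK * (E0 + E1 + E2) := by positivity
    have a2 : 0 ≤ CF * E2 := by positivity
    have a3 : 0 ≤ CS * (E0 + E1) := by positivity
    have a4 : 0 ≤ 2 * CK * (E0 + E2) := by positivity
    nlinarith
  have hpN : 0 ≤ Real.pi * N1 / 6 := by positivity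
  refine ⟨fun x => -(∑ α : LatIdx N1 NA, lap (kk ε) (x - (lat N1 NA α + u (lat N1 NA α)))) - Φ x +
      lap (Ep N1 NA u (kk ε)) x, Ep N1 NA u (kk ε),
    fun x => ∑ α : LatIdx N1 NA, (1 / ‖x - (lat N1 NA α + u (lat N1 NA α))‖ -
      lap (kk ε) (x - (lat N1 NA α + u (lat N1 NA α)))), ?_, e1, fun x => ?_, fun x => ?_,
    fun j x => ?_, fun ψ hψ => ?_, fun x => ?_, fun x hx => ?_⟩
  · have a1 := lap_cont e1
    have a2 := hΦ.continuous
    fun_prop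
  · simp only [latV, Finset.sum_sub_distrib, Finset.sum_neg_distrib]
    ring
  · refine ((hB N1 NA u Rr _ ε CK (kk ε) hN hNA hD hR1 hR2 hη hε (by linarith)).1 k1 x).trans ?_
    rw [show P * lam ^ 5 / (N1 : ℝ) ^ 3 * Rr ^ 2 = P * lam ^ 5 * Rr ^ 2 / (N1 : ℝ) ^ 3 by ring]
    gcongr
    linarith
  · rw [e2]
    refine ((hB N1 NA u Rr _ ε CK _ hN hNA hD hR1 hR2 hη hε (by linarith)).2 (k2 j) x).trans ?_
    rw [show P * lam ^ 5 / (N1 : ℝ) ^ 3 / N1 = P * lam ^ 5 / (N1 : ℝ) ^ 4 by field_simp]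
    gcongr
    linarith
  · have := small hH (fun α : LatIdx N1 NA => lat N1 NA α + u (lat N1 NA α)) hlk hε.le k5 ψ hψ
    refine ⟨this.1, this.2.trans (le_of_eq ?_)⟩
    simp only [Fintype.card_prod, Fintype.card_fin]
    push_cast
    ring
  · have a1 := (mass hA k7 k8 k9 k10 k11 x).1
    have a2 := mul_le_mul_of_nonneg_left ((hS _ hA).1 x) hρ.le
    have a3 := (hF' x).2
    have a4 := mul_le_mul_of_nonneg_left a1 hpN
    have a5 : 0 ≤ 2 * CK * E1 := by positivity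
    rw [mul_add, e5] at a2
    beta_reduce
    rw [hU, e6]
    linarith
  · have a1 := (mass hA k7 k8 k9 k10 k11 x).2 hx
    have a2 := mul_le_mul_of_nonneg_left ((hS _ hA).2 x (by linarith)) hρ.le
    have a3 := (hF' x).1
    have a4 := mul_le_mul_of_nonneg_left a1 hpN
    rw [mul_sub, e5] at a2
    beta_reduce
    rw [hU, e6]
    linarith

end Crest.Agent.R338
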