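import Crest.Agent.R338.LayGeoC

/-!
# Row 338: geometry of the crossbar layout (`layOK`, `dotOK`)
-/

noncomputable section

open Function

namespace Crest.Agent.R338

namespace LayGeo
open _root_.Crest.Agent.R338.Star

theorem card_grid {ι : Type} [Fintype ι] (G : ℕ) (f : ι → ℤ × ℤ) (hf : Injective f)
    (h : ∀ a, inG G (f a)) : Fintype.card ι ≤ G ^ 2 := by
  have := Finset.card_le_card_of_injOn (s := (Finset.univ : Finset ι))
    (t := Finset.Ico (0 : ℤ) G ×ˢ Finset.Ico (0 : ℤ) G) f (fun a _ => by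
      obtain ⟨h1, h2, h3, h4⟩ := h a
      simp only [Finset.coe_product, Finset.coe_Ico, Set.mem_prod, Set.mem_Ico]
      exact ⟨⟨h1, h2⟩, h3, h4⟩) hf.injOn
  simpa [sq] using this

variable (St : Star)

theorem NC_le : St.NC + 1 ≤ St.size ^ 2 := by
  unfold NC size; nlinarith [Nat.zero_le (St.N * St.N), Nat.zero_le (St.N * St.R),
    Nat.zero_le (St.R * St.R), Nat.zero_le (St.R * St.S), Nat.zero_le (St.S * St.S),
    Nat.zero_le (St.N * St.S)]

theorem box_le : (St.NC + 1) * (St.R2 + 5) ≤ 2 * St.size ^ 3 := by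
  have h1 := NC_le St
  have h2 : St.R2 + 5 ≤ 2 * St.size := by unfold R2 size; omega
  calc (St.NC + 1) * (St.R2 + 5) ≤ St.size ^ 2 * (2 * St.size) := Nat.mul_le_mul h1 h2
    _ = 2 * St.size ^ 3 := by ring

theorem size_ge : 10 ≤ St.size := by unfold size; omega

theorem sites_card : St.sites.card ≤ 8 * St.size ^ 3 := by
  have h := box_le St
  have : St.sites.card ≤ 4 * ((St.NC + 1) * (St.R2 + 5)) := by
    unfold sites
    refine (Finset.card_filter_le _ _).trans ?_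
    simp only [Finset.card_product, Finset.card_range, le_refl]
  omega

theorem cons_card : St.cons.card ≤ 18 * St.size ^ 3 := by
  have h := box_le St
  have : St.cons.card ≤ 9 * ((St.NC + 1) * (St.R2 + 5)) := by
    unfold cons
    refine (Finset.card_filter_le _ _).trans ?_
    simp only [Finset.card_product, Finset.card_range, le_refl]
  omega

theorem ress_card : St.ress.card ≤ 54 * St.size ^ 3 := by
  have h := cons_card St
  have : St.ress.card ≤ St.cons.card * 3 := by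
    unfold ress
    refine (Finset.card_filter_le _ _).trans ?_
    simp only [Finset.card_product, Finset.card_range, le_refl]
  omega

theorem ar_le (q : Cd) : St.ar q ≤ 3 := by
  unfold ar; split_ifs <;> omega

theorem dg_le (a : Cd) : St.dg a ≤ 162 * St.size ^ 3 := by
  have h := cons_card St
  have : St.dg a ≤ St.cons.card * 9 := by
    unfold dg
    rw [← smul_eq_mul]
    refine Finset.sum_le_card_nsmul _ _ _ fun q _ => ?_
    have h1 := ar_le St q
    have h2 := Finset.sum_le_card_nsmul (Finset.range (St.ar q))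
      (fun j => if vtx q j = a then St.ar q else 0) 3 fun j _ => by split_ifs <;> omega
    rw [Finset.card_range, smul_eq_mul] at h2
    omega
  omega

theorem pow_le (c k : ℕ) (hc : c ≤ 10 ^ k) : c * St.size ^ 3 ≤ St.size ^ (k + 3) := by
  rw [pow_add]
  exact Nat.mul_le_mul_right _ (hc.trans (Nat.pow_le_pow_left (size_ge St) k))

theorem sites_ge : St.N * 5 ≤ St.sites.card := by
  have h1 : St.N ≤ St.NC := Nat.le_mul_of_pos_right _ (Nat.succ_pos _)
  have := Finset.card_le_card_of_injOn (s := Finset.range St.N ×ˢ Finset.range 5) (t := St.sites)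
    (fun p => (3, p.1, p.2)) (fun p hp => by
      simp only [Finset.coe_product, Finset.coe_range, Set.mem_prod, Set.mem_Iio] at hp
      exact Finset.mem_coe.2 (St.mem_sites.2 (Or.inr (Or.inr (Or.inr ⟨rfl, hp.1.trans_le h1, hp.2⟩)))))
    (fun p _ q _ h => by
      simp only [Prod.mk.injEq, true_and] at h
      exact Prod.ext h.1 h.2)
  simpa using this

theorem ty_home (i : ℕ) : St.ty (i * (St.S + 1)) = 5 := by
  rw [ty_eq, Nat.mul_mod_left]

theorem heavy_iff (a : St.Site) : St.heavy a.1 ↔ ∃ α, St.net.hv α = a := by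
  constructor
  · obtain ⟨⟨k, κ, ρ⟩, ha⟩ := a
    have hv := St.mem_sites.1 ha
    simp only [vs, R2] at hv
    rintro (⟨hk, hκ, hρ⟩ | ⟨hk, hκ, hρ⟩) <;> dsimp only at hk hκ hρ
    · subst hk hκ
      refine ⟨Sum.inl ⟨ρ / 2, by omega⟩, Subtype.ext ?_⟩
      simp only [net, Sum.elim_inl, Prod.mk.injEq, true_and]
      omega
    · subst hk
      have h1 : κ < St.NC := by omega
      have h2 : κ / (St.S + 1) < St.N := Nat.div_lt_of_lt_mul (by rwa [Nat.mul_comm])
      refine ⟨Sum.inr (⟨κ / (St.S + 1), h2⟩, decide (ρ = 2)), Subtype.ext ?_⟩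
      simp only [net, Sum.elim_inr, Prod.mk.injEq, true_and, decide_eq_true_eq]
      refine ⟨Nat.div_mul_cancel (Nat.dvd_of_mod_eq_zero hκ), ?_⟩
      split_ifs <;> omega
  · rintro ⟨α | ⟨i, β⟩, rfl⟩
    · exact Or.inl ⟨rfl, rfl, by simp [net]⟩
    · refine Or.inr ⟨rfl, Nat.mul_mod_left _ _, ?_⟩
      cases β <;> simp [net]

variable {St} {Dh : ℕ}

theorem far33 {κ j κ' j' : ℕ} (h : κ ≠ κ') :
    (Dh : ℤ) ≤ |(St.dot Dh (3, κ, j) - St.dot Dh (3, κ', j')).1| := by
  have h1 : (St.dot Dh (3, κ, j)).1 = Xc Dh κ ∨ (St.dot Dh (3, κ, j)).1 = Xc Dh κ - Dh := by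
    by_cases h : j = St.ty κ
    · rw [dot3 _ _ h]; exact Or.inl rfl
    · rw [dot3' _ _ h]; exact Or.inr rfl
  have h2 : (St.dot Dh (3, κ', j')).1 = Xc Dh κ' ∨ (St.dot Dh (3, κ', j')).1 = Xc Dh κ' - Dh := by
    by_cases h : j' = St.ty κ'
    · rw [dot3 _ _ h]; exact Or.inl rfl
    · rw [dot3' _ _ h]; exact Or.inr rfl
  rw [Prod.fst_sub, le_abs]
  rcases Xc_tri Dh κ κ' with h3 | h3 | h3 | h3 | h3 <;> omega

theorem far3 {κ j : ℕ} {b : Cd} (hb : St.vs b) (hk : b.1 ≠ 3)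
    (hn : ¬ (j = St.ty κ ∧ b = (2, κ, St.R2))) :
    (Dh : ℤ) ≤ |(St.dot Dh (3, κ, j) - St.dot Dh b).1| ∨
      (Dh : ℤ) ≤ |(St.dot Dh (3, κ, j) - St.dot Dh b).2| := by
  have h1 : (j = St.ty κ ∧ (St.dot Dh (3, κ, j)).1 = Xc Dh κ ∨
      j ≠ St.ty κ ∧ (St.dot Dh (3, κ, j)).1 = Xc Dh κ - Dh) ∧
      (St.dot Dh (3, κ, j)).2 = 8 * (St.R2 : ℤ) + 20 + 2 * Dh + 2 * j := by
    by_cases h : j = St.ty κ
    · rw [dot3 _ _ h]; exact ⟨Or.inl ⟨h, rfl⟩, rfl⟩
    · rw [dot3' _ _ h]; exact ⟨Or.inr ⟨h, rfl⟩, rfl⟩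
  obtain ⟨k', κ', ρ'⟩ := b
  simp only [vs] at hb
  rw [Prod.fst_sub, Prod.snd_sub, le_abs, le_abs]
  rcases hb with ⟨rfl, -, hb⟩ | ⟨rfl, -, hb⟩ | ⟨rfl, -, hb⟩ | ⟨rfl, -, hb⟩
  · rw [dot0]; dsimp only; omega
  · rw [dot1]; dsimp only; omega
  · rcases hb.lt_or_eq with h | rfl
    · rw [dot2 _ _ _ h]; dsimp only; omega
    · rw [dot2']; dsimp only
      simp only [Prod.mk.injEq, true_and, and_true] at hn
      rcases Xc_tri Dh κ κ' with rfl | h3 | h3 | h3 | h3 <;> omega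
  · exact absurd rfl hk

theorem contact {a b : St.Site} {κ j : ℕ} (ha : a.1 = (3, κ, j)) (hj : j = St.ty κ)
    (hb : b.1 = (2, κ, St.R2)) : ∃ k, b = St.net.cc k ∧ a = St.net.cl k := by
  have hv := St.mem_sites.1 a.2
  rw [ha] at hv
  simp only [vs] at hv
  have h1 : κ < St.NC := by omega
  have h2 : κ / (St.S + 1) < St.N := Nat.div_lt_of_lt_mul (by rwa [Nat.mul_comm])
  have h3 : κ % (St.S + 1) ≠ 0 := fun h => by have := (ty_eq St κ).2 h; omega
  have h4 : κ % (St.S + 1) < St.S + 1 := Nat.mod_lt _ (Nat.succ_pos _)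
  have h5 : κ / (St.S + 1) * (St.S + 1) + (κ % (St.S + 1) - 1 + 1) = κ := by
    rw [Nat.sub_add_cancel (Nat.pos_of_ne_zero h3)]; exact Nat.div_add_mod' _ _
  refine ⟨(⟨κ / (St.S + 1), h2⟩, ⟨κ % (St.S + 1) - 1, by omega⟩), Subtype.ext ?_, Subtype.ext ?_⟩
  · rw [hb]; simp only [net, h5]
  · rw [ha]; simp only [net, h5, hj, ty, h3, if_false]

theorem far {a b : St.Site} (ha : a.1.1 = 3) (hc : St.net.comp a ≠ St.net.comp b)
    (hn : ∀ k, ¬ (b = St.net.cc k ∧ a = St.net.cl k)) :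
    (Dh : ℤ) ≤ |(St.dot Dh a.1 - St.dot Dh b.1).1| ∨
      (Dh : ℤ) ≤ |(St.dot Dh a.1 - St.dot Dh b.1).2| := by
  obtain ⟨⟨k, κ, j⟩, ha'⟩ := a
  dsimp only at ha
  subst ha
  by_cases hb : b.1.1 = 3
  · obtain ⟨⟨k', κ', j'⟩, hb'⟩ := b
    dsimp only at hb
    subst hb
    refine Or.inl (far33 ?_)
    rintro rfl
    exact hc (by simp [net])
  · refine far3 (St.mem_sites.1 b.2) hb ?_
    rintro ⟨h1, h2⟩
    obtain ⟨k, hk⟩ := contact (a := ⟨(3, κ, j), ha'⟩) rfl h1 h2
    exact hn k hk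

end LayGeo

open LayGeo

theorem layOK : LayStmt := by
  intro St Dh hN hD
  have hsep : ∀ (a b : St.Site) (c c' : ℤ × ℤ), St.cel Dh a.1 c → St.cel Dh b.1 c' →
      |c.1 - c'.1| ≤ 1 → |c.2 - c'.2| ≤ 1 → a = b := fun a b c c' h h' h1 h2 => by
    rw [abs_le] at h1 h2
    exact Subtype.ext (sep_cd hD (St.mem_sites.1 a.2) (St.mem_sites.1 b.2) h h'
      ⟨by omega, by omega, by omega, by omega⟩)
  have hinj : Injective fun r : St.Res => St.pos Dh r.1 := fun r r' e =>
    Subtype.ext (pos_inj hD r.2 r'.2 e)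
  refine ⟨⟨⟨(2, 0, 0), St.mem_sites.2 (Or.inr (Or.inr (Or.inl
      ⟨rfl, Star.NC_pos_of_R hN, Nat.zero_le _⟩)))⟩⟩,
    fun a => dot_mem hD (St.mem_sites.1 a.2),
    fun a c h => cel_bd hD (St.mem_sites.1 a.2) h, hsep,
    fun a c h hc => cel_conn hD (St.mem_sites.1 a.2) h hc, hinj,
    fun r a => pos_not hD r.2 (St.mem_sites.1 a.2), fun r => ends hD r.2, ?_, ?_⟩
  · refine card_grid _ (fun a : St.Site => St.dot Dh a.1) (fun a b e => ?_) fun a => ?_
    · refine hsep a b _ _ (dot_mem hD (St.mem_sites.1 a.2)) (dot_mem hD (St.mem_sites.1 b.2)) ?_ ?_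
      · rw [show St.dot Dh a.1 = St.dot Dh b.1 from e]; simp
      · rw [show St.dot Dh a.1 = St.dot Dh b.1 from e]; simp
    · have := cel_bd hD (St.mem_sites.1 a.2) (dot_mem hD (St.mem_sites.1 a.2))
      change inG (St.GG Dh) (St.dot Dh a.1)
      unfold inG
      omega
  · exact card_grid _ _ hinj fun r => pos_bd hD r.2

theorem dotOK : DotStmt := by
  intro St Dh hN hD
  refine ⟨fun k => ?_, fun a b hc h1 h2 => ?_, fun α β h => ?_, heavy_iff St, ?_, ?_, fun a => ?_, ?_⟩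
  · have h := St.ty_lt (i := k.1) k.2.2
    change St.dot Dh (2, k.1 * (St.S + 1) + (k.2 + 1), St.R2) -
      St.dot Dh (3, k.1 * (St.S + 1) + (k.2 + 1), k.2 % 5) = _
    rw [dot2', dot3 _ _ h.symm, h]
    refine Prod.ext ?_ ?_
    · simp
    · simp only [Prod.snd_sub]; ring
  · by_cases ha : a.1.1 = 3
    · exact far ha hc h2
    · by_cases hb : b.1.1 = 3
      · have := far (Dh := Dh) hb (Ne.symm hc) h1
        simp only [Prod.fst_sub, Prod.snd_sub] at this ⊢
        rwa [abs_sub_comm, abs_sub_comm (St.dot Dh b.1).2] at this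
      · exact absurd (by simp [Star.net, ha, hb]) hc
  · rcases α with α | ⟨i, s⟩ <;> rcases β with β | ⟨i', s'⟩
    · change |(St.dot Dh (0, 0, 2 * α) - St.dot Dh (0, 0, 2 * β)).1| ≤ _ ∧
        |(St.dot Dh (0, 0, 2 * α) - St.dot Dh (0, 0, 2 * β)).2| ≤ _
      have h1 := α.2
      have h2 := β.2
      simp only [dot0, Prod.fst_sub, Prod.snd_sub, abs_le]
      omega
    · exact absurd h (Fin.succ_ne_zero _).symm
    · exact absurd h (Fin.succ_ne_zero _)
    · obtain rfl : i = i' := Fin.succ_injective _ h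
      change |(St.dot Dh (3, i * (St.S + 1), if s then 2 else 0) -
          St.dot Dh (3, i * (St.S + 1), if s' then 2 else 0)).1| ≤ _ ∧
        |(St.dot Dh (3, i * (St.S + 1), if s then 2 else 0) -
          St.dot Dh (3, i * (St.S + 1), if s' then 2 else 0)).2| ≤ _
      have h0 := ty_home St i
      rw [dot3' _ _ (by rw [h0]; split_ifs <;> omega), dot3' _ _ (by rw [h0]; split_ifs <;> omega)]
      simp only [Prod.fst_sub, Prod.snd_sub, abs_le]
      split_ifs <;> omega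
  · exact (sites_card St).trans (pow_le St 8 2 (by norm_num))
  · exact (ress_card St).trans (pow_le St 54 3 (by norm_num))
  · exact (dg_le St a).trans (pow_le St 162 3 (by norm_num))
  · have := sites_ge St; omega

end Crest.Agent.R338
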