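import Crest.Agent.R338.DefsL

/-!
# Row 338: geometry of the crossbar layout, part A (cells, separation)
-/

noncomputable section

open Function

namespace Crest.Agent.R338

namespace LayGeo
open _root_.Crest.Agent.R338.Star
variable (St : Star) (Dh : ℕ)

theorem Xc_succ (κ : ℕ) : Xc Dh (κ + 1) = Xc Dh κ + 2 * Dh := by
  unfold Xc; push_cast; ring

theorem Xc_zero : Xc Dh 0 = 2 * Dh := by
  unfold Xc; push_cast; ring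

theorem Xc_mono {κ κ' : ℕ} (h : κ ≤ κ') : Xc Dh κ ≤ Xc Dh κ' := by
  unfold Xc
  have : (κ : ℤ) ≤ κ' := by exact_mod_cast h
  have h2 : (0 : ℤ) ≤ Dh := by positivity
  nlinarith

theorem Xc_ge (κ : ℕ) : 2 * (Dh : ℤ) ≤ Xc Dh κ := by
  rw [← Xc_zero]; exact Xc_mono Dh (Nat.zero_le _)

theorem Xc_tri (κ κ' : ℕ) : κ = κ' ∨ (κ' = κ + 1 ∧ Xc Dh κ' = Xc Dh κ + 2 * Dh) ∨
    (κ = κ' + 1 ∧ Xc Dh κ = Xc Dh κ' + 2 * Dh) ∨ (κ + 2 ≤ κ' ∧ Xc Dh κ + 4 * Dh ≤ Xc Dh κ') ∨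
    (κ' + 2 ≤ κ ∧ Xc Dh κ' + 4 * Dh ≤ Xc Dh κ) := by
  have key : ∀ a b : ℕ, a + 2 ≤ b → Xc Dh a + 4 * Dh ≤ Xc Dh b := fun a b h => by
    have h1 := Xc_mono Dh h
    have h2 := Xc_succ Dh (a + 1)
    have h3 := Xc_succ Dh a
    rw [show a + 2 = a + 1 + 1 from rfl] at h1
    omega
  rcases (by omega : κ = κ' ∨ κ' = κ + 1 ∨ κ = κ' + 1 ∨ κ + 2 ≤ κ' ∨ κ' + 2 ≤ κ) with
    h | h | h | h | h
  · exact Or.inl h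
  · exact Or.inr (Or.inl ⟨h, by rw [h, Xc_succ]⟩)
  · exact Or.inr (Or.inr (Or.inl ⟨h, by rw [h, Xc_succ]⟩))
  · exact Or.inr (Or.inr (Or.inr (Or.inl ⟨h, key _ _ h⟩)))
  · exact Or.inr (Or.inr (Or.inr (Or.inr ⟨h, key _ _ h⟩)))

theorem GG_eq : (St.GG Dh : ℤ) = Xc Dh St.NC + 4 * Dh + 8 * St.R2 + 40 := by
  unfold GG Xc; push_cast; ring

theorem ty_le (κ : ℕ) : St.ty κ ≤ 5 := by
  unfold ty; split_ifs <;> omega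

theorem ty_eq (κ : ℕ) : St.ty κ = 5 ↔ κ % (St.S + 1) = 0 := by
  unfold ty; split_ifs <;> omega

theorem cel0 (κ ρ : ℕ) (c : ℤ × ℤ) : St.cel Dh (0, κ, ρ) c ↔
    (c.1 = Xc Dh κ - 3 ∧ 8 * (ρ : ℤ) + 5 ≤ c.2 ∧ c.2 ≤ 8 * (ρ : ℤ) + 11) ∨
    (Xc Dh κ - 2 * Dh + 3 ≤ c.1 ∧ c.1 ≤ Xc Dh κ - 3 ∧ c.2 = 8 * (ρ : ℤ) + 8) ∨
    (c.1 = Xc Dh κ - 2 * Dh + 3 ∧ 8 * (ρ : ℤ) + 5 ≤ c.2 ∧ c.2 ≤ 8 * (ρ : ℤ) + 8) := by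
  simp only [cel, Yc, true_and, Nat.reduceEqDiff, false_and, or_false, OfNat.zero_ne_ofNat]
  omega

theorem cel1 (κ ρ : ℕ) (c : ℤ × ℤ) : St.cel Dh (1, κ, ρ) c ↔
    Xc Dh κ - 1 ≤ c.1 ∧ c.1 ≤ Xc Dh κ + 1 ∧ 8 * (ρ : ℤ) + 7 ≤ c.2 ∧ c.2 ≤ 8 * (ρ : ℤ) + 9 := by
  simp only [cel, Yc, true_and, Nat.reduceEqDiff, false_and, or_false, false_or]
  omega

theorem cel2 (κ ρ : ℕ) (c : ℤ × ℤ) : St.cel Dh (2, κ, ρ) c ↔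
    (Xc Dh κ - 1 ≤ c.1 ∧ c.1 ≤ Xc Dh κ + 1 ∧ c.2 = 8 * (ρ : ℤ) + 5) ∨
    (Xc Dh κ - 1 ≤ c.1 ∧ c.1 ≤ Xc Dh κ ∧ c.2 = 8 * (ρ : ℤ) + 3) ∨
    (ρ < St.R2 ∧ c.1 = Xc Dh κ ∧ c.2 = 8 * (ρ : ℤ) + 4) ∨
    (St.R2 ≤ ρ ∧ c.1 = Xc Dh κ ∧ 8 * (ρ : ℤ) + 3 ≤ c.2 ∧
      c.2 ≤ 8 * (St.R2 : ℤ) + 8 + 2 * Dh + 2 * St.ty κ) := by
  simp only [cel, Yc, Y0, true_and, Nat.reduceEqDiff, false_and, or_false, false_or]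
  split_ifs <;> omega

theorem cel3 (κ j : ℕ) (c : ℤ × ℤ) : St.cel Dh (3, κ, j) c ↔
    (Xc Dh κ - Dh - 6 ≤ c.1 ∧ c.1 ≤ Xc Dh κ + Dh - 10 ∧
      c.2 = 8 * (St.R2 : ℤ) + 20 + 2 * Dh + 2 * j) ∨
    ((St.ty κ ≠ 5 ∨ j = 0) ∧ Xc Dh κ - Dh - 8 ≤ c.1 ∧ c.1 ≤ Xc Dh κ + Dh - 10 ∧
      c.2 = 8 * (St.R2 : ℤ) + 20 + 2 * Dh + 2 * j) ∨
    (St.ty κ = 5 ∧ j = 0 ∧ c.1 = Xc Dh κ - Dh - 8 ∧ 8 * (St.R2 : ℤ) + 20 + 2 * Dh ≤ c.2 ∧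
      c.2 ≤ 8 * (St.R2 : ℤ) + 28 + 2 * Dh) := by
  simp only [cel, Yc, Y0, yL, true_and, Nat.reduceEqDiff, false_and, false_or]
  split_ifs <;> omega

/-- Neighbouring cells. -/
def Nb (c c' : ℤ × ℤ) : Prop := c.1 ≤ c'.1 + 1 ∧ c'.1 ≤ c.1 + 1 ∧ c.2 ≤ c'.2 + 1 ∧ c'.2 ≤ c.2 + 1

theorem Nb.symm {c c' : ℤ × ℤ} (h : Nb c c') : Nb c' c := ⟨h.2.1, h.1, h.2.2.2, h.2.2.1⟩

variable {St Dh} {κ ρ κ' ρ' : ℕ} {c c' : ℤ × ℤ}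

theorem sep00 (hD : 20 ≤ Dh) (h : St.cel Dh (0, κ, ρ) c) (h' : St.cel Dh (0, κ', ρ') c')
    (hn : Nb c c') : κ = κ' ∧ ρ = ρ' := by
  rw [cel0] at h h'
  unfold Nb at hn
  rcases Xc_tri Dh κ κ' with rfl | h1 | h1 | h1 | h1 <;> omega

theorem sep01 (hD : 20 ≤ Dh) (h : St.cel Dh (0, κ, ρ) c) (h' : St.cel Dh (1, κ', ρ') c')
    (hn : Nb c c') : False := by
  rw [cel0] at h; rw [cel1] at h'
  unfold Nb at hn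
  rcases Xc_tri Dh κ κ' with rfl | h1 | h1 | h1 | h1 <;> omega

theorem sep02 (hD : 20 ≤ Dh) (hρ : ρ < St.R2) (h : St.cel Dh (0, κ, ρ) c)
    (h' : St.cel Dh (2, κ', ρ') c') (hn : Nb c c') : False := by
  rw [cel0] at h; rw [cel2] at h'
  unfold Nb at hn
  rcases Xc_tri Dh κ κ' with rfl | h1 | h1 | h1 | h1 <;> omega

theorem sep03 (hD : 20 ≤ Dh) (hρ : ρ < St.R2) (h : St.cel Dh (0, κ, ρ) c)
    (h' : St.cel Dh (3, κ', ρ') c') (hn : Nb c c') : False := by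
  rw [cel0] at h; rw [cel3] at h'
  unfold Nb at hn
  omega

theorem sep11 (hD : 20 ≤ Dh) (h : St.cel Dh (1, κ, ρ) c) (h' : St.cel Dh (1, κ', ρ') c')
    (hn : Nb c c') : κ = κ' ∧ ρ = ρ' := by
  rw [cel1] at h h'
  unfold Nb at hn
  rcases Xc_tri Dh κ κ' with rfl | h1 | h1 | h1 | h1 <;> omega

theorem sep12 (hD : 20 ≤ Dh) (hρ : ρ < St.R2) (h : St.cel Dh (1, κ, ρ) c)
    (h' : St.cel Dh (2, κ', ρ') c') (hn : Nb c c') : False := by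
  rw [cel1] at h; rw [cel2] at h'
  unfold Nb at hn
  rcases Xc_tri Dh κ κ' with rfl | h1 | h1 | h1 | h1 <;> omega

theorem sep13 (hD : 20 ≤ Dh) (hρ : ρ < St.R2) (h : St.cel Dh (1, κ, ρ) c)
    (h' : St.cel Dh (3, κ', ρ') c') (hn : Nb c c') : False := by
  rw [cel1] at h; rw [cel3] at h'
  unfold Nb at hn
  omega

theorem sep22 (hD : 20 ≤ Dh) (hρ : ρ ≤ St.R2) (hρ' : ρ' ≤ St.R2) (h : St.cel Dh (2, κ, ρ) c)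
    (h' : St.cel Dh (2, κ', ρ') c') (hn : Nb c c') : κ = κ' ∧ ρ = ρ' := by
  rw [cel2] at h h'
  unfold Nb at hn
  rcases Xc_tri Dh κ κ' with rfl | h1 | h1 | h1 | h1 <;> omega

theorem sep23 (hD : 20 ≤ Dh) (hρ : ρ ≤ St.R2) (h : St.cel Dh (2, κ, ρ) c)
    (h' : St.cel Dh (3, κ', ρ') c') (hn : Nb c c') : False := by
  rw [cel2] at h; rw [cel3] at h'
  unfold Nb at hn
  have := ty_le St κ
  omega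

theorem sep33 (hD : 20 ≤ Dh) (h : St.cel Dh (3, κ, ρ) c)
    (h' : St.cel Dh (3, κ', ρ') c') (hn : Nb c c') : κ = κ' ∧ ρ = ρ' := by
  rw [cel3] at h h'
  unfold Nb at hn
  rcases Xc_tri Dh κ κ' with rfl | h1 | h1 | h1 | h1 <;> omega

theorem sep_cd (hD : 20 ≤ Dh) {a b : Cd} (ha : St.vs a) (hb : St.vs b) (h : St.cel Dh a c)
    (h' : St.cel Dh b c') (hn : Nb c c') : a = b := by
  obtain ⟨k, κ, ρ⟩ := a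
  obtain ⟨k', κ', ρ'⟩ := b
  simp only [vs] at ha hb
  rcases ha with ⟨rfl, -, ha⟩ | ⟨rfl, -, ha⟩ | ⟨rfl, -, ha⟩ | ⟨rfl, -, ha⟩ <;>
    rcases hb with ⟨rfl, -, hb⟩ | ⟨rfl, -, hb⟩ | ⟨rfl, -, hb⟩ | ⟨rfl, -, hb⟩
  · obtain ⟨rfl, rfl⟩ := sep00 hD h h' hn; rfl
  · exact (sep01 hD h h' hn).elim
  · exact (sep02 hD ha h h' hn).elim
  · exact (sep03 hD ha h h' hn).elim
  · exact (sep01 hD h' h hn.symm).elim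
  · obtain ⟨rfl, rfl⟩ := sep11 hD h h' hn; rfl
  · exact (sep12 hD ha h h' hn).elim
  · exact (sep13 hD ha h h' hn).elim
  · exact (sep02 hD hb h' h hn.symm).elim
  · exact (sep12 hD hb h' h hn.symm).elim
  · obtain ⟨rfl, rfl⟩ := sep22 hD ha hb h h' hn; rfl
  · exact (sep23 hD ha h h' hn).elim
  · exact (sep03 hD hb h' h hn.symm).elim
  · exact (sep13 hD hb h' h hn.symm).elim
  · exact (sep23 hD hb h' h hn.symm).elim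
  · obtain ⟨rfl, rfl⟩ := sep33 hD h h' hn; rfl

end LayGeo

end Crest.Agent.R338
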