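import Crest.Agent.R338.LayGeoA

/-!
# Row 338: geometry of the crossbar layout, part B (dots, bounds, connectivity)
-/

noncomputable section

open Function

namespace Crest.Agent.R338

namespace LayGeo
open _root_.Crest.Agent.R338.Star
variable (St : Star) (Dh : ℕ)

theorem dot0 (κ ρ : ℕ) : St.dot Dh (0, κ, ρ) = (Xc Dh κ - 5, 8 * (ρ : ℤ) + 8) := by
  simp [dot, Yc]

theorem dot1 (κ ρ : ℕ) : St.dot Dh (1, κ, ρ) = (Xc Dh κ, 8 * (ρ : ℤ) + 8) := by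
  simp [dot, Yc]

theorem dot2 (κ : ℕ) {ρ : ℕ} (h : ρ < St.R2) :
    St.dot Dh (2, κ, ρ) = (Xc Dh κ, 8 * (ρ : ℤ) + 4) := by
  simp only [dot, Yc, h, Nat.reduceEqDiff, if_true, if_false, Prod.mk.injEq, true_and]
  ring

theorem dot2' (κ : ℕ) :
    St.dot Dh (2, κ, St.R2) = (Xc Dh κ, 8 * (St.R2 : ℤ) + 8 + 2 * Dh + 2 * St.ty κ) := by
  simp [dot, Yc, Y0]

theorem dot3 {κ j : ℕ} (h : j = St.ty κ) :
    St.dot Dh (3, κ, j) = (Xc Dh κ, 8 * (St.R2 : ℤ) + 20 + 2 * Dh + 2 * j) := by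
  simp only [dot, Yc, Y0, yL, ← h, Nat.reduceEqDiff, if_true, if_false, Prod.mk.injEq, true_and]
  ring

theorem dot3' {κ j : ℕ} (h : j ≠ St.ty κ) :
    St.dot Dh (3, κ, j) = (Xc Dh κ - Dh, 8 * (St.R2 : ℤ) + 20 + 2 * Dh + 2 * j) := by
  simp only [dot, Yc, Y0, yL, h, Nat.reduceEqDiff, if_false, Prod.mk.injEq, true_and]
  ring

variable {St Dh}

theorem dot_mem (hD : 20 ≤ Dh) {a : Cd} (ha : St.vs a) : St.cel Dh a (St.dot Dh a) := by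
  obtain ⟨k, κ, ρ⟩ := a
  simp only [vs] at ha
  rcases ha with ⟨rfl, -, ha⟩ | ⟨rfl, -, ha⟩ | ⟨rfl, -, ha⟩ | ⟨rfl, -, ha⟩
  · rw [cel0, dot0]; dsimp only; omega
  · rw [cel1, dot1]; dsimp only; omega
  · rcases ha.lt_or_eq with h | rfl
    · rw [cel2, dot2 _ _ _ h]; dsimp only; omega
    · rw [cel2, dot2']; dsimp only; omega
  · by_cases h : ρ = St.ty κ
    · rw [cel3, dot3 _ _ h]; dsimp only; omega
    · rw [cel3, dot3' _ _ h]; dsimp only; omega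

theorem cel_bd (hD : 20 ≤ Dh) {a : Cd} (ha : St.vs a) {c : ℤ × ℤ} (h : St.cel Dh a c) :
    1 ≤ c.1 ∧ c.1 + 2 ≤ St.GG Dh ∧ 1 ≤ c.2 ∧ c.2 + 2 ≤ St.GG Dh := by
  obtain ⟨k, κ, ρ⟩ := a
  simp only [vs] at ha
  have h1 := Xc_ge Dh κ
  have h2 : Xc Dh κ ≤ Xc Dh St.NC := Xc_mono Dh (by omega)
  have h3 := ty_le St κ
  rw [GG_eq]
  rcases ha with ⟨rfl, -, ha⟩ | ⟨rfl, -, ha⟩ | ⟨rfl, -, ha⟩ | ⟨rfl, -, ha⟩
  · rw [cel0] at h; omega
  · rw [cel1] at h; omega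
  · rw [cel2] at h; omega
  · rw [cel3] at h; omega

theorem conn_of {P : ℤ × ℤ → Prop} {c d : ℤ × ℤ}
    (h : (P (c.1 + 1, c.2) ∧ c.1 < d.1) ∨ (P (c.1 - 1, c.2) ∧ d.1 < c.1) ∨
      (P (c.1, c.2 + 1) ∧ c.2 < d.2) ∨ (P (c.1, c.2 - 1) ∧ d.2 < c.2)) :
    ∃ c', P c' ∧ l1 c c' = 1 ∧ l1 c' d < l1 c d := by
  rcases h with ⟨h, h'⟩ | ⟨h, h'⟩ | ⟨h, h'⟩ | ⟨h, h'⟩ <;> refine ⟨_, h, ?_, ?_⟩ <;>
    simp only [l1, abs_eq_max_neg] <;> omega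

/-- One of the four neighbours is closer to the dot. -/
def Step4 (P : ℤ × ℤ → Prop) (c d : ℤ × ℤ) : Prop :=
  (P (c.1 + 1, c.2) ∧ c.1 < d.1) ∨ (P (c.1 - 1, c.2) ∧ d.1 < c.1) ∨
    (P (c.1, c.2 + 1) ∧ c.2 < d.2) ∨ (P (c.1, c.2 - 1) ∧ d.2 < c.2)

theorem conn0 (hD : 20 ≤ Dh) {κ ρ : ℕ} {x y : ℤ} (h : St.cel Dh (0, κ, ρ) (x, y))
    (hc : (x, y) ≠ St.dot Dh (0, κ, ρ)) :
    Step4 (St.cel Dh (0, κ, ρ)) (x, y) (St.dot Dh (0, κ, ρ)) := by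
  simp only [Step4, cel0, dot0, ne_eq, Prod.mk.injEq] at h hc ⊢
  rcases lt_trichotomy y (8 * (ρ : ℤ) + 8) with h1 | h1 | h1
  · right; right; left; omega
  · rcases lt_trichotomy x (Xc Dh κ - 5) with h2 | h2 | h2
    · left; omega
    · exfalso; omega
    · right; left; omega
  · right; right; right; omega

theorem conn1 {κ ρ : ℕ} {x y : ℤ} (h : St.cel Dh (1, κ, ρ) (x, y))
    (hc : (x, y) ≠ St.dot Dh (1, κ, ρ)) :
    Step4 (St.cel Dh (1, κ, ρ)) (x, y) (St.dot Dh (1, κ, ρ)) := by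
  simp only [Step4, cel1, dot1, ne_eq, Prod.mk.injEq] at h hc ⊢
  omega

theorem conn2 {κ ρ : ℕ} {x y : ℤ} (hρ : ρ < St.R2) (h : St.cel Dh (2, κ, ρ) (x, y))
    (hc : (x, y) ≠ St.dot Dh (2, κ, ρ)) :
    Step4 (St.cel Dh (2, κ, ρ)) (x, y) (St.dot Dh (2, κ, ρ)) := by
  simp only [Step4, cel2, dot2 _ _ _ hρ, ne_eq, Prod.mk.injEq] at h hc ⊢
  rcases lt_trichotomy x (Xc Dh κ) with h2 | h2 | h2
  · left; omega
  · rcases lt_trichotomy y (8 * (ρ : ℤ) + 4) with h1 | h1 | h1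
    · right; right; left; omega
    · exfalso; omega
    · right; right; right; omega
  · right; left; omega

theorem conn2' (hD : 20 ≤ Dh) {κ : ℕ} {x y : ℤ} (h : St.cel Dh (2, κ, St.R2) (x, y))
    (hc : (x, y) ≠ St.dot Dh (2, κ, St.R2)) :
    Step4 (St.cel Dh (2, κ, St.R2)) (x, y) (St.dot Dh (2, κ, St.R2)) := by
  simp only [Step4, cel2, dot2', ne_eq, Prod.mk.injEq] at h hc ⊢
  rcases lt_trichotomy x (Xc Dh κ) with h2 | h2 | h2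
  · left; omega
  · right; right; left; omega
  · right; left; omega

theorem conn3 (hD : 20 ≤ Dh) {κ j : ℕ} {x y : ℤ} (hj : j < 5) (h : St.cel Dh (3, κ, j) (x, y))
    (hc : (x, y) ≠ St.dot Dh (3, κ, j)) :
    Step4 (St.cel Dh (3, κ, j)) (x, y) (St.dot Dh (3, κ, j)) := by
  by_cases h' : j = St.ty κ
  · rw [dot3 _ _ h'] at hc ⊢
    simp only [Step4, cel3, ne_eq, Prod.mk.injEq] at h hc ⊢
    rcases lt_trichotomy x (Xc Dh κ) with h2 | h2 | h2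
    · left; omega
    · exfalso; omega
    · right; left; omega
  · rw [dot3' _ _ h'] at hc ⊢
    simp only [Step4, cel3, ne_eq, Prod.mk.injEq] at h hc ⊢
    rcases lt_trichotomy y (8 * (St.R2 : ℤ) + 20 + 2 * Dh + 2 * j) with h1 | h1 | h1
    · exfalso; omega
    · rcases lt_trichotomy x (Xc Dh κ - Dh) with h2 | h2 | h2
      · left; omega
      · exfalso; omega
      · right; left; omega
    · right; right; right; omega

theorem cel_conn (hD : 20 ≤ Dh) {a : Cd} (ha : St.vs a) {c : ℤ × ℤ} (h : St.cel Dh a c)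
    (hc : c ≠ St.dot Dh a) :
    ∃ c', St.cel Dh a c' ∧ l1 c c' = 1 ∧ l1 c' (St.dot Dh a) < l1 c (St.dot Dh a) := by
  apply conn_of
  obtain ⟨k, κ, ρ⟩ := a
  obtain ⟨x, y⟩ := c
  simp only [vs] at ha
  rcases ha with ⟨rfl, -, ha⟩ | ⟨rfl, -, ha⟩ | ⟨rfl, -, ha⟩ | ⟨rfl, -, ha⟩
  · exact conn0 hD h hc
  · exact conn1 h hc
  · rcases ha.lt_or_eq with h' | rfl
    · exact conn2 h' h hc
    · exact conn2' hD h hc
  · exact conn3 hD ha h hc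

end LayGeo

end Crest.Agent.R338
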