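import Crest.Agent.R338.LayGeoB

/-!
# Row 338: geometry of the crossbar layout, part C (resistors)
-/

noncomputable section

open Function

namespace Crest.Agent.R338

namespace LayGeo
open _root_.Crest.Agent.R338.Star
variable (St : Star) (Dh : ℕ)

/-- Valid resistor codes (necessary condition). -/
def vr (k κ ρ pr : ℕ) : Prop :=
  (k = 0 ∧ κ < St.NC ∧ ρ < St.R2 ∧ (pr = 0 ∨ pr = 1 ∨ pr = 2)) ∨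
  (k = 1 ∧ κ < St.NC ∧ ρ < St.R2 ∧ (pr = 0 ∨ pr = 1 ∨ pr = 2)) ∨
  (k = 2 ∧ κ < St.NC ∧ ρ < St.R2 ∧ (pr = 0 ∨ pr = 1 ∨ pr = 2)) ∨
  (k = 4 ∧ κ = 0 ∧ 2 * ρ + 1 < St.R2 ∧ pr = 0) ∨
  (k = 5 ∧ κ < St.NC ∧ ρ < 5 ∧ pr = 0 ∧ St.ty κ ≠ 5 ∧ 1 ≤ κ) ∨
  (k = 6 ∧ κ < St.NC ∧ ρ = 0 ∧ (pr = 0 ∨ pr = 1 ∨ pr = 2) ∧ St.ty κ = 5) ∨
  (k = 7 ∧ κ < St.NC ∧ ρ = 0 ∧ (pr = 0 ∨ pr = 1 ∨ pr = 2) ∧ St.ty κ = 5) ∨
  (k = 8 ∧ κ < St.NC ∧ ρ = 0 ∧ pr = 0 ∧ St.ty κ = 5)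

theorem vr_of {k κ ρ pr : ℕ} (h : ((k, κ, ρ), pr) ∈ St.ress) : vr St k κ ρ pr := by
  simp only [ress, Finset.mem_filter, Finset.mem_product, Finset.mem_range, mem_cons, vc] at h
  obtain ⟨⟨h1, h2⟩, h3⟩ := h
  have h4 := ty_eq St κ
  have h5 : κ % (St.S + 1) ≠ 0 → 1 ≤ κ := fun h => Nat.pos_of_ne_zero fun h' => h (by
    rw [h', Nat.zero_mod])
  have h6 : pr = 0 ∨ pr = 1 ∨ pr = 2 := by omega
  have h7 : pr2 pr < 2 → pr = 0 := by unfold pr2; split_ifs <;> omega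
  have h8 : 1 ≤ pr2 pr := by unfold pr2; split_ifs <;> omega
  unfold vr
  rcases h1 with ⟨hk, h1⟩ | ⟨rfl, h1⟩ | ⟨rfl, h1⟩ | ⟨rfl, h1⟩ | ⟨hk, hk', h1⟩
  · rcases (by omega : k = 0 ∨ k = 1 ∨ k = 2) with rfl | rfl | rfl
    · exact Or.inl ⟨rfl, h1.1, h1.2, h6⟩
    · exact Or.inr (Or.inl ⟨rfl, h1.1, h1.2, h6⟩)
    · exact Or.inr (Or.inr (Or.inl ⟨rfl, h1.1, h1.2, h6⟩))
  · have : St.ar (3, κ, ρ) = 1 := by simp [ar]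
    omega
  · have : St.ar (4, κ, ρ) = 2 := by simp [ar]
    refine Or.inr (Or.inr (Or.inr (Or.inl ⟨rfl, h1.1, ?_, h7 (this ▸ h3)⟩)))
    unfold R2; omega
  · have : St.ar (5, κ, ρ) = 2 := by simp [ar]
    exact Or.inr (Or.inr (Or.inr (Or.inr (Or.inl ⟨rfl, h1.1, h1.2.2, h7 (this ▸ h3),
      fun h => h1.2.1 (h4.1 h), h5 h1.2.1⟩))))
  · refine Or.inr (Or.inr (Or.inr (Or.inr (Or.inr ?_))))
    rcases (by omega : k = 6 ∨ k = 7 ∨ k = 8) with rfl | rfl | rfl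
    · exact Or.inl ⟨rfl, h1.1, h1.2.2, h6, h4.2 h1.2.1⟩
    · exact Or.inr (Or.inl ⟨rfl, h1.1, h1.2.2, h6, h4.2 h1.2.1⟩)
    · have : St.ar (8, κ, ρ) = 2 := by simp [ar]
      exact Or.inr (Or.inr ⟨rfl, h1.1, h1.2.2, h7 (this ▸ h3), h4.2 h1.2.1⟩)

/-- Positions of the lower resistors. -/
def PLo (k κ ρ pr : ℕ) (x y : ℤ) : Prop :=
  (k = 0 ∧ pr = 0 ∧ ρ < St.R2 ∧ x = Xc Dh κ - 2 ∧ y = 8 * (ρ : ℤ) + 5) ∨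
  (k = 0 ∧ pr = 1 ∧ ρ < St.R2 ∧ x = Xc Dh κ - 2 ∧ y = 8 * (ρ : ℤ) + 7) ∨
  (k = 0 ∧ pr = 2 ∧ ρ < St.R2 ∧ x = Xc Dh κ - 1 ∧ y = 8 * (ρ : ℤ) + 6) ∨
  (k = 1 ∧ pr = 0 ∧ ρ < St.R2 ∧ x = Xc Dh κ + 1 ∧ y = 8 * (ρ : ℤ) + 6) ∨
  (k = 1 ∧ pr = 1 ∧ ρ < St.R2 ∧ x = Xc Dh κ + 2 ∧ y = 8 * (ρ : ℤ) + 5) ∨
  (k = 1 ∧ pr = 2 ∧ ρ < St.R2 ∧ x = Xc Dh κ + 2 ∧ y = 8 * (ρ : ℤ) + 8) ∨
  (k = 2 ∧ pr = 0 ∧ ρ < St.R2 ∧ x = Xc Dh κ ∧ y = 8 * (ρ : ℤ) + 10) ∨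
  (k = 2 ∧ pr = 1 ∧ ρ < St.R2 ∧ x = Xc Dh κ - 2 ∧ y = 8 * (ρ : ℤ) + 9) ∨
  (k = 2 ∧ pr = 2 ∧ ρ < St.R2 ∧ x = Xc Dh κ - 2 ∧ y = 8 * (ρ : ℤ) + 11) ∨
  (k = 4 ∧ pr = 0 ∧ 2 * ρ + 1 < St.R2 ∧ κ = 0 ∧ x = Xc Dh κ - 3 ∧ y = 16 * (ρ : ℤ) + 12)

/-- Positions of the upper resistors. -/
def PHi (k κ ρ pr : ℕ) (x y : ℤ) : Prop :=
  (k = 5 ∧ pr = 0 ∧ ρ < 5 ∧ St.ty κ ≠ 5 ∧ x = Xc Dh κ - Dh - 9 ∧
    y = 8 * (St.R2 : ℤ) + 20 + 2 * Dh + 2 * ρ) ∨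
  (k = 6 ∧ pr = 0 ∧ ρ = 0 ∧ St.ty κ = 5 ∧ x = Xc Dh κ - Dh - 7 ∧ y = 8 * (St.R2 : ℤ) + 22 + 2 * Dh) ∨
  (k = 6 ∧ pr = 1 ∧ ρ = 0 ∧ St.ty κ = 5 ∧ x = Xc Dh κ - Dh - 7 ∧ y = 8 * (St.R2 : ℤ) + 24 + 2 * Dh) ∨
  (k = 6 ∧ pr = 2 ∧ ρ = 0 ∧ St.ty κ = 5 ∧ x = Xc Dh κ - Dh - 5 ∧ y = 8 * (St.R2 : ℤ) + 23 + 2 * Dh) ∨
  (k = 7 ∧ pr = 0 ∧ ρ = 0 ∧ St.ty κ = 5 ∧ x = Xc Dh κ - Dh - 7 ∧ y = 8 * (St.R2 : ℤ) + 26 + 2 * Dh) ∨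
  (k = 7 ∧ pr = 1 ∧ ρ = 0 ∧ St.ty κ = 5 ∧ x = Xc Dh κ - Dh - 7 ∧ y = 8 * (St.R2 : ℤ) + 28 + 2 * Dh) ∨
  (k = 7 ∧ pr = 2 ∧ ρ = 0 ∧ St.ty κ = 5 ∧ x = Xc Dh κ - Dh - 5 ∧ y = 8 * (St.R2 : ℤ) + 27 + 2 * Dh) ∨
  (k = 8 ∧ pr = 0 ∧ ρ = 0 ∧ St.ty κ = 5 ∧ x = Xc Dh κ - Dh - 5 ∧ y = 8 * (St.R2 : ℤ) + 25 + 2 * Dh)

variable {St}

theorem pos_spec {k κ ρ pr : ℕ} (h : vr St k κ ρ pr) :
    PLo St Dh k κ ρ pr (St.pos Dh ((k, κ, ρ), pr)).1 (St.pos Dh ((k, κ, ρ), pr)).2 ∨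
    PHi St Dh k κ ρ pr (St.pos Dh ((k, κ, ρ), pr)).1 (St.pos Dh ((k, κ, ρ), pr)).2 := by
  rcases h with ⟨rfl, -, h, rfl | rfl | rfl⟩ | ⟨rfl, -, h, rfl | rfl | rfl⟩ |
    ⟨rfl, -, h, rfl | rfl | rfl⟩ | ⟨rfl, rfl, h, rfl⟩ | ⟨rfl, -, h, rfl, h', -⟩ |
    ⟨rfl, -, rfl, rfl | rfl | rfl, h⟩ | ⟨rfl, -, rfl, rfl | rfl | rfl, h⟩ | ⟨rfl, -, rfl, rfl, h⟩ <;>
  simp only [pos, PLo, PHi, Yc, Y0, yL, Nat.reduceEqDiff, if_true, if_false, false_and, true_and,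
    or_false, false_or, OfNat.zero_ne_ofNat, OfNat.one_ne_ofNat, OfNat.ofNat_ne_zero,
    OfNat.ofNat_ne_one, one_ne_zero, zero_ne_one, and_true] <;> omega

variable {Dh} {k κ ρ pr k' κ' ρ' pr' : ℕ} {x y : ℤ}

theorem lo_x (h : PLo St Dh k κ ρ pr x y) :
    Xc Dh κ - 3 ≤ x ∧ x ≤ Xc Dh κ + 2 ∧ 5 ≤ y ∧ y ≤ 8 * (St.R2 : ℤ) + 3 := by
  unfold PLo at h; omega

theorem hi_x (h : PHi St Dh k κ ρ pr x y) : Xc Dh κ - Dh - 9 ≤ x ∧ x ≤ Xc Dh κ - Dh - 5 ∧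
    8 * (St.R2 : ℤ) + 20 + 2 * Dh ≤ y ∧ y ≤ 8 * (St.R2 : ℤ) + 28 + 2 * Dh := by
  unfold PHi at h; omega

theorem lo_inj (hD : 20 ≤ Dh) (h : PLo St Dh k κ ρ pr x y) (h' : PLo St Dh k' κ' ρ' pr' x y) :
    k = k' ∧ κ = κ' ∧ ρ = ρ' ∧ pr = pr' := by
  obtain rfl : κ = κ' := by
    have h1 := lo_x h
    have h2 := lo_x h'
    clear h h'
    rcases Xc_tri Dh κ κ' with h1 | h1 | h1 | h1 | h1 <;> omega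
  unfold PLo at h'
  rcases h with h | h | h | h | h | h | h | h | h | h <;> omega

theorem hi_inj (hD : 20 ≤ Dh) (h : PHi St Dh k κ ρ pr x y) (h' : PHi St Dh k' κ' ρ' pr' x y) :
    k = k' ∧ κ = κ' ∧ ρ = ρ' ∧ pr = pr' := by
  obtain rfl : κ = κ' := by
    have h1 := hi_x h
    have h2 := hi_x h'
    clear h h'
    rcases Xc_tri Dh κ κ' with h1 | h1 | h1 | h1 | h1 <;> omega
  unfold PHi at h'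
  rcases h with h | h | h | h | h | h | h | h <;> omega

theorem pos_inj (hD : 20 ≤ Dh) {r r' : Cd × ℕ} (h : r ∈ St.ress) (h' : r' ∈ St.ress)
    (e : St.pos Dh r = St.pos Dh r') : r = r' := by
  obtain ⟨⟨k, κ, ρ⟩, pr⟩ := r
  obtain ⟨⟨k', κ', ρ'⟩, pr'⟩ := r'
  have h1 := pos_spec Dh (vr_of St h)
  have h2 := pos_spec Dh (vr_of St h')
  rw [e] at h1
  rcases h1 with h1 | h1 <;> rcases h2 with h2 | h2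
  · obtain ⟨rfl, rfl, rfl, rfl⟩ := lo_inj hD h1 h2; rfl
  · have := lo_x h1; have := hi_x h2; omega
  · have := hi_x h1; have := lo_x h2; omega
  · obtain ⟨rfl, rfl, rfl, rfl⟩ := hi_inj hD h1 h2; rfl

theorem lo_not0 (hD : 20 ≤ Dh) (h : PLo St Dh k κ ρ pr x y) (h' : St.cel Dh (0, κ', ρ') (x, y)) :
    False := by
  have h0 := lo_x h
  rw [cel0] at h'
  dsimp only at h'
  rcases Xc_tri Dh κ κ' with rfl | h1 | h1 | h1 | h1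
  · unfold PLo at h; omega
  · unfold PLo at h; omega
  all_goals clear h; omega

theorem lo_not1 (hD : 20 ≤ Dh) (h : PLo St Dh k κ ρ pr x y) (h' : St.cel Dh (1, κ', ρ') (x, y)) :
    False := by
  have h0 := lo_x h
  rw [cel1] at h'
  dsimp only at h'
  rcases Xc_tri Dh κ κ' with rfl | h1 | h1 | h1 | h1
  · unfold PLo at h; omega
  all_goals clear h; omega

theorem lo_not2 (hD : 20 ≤ Dh) (h : PLo St Dh k κ ρ pr x y) (hρ : ρ' ≤ St.R2)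
    (h' : St.cel Dh (2, κ', ρ') (x, y)) : False := by
  have h0 := lo_x h
  rw [cel2] at h'
  dsimp only at h'
  rcases Xc_tri Dh κ κ' with rfl | h1 | h1 | h1 | h1
  · unfold PLo at h; omega
  all_goals clear h; omega

theorem hi_not2 (hD : 20 ≤ Dh) (h : PHi St Dh k κ ρ pr x y) (hρ : ρ' ≤ St.R2)
    (h' : St.cel Dh (2, κ', ρ') (x, y)) : False := by
  have h0 := hi_x h
  have := ty_le St κ'
  rw [cel2] at h'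
  dsimp only at h'
  clear h; omega

theorem hi_not3 (hD : 20 ≤ Dh) (h : PHi St Dh k κ ρ pr x y) (h' : St.cel Dh (3, κ', ρ') (x, y)) :
    False := by
  have h0 := hi_x h
  rw [cel3] at h'
  dsimp only at h'
  rcases Xc_tri Dh κ κ' with rfl | h1 | h1 | h1 | h1
  · unfold PHi at h; omega
  all_goals clear h; omega

theorem pos_not (hD : 20 ≤ Dh) {r : Cd × ℕ} (h : r ∈ St.ress) {a : Cd} (ha : St.vs a) :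
    ¬ St.cel Dh a (St.pos Dh r) := by
  intro hc
  obtain ⟨⟨k, κ, ρ⟩, pr⟩ := r
  obtain ⟨k', κ', ρ'⟩ := a
  have h1 := pos_spec Dh (vr_of St h)
  generalize St.pos Dh ((k, κ, ρ), pr) = c at h1 hc
  obtain ⟨x, y⟩ := c
  simp only [vs] at ha
  dsimp only at h1
  rcases h1 with h1 | h1 <;>
    rcases ha with ⟨rfl, -, ha⟩ | ⟨rfl, -, ha⟩ | ⟨rfl, -, ha⟩ | ⟨rfl, -, ha⟩
  · exact lo_not0 hD h1 hc
  · exact lo_not1 hD h1 hc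
  · exact lo_not2 hD h1 ha hc
  · have := lo_x h1; clear h1; rw [cel3] at hc; dsimp only at hc; omega
  · have := hi_x h1; clear h1; rw [cel0] at hc; dsimp only at hc; omega
  · have := hi_x h1; clear h1; rw [cel1] at hc; dsimp only at hc; omega
  · exact hi_not2 hD h1 ha hc
  · exact hi_not3 hD h1 hc

theorem pos_bd (hD : 20 ≤ Dh) {r : Cd × ℕ} (h : r ∈ St.ress) : inG (St.GG Dh) (St.pos Dh r) := by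
  obtain ⟨⟨k, κ, ρ⟩, pr⟩ := r
  have h0 := vr_of St h
  have h1 := pos_spec Dh h0
  have h2 : Xc Dh κ ≤ Xc Dh St.NC := Xc_mono Dh (by unfold vr at h0; omega)
  have h3 := Xc_ge Dh κ
  clear h0
  unfold inG
  rw [GG_eq]
  rcases h1 with h1 | h1
  · have := lo_x h1; clear h1; omega
  · have := hi_x h1; clear h1; omega

theorem ends (hD : 20 ≤ Dh) {r : Cd × ℕ} (h : r ∈ St.ress) :
    (St.cel Dh (vtx r.1 (pr1 r.2)) (St.pos Dh r - un (verR r)) ∧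
      St.cel Dh (vtx r.1 (pr2 r.2)) (St.pos Dh r + un (verR r))) ∨
    (St.cel Dh (vtx r.1 (pr2 r.2)) (St.pos Dh r - un (verR r)) ∧
      St.cel Dh (vtx r.1 (pr1 r.2)) (St.pos Dh r + un (verR r))) := by
  obtain ⟨⟨k, κ, ρ⟩, pr⟩ := r
  have h0 := vr_of St h
  have h1 := Xc_succ Dh κ
  have h2 : 1 ≤ κ → Xc Dh κ = Xc Dh (κ - 1) + 2 * Dh := fun h => by
    rw [← Xc_succ, Nat.sub_add_cancel h]
  rcases h0 with ⟨rfl, -, h, rfl | rfl | rfl⟩ | ⟨rfl, -, h, rfl | rfl | rfl⟩ |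
    ⟨rfl, -, h, rfl | rfl | rfl⟩ | ⟨rfl, rfl, h, rfl⟩ | ⟨rfl, -, h, rfl, h', h''⟩ |
    ⟨rfl, -, rfl, rfl | rfl | rfl, h⟩ | ⟨rfl, -, rfl, rfl | rfl | rfl, h⟩ | ⟨rfl, -, rfl, rfl, h⟩ <;>
  simp only [pos, vtx, pr1, pr2, verR, un, Yc, Y0, yL, Nat.reduceEqDiff, if_true, if_false,
    false_and, true_and, and_true, and_false, or_true,
    or_false, OfNat.zero_ne_ofNat, OfNat.one_ne_ofNat, OfNat.ofNat_ne_zero,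
    OfNat.ofNat_ne_one, one_ne_zero, zero_ne_one, decide_true, decide_false, Bool.false_eq_true,
    cel0, cel1, cel2, cel3, Prod.fst_sub, Prod.snd_sub, Prod.fst_add, Prod.snd_add] <;>
  first | (left; omega) | (right; omega)

end LayGeo

end Crest.Agent.R338
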