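import Crest.Agent.R338.LayNetA

/-!
# Row 338: the constraint network of the crossbar layout (final statement)
-/

noncomputable section

open Function

namespace Crest.Agent.R338

namespace LayNet

variable (St : Star)

theorem ok {p b : ℝ} (hp : 0 < p) (hp1 : p ≤ 1) (hb : (St.size : ℝ) ^ 12 ≤ b) :
    St.net.OK (gm (St.cvec fun a => 1 / St.net.sw p a)) p b where
  hv_inj := by
    intro α β h
    have h1 := val_hv St α β
    rw [h, val_hv, if_pos rfl] at h1
    by_contra h2
    rw [if_neg h2] at h1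
    exact one_ne_zero h1
  comp_hv := by
    rintro (α | ⟨i, b⟩)
    · simp [Star.net, hc]
    · simp [Star.net, hc, Fin.ext_iff]
  val_hv := val_hv St
  val_comp := by
    rintro a (α | ⟨i, b⟩) h
    · have : a.1.1 ≠ 3 := fun e => h (by simp [Star.net, Star.val, e])
      simp [Star.net, hc, this]
    · have : a.1.1 = 3 ∧ a.1.2.1 / (St.S + 1) = i := by
        by_contra e
        exact h (if_neg e)
      simp [Star.net, hc, this, Fin.ext_iff]
  val_sq := (val_sq St).trans hb
  gap := fun ξ => (gap St hp hp1 ξ).trans (mul_le_mul_of_nonneg_right hb (by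
    rw [qf_gm]
    exact Finset.sum_nonneg fun _ _ => by positivity))
  ker := ker St hp
  cc_inj := by
    rintro ⟨i, σ⟩ ⟨i', σ'⟩ h
    have h1 : (i : ℕ) * (St.S + 1) + (σ + 1) = i' * (St.S + 1) + (σ' + 1) :=
      congrArg (fun a : St.Site => a.1.2.1) h
    have h2 := col_mod St i σ.2
    have h3 := col_div St i σ.2
    rw [h1, col_mod St _ σ'.2] at h2
    rw [h1, col_div St _ σ'.2] at h3
    exact Prod.ext (Fin.ext h3.symm) (Fin.ext (by simpa using h2.symm))
  cc_comp := fun k => by simp [Star.net]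
  cl_comp := fun k => by simp [Star.net, Fin.ext_iff, col_div St _ k.2.2]
  cc_light := by
    rintro k (α | ⟨i, b⟩) h
    · exact absurd (congrArg (fun a : St.Site => a.1.1) h) (by simp [Star.net])
    · exact absurd (congrArg (fun a : St.Site => a.1.1) h) (by simp [Star.net])
  cl_light := by
    rintro k (α | ⟨i, b⟩) h
    · exact absurd (congrArg (fun a : St.Site => a.1.1) h) (by simp [Star.net])
    · have h1 : (i : ℕ) * (St.S + 1) = k.1 * (St.S + 1) + (k.2 + 1) :=
        congrArg (fun a : St.Site => a.1.2.1) h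
      have h2 := col_mod St k.1 k.2.2
      rw [← h1, Nat.mul_mod_left] at h2
      omega

theorem valY_top (i : ℕ) {σ α : ℕ} (hσ : σ < St.S) (hα : α < St.R) :
    St.valY (i * (St.S + 1) + (σ + 1)) St.R2 α = St.cv i σ α := by
  have hpk : ∀ ρ, St.pk (i * (St.S + 1) + (σ + 1)) ρ = St.pick i σ ρ := fun ρ => by
    simp [Star.pk, col_mod St i hσ, col_div St i hσ]
  rw [Star.valY, Finset.sum_eq_add_of_mem (2 * α) (2 * α + 1)
    (Finset.mem_range.2 (by unfold Star.R2; omega)) (Finset.mem_range.2 (by unfold Star.R2; omega))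
    (by omega)]
  · have h1 : (2 * α + 1) / 2 = α := by omega
    have h2 : valX (2 * α) α = 1 := by simp [valX]
    have h3 : valX (2 * α + 1) α = -1 := by simp [valX, h1]
    rw [hpk, hpk, h2, h3, Star.cv]
    split_ifs <;> simp
  · intro ρ _ h
    have : valX ρ α = 0 := if_neg (by omega)
    rw [this, ite_self]

theorem H_eq (x : Fin St.R → (Fin St.N → Bool) → ℂ) : St.net.H x = St.H x := by
  unfold Net.H Star.H sH
  refine Finset.sum_congr rfl fun k _ => ?_
  congr 1
  refine Finset.sum_congr rfl fun y _ => ?_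
  have h1 : ∀ α : Fin St.R, St.net.val (St.net.cc k) (Sum.inl α) = St.cv k.1 k.2 α := fun α => by
    rw [← valY_top St _ k.2.2 α.2]
    simp [Star.net, Star.val]
  have h2 : ∀ β, St.net.val (St.net.cl k) (Sum.inr (St.net.lf k, β)) =
      (-1) ^ (k.2 + 1 : ℕ) * lvT (k.2 % 5) β := fun β => by
    simp only [Star.net, Star.val, col_mod St _ k.2.2, col_div St _ k.2.2, and_self, if_true]
  have h3 : ∑ α, ∑ β : Bool, ((St.net.val (St.net.cc k) (Sum.inl α) *
      St.net.val (St.net.cl k) (Sum.inr (St.net.lf k, β)) : ℤ) : ℂ) * x α (update y (St.net.lf k) β) =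
      (-1) ^ (k.2 + 1 : ℕ) * ∑ α : Fin St.R, ∑ β : Bool,
        ((St.cv k.1 k.2 α * lvT (k.2 % 5) β : ℤ) : ℂ) * x α (update y k.1 β) := by
    rw [Finset.mul_sum]
    refine Finset.sum_congr rfl fun α _ => ?_
    rw [Finset.mul_sum]
    refine Finset.sum_congr rfl fun β _ => ?_
    rw [h1, h2]
    change _ * x α (update y k.1 β) = _
    push_cast
    ring
  rw [h3, norm_mul, norm_pow, norm_neg, norm_one, one_pow, one_mul]

theorem ar_cases (q : Cd) : St.ar q = 1 ∨ St.ar q = 2 ∨ St.ar q = 3 := by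
  unfold Star.ar
  split_ifs <;> simp

theorem lagrange {m : ℕ} (hm : m = 1 ∨ m = 2 ∨ m = 3) (u v : ℕ → ℝ) :
    (∑ j ∈ Finset.range m, u j) * ∑ j ∈ Finset.range m, v j =
      ∑ j ∈ Finset.range m, m * (u j * v j) - ∑ pr ∈ Finset.range 3,
        if pr2 pr < m then (u (pr1 pr) - u (pr2 pr)) * (v (pr1 pr) - v (pr2 pr)) else 0 := by
  rcases hm with rfl | rfl | rfl <;> simp [Finset.sum_range_succ, pr1, pr2] <;> ring

theorem resist (Dh : ℕ) (ω : St.Site → ℝ) (a a' : St.Site) : gm (St.cvec ω) a a' =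
    (if a = a' then St.dg a.1 * ω a ^ 2 else 0) - gm ((St.lay Dh).rv ω) a a' := by
  obtain ⟨e, he⟩ : ∃ e : St.Site → Cd → ℝ, ∀ a c, e a c = if c = a.1 then ω a else 0 :=
    ⟨_, fun _ _ => rfl⟩
  have h1 : gm (St.cvec ω) a a' = ∑ q ∈ St.cons,
      (∑ j ∈ Finset.range (St.ar q), e a (vtx q j)) *
        ∑ j ∈ Finset.range (St.ar q), e a' (vtx q j) := by
    rw [← Finset.sum_coe_sort St.cons]
    simp only [he]
    rfl
  have h2 : gm ((St.lay Dh).rv ω) a a' = ∑ q ∈ St.cons, ∑ pr ∈ Finset.range 3,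
      if pr2 pr < St.ar q then (e a (vtx q (pr1 pr)) - e a (vtx q (pr2 pr))) *
        (e a' (vtx q (pr1 pr)) - e a' (vtx q (pr2 pr))) else 0 := by
    rw [← Finset.sum_product' (f := fun q pr => if pr2 pr < St.ar q then
      (e a (vtx q (pr1 pr)) - e a (vtx q (pr2 pr))) *
        (e a' (vtx q (pr1 pr)) - e a' (vtx q (pr2 pr))) else 0), ← Finset.sum_filter,
      ← Star.ress, ← Finset.sum_coe_sort St.ress]
    refine Finset.sum_congr rfl fun r _ => ?_
    simp only [he, Lay.rv, Star.lay, Subtype.ext_iff, eq_comm]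
  have h3 : (if a = a' then St.dg a.1 * ω a ^ 2 else 0) = ∑ q ∈ St.cons,
      ∑ j ∈ Finset.range (St.ar q), St.ar q * (e a (vtx q j) * e a' (vtx q j)) := by
    split_ifs with h
    · subst h
      simp only [Star.dg, Nat.cast_sum, Finset.sum_mul, he]
      refine Finset.sum_congr rfl fun q _ => Finset.sum_congr rfl fun j _ => ?_
      split_ifs
      · ring
      · simp
    · refine (Finset.sum_eq_zero fun q _ => Finset.sum_eq_zero fun j _ => ?_).symm
      rw [he, he]
      split_ifs with e1 e2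
      · exact absurd (Subtype.ext (e1.symm.trans e2)) h
      all_goals simp
  rw [h1, h2, h3, ← Finset.sum_sub_distrib]
  exact Finset.sum_congr rfl fun q _ =>
    lagrange (ar_cases St q) (fun j => e a (vtx q j)) fun j => e a' (vtx q j)

end LayNet

theorem netOK : NetStmt := fun St Dh _ _ _ hp hp1 hb =>
  ⟨LayNet.ok St hp hp1 hb, LayNet.H_eq St, LayNet.resist St Dh⟩

end Crest.Agent.R338
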