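import Crest.Agent.R338.DefsL

/-!
# Row 338: the constraint network of the crossbar layout
-/

noncomputable section

open Function
open scoped ComplexConjugate

namespace Crest.Agent.R338

namespace LayNet

theorem qf_gm {ι ρ : Type} [Fintype ι] [Fintype ρ] (v : ρ → ι → ℝ) (c : ι → ℂ) :
    qf (gm v) c = ∑ r, ‖∑ a, (v r a : ℂ) * c a‖ ^ 2 := by
  have h : ∀ r, ‖∑ a, (v r a : ℂ) * c a‖ ^ 2 =
      ∑ a, ∑ b, v r a * v r b * (conj (c a) * c b).re := by
    intro r
    rw [← Complex.normSq_eq_norm_sq, ← Complex.ofReal_re (Complex.normSq _),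
      Complex.normSq_eq_conj_mul_self, map_sum, Finset.sum_mul_sum, Complex.re_sum]
    refine Finset.sum_congr rfl fun a _ => ?_
    rw [Complex.re_sum]
    refine Finset.sum_congr rfl fun b _ => ?_
    rw [map_mul, Complex.conj_ofReal, mul_mul_mul_comm, ← Complex.ofReal_mul, Complex.re_ofReal_mul]
  simp only [h, qf, gm, Finset.sum_mul]
  symm
  rw [Finset.sum_comm]
  exact Finset.sum_congr rfl fun a _ => Finset.sum_comm

variable (St : Star)

theorem sum_cvec (ω : St.Site → ℝ) (q : St.Con) (ξ : St.Site → ℂ) (η : Cd → ℂ)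
    (h : ∀ a : St.Site, (ω a : ℂ) * ξ a = η a.1) :
    ∑ a, (St.cvec ω q a : ℂ) * ξ a = ∑ j ∈ Finset.range (St.ar q.1), η (vtx q.1 j) := by
  simp only [Star.cvec, Complex.ofReal_sum, Finset.sum_mul]
  rw [Finset.sum_comm]
  refine Finset.sum_congr rfl fun j _ => ?_
  rw [Finset.sum_eq_single ⟨vtx q.1 j, St.vtx_mem q.2 j⟩, if_pos rfl, h]
  · intro a _ ha
    rw [if_neg fun e => ha (Subtype.ext e.symm)]
    simp
  · simp

/-- the sums over the nine kinds of constraints -/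
theorem sums {M : Type} [AddCommMonoid M] (η : Cd → M) (κ ρ : ℕ) :
    (∑ j ∈ Finset.range (St.ar (0, κ, ρ)), η (vtx (0, κ, ρ) j) =
      η (0, κ, ρ) + η (2, κ, ρ) + η (1, κ, ρ)) ∧
    (∑ j ∈ Finset.range (St.ar (1, κ, ρ)), η (vtx (1, κ, ρ) j) =
      η (2, κ, ρ) + η (1, κ, ρ) + η (0, κ + 1, ρ)) ∧
    (∑ j ∈ Finset.range (St.ar (2, κ, ρ)), η (vtx (2, κ, ρ) j) =
      η (1, κ, ρ) + η (2, κ, ρ + 1) + if St.pk κ ρ then 0 else η (0, κ, ρ)) ∧
    (∑ j ∈ Finset.range (St.ar (3, κ, ρ)), η (vtx (3, κ, ρ) j) = η (2, κ, 0)) ∧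
    (∑ j ∈ Finset.range (St.ar (4, κ, ρ)), η (vtx (4, κ, ρ) j) =
      η (0, 0, 2 * ρ) + η (0, 0, 2 * ρ + 1)) ∧
    (∑ j ∈ Finset.range (St.ar (5, κ, ρ)), η (vtx (5, κ, ρ) j) =
      η (3, κ - 1, ρ) + η (3, κ, ρ)) ∧
    (∑ j ∈ Finset.range (St.ar (6, κ, ρ)), η (vtx (6, κ, ρ) j) =
      η (3, κ, 0) + η (3, κ, 1) + η (3, κ, 2)) ∧
    (∑ j ∈ Finset.range (St.ar (7, κ, ρ)), η (vtx (7, κ, ρ) j) =
      η (3, κ, 0) + η (3, κ, 3) + η (3, κ, 4)) ∧
    (∑ j ∈ Finset.range (St.ar (8, κ, ρ)), η (vtx (8, κ, ρ) j) =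
      η (3, κ, 2) + η (3, κ, 3)) := by
  refine ⟨?_, ?_, ?_, ?_, ?_, ?_, ?_, ?_, ?_⟩
  all_goals first
    | (simp [Star.ar, vtx, Finset.sum_range_succ]; done)
    | (cases h : St.pk κ ρ <;> simp [Star.ar, vtx, Finset.sum_range_succ, h])

theorem pred_div {κ m : ℕ} (h : κ % m ≠ 0) : (κ - 1) / m = κ / m ∧ (κ - 1) % m + 1 = κ % m := by
  rcases Nat.eq_zero_or_pos m with rfl | hm
  · simp only [Nat.mod_zero] at h ⊢
    exact ⟨by simp, by omega⟩
  have h1 := Nat.div_add_mod κ m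
  have h2 := Nat.mod_lt κ hm
  have h3 : κ - 1 = (κ % m - 1) + m * (κ / m) := by omega
  rw [h3, Nat.add_mul_div_left _ _ hm, Nat.add_mul_mod_self_left, Nat.div_eq_of_lt (by omega),
    Nat.mod_eq_of_lt (by omega)]
  omega

theorem sum_val {q : Cd} (hq : St.vc q) (α : Hv St.N St.R) :
    ∑ j ∈ Finset.range (St.ar q), St.val (vtx q j) α = 0 := by
  obtain ⟨k, κ, ρ⟩ := q
  obtain ⟨s0, s1, s2, s3, s4, s5, s6, s7, s8⟩ := sums St (fun a => St.val a α) κ ρ
  have hk : k ≤ 8 := by unfold Star.vc at hq; omega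
  interval_cases k
  · rw [s0]; cases α <;> simp [Star.val]
  · rw [s1]; cases α <;> simp [Star.val]
  · rw [s2]
    cases α with
    | inl α =>
      have e : St.valY κ (ρ + 1) α = St.valY κ ρ α + if St.pk κ ρ then valX ρ α else 0 :=
        Finset.sum_range_succ _ _
      cases h : St.pk κ ρ <;> simp [Star.val, e, h]
      ring
    | inr α => simp [Star.val]
  · rw [s3]; cases α <;> simp [Star.val, Star.valY]
  · rw [s4]
    cases α with
    | inl α =>
      have h1 : (2 * ρ + 1) / 2 = ρ := by omega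
      simp only [Star.val, valX, if_true, h1, Nat.mul_div_cancel_left ρ two_pos, Nat.mul_mod_right,
        Nat.mul_add_mod_self_left]
      split_ifs <;> simp_all
    | inr α => simp [Star.val]
  · rw [s5]
    have h : κ % (St.S + 1) ≠ 0 := by unfold Star.vc at hq; simp only at hq; omega
    obtain ⟨h1, h2⟩ := pred_div h
    cases α with
    | inl α => simp [Star.val]
    | inr α =>
      simp only [Star.val, h1, ← h2, pow_succ]
      split_ifs <;> ring
  · rw [s6]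
    cases α with
    | inl α => simp [Star.val]
    | inr α => obtain ⟨i, _ | _⟩ := α <;> simp only [Star.val] <;> split_ifs <;> simp [lvT]
  · rw [s7]
    cases α with
    | inl α => simp [Star.val]
    | inr α => obtain ⟨i, _ | _⟩ := α <;> simp only [Star.val] <;> split_ifs <;> simp [lvT]
  · rw [s8]
    cases α with
    | inl α => simp [Star.val]
    | inr α => obtain ⟨i, _ | _⟩ := α <;> simp only [Star.val] <;> split_ifs <;> simp [lvT]

section gap

variable {St} {δ : Cd → ℂ} {τ : ℝ} (hτ : 0 ≤ τ)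
  (h : ∀ q, St.vc q → ‖∑ j ∈ Finset.range (St.ar q), δ (vtx q j)‖ ≤ τ)
  (h0 : ∀ α < St.R, δ (0, 0, 2 * α) = 0)
  (h1 : ∀ κ < St.NC, κ % (St.S + 1) = 0 → δ (3, κ, 0) = 0 ∧ δ (3, κ, 2) = 0)

include hτ h h0 in
theorem errX {ρ : ℕ} (hρ : ρ < St.R2) : ∀ κ ≤ St.NC, ‖δ (0, κ, ρ)‖ ≤ (2 * κ + 1) * τ := by
  intro κ
  induction κ with
  | zero =>
    intro _
    have hR : ρ / 2 < St.R := by unfold Star.R2 at hρ; omega
    rcases Nat.mod_two_eq_zero_or_one ρ with e | e
    · have : ρ = 2 * (ρ / 2) := by omega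
      rw [this, h0 _ hR, norm_zero]
      positivity
    · have : ρ = 2 * (ρ / 2) + 1 := by omega
      have h2 := h (4, 0, ρ / 2) (by simp [Star.vc, hR])
      rw [(sums St δ 0 (ρ / 2)).2.2.2.2.1, h0 _ hR, zero_add, ← this] at h2
      simpa using h2
  | succ κ ih =>
    intro hκ
    have r0 := h (0, κ, ρ) (Or.inl ⟨by simp, hκ, hρ⟩)
    have r1 := h (1, κ, ρ) (Or.inl ⟨by simp, hκ, hρ⟩)
    rw [(sums St δ κ ρ).1] at r0
    rw [(sums St δ κ ρ).2.1] at r1
    have e : δ (0, κ + 1, ρ) = (δ (2, κ, ρ) + δ (1, κ, ρ) + δ (0, κ + 1, ρ)) -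
        (δ (0, κ, ρ) + δ (2, κ, ρ) + δ (1, κ, ρ)) + δ (0, κ, ρ) := by ring
    rw [e]
    refine (norm_add_le_of_le (norm_sub_le_of_le r1 r0) (ih (by omega))).trans (le_of_eq ?_)
    push_cast
    ring

include hτ h h0 in
theorem errY {κ : ℕ} (hκ : κ < St.NC) :
    ∀ ρ ≤ St.R2, ‖δ (2, κ, ρ)‖ ≤ (ρ + 1) * (2 * St.NC + 3) * τ := by
  intro ρ
  induction ρ with
  | zero =>
    intro _
    have r := h (3, κ, 0) (by simp [Star.vc, hκ])
    rw [(sums St δ κ 0).2.2.2.1] at r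
    refine r.trans (le_mul_of_one_le_left hτ ?_)
    have : (0 : ℝ) ≤ St.NC := Nat.cast_nonneg _
    push_cast
    linarith
  | succ ρ ih =>
    intro hρ
    have r0 := h (0, κ, ρ) (Or.inl ⟨by simp, hκ, hρ⟩)
    have r2 := h (2, κ, ρ) (Or.inl ⟨by simp, hκ, hρ⟩)
    rw [(sums St δ κ ρ).1] at r0
    rw [(sums St δ κ ρ).2.2.1] at r2
    have hX := errX hτ h h0 hρ κ hκ.le
    have hX' : ‖if St.pk κ ρ then δ (0, κ, ρ) else 0‖ ≤ (2 * St.NC + 1) * τ := by
      have h3 : (κ : ℝ) ≤ St.NC := by exact_mod_cast hκ.le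
      split_ifs
      · exact hX.trans (mul_le_mul_of_nonneg_right (by linarith) hτ)
      · rw [norm_zero]
        positivity
    have e : δ (2, κ, ρ + 1) =
        (δ (1, κ, ρ) + δ (2, κ, ρ + 1) + if St.pk κ ρ then 0 else δ (0, κ, ρ)) -
        (δ (0, κ, ρ) + δ (2, κ, ρ) + δ (1, κ, ρ)) + δ (2, κ, ρ) +
        if St.pk κ ρ then δ (0, κ, ρ) else 0 := by
      split_ifs <;> ring
    rw [e]
    refine (norm_add_le_of_le (norm_add_le_of_le (norm_sub_le_of_le r2 r0) (ih (by omega)))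
      hX').trans (le_of_eq ?_)
    push_cast
    ring

include hτ h h1 in
theorem errL {j : ℕ} (hj : j < 5) : ∀ κ < St.NC, ‖δ (3, κ, j)‖ ≤ (κ + 2) * τ := by
  have home : ∀ κ < St.NC, κ % (St.S + 1) = 0 → ‖δ (3, κ, j)‖ ≤ 2 * τ := by
    intro κ hκ hm
    obtain ⟨e0, e2⟩ := h1 κ hκ hm
    have r6 := h (6, κ, 0) (by simp [Star.vc, hκ, hm])
    have r7 := h (7, κ, 0) (by simp [Star.vc, hκ, hm])
    have r8 := h (8, κ, 0) (by simp [Star.vc, hκ, hm])
    rw [(sums St δ κ 0).2.2.2.2.2.2.1, e0, e2, zero_add, add_zero] at r6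
    rw [(sums St δ κ 0).2.2.2.2.2.2.2.1, e0, zero_add] at r7
    rw [(sums St δ κ 0).2.2.2.2.2.2.2.2, e2, zero_add] at r8
    interval_cases j
    · rw [e0, norm_zero]; positivity
    · linarith
    · rw [e2, norm_zero]; positivity
    · linarith
    · have := norm_sub_le_of_le r7 r8
      rw [add_sub_cancel_left] at this
      linarith
  intro κ
  induction κ with
  | zero => intro hκ; simpa using home 0 hκ (Nat.zero_mod _)
  | succ κ ih =>
    intro hκ
    by_cases hm : (κ + 1) % (St.S + 1) = 0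
    · refine (home _ hκ hm).trans (mul_le_mul_of_nonneg_right ?_ hτ)
      have : (0 : ℝ) ≤ (κ + 1 : ℕ) := Nat.cast_nonneg _
      linarith
    · have r5 := h (5, κ + 1, j) (by simp [Star.vc, hκ, hm, hj])
      rw [(sums St δ (κ + 1) j).2.2.2.2.2.1, Nat.add_sub_cancel] at r5
      have := norm_sub_le_of_le r5 (ih (by omega))
      rw [add_sub_cancel_left] at this
      refine this.trans (le_of_eq ?_)
      push_cast
      ring

include hτ h h0 h1 in
theorem err {a : Cd} (ha : St.vs a) : ‖δ a‖ ≤ (St.R2 + 2) * (2 * St.NC + 3) * τ := by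
  obtain ⟨k, κ, ρ⟩ := a
  have hN : (0 : ℝ) ≤ St.NC := Nat.cast_nonneg _
  have hR : (0 : ℝ) ≤ St.R2 := Nat.cast_nonneg _
  have hNR := mul_nonneg hN hR
  rcases ha with ⟨rfl, h2, h3⟩ | ⟨rfl, h2, h3⟩ | ⟨rfl, h2, h3⟩ | ⟨rfl, h2, h3⟩
  · refine (errX hτ h h0 h3 κ h2).trans (mul_le_mul_of_nonneg_right ?_ hτ)
    have : (κ : ℝ) ≤ St.NC := by exact_mod_cast h2
    linarith
  · have r0 := h (0, κ, ρ) (Or.inl ⟨by simp, h2, h3⟩)
    rw [(sums St δ κ ρ).1] at r0
    have := norm_sub_le_of_le r0 (norm_add_le_of_le (errX hτ h h0 h3 κ h2.le)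
      (errY hτ h h0 h2 ρ h3.le))
    rw [add_sub_cancel_left] at this
    refine this.trans ?_
    have h4 : (κ : ℝ) ≤ St.NC := by exact_mod_cast h2.le
    have h5 : (ρ : ℝ) ≤ St.R2 := by exact_mod_cast h3.le
    have h6 : (1 + ((2 * κ + 1) + (ρ + 1) * (2 * St.NC + 3)) : ℝ) ≤
        (St.R2 + 2) * (2 * St.NC + 3) := by
      nlinarith [mul_le_mul_of_nonneg_right h5 hN]
    nlinarith [mul_le_mul_of_nonneg_right h6 hτ]
  · refine (errY hτ h h0 h2 ρ h3).trans (mul_le_mul_of_nonneg_right ?_ hτ)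
    have h5 : (ρ : ℝ) ≤ St.R2 := by exact_mod_cast h3
    exact mul_le_mul_of_nonneg_right (by linarith) (by positivity)
  · refine (errL hτ h h1 h3 κ h2).trans (mul_le_mul_of_nonneg_right ?_ hτ)
    have : (κ : ℝ) ≤ St.NC := by exact_mod_cast h2.le
    linarith

end gap

theorem NC_le : St.NC + 2 ≤ St.size ^ 2 := by
  unfold Star.NC Star.size
  nlinarith [Nat.zero_le (St.N * St.R), Nat.zero_le (St.S * St.R), Nat.zero_le (St.N * St.S)]

theorem R2_le : St.R2 + 5 ≤ 2 * St.size := by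
  unfold Star.R2 Star.size
  omega

theorem card_le : Fintype.card St.Site ≤ 8 * St.size ^ 3 := by
  rw [Fintype.card_coe]
  refine (Finset.card_filter_le _ _).trans ?_
  rw [Finset.card_product, Finset.card_product, Finset.card_range, Finset.card_range,
    Finset.card_range]
  calc 4 * ((St.NC + 1) * (St.R2 + 5)) ≤ 4 * (St.size ^ 2 * (2 * St.size)) := by
        have := NC_le St
        gcongr
        · omega
        · exact R2_le St
    _ = _ := by ring

theorem abs_valX (ρ α : ℕ) : |valX ρ α| ≤ 1 := by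
  unfold valX
  split_ifs <;> simp

theorem abs_valY (κ ρ α : ℕ) : |St.valY κ ρ α| ≤ ρ := by
  refine (Finset.abs_sum_le_sum_abs _ _).trans ?_
  refine (Finset.sum_le_card_nsmul _ _ 1 fun i _ => ?_).trans (by simp)
  split_ifs
  · exact abs_valX _ _
  · simp

theorem abs_val (a : Cd) (α : Hv St.N St.R) : |St.val a α| ≤ a.2.2 + 1 := by
  have h0 : (0 : ℤ) ≤ a.2.2 := Int.natCast_nonneg _
  cases α with
  | inl α =>
    have h1 := abs_valX a.2.2 α
    have h2 := abs_valY St a.2.1 a.2.2 α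
    simp only [Star.val]
    split_ifs
    · linarith
    · refine (abs_sub _ _).trans ?_
      rw [abs_neg]
      linarith
    · linarith
    · rw [abs_zero]
      linarith
  | inr p =>
    simp only [Star.val]
    split_ifs
    · have : |lvT a.2.2 p.2| ≤ 1 := by
        unfold lvT
        split_ifs <;> simp
      rw [abs_mul, abs_pow, abs_neg, abs_one, one_pow, one_mul]
      linarith
    · rw [abs_zero]
      linarith

theorem size_ge : (10 : ℝ) ≤ St.size := by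
  have : 10 ≤ St.size := by unfold Star.size; omega
  exact_mod_cast this

theorem val_sq : ∑ a : St.Site, ∑ α, ((St.val a.1 α : ℝ)) ^ 2 ≤ (St.size : ℝ) ^ 12 := by
  have hz := size_ge St
  have h1 : ∀ (a : St.Site) α, ((St.val a.1 α : ℝ)) ^ 2 ≤ (2 * St.size) ^ 2 := by
    intro a α
    have h2 : a.1.2.2 + 1 ≤ 2 * St.size := by
      have h3 := St.mem_sites.1 a.2
      have := R2_le St
      unfold Star.vs at h3
      omega
    have h3 : |St.val a.1 α| ≤ 2 * St.size := (abs_val St a.1 α).trans (by exact_mod_cast h2)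
    have h4 : |(St.val a.1 α : ℝ)| ≤ 2 * St.size := by exact_mod_cast h3
    rw [← sq_abs]
    exact pow_le_pow_left₀ (abs_nonneg _) h4 2
  have h2 : (Fintype.card (Hv St.N St.R) : ℝ) ≤ 2 * St.size := by
    have : Fintype.card (Hv St.N St.R) ≤ 2 * St.size := by
      simp only [Fintype.card_sum, Fintype.card_prod, Fintype.card_fin, Fintype.card_bool,
        Star.size]
      omega
    exact_mod_cast this
  have h3 : (Fintype.card St.Site : ℝ) ≤ 8 * St.size ^ 3 := by exact_mod_cast card_le St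
  calc _ ≤ ∑ _a : St.Site, ∑ _α : Hv St.N St.R, (2 * (St.size : ℝ)) ^ 2 :=
        Finset.sum_le_sum fun a _ => Finset.sum_le_sum fun α _ => h1 a α
    _ = Fintype.card St.Site * (Fintype.card (Hv St.N St.R) * (2 * (St.size : ℝ)) ^ 2) := by
        simp only [Finset.sum_const, Finset.card_univ, nsmul_eq_mul]
    _ ≤ 8 * St.size ^ 3 * (2 * St.size * (2 * (St.size : ℝ)) ^ 2) := by gcongr
    _ = 64 * (St.size : ℝ) ^ 6 := by ring
    _ ≤ 10 ^ 6 * (St.size : ℝ) ^ 6 := by gcongr; norm_num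
    _ ≤ (St.size : ℝ) ^ 6 * (St.size : ℝ) ^ 6 := by gcongr
    _ = _ := by ring

theorem col_mod (i : ℕ) {σ : ℕ} (hσ : σ < St.S) :
    (i * (St.S + 1) + (σ + 1)) % (St.S + 1) = σ + 1 := by
  rw [Nat.mul_add_mod_self_right]
  exact Nat.mod_eq_of_lt (by omega)

theorem col_div (i : ℕ) {σ : ℕ} (hσ : σ < St.S) :
    (i * (St.S + 1) + (σ + 1)) / (St.S + 1) = i := by
  rw [add_comm, Nat.add_mul_div_right _ _ (Nat.succ_pos _), Nat.div_eq_of_lt (by omega), zero_add]

theorem val_hv (α β : Hv St.N St.R) :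
    St.net.val (St.net.hv α) β = if α = β then 1 else 0 := by
  rcases α with α | ⟨i, b⟩ <;> rcases β with β | ⟨i', b'⟩
  · simp [Star.net, Star.val, valX, Fin.ext_iff]
  · simp [Star.net, Star.val]
  · simp [Star.net, Star.val]
  · cases b <;> cases b' <;> simp [Star.net, Star.val, lvT, Fin.ext_iff]

theorem sw_pos {p : ℝ} (hp : 0 < p) (a : St.Site) : 0 < St.net.sw p a := by
  unfold Net.sw
  split_ifs
  · exact one_pos
  · exact Real.sqrt_pos.2 hp

theorem sw_le {p : ℝ} (hp : p ≤ 1) (a : St.Site) : St.net.sw p a ≤ 1 := by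
  unfold Net.sw
  split_ifs
  · exact le_rfl
  · exact Real.sqrt_le_one.2 hp

theorem sum_emb {q : Cd} (hq : St.vc q) (x : Hv St.N St.R → ℂ) :
    ∑ j ∈ Finset.range (St.ar q), ∑ α, (St.val (vtx q j) α : ℂ) * x α = 0 := by
  rw [Finset.sum_comm]
  refine Finset.sum_eq_zero fun α _ => ?_
  rw [← Finset.sum_mul, ← Int.cast_sum, sum_val St hq, Int.cast_zero, zero_mul]

theorem ker {p : ℝ} (hp : 0 < p) (x : Hv St.N St.R → ℂ) :
    qf (gm (St.cvec fun a => 1 / St.net.sw p a)) (St.net.emb p x) = 0 := by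
  rw [qf_gm]
  refine Finset.sum_eq_zero fun q _ => ?_
  rw [sum_cvec St _ q _ (fun a => ∑ α, (St.val a α : ℂ) * x α) fun a => ?_,
    sum_emb St (St.mem_cons.1 q.2), norm_zero, zero_pow two_ne_zero]
  rw [Net.emb, ← mul_assoc, ← Complex.ofReal_mul, one_div, inv_mul_cancel₀ (sw_pos St hp a).ne',
    Complex.ofReal_one, one_mul]
  rfl

theorem gap {p : ℝ} (hp : 0 < p) (hp1 : p ≤ 1) (ξ : St.Site → ℂ) :
    ∑ a, ‖ξ a - St.net.emb p (fun α => ξ (St.net.hv α)) a‖ ^ 2 ≤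
      (St.size : ℝ) ^ 12 * qf (gm (St.cvec fun a => 1 / St.net.sw p a)) ξ := by
  classical
  obtain ⟨T, hT⟩ : ∃ T, T = qf (gm (St.cvec fun a => 1 / St.net.sw p a)) ξ := ⟨_, rfl⟩
  rw [← hT]
  rw [qf_gm] at hT
  have hT0 : 0 ≤ T := hT ▸ Finset.sum_nonneg fun _ _ => by positivity
  let η : Cd → ℂ := fun a =>
    if h : a ∈ St.sites then ((1 / St.net.sw p ⟨a, h⟩ : ℝ) : ℂ) * ξ ⟨a, h⟩ else 0
  have hη : ∀ a : St.Site, ((1 / St.net.sw p a : ℝ) : ℂ) * ξ a = η a.1 := fun a => by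
    simp only [η, dif_pos a.2]
  let δ : Cd → ℂ := fun a => η a - ∑ α, (St.val a α : ℂ) * ξ (St.net.hv α)
  have h0 : ∀ α, δ (St.net.hv α).1 = 0 := fun α => by
    have h1 : St.net.sw p (St.net.hv α) = 1 := if_pos ⟨α, rfl⟩
    have h2 : ∀ β, St.val (St.net.hv α).1 β = if α = β then 1 else 0 := val_hv St α
    simp only [δ, ← hη, h1, h2]
    simp
  have key : ∀ a : St.Site, ‖δ a.1‖ ≤ (St.R2 + 2) * (2 * St.NC + 3) * √T := fun a => by
    refine err (Real.sqrt_nonneg T) (fun q hq => ?_) (fun α hα => h0 (Sum.inl ⟨α, hα⟩))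
      (fun κ hκ hm => ?_) (St.mem_sites.1 a.2)
    · simp only [δ]
      rw [Finset.sum_sub_distrib, sum_emb St hq, sub_zero,
        ← sum_cvec St _ ⟨q, St.mem_cons.2 hq⟩ ξ η hη]
      refine Real.le_sqrt_of_sq_le ?_
      rw [hT]
      exact Finset.single_le_sum (f := fun r : St.Con =>
        ‖∑ a, (St.cvec (fun a => 1 / St.net.sw p a) r a : ℂ) * ξ a‖ ^ 2)
        (fun _ _ => by positivity) (Finset.mem_univ _)
    · have hi : κ / (St.S + 1) < St.N := Nat.div_lt_of_lt_mul (by rwa [Nat.mul_comm])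
      have e : κ = κ / (St.S + 1) * (St.S + 1) :=
        (Nat.div_mul_cancel (Nat.dvd_of_mod_eq_zero hm)).symm
      rw [e]
      exact ⟨h0 (Sum.inr (⟨_, hi⟩, false)), h0 (Sum.inr (⟨_, hi⟩, true))⟩
  have hz := size_ge St
  have h2 : ∀ a : St.Site, ‖ξ a - St.net.emb p (fun α => ξ (St.net.hv α)) a‖ ^ 2 ≤
      16 * (St.size : ℝ) ^ 6 * T := fun a => by
    have e : ξ a - St.net.emb p (fun α => ξ (St.net.hv α)) a = (St.net.sw p a : ℂ) * δ a.1 := by
      simp only [δ, ← hη]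
      rw [mul_sub, ← mul_assoc, ← Complex.ofReal_mul, mul_one_div_cancel (sw_pos St hp a).ne',
        Complex.ofReal_one, one_mul]
      rfl
    have h3 : (St.NC : ℝ) + 2 ≤ St.size ^ 2 := by exact_mod_cast NC_le St
    have h4 : (St.R2 : ℝ) + 5 ≤ 2 * St.size := by exact_mod_cast R2_le St
    have h5 : ‖ξ a - St.net.emb p (fun α => ξ (St.net.hv α)) a‖ ≤
        (2 * St.size) * (2 * St.size ^ 2) * √T := by
      rw [e, norm_mul, Complex.norm_real, Real.norm_of_nonneg (sw_pos St hp a).le]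
      refine (mul_le_of_le_one_left (norm_nonneg _) (sw_le St hp1 a)).trans ((key a).trans ?_)
      gcongr <;> linarith
    refine (pow_le_pow_left₀ (norm_nonneg _) h5 2).trans (le_of_eq ?_)
    rw [mul_pow, Real.sq_sqrt hT0]
    ring
  have h3 : (Fintype.card St.Site : ℝ) ≤ 8 * St.size ^ 3 := by exact_mod_cast card_le St
  calc _ ≤ ∑ _a : St.Site, 16 * (St.size : ℝ) ^ 6 * T := Finset.sum_le_sum fun a _ => h2 a
    _ = Fintype.card St.Site * (16 * (St.size : ℝ) ^ 6 * T) := by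
        simp only [Finset.sum_const, Finset.card_univ, nsmul_eq_mul]
    _ ≤ 8 * St.size ^ 3 * (16 * (St.size : ℝ) ^ 6 * T) := by gcongr
    _ = 128 * (St.size : ℝ) ^ 9 * T := by ring
    _ ≤ 10 ^ 3 * (St.size : ℝ) ^ 9 * T := by gcongr; norm_num
    _ ≤ (St.size : ℝ) ^ 3 * (St.size : ℝ) ^ 9 * T := by gcongr
    _ = _ := by ring

end LayNet

end Crest.Agent.R338
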