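import Crest.Agent.R338.DefsP

/-! Row 338: mass in the transition layers and in the tails. -/

noncomputable section

open MeasureTheory Function
open scoped ENNReal

namespace Crest.Agent.R338

namespace Layer

theorem enorm_sq_le (a b : ℂ) : ‖a‖ₑ ^ 2 ≤ 2 * ‖b‖ₑ ^ 2 + 2 * ‖b - a‖ₑ ^ 2 := by
  have h : ‖a‖ ^ 2 ≤ 2 * ‖b‖ ^ 2 + 2 * ‖b - a‖ ^ 2 := by
    have h1 : ‖a‖ ≤ ‖b‖ + ‖b - a‖ := by
      calc ‖a‖ = ‖b - (b - a)‖ := by congr 1; ring
        _ ≤ _ := norm_sub_le _ _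
    nlinarith [norm_nonneg a, norm_nonneg b, norm_nonneg (b - a), sq_nonneg (‖b‖ - ‖b - a‖)]
  have e : ∀ z : ℂ, ‖z‖ₑ ^ 2 = ENNReal.ofReal (‖z‖ ^ 2) := fun z => by
    rw [ENNReal.ofReal_pow (norm_nonneg _), ofReal_norm]
  rw [e, e, e, ← ENNReal.ofReal_ofNat 2, ← ENNReal.ofReal_mul (by norm_num),
    ← ENNReal.ofReal_mul (by norm_num), ← ENNReal.ofReal_add (by positivity) (by positivity)]
  exact ENNReal.ofReal_le_ofReal h

theorem piece (hT : TrStmt) (W : E3 → ℝ≥0∞) (hW : Measurable W) (v : E3 → ℂ)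
    (hv : ContDiff ℝ 1 v) (S : Set E3) (hS : MeasurableSet S) (e : E3) (J : ℕ)
    (mono : ∀ x ∈ S, ∀ s : ℝ, 0 ≤ s → s ≤ J → W x ≤ W (x + s • e))
    (disj : ∀ (y : E3) (k k' : ℕ), k < k' → k' < J → y - ((k : ℝ) + 1) • e ∈ S →
      y - ((k' : ℝ) + 1) • e ∈ S → False) :
    (J : ℝ≥0∞) * ∫⁻ x in S, W x * ‖v x‖ₑ ^ 2 ≤ 2 * (∫⁻ x, W x * ‖v x‖ₑ ^ 2) +
      J * (2 * ∫⁻ y, W y * ‖fderiv ℝ v y ((J : ℝ) • e)‖ₑ ^ 2) := by
  have hvm : Measurable v := hv.continuous.measurable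
  have key : ∀ k ∈ Finset.range J, ∫⁻ x in S, W x * ‖v x‖ₑ ^ 2 ≤
      2 * (∫⁻ y, S.indicator (fun _ => (1 : ℝ≥0∞)) (y - ((k : ℝ) + 1) • e) * (W y * ‖v y‖ₑ ^ 2)) +
      2 * ∫⁻ y, W y * ‖fderiv ℝ v y ((J : ℝ) • e)‖ₑ ^ 2 := by
    intro k hk
    have hkJ : (k : ℝ) + 1 ≤ J := by exact_mod_cast Finset.mem_range.1 hk
    have hk0 : (0 : ℝ) ≤ (k : ℝ) + 1 := by positivity
    set T : E3 := ((k : ℝ) + 1) • e with hTdef
    have h2 := hT v T (S.indicator W) W hv (hW.indicator hS) (by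
      intro y
      calc ∫⁻ s in Set.Icc (0 : ℝ) 1, S.indicator W (y - s • T)
          ≤ ∫⁻ _ in Set.Icc (0 : ℝ) 1, W y := by
            refine setLIntegral_mono' measurableSet_Icc fun s hs => ?_
            by_cases hy : y - s • T ∈ S
            · rw [Set.indicator_of_mem hy]
              have := mono _ hy (s * ((k : ℝ) + 1)) (mul_nonneg hs.1 hk0) (by nlinarith [hs.2])
              rwa [mul_smul, ← hTdef, sub_add_cancel] at this
            · rw [Set.indicator_of_notMem hy]; exact zero_le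
        _ = W y := by simp)
    have h3 : ∫⁻ y, W y * ‖fderiv ℝ v y T‖ₑ ^ 2 ≤ ∫⁻ y, W y * ‖fderiv ℝ v y ((J : ℝ) • e)‖ₑ ^ 2 := by
      refine lintegral_mono fun y => ?_
      gcongr
      rw [hTdef, map_smul, map_smul, ← ofReal_norm, ← ofReal_norm]
      apply ENNReal.ofReal_le_ofReal
      rw [norm_smul, norm_smul, Real.norm_of_nonneg hk0, Real.norm_of_nonneg (Nat.cast_nonneg J)]
      gcongr
    have h1 : ∫⁻ y, S.indicator (fun _ => (1 : ℝ≥0∞)) (y - T) * (W y * ‖v y‖ₑ ^ 2) =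
        ∫⁻ x, S.indicator (fun _ => (1 : ℝ≥0∞)) x * (W (x + T) * ‖v (x + T)‖ₑ ^ 2) := by
      rw [← lintegral_add_right_eq_self _ T]
      simp only [add_sub_cancel_right]
    have m1 : Measurable fun x => S.indicator (fun _ => (1 : ℝ≥0∞)) x *
        (W (x + T) * ‖v (x + T)‖ₑ ^ 2) := by
      refine (measurable_const.indicator hS).mul ((hW.comp (by fun_prop)).mul ?_)
      exact ((hvm.comp (measurable_add_const T)).enorm).pow_const 2
    rw [h1, ← lintegral_indicator hS]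
    refine le_trans ?_ (add_le_add le_rfl (mul_le_mul_right (h2.trans h3) 2))
    rw [← lintegral_const_mul' _ _ (by norm_num), ← lintegral_const_mul' _ _ (by norm_num),
      ← lintegral_add_left (m1.const_mul 2)]
    refine lintegral_mono fun x => ?_
    by_cases hx : x ∈ S
    · simp only [Set.indicator_of_mem hx, one_mul]
      have hm := mono x hx _ hk0 hkJ
      calc W x * ‖v x‖ₑ ^ 2 ≤ W x * (2 * ‖v (x + T)‖ₑ ^ 2 + 2 * ‖v (x + T) - v x‖ₑ ^ 2) := by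
            gcongr; exact enorm_sq_le _ _
        _ = 2 * (W x * ‖v (x + T)‖ₑ ^ 2) + 2 * (W x * ‖v (x + T) - v x‖ₑ ^ 2) := by ring
        _ ≤ _ := by gcongr
    · simp only [Set.indicator_of_notMem hx]; exact zero_le
  have hs := Finset.sum_le_sum key
  rw [Finset.sum_const, Finset.card_range, nsmul_eq_mul, Finset.sum_add_distrib, Finset.sum_const,
    Finset.card_range, nsmul_eq_mul, ← Finset.mul_sum] at hs
  refine hs.trans ?_
  gcongr
  have mv : Measurable fun y => W y * ‖v y‖ₑ ^ 2 := hW.mul (hvm.enorm.pow_const 2)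
  have mk : ∀ k ∈ Finset.range J, Measurable fun y =>
      S.indicator (fun _ => (1 : ℝ≥0∞)) (y - ((k : ℝ) + 1) • e) * (W y * ‖v y‖ₑ ^ 2) := fun k _ =>
    ((measurable_const.indicator hS).comp (measurable_sub_const (((k : ℝ) + 1) • e))).mul mv
  rw [← lintegral_finsetSum _ mk]
  refine lintegral_mono fun y => ?_
  rw [← Finset.sum_mul]
  refine mul_le_of_le_one_left' ?_
  by_cases hex : ∃ k ∈ Finset.range J, y - ((k : ℝ) + 1) • e ∈ S
  · obtain ⟨k, hk, hy⟩ := hex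
    rw [Finset.sum_eq_single_of_mem k hk, Set.indicator_of_mem hy]
    intro k' hk' hne
    refine Set.indicator_of_notMem (fun hy' => ?_) _
    rcases lt_or_gt_of_ne hne with h | h
    · exact disj y k' k h (Finset.mem_range.1 hk) hy' hy
    · exact disj y k k' h (Finset.mem_range.1 hk') hy hy'
  · push Not at hex
    rw [Finset.sum_eq_zero fun k hk => Set.indicator_of_notMem (hex k hk) _]
    exact zero_le

/-- unit vector -/
abbrev ee (j : Fin 3) : E3 := EuclideanSpace.single j (1 : ℝ)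

/-- the transition layer in the direction `j`. -/
def Ly (P : Pl) (j : Fin 3) : Set E3 := {x | Int.fract (x j / P.l) < P.th}

theorem meas_Ly (P : Pl) (j : Fin 3) : MeasurableSet (Ly P j) := by
  refine measurableSet_lt (measurable_fract.comp ?_) measurable_const
  fun_prop

theorem line (hL : LocStmt) (P : Pl) (hP : P.OK) (j : Fin 3) (hj : j ≠ 2) (x : E3) :
    ∃ A B : ℝ, ∀ s : ℝ, -(1 - P.th) ≤ s + Int.fract (x j / P.l) → s + Int.fract (x j / P.l) ≤ 1 →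
      P.fl (x + (s * P.l) • ee j) =
        A + (B - A) * S0 ((s + Int.fract (x j / P.l)) / P.th) := by
  have hl := hP.l_pos
  have hth := hP.th_pos
  have hth' := hP.th_le
  have fl : ∀ t : ℝ, (⌊t / P.l⌋ - 1 + P.th) * P.l ≤ t ∧ t ≤ (⌊t / P.l⌋ + 1) * P.l := by
    intro t
    have h1 := Int.floor_le (t / P.l)
    have h2 := Int.lt_floor_add_one (t / P.l)
    rw [le_div_iff₀ hl] at h1
    rw [div_lt_iff₀ hl] at h2
    constructor <;> nlinarith
  have fr : ∀ t s : ℝ, -(1 - P.th) ≤ s + Int.fract (t / P.l) → s + Int.fract (t / P.l) ≤ 1 →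
      (⌊t / P.l⌋ - 1 + P.th) * P.l ≤ t + s * P.l ∧ t + s * P.l ≤ (⌊t / P.l⌋ + 1) * P.l ∧
      (t + s * P.l) / P.l - ⌊t / P.l⌋ = s + Int.fract (t / P.l) := by
    intro t s h1 h2
    have e : t + s * P.l = (⌊t / P.l⌋ + (s + Int.fract (t / P.l))) * P.l := by
      rw [Int.fract]; field_simp; ring
    refine ⟨?_, ?_, ?_⟩
    · rw [e]; exact mul_le_mul_of_nonneg_right (by linarith) hl.le
    · rw [e]; gcongr
    · rw [Int.fract]; field_simp; ring
  obtain rfl | rfl : j = 0 ∨ j = 1 := by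
    fin_cases j
    · exact Or.inl rfl
    · exact Or.inr rfl
    · exact absurd rfl hj
  · set c : ℤ × ℤ := (⌊x 0 / P.l⌋, ⌊x 1 / P.l⌋) with hc
    set t := S0 ((x 1 / P.l - c.2) / P.th)
    refine ⟨P.F (c.1 - 1, c.2 - 1) * (1 - t) + P.F (c.1 - 1, c.2) * t,
      P.F (c.1, c.2 - 1) * (1 - t) + P.F c * t, fun s h1 h2 => ?_⟩
    obtain ⟨a1, a2, a3⟩ := fr (x 0) s h1 h2
    have e0 : (x + (s * P.l) • ee 0) 0 = x 0 + s * P.l := by simp [ee]
    have e1 : (x + (s * P.l) • ee 0) 1 = x 1 := by simp [ee]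
    rw [hL.fl_loc P hP c _ (by rw [e0]; exact a1) (by rw [e0]; exact a2)
      (by rw [e1]; exact (fl _).1) (by rw [e1]; exact (fl _).2), e0, e1]
    simp only [hc] at a3 ⊢
    rw [a3]
    simp only [bil, t, hc]; ring
  · set c : ℤ × ℤ := (⌊x 0 / P.l⌋, ⌊x 1 / P.l⌋) with hc
    set t := S0 ((x 0 / P.l - c.1) / P.th)
    refine ⟨P.F (c.1 - 1, c.2 - 1) * (1 - t) + P.F (c.1, c.2 - 1) * t,
      P.F (c.1 - 1, c.2) * (1 - t) + P.F c * t, fun s h1 h2 => ?_⟩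
    obtain ⟨a1, a2, a3⟩ := fr (x 1) s h1 h2
    have e0 : (x + (s * P.l) • ee 1) 0 = x 0 := by simp [ee]
    have e1 : (x + (s * P.l) • ee 1) 1 = x 1 + s * P.l := by simp [ee]
    rw [hL.fl_loc P hP c _ (by rw [e0]; exact (fl _).1) (by rw [e0]; exact (fl _).2)
      (by rw [e1]; exact a1) (by rw [e1]; exact a2), e0, e1]
    simp only [hc] at a3 ⊢
    rw [a3]
    simp only [bil, t, hc]; ring

theorem mono_fl (hL : LocStmt) (P : Pl) (hP : P.OK) (j : Fin 3) (hj : j ≠ 2) (x : E3)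
    (hx : x ∈ Ly P j) (s : ℝ) (h0 : 0 ≤ s) (h1 : s ≤ 1 - P.th) :
    (P.fl (x + (P.th * P.l) • ee j) ≤ P.fl x → P.fl (x + (s * P.l) • ee j) ≤ P.fl x) ∧
    (¬ P.fl (x + (P.th * P.l) • ee j) ≤ P.fl x → P.fl (x + (-s * P.l) • ee j) ≤ P.fl x) := by
  obtain ⟨A, B, h⟩ := line hL P hP j hj x
  have hth := hP.th_pos
  have hth' := hP.th_le
  have hf0 := Int.fract_nonneg (x j / P.l)
  have hf1 : Int.fract (x j / P.l) < P.th := hx
  set φ := Int.fract (x j / P.l)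
  have a0 := h 0 (by linarith) (by linarith)
  rw [zero_mul, zero_smul, add_zero, zero_add] at a0
  have a1 := h P.th (by linarith) (by linarith)
  rw [hL.S_one _ (by rw [le_div_iff₀ hth]; linarith)] at a1
  have a2 := h s (by linarith) (by linarith)
  have a3 := h (-s) (by linarith) (by linarith)
  have le1 : ∀ t : ℝ, S0 t ≤ 1 := fun t => by
    rw [← hL.S_one (max t 1) (le_max_right _ _)]; exact hL.S_mono (le_max_left _ _)
  have m2 : S0 (φ / P.th) ≤ S0 ((s + φ) / P.th) := hL.S_mono (by gcongr; linarith)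
  have m3 : S0 ((-s + φ) / P.th) ≤ S0 (φ / P.th) := hL.S_mono (by gcongr; linarith)
  have b0 := le1 (φ / P.th)
  have b2 := le1 ((s + φ) / P.th)
  rw [a0, a1, a2, a3]
  constructor
  · intro hle
    rcases le_total B A with hBA | hBA
    · nlinarith
    · nlinarith
  · intro hle
    push Not at hle
    have : A < B := by
      by_contra hc
      push Not at hc
      nlinarith
    nlinarith

theorem disj_Ly (P : Pl) (hP : P.OK) (j : Fin 3) (J : ℕ) (hJ : J * P.th ≤ 1 - P.th) (σ : ℝ)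
    (hσ : σ = 1 ∨ σ = -1) (y : E3) (k k' : ℕ) (hk : k < k') (hk' : k' < J)
    (h1 : y - ((k : ℝ) + 1) • (σ * P.th * P.l) • ee j ∈ Ly P j)
    (h2 : y - ((k' : ℝ) + 1) • (σ * P.th * P.l) • ee j ∈ Ly P j) : False := by
  have hl := hP.l_pos
  have hth := hP.th_pos
  have e : ∀ t : ℝ, (y - t • (σ * P.th * P.l) • ee j) j / P.l = y j / P.l - t * σ * P.th := by
    intro t; simp [ee]; field_simp
  simp only [Ly, Set.mem_ofPred_eq, e] at h1 h2
  have g1 := Int.fract_nonneg (y j / P.l - ((k : ℝ) + 1) * σ * P.th)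
  have g2 := Int.fract_nonneg (y j / P.l - ((k' : ℝ) + 1) * σ * P.th)
  rw [Int.fract] at h1 h2 g1 g2
  generalize ⌊y j / P.l - ((k : ℝ) + 1) * σ * P.th⌋ = a at h1 g1
  generalize ⌊y j / P.l - ((k' : ℝ) + 1) * σ * P.th⌋ = b at h2 g2
  have c1 : (k : ℝ) + 1 ≤ k' := by exact_mod_cast hk
  have c2 : (k' : ℝ) + 1 ≤ J := by exact_mod_cast hk'
  have c3 : (0 : ℝ) ≤ k := Nat.cast_nonneg k
  have d1 : P.th ≤ ((k' : ℝ) - k) * P.th := by nlinarith
  have d2 : ((k' : ℝ) - k) * P.th ≤ 1 - 2 * P.th := by nlinarith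
  rcases hσ with rfl | rfl
  · have u1 : (b : ℝ) < a := by nlinarith
    have u2 : (a : ℝ) < b + 1 := by nlinarith
    have u1' : b < a := by exact_mod_cast u1
    have u2' : a < b + 1 := by exact_mod_cast u2
    omega
  · have u1 : (a : ℝ) < b := by nlinarith
    have u2 : (b : ℝ) < a + 1 := by nlinarith
    have u1' : a < b := by exact_mod_cast u1
    have u2' : b < a + 1 := by exact_mod_cast u2
    omega

theorem psi0_pos (hL : LocStmt) (P : Pl) (x : E3) : 0 < P.psi0 x :=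
  mul_pos (Real.exp_pos _) (hL.chi_pos _ _)

theorem psi0_cont (hL : LocStmt) (P : Pl) : Continuous P.psi0 := by
  unfold Pl.psi0
  have h1 := (hL.fl_smooth P).continuous
  have h2 := (hL.chi_c2 P.Om).continuous
  fun_prop

theorem int_sq {ψ : E3 → ℂ} (hψ : C1c ψ) : Integrable fun x => ‖ψ x‖ ^ 2 := by
  refine Continuous.integrable_of_hasCompactSupport (hψ.1.continuous.norm.pow 2) ?_
  exact hψ.2.comp_left (g := fun z : ℂ => ‖z‖ ^ 2) (by simp)

theorem int_D (hL : LocStmt) (P : Pl) {ψ : E3 → ℂ} (hψ : C1c ψ) (j : Fin 3) :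
    Integrable fun x => P.psi0 x ^ 2 * ‖pd j (P.v ψ) x‖ ^ 2 := by
  have hv := hL.v_c1 P ψ hψ
  have hc : Continuous (pd j (P.v ψ)) :=
    (hv.1.continuous_fderiv (by norm_num)).clm_apply continuous_const
  have hs : HasCompactSupport (pd j (P.v ψ)) := hv.2.fderiv_apply (𝕜 := ℝ) _
  refine Continuous.integrable_of_hasCompactSupport
    (((psi0_cont hL P).pow 2).mul (hc.norm.pow 2)) ?_
  exact (hs.comp_left (g := fun z : ℂ => ‖z‖ ^ 2) (by simp)).mul_left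

theorem piece_real (hL : LocStmt) (hT : TrStmt) (P : Pl) (hP : P.OK) (j : Fin 3) (hj : j ≠ 2)
    {ψ : E3 → ℂ} (hψ : C1c ψ) (S : Set E3) (hS : MeasurableSet S) (hSL : S ⊆ Ly P j) (σ : ℝ)
    (hσ : σ = 1 ∨ σ = -1)
    (hm : ∀ x ∈ S, ∀ s : ℝ, 0 ≤ s → s ≤ 1 - P.th → P.fl (x + (σ * s * P.l) • ee j) ≤ P.fl x) :
    ∫ x in S, ‖ψ x‖ ^ 2 ≤ 4 * P.th * nsq ψ +
      2 * P.l ^ 2 * ∫ x, P.psi0 x ^ 2 * ‖pd j (P.v ψ) x‖ ^ 2 := by
  have hl := hP.l_pos
  have hth := hP.th_pos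
  have hth' := hP.th_le
  set J : ℕ := ⌊(1 - P.th) / P.th⌋₊ with hJ
  have hJ1 : J * P.th ≤ 1 - P.th := by
    rw [← le_div_iff₀ hth]; exact Nat.floor_le (div_nonneg (by linarith) hth.le)
  have hJ2 : 1 - P.th < (J + 1) * P.th := by
    rw [← div_lt_iff₀ hth]; exact Nat.lt_floor_add_one _
  have hJ0 : (0 : ℝ) < J := by nlinarith
  have hv := hL.v_c1 P ψ hψ
  have hp := piece hT (fun x => ENNReal.ofReal (P.psi0 x ^ 2))
    (((psi0_cont hL P).pow 2).measurable.ennreal_ofReal) (P.v ψ) hv.1 S hS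
    ((σ * P.th * P.l) • ee j) J (by
      intro x hx s h0 h1
      apply ENNReal.ofReal_le_ofReal
      have e : s • (σ * P.th * P.l) • ee j = (σ * (s * P.th) * P.l) • ee j := by
        rw [smul_smul]; congr 1; ring
      rw [e]
      have h2 := hm x hx (s * P.th) (by positivity) (by nlinarith)
      have e2 : (x + (σ * (s * P.th) * P.l) • ee j) 2 = x 2 := by simp [ee, hj.symm]
      refine pow_le_pow_left₀ (psi0_pos hL P x).le ?_ 2
      unfold Pl.psi0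
      rw [e2]
      exact mul_le_mul_of_nonneg_right (Real.exp_le_exp.2 (by linarith)) (hL.chi_pos _ _).le)
    (fun y k k' h1 h2 h3 h4 => disj_Ly P hP j J hJ1 σ hσ y k k' h1 h2 (hSL h3) (hSL h4))
  have e1 : ∀ x, ENNReal.ofReal (P.psi0 x ^ 2) * ‖P.v ψ x‖ₑ ^ 2 = ENNReal.ofReal (‖ψ x‖ ^ 2) := by
    intro x
    have := psi0_pos hL P x
    rw [← ofReal_norm, ← ENNReal.ofReal_pow (norm_nonneg _),
      ← ENNReal.ofReal_mul (by positivity)]
    congr 1
    rw [Pl.v, norm_div, Complex.norm_real, Real.norm_of_nonneg this.le]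
    field_simp
  have e2 : ∀ y, ENNReal.ofReal (P.psi0 y ^ 2) *
      ‖fderiv ℝ (P.v ψ) y ((J : ℝ) • (σ * P.th * P.l) • ee j)‖ₑ ^ 2 ≤
      ENNReal.ofReal (P.l ^ 2 * (P.psi0 y ^ 2 * ‖pd j (P.v ψ) y‖ ^ 2)) := by
    intro y
    rw [← ofReal_norm, ← ENNReal.ofReal_pow (norm_nonneg _),
      ← ENNReal.ofReal_mul (by positivity)]
    apply ENNReal.ofReal_le_ofReal
    rw [smul_smul, map_smul, norm_smul, mul_pow, Real.norm_eq_abs, sq_abs]
    have : ((J : ℝ) * (σ * P.th * P.l)) ^ 2 ≤ P.l ^ 2 := by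
      have h1 : ((J : ℝ) * (σ * P.th * P.l)) ^ 2 = (J * P.th) ^ 2 * P.l ^ 2 := by
        rcases hσ with rfl | rfl <;> ring
      have h2 : ((J : ℝ) * P.th) ^ 2 ≤ 1 := pow_le_one₀ (by positivity) (by linarith)
      rw [h1]; nlinarith [sq_nonneg P.l]
    calc P.psi0 y ^ 2 * (((J : ℝ) * (σ * P.th * P.l)) ^ 2 * ‖fderiv ℝ (P.v ψ) y (ee j)‖ ^ 2)
        ≤ P.psi0 y ^ 2 * (P.l ^ 2 * ‖fderiv ℝ (P.v ψ) y (ee j)‖ ^ 2) := by gcongr
      _ = _ := by rw [pd]; ring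
  simp only [e1] at hp
  have i1 := int_sq hψ
  have i2 := (int_D hL P hψ j).const_mul (P.l ^ 2)
  have hp2 := hp.trans (add_le_add le_rfl (mul_le_mul_right (mul_le_mul_right
    (lintegral_mono e2) 2) (J : ℝ≥0∞)))
  rw [← ofReal_integral_eq_lintegral_ofReal i1.integrableOn (.of_forall fun x => by positivity),
    ← ofReal_integral_eq_lintegral_ofReal i1 (.of_forall fun x => by positivity),
    ← ofReal_integral_eq_lintegral_ofReal i2 (.of_forall fun x => by positivity),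
    integral_const_mul] at hp2
  have n1 : 0 ≤ ∫ x, ‖ψ x‖ ^ 2 := integral_nonneg fun x => by positivity
  have n2 : 0 ≤ ∫ x, P.psi0 x ^ 2 * ‖pd j (P.v ψ) x‖ ^ 2 := integral_nonneg fun x => by positivity
  unfold nsq
  generalize (∫ x in S, ‖ψ x‖ ^ 2) = I at hp2 ⊢
  generalize (∫ x, ‖ψ x‖ ^ 2) = N at hp2 n1 ⊢
  generalize (∫ x, P.psi0 x ^ 2 * ‖pd j (P.v ψ) x‖ ^ 2) = D at hp2 n2 ⊢
  rw [← ENNReal.ofReal_natCast, ← ENNReal.ofReal_ofNat 2, ← ENNReal.ofReal_mul hJ0.le,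
    ← ENNReal.ofReal_mul (by norm_num), ← ENNReal.ofReal_mul (by norm_num),
    ← ENNReal.ofReal_mul hJ0.le, ← ENNReal.ofReal_add (by positivity) (by positivity),
    ENNReal.ofReal_le_ofReal_iff (by positivity)] at hp2
  refine le_of_mul_le_mul_left (hp2.trans ?_) hJ0
  have : 2 ≤ (J : ℝ) * (4 * P.th) := by nlinarith
  nlinarith

theorem layer_dir (hL : LocStmt) (hT : TrStmt) (P : Pl) (hP : P.OK) (j : Fin 3) (hj : j ≠ 2)
    {ψ : E3 → ℂ} (hψ : C1c ψ) :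
    ∫ x in Ly P j, ‖ψ x‖ ^ 2 ≤ 8 * P.th * nsq ψ +
      4 * P.l ^ 2 * ∫ x, P.psi0 x ^ 2 * ‖pd j (P.v ψ) x‖ ^ 2 := by
  set R : Set E3 := {x | P.fl (x + (P.th * P.l) • ee j) ≤ P.fl x} with hR
  have hc := (hL.fl_smooth P).continuous
  have mR : MeasurableSet R :=
    measurableSet_le (hc.comp (continuous_add_const _)).measurable hc.measurable
  have h1 := piece_real hL hT P hP j hj hψ (Ly P j ∩ R) ((meas_Ly P j).inter mR)
    Set.inter_subset_left 1 (Or.inl rfl) (fun x hx s h0 h1 => by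
      rw [one_mul]; exact (mono_fl hL P hP j hj x hx.1 s h0 h1).1 hx.2)
  have h2 := piece_real hL hT P hP j hj hψ (Ly P j \ R) ((meas_Ly P j).diff mR)
    Set.sdiff_subset (-1) (Or.inr rfl) (fun x hx s h0 h1 => by
      rw [neg_one_mul]; exact (mono_fl hL P hP j hj x hx.1 s h0 h1).2 hx.2)
  rw [← integral_inter_add_sdiff mR (int_sq hψ).integrableOn]
  linarith

theorem tail (hL : LocStmt) (hZ : ZStmt) (P : Pl) (hP : P.OK) {ψ : E3 → ℂ} (hψ : C1c ψ)
    (hq : 0 ≤ P.q ψ) :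
    ∫ x in {x : E3 | P.h < |x 2|}, ‖ψ x‖ ^ 2 ≤
      3 / (P.Om * P.h ^ 2) * nsq ψ + 5 * P.l ^ 2 * P.q ψ := by
  have hl := hP.l_pos
  have hh := hP.h_pos
  have hO := hP.Om_pos
  have hG : (1 : ℝ) ≤ P.G := by exact_mod_cast hP.G_pos
  have hh1 : P.h ≤ 1 := by have := hP.Gl; have := hP.h_le; nlinarith
  have h1 := hZ P.fl P.Om ψ ((hL.fl_smooth P).of_le (by norm_num)) (hL.fl_pd2 P) hO.le hψ
  have mS : MeasurableSet {x : E3 | P.h < |x 2|} :=
    measurableSet_lt measurable_const (by fun_prop)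
  have gc := hL.gam_c1.continuous
  have ig : Integrable fun x : E3 => gam (x 2) ^ 2 * ‖ψ x‖ ^ 2 := by
    refine Continuous.integrable_of_hasCompactSupport
      (Continuous.mul (by fun_prop) (hψ.1.continuous.norm.pow 2)) ?_
    exact (hψ.2.comp_left (g := fun z : ℂ => ‖z‖ ^ 2) (by simp)).mul_left
  have h2 : 4 / 9 * P.h ^ 2 * ∫ x in {x : E3 | P.h < |x 2|}, ‖ψ x‖ ^ 2 ≤
      ∫ x : E3, gam (x 2) ^ 2 * ‖ψ x‖ ^ 2 := by
    rw [← integral_const_mul]
    refine le_trans (setIntegral_mono_on ((int_sq hψ).const_mul _).integrableOn ig.integrableOn mS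
      fun x hx => ?_) (setIntegral_le_integral ig (.of_forall fun x => by positivity))
    have a1 := (hL.gam_abs (x 2)).1
    have a2 : P.h ≤ min |x 2| 1 := le_min (le_of_lt hx) hh1
    have a3 : (2 / 3 * P.h) ^ 2 ≤ |gam (x 2)| ^ 2 :=
      pow_le_pow_left₀ (by positivity) (by linarith) 2
    rw [sq_abs] at a3
    gcongr
    linarith
  have n1 : 0 ≤ nsq ψ := integral_nonneg fun x => by positivity
  change _ ≤ 2 * P.q ψ + _ at h1
  generalize (∫ x in {x : E3 | P.h < |x 2|}, ‖ψ x‖ ^ 2) = I at h2 ⊢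
  have h3 : P.Om ^ 2 * (4 / 9 * P.h ^ 2 * I) ≤ 2 * P.q ψ + P.Om * nsq ψ :=
    (mul_le_mul_of_nonneg_left h2 (by positivity)).trans h1
  have h4 : 1 ≤ (P.Om * P.h * P.l) ^ 2 := one_le_pow₀ hP.Omhl
  refine le_of_mul_le_mul_left ?_ (by positivity : 0 < P.Om ^ 2 * (4 / 9 * P.h ^ 2))
  have e : P.Om ^ 2 * (4 / 9 * P.h ^ 2) * (3 / (P.Om * P.h ^ 2) * nsq ψ + 5 * P.l ^ 2 * P.q ψ) =
      4 / 3 * (P.Om * nsq ψ) + 20 / 9 * ((P.Om * P.h * P.l) ^ 2 * P.q ψ) := by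
    field_simp; ring
  rw [e, mul_assoc]
  nlinarith [mul_nonneg hO.le n1, mul_le_mul_of_nonneg_right h4 hq]

theorem cover (P : Pl) (hP : P.OK) :
    (⋃ c, P.Q c)ᶜ ⊆ Ly P 0 ∪ Ly P 1 ∪ {x : E3 | P.h < |x 2|} := by
  intro x hx
  by_contra hc
  simp only [Set.mem_union, Ly, Set.mem_ofPred_eq, not_or, not_lt] at hc
  obtain ⟨⟨h0, h1⟩, h2⟩ := hc
  have hl := hP.l_pos
  have key : ∀ t : ℝ, P.th ≤ Int.fract (t / P.l) →
      (⌊t / P.l⌋ + P.th) * P.l ≤ t ∧ t ≤ (⌊t / P.l⌋ + 1) * P.l := by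
    intro t ht
    have h2 := Int.lt_floor_add_one (t / P.l)
    rw [div_lt_iff₀ hl] at h2
    rw [Int.fract] at ht
    refine ⟨?_, h2.le⟩
    rw [← le_div_iff₀ hl]; linarith
  exact hx (Set.mem_iUnion.2 ⟨(⌊x 0 / P.l⌋, ⌊x 1 / P.l⌋),
    (key _ h0).1, (key _ h0).2, (key _ h1).1, (key _ h1).2, h2⟩)

end Layer

open Layer in
theorem layer (hL : LocStmt) (hT : TrStmt) (hZ : ZStmt) : LayerStmt := by
  intro P hP ψ hψ
  have hq := hL.q_eq P ψ hψ
  rw [Fin.sum_univ_three] at hq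
  have nD : ∀ j, 0 ≤ ∫ x, P.psi0 x ^ 2 * ‖pd j (P.v ψ) x‖ ^ 2 := fun j =>
    integral_nonneg fun x => by positivity
  have d0 := nD 0
  have d1 := nD 1
  have d2 := nD 2
  have hq0 : 0 ≤ P.q ψ := by linarith
  have h0 := layer_dir hL hT P hP 0 (by decide) hψ
  have h1 := layer_dir hL hT P hP 1 (by decide) hψ
  have h2 := tail hL hZ P hP hψ hq0
  have i1 := int_sq hψ
  have un : ∀ A B : Set E3, MeasurableSet B →
      ∫ x in A ∪ B, ‖ψ x‖ ^ 2 ≤ (∫ x in A, ‖ψ x‖ ^ 2) + ∫ x in B, ‖ψ x‖ ^ 2 := by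
    intro A B hB
    rw [← Set.sdiff_union_self, setIntegral_union Set.disjoint_sdiff_left hB i1.integrableOn
      i1.integrableOn]
    exact add_le_add (setIntegral_mono_set i1.integrableOn (.of_forall fun x => by positivity)
      Set.sdiff_subset.eventuallyLE) le_rfl
  have h3 : ∫ x in (⋃ c, P.Q c)ᶜ, ‖ψ x‖ ^ 2 ≤
      ∫ x in Ly P 0 ∪ Ly P 1 ∪ {x : E3 | P.h < |x 2|}, ‖ψ x‖ ^ 2 :=
    setIntegral_mono_set i1.integrableOn (.of_forall fun x => by positivity)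
      (cover P hP).eventuallyLE
  have h4 := un (Ly P 0 ∪ Ly P 1) {x : E3 | P.h < |x 2|}
    (measurableSet_lt measurable_const (by fun_prop))
  have h5 := un (Ly P 0) (Ly P 1) (meas_Ly P 1)
  have hl2 := sq_nonneg P.l
  nlinarith [mul_nonneg hl2 d2, mul_nonneg hl2 hq0]

end Crest.Agent.R338
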