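import Crest.Agent.R338.DefsP

/-!
# Row 338: mass outside the span of the dots, and the diagonal action of the offsets
-/

noncomputable section

open MeasureTheory Function
open scoped ENNReal ComplexConjugate

namespace Crest.Agent.R338

namespace Leak

variable {P : Pl} {ψ : E3 → ℂ}

theorem meas_Q (P : Pl) (c : ℤ × ℤ) : MeasurableSet (P.Q c) := by
  have h : ∀ i : Fin 3, Measurable fun x : E3 => x i := fun i => by fun_prop
  exact (measurableSet_le measurable_const (h 0)).inter ((measurableSet_le (h 0)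
    measurable_const).inter ((measurableSet_le measurable_const (h 1)).inter
    ((measurableSet_le (h 1) measurable_const).inter
    (measurableSet_le (h 2).abs measurable_const))))

theorem int_eq (hP : P.OK) {a b : ℤ} {t : ℝ} (h1 : (a + P.th) * P.l ≤ t) (h2 : t ≤ (a + 1) * P.l)
    (h3 : (b + P.th) * P.l ≤ t) (h4 : t ≤ (b + 1) * P.l) : a = b := by
  have e1 := le_of_mul_le_mul_right (h1.trans h4) hP.l_pos
  have e2 := le_of_mul_le_mul_right (h3.trans h2) hP.l_pos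
  have := hP.th_pos
  have e3 : a < b + 1 := by exact_mod_cast (by linarith : (a : ℝ) < b + 1)
  have e4 : b < a + 1 := by exact_mod_cast (by linarith : (b : ℝ) < a + 1)
  omega

theorem Q_disj (hP : P.OK) {c c' : ℤ × ℤ} {x : E3} (h : x ∈ P.Q c) (h' : x ∈ P.Q c') : c = c' :=
  Prod.ext (int_eq hP h.1 h.2.1 h'.1 h'.2.1)
    (int_eq hP h.2.2.1 h.2.2.2.1 h'.2.2.1 h'.2.2.2.1)

theorem m0_pos (hL : LocStmt) (hP : P.OK) : 0 < P.m0 := by
  have h1 := hL.Z_pos P hP
  have h2 := hP.l_pos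
  have h3 : 0 < 1 - P.th := by linarith [hP.th_le]
  unfold Pl.m0
  positivity

theorem q_nonneg (P : Pl) (ψ : E3 → ℂ) : 0 ≤ P.q ψ :=
  mul_nonneg (by norm_num) (Finset.sum_nonneg fun _ _ => integral_nonneg fun _ => by positivity)

theorem tab_Q (hL : LocStmt) (hP : P.OK) (a : ℤ × ℤ → ℝ) {c : ℤ × ℤ} {x : E3} (h : x ∈ P.Q c) :
    P.tab a x = ext P.G a c := by
  have hl := hP.l_pos
  have key : ∀ (k : ℤ) (t : ℝ), (k + P.th) * P.l ≤ t → S0 ((t / P.l - k) / P.th) = 1 := by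
    intro k t ht
    refine hL.S_one _ ?_
    rw [le_div_iff₀ hP.th_pos, le_sub_iff_add_le, le_div_iff₀ hl]
    linarith
  rw [hL.tab_loc P hP a c x (by nlinarith [h.1]) h.2.1 (by nlinarith [h.2.2.1]) h.2.2.2.1,
    key _ _ h.1, key _ _ h.2.2.1]
  simp [bil]

theorem cont_chi (hL : LocStmt) (P : Pl) : Continuous fun x : E3 => chi P.Om (x 2) :=
  (hL.chi_c2 P.Om).continuous.comp (by fun_prop)

theorem int_sq (hψ : C1c ψ) {w : E3 → ℝ} (hw : Continuous w) :
    Integrable fun x => w x * ‖ψ x‖ ^ 2 := by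
  have h1 : Continuous fun x => w x * ‖ψ x‖ ^ 2 := hw.mul (hψ.1.continuous.norm.pow 2)
  refine h1.integrable_of_hasCompactSupport (hψ.2.mono fun x hx => ?_)
  intro h
  simp [h] at hx

theorem int_sq' (hψ : C1c ψ) : Integrable fun x => ‖ψ x‖ ^ 2 := by
  simpa using int_sq hψ (w := fun _ => 1) continuous_const

theorem int_Q (hL : LocStmt) (hP : P.OK) (ψ : E3 → ℂ) (c : ℤ × ℤ) :
    ∫ x in P.Q c, ‖ψ x‖ ^ 2 = Real.exp (-P.F c) ^ 2 * P.mass ψ c := by
  rw [Pl.mass, ← integral_const_mul]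
  refine setIntegral_congr_fun (meas_Q P c) fun x hx => ?_
  have h1 := hL.chi_pos P.Om (x 2)
  have h2 := Real.exp_pos (-P.F c)
  simp only [Pl.v, Pl.psi0, hL.fl_Q P hP c x hx, norm_div, Complex.norm_real, Real.norm_eq_abs,
    div_pow, sq_abs]
  field_simp

theorem mass_nonneg (P : Pl) (ψ : E3 → ℂ) (c : ℤ × ℤ) : 0 ≤ P.mass ψ c :=
  integral_nonneg fun _ => by positivity

theorem var_eq (hL : LocStmt) (hP : P.OK) (hψ : C1c ψ) (c : ℤ × ℤ) :
    ∫ x in P.Q c, chi P.Om (x 2) ^ 2 * ‖P.v ψ x - P.avg ψ c‖ ^ 2 =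
      P.mass ψ c - P.m0 * ‖P.avg ψ c‖ ^ 2 := by
  have hm := m0_pos hL hP
  have hv := hL.v_c1 P ψ hψ
  have hχ := (cont_chi hL P).pow 2
  have i1 : IntegrableOn (fun x : E3 => chi P.Om (x 2) ^ 2 * ‖P.v ψ x‖ ^ 2) (P.Q c) :=
    (int_sq hv hχ).integrableOn
  have i2 : IntegrableOn (fun x : E3 => chi P.Om (x 2) ^ 2) (P.Q c) :=
    Integrable.of_integral_ne_zero (by rw [hL.vol_Q P hP c]; exact hm.ne')
  have i3 : IntegrableOn (fun x : E3 => ((chi P.Om (x 2) ^ 2 : ℝ) : ℂ) * P.v ψ x) (P.Q c) :=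
    (((Complex.continuous_ofReal.comp hχ).mul hv.1.continuous).integrable_of_hasCompactSupport
      hv.2.mul_left).integrableOn
  have i4 := i3.const_mul (conj (P.avg ψ c))
  have e1 : ∀ x : E3, chi P.Om (x 2) ^ 2 * ‖P.v ψ x - P.avg ψ c‖ ^ 2 =
      chi P.Om (x 2) ^ 2 * ‖P.v ψ x‖ ^ 2 -
        2 * RCLike.re (conj (P.avg ψ c) * (((chi P.Om (x 2) ^ 2 : ℝ) : ℂ) * P.v ψ x)) +
        ‖P.avg ψ c‖ ^ 2 * chi P.Om (x 2) ^ 2 := by
    intro x
    generalize chi P.Om (x 2) ^ 2 = w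
    simp only [Complex.sq_norm, Complex.normSq_apply, RCLike.re_to_complex, Complex.mul_re,
      Complex.mul_im, Complex.sub_re, Complex.sub_im, Complex.conj_re, Complex.conj_im,
      Complex.ofReal_re, Complex.ofReal_im]
    ring
  have e2 : ∫ x in P.Q c, ((chi P.Om (x 2) ^ 2 : ℝ) : ℂ) * P.v ψ x = P.m0 * P.avg ψ c := by
    have : (P.m0 : ℂ) ≠ 0 := by exact_mod_cast hm.ne'
    rw [Pl.avg]
    field_simp
  simp only [e1]
  have i5 : IntegrableOn (fun x : E3 => chi P.Om (x 2) ^ 2 * ‖P.v ψ x‖ ^ 2 -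
      2 * RCLike.re (conj (P.avg ψ c) * (((chi P.Om (x 2) ^ 2 : ℝ) : ℂ) * P.v ψ x))) (P.Q c) :=
    i1.sub (i4.re.const_mul 2)
  rw [integral_add i5 (i2.const_mul _),
    integral_sub i1 (i4.re.const_mul 2), integral_const_mul, integral_const_mul, integral_re i4,
    integral_const_mul, e2, hL.vol_Q P hP c, Pl.mass]
  simp only [Complex.sq_norm, Complex.normSq_apply, RCLike.re_to_complex, Complex.mul_re,
    Complex.mul_im, Complex.conj_re, Complex.conj_im, Complex.ofReal_re, Complex.ofReal_im]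
  ring

theorem defect_eq (hL : LocStmt) (hP : P.OK) (hψ : C1c ψ) (c : ℤ × ℤ) :
    (∫ x in P.Q c, ‖ψ x‖ ^ 2) - ‖∫ x, (P.th0 c x : ℂ) * ψ x‖ ^ 2 = Real.exp (-P.F c) ^ 2 *
      ∫ x in P.Q c, chi P.Om (x 2) ^ 2 * ‖P.v ψ x - P.avg ψ c‖ ^ 2 := by
  rw [var_eq hL hP hψ, int_Q hL hP, hL.coef_th0 P hP ψ c hψ.1.continuous, norm_mul,
    Complex.norm_real, Real.norm_eq_abs, mul_pow, sq_abs, mul_pow, Real.sq_sqrt (m0_pos hL hP).le]
  ring

theorem defect_nonneg (hL : LocStmt) (hP : P.OK) (hψ : C1c ψ) (c : ℤ × ℤ) :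
    ‖∫ x, (P.th0 c x : ℂ) * ψ x‖ ^ 2 ≤ ∫ x in P.Q c, ‖ψ x‖ ^ 2 := by
  rw [← sub_nonneg, defect_eq hL hP hψ]
  exact mul_nonneg (sq_nonneg _) (integral_nonneg fun _ => by positivity)

theorem defect_le (hL : LocStmt) (hC : CellStmt) (hP : P.OK) (hψ : C1c ψ) (c : ℤ × ℤ) :
    (∫ x in P.Q c, ‖ψ x‖ ^ 2) ≤
      ‖∫ x, (P.th0 c x : ℂ) * ψ x‖ ^ 2 + 400 * P.kz * P.l ^ 2 * P.q ψ := by
  rw [← sub_le_iff_le_add', defect_eq hL hP hψ]
  refine (mul_le_mul_of_nonneg_left ((hC P hP ψ hψ).1 c) (sq_nonneg _)).trans (le_of_eq ?_)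
  have : Real.exp (-P.F c) ^ 2 * Real.exp (2 * P.F c) = 1 := by
    rw [← Real.exp_nat_mul, ← Real.exp_add]
    simp
  linear_combination (400 * P.kz * P.l ^ 2 * P.q ψ) * this

theorem l1_nonneg (c c' : ℤ × ℤ) : 0 ≤ l1 c c' := add_nonneg (abs_nonneg _) (abs_nonneg _)

theorem chain (hC : CellStmt) (hP : P.OK) (hψ : C1c ψ) {p : ℤ × ℤ → Prop} {d : ℤ × ℤ} {f : ℝ}
    (hf : ∀ c, p c → P.F c ≤ f)
    (hp : ∀ c, p c → c ≠ d → ∃ c', p c' ∧ l1 c c' = 1 ∧ l1 c' d < l1 c d) :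
    ∀ (n : ℕ) (c : ℤ × ℤ), p c → l1 c d ≤ n →
      √(P.mass ψ c) ≤ √(P.mass ψ d) + n * (P.l * Real.exp f * √(2 * P.q ψ)) := by
  have hl := hP.l_pos
  intro n
  induction n with
  | zero =>
    intro c hc h
    by_cases hd : c = d
    · simp [hd]
    · obtain ⟨c', -, -, h2⟩ := hp c hc hd
      have := l1_nonneg c' d
      omega
  | succ n ih =>
    intro c hc h
    by_cases hd : c = d
    · rw [hd]
      exact le_add_of_nonneg_right (by positivity)
    · obtain ⟨c', h0, h1, h2⟩ := hp c hc hd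
      have e1 := ih c' h0 (by omega)
      have e2 := ((hC P hP ψ hψ).2 c c' f h1 (hf c hc) (hf c' h0)).1
      push_cast
      linarith

theorem step (c d : ℤ × ℤ) (h : c ≠ d) : ∃ c', True ∧ l1 c c' = 1 ∧ l1 c' d < l1 c d := by
  obtain ⟨c1, c2⟩ := c
  obtain ⟨d1, d2⟩ := d
  simp only [l1, true_and, Int.abs_eq_natAbs]
  rcases lt_trichotomy c1 d1 with h1 | h1 | h1
  · exact ⟨(c1 + 1, c2), by simp only; omega, by simp only; omega⟩
  · rcases lt_trichotomy c2 d2 with h2 | h2 | h2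
    · exact ⟨(c1, c2 + 1), by simp only; omega, by simp only; omega⟩
    · exact absurd (Prod.ext h1 h2) h
    · exact ⟨(c1, c2 - 1), by simp only; omega, by simp only; omega⟩
  · exact ⟨(c1 - 1, c2), by simp only; omega, by simp only; omega⟩

theorem l1_le {G : ℕ} {c d : ℤ × ℤ} (hc : inG G c) (hd : inG G d) : l1 c d ≤ (2 * G : ℕ) := by
  simp only [l1, inG, Int.abs_eq_natAbs] at *
  omega

variable {ι ρ : Type} [Fintype ι] [DecidableEq ι] [Fintype ρ] {L : Lay ι ρ}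

omit [DecidableEq ι] in
theorem cel_inG (hL : L.OK) {a : ι} {c : ℤ × ℤ} (h : L.cel a c) : inG L.G c := by
  have := hL.bd a c h
  simp only [inG]
  omega

omit [DecidableEq ι] in
theorem dot_inj (hL : L.OK) {a b : ι} (h : L.dot a = L.dot b) : a = b :=
  hL.sep a b _ _ (hL.dot_mem a) (hL.dot_mem b) (by simp [h]) (by simp [h])

omit [DecidableEq ι] in
theorem reach (hC : CellStmt) (hO : L.OK) (hP : P.OK) {fl fb fr : ℝ} (hV : L.Lev P fl fb fr)
    (hψ : C1c ψ) {c : ℤ × ℤ} (hc : inG P.G c) (hd : ∀ a, L.dot a ≠ c) :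
    fb ≤ P.F c ∧ ∃ a, √(P.mass ψ c) ≤
      √(P.mass ψ (L.dot a)) + 3 * P.G * (P.l * Real.exp (P.F c) * √(2 * P.q ψ)) := by
  obtain ⟨-, o1, o2, o3⟩ := hV.ord
  have hl := hP.l_pos
  have hG : (1 : ℝ) ≤ P.G := by exact_mod_cast hP.G_pos
  have hw : 0 ≤ P.l * Real.exp (P.F c) * √(2 * P.q ψ) := by positivity
  have hF : ∀ a c', L.cel a c' → P.F c' ≤ fb := fun a c' h => by
    by_cases h1 : c' = L.dot a
    · rw [h1]
      exact (hV.dot a).trans o1
    · exact (hV.bus a c' h h1).le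
  have site : ∀ a c', L.cel a c' → fb ≤ P.F c → √(P.mass ψ c') ≤
      √(P.mass ψ (L.dot a)) + 2 * P.G * (P.l * Real.exp (P.F c) * √(2 * P.q ψ)) := by
    intro a c' h h1
    have := chain hC hP hψ (p := L.cel a) (d := L.dot a) (f := P.F c)
      (fun c'' h => (hF a c'' h).trans h1) (hO.conn a) (2 * L.G) c' h
      (l1_le (cel_inG hO h) (cel_inG hO (hO.dot_mem a)))
    rw [← hV.G_eq] at this
    push_cast at this
    exact this
  by_cases h1 : ∃ a, L.cel a c
  · obtain ⟨a, ha⟩ := h1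
    have h2 := (hV.bus a c ha (hd a).symm).ge
    exact ⟨h2, a, (site a c ha h2).trans (by nlinarith)⟩
  push Not at h1
  by_cases h2 : ∃ r, L.pos r = c
  · obtain ⟨r, rfl⟩ := h2
    have h3 : fb ≤ P.F (L.pos r) := o2.trans (hV.res r).ge
    obtain ⟨a, ha⟩ : ∃ a, L.cel a (L.pos r - un (L.ver r)) :=
      (hO.ends r).elim (fun h => ⟨_, h.1⟩) fun h => ⟨_, h.1⟩
    have h4 : l1 (L.pos r) (L.pos r - un (L.ver r)) = 1 := by
      cases L.ver r <;> simp [l1, un]
    have h5 := ((hC P hP ψ hψ).2 _ _ _ h4 le_rfl ((hF a _ ha).trans h3)).1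
    have h6 := site a _ ha h3
    exact ⟨h3, a, by nlinarith⟩
  push Not at h2
  have h3 := hV.void c h1 h2
  obtain ⟨a⟩ := hO.ne
  refine ⟨by linarith, a, ?_⟩
  have := chain hC hP hψ (p := fun _ => True) (d := L.dot a) (f := P.F c)
    (fun c' _ => (hP.F_le c').trans h3.ge) (fun c' _ h => step c' _ h) (2 * P.G) c trivial
    (l1_le hc (hV.G_eq ▸ cel_inG hO (hO.dot_mem a)))
  push_cast at this
  nlinarith

omit [DecidableEq ι] in
theorem nondot (hL : LocStmt) (hC : CellStmt) (hO : L.OK) (hP : P.OK) {fl fb fr : ℝ}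
    (hV : L.Lev P fl fb fr) (hψ : C1c ψ) {c : ℤ × ℤ} (hc : inG P.G c) (hd : ∀ a, L.dot a ≠ c) :
    ∫ x in P.Q c, ‖ψ x‖ ^ 2 ≤
      2 * Real.exp (-(2 * (fb - fl))) * nsq ψ + 36 * P.G ^ 2 * P.l ^ 2 * P.q ψ := by
  obtain ⟨h1, a, h2⟩ := reach hC hO hP hV hψ hc hd
  have hq := q_nonneg P ψ
  have h3 : P.mass ψ c ≤ 2 * P.mass ψ (L.dot a) +
      36 * P.G ^ 2 * P.l ^ 2 * Real.exp (P.F c) ^ 2 * P.q ψ := by
    have e1 := pow_le_pow_left₀ (Real.sqrt_nonneg _) h2 2
    have e2 : (3 * P.G * (P.l * Real.exp (P.F c) * √(2 * P.q ψ))) ^ 2 =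
        18 * P.G ^ 2 * P.l ^ 2 * Real.exp (P.F c) ^ 2 * P.q ψ := by
      rw [mul_pow, mul_pow _ (√_), Real.sq_sqrt (by linarith)]
      ring
    rw [Real.sq_sqrt (mass_nonneg P ψ c)] at e1
    have e3 := Real.sq_sqrt (mass_nonneg P ψ (L.dot a))
    nlinarith [sq_nonneg (√(P.mass ψ (L.dot a)) -
      3 * P.G * (P.l * Real.exp (P.F c) * √(2 * P.q ψ)))]
  have h4 : Real.exp (-P.F (L.dot a)) ^ 2 * P.mass ψ (L.dot a) ≤ nsq ψ := by
    rw [← int_Q hL hP]
    exact setIntegral_le_integral (int_sq' hψ) (.of_forall fun _ => by positivity)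
  have h5 : Real.exp (-P.F c) ^ 2 ≤ Real.exp (-(2 * (fb - fl))) * Real.exp (-P.F (L.dot a)) ^ 2 := by
    rw [← Real.exp_nat_mul, ← Real.exp_nat_mul, ← Real.exp_add, Real.exp_le_exp]
    have := hV.dot a
    push_cast
    linarith
  have h6 : Real.exp (-P.F c) ^ 2 * Real.exp (P.F c) ^ 2 = 1 := by
    rw [← mul_pow, ← Real.exp_add]
    simp
  have h7 := mul_le_mul_of_nonneg_right h5 (mass_nonneg P ψ (L.dot a))
  have h8 := mul_le_mul_of_nonneg_left h4 (Real.exp_pos (-(2 * (fb - fl)))).le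
  rw [int_Q hL hP]
  refine (mul_le_mul_of_nonneg_left h3 (sq_nonneg _)).trans ?_
  have h9 : Real.exp (-P.F c) ^ 2 * (36 * P.G ^ 2 * P.l ^ 2 * Real.exp (P.F c) ^ 2 * P.q ψ) =
      36 * P.G ^ 2 * P.l ^ 2 * P.q ψ := by
    linear_combination (36 * P.G ^ 2 * P.l ^ 2 * P.q ψ) * h6
  rw [mul_add, h9]
  nlinarith

omit [DecidableEq ι] in
theorem ons (hL : LocStmt) (hO : L.OK) (hP : P.OK) (hG : P.G = L.G) : ONS (L.th P) := by
  have hm := m0_pos hL hP
  have hs : ∀ a x, L.th P a x ≠ 0 → x ∈ P.Q (L.dot a) := fun a x h => by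
    by_contra h'
    exact h (by rw [Lay.th, Pl.th0, Set.indicator_of_notMem h'])
  refine ⟨fun a => ((cont_chi hL P).div_const _).measurable.indicator (meas_Q P _),
    ⟨1 / √P.m0, fun a x => ?_⟩, ⟨2, fun a x h => ?_⟩, fun a b x hab => ?_, fun a => ?_⟩
  · by_cases h : x ∈ P.Q (L.dot a)
    · have h1 := hL.chi_pos P.Om (x 2)
      rw [Lay.th, Pl.th0, Set.indicator_of_mem h, abs_of_nonneg (by positivity)]
      gcongr
      exact hL.chi_le _ _ hP.Om_pos.le
    · rw [Lay.th, Pl.th0, Set.indicator_of_notMem h, abs_zero]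
      positivity
  · obtain ⟨h1, h2, h3, h4, h5⟩ := hs a x h
    obtain ⟨b1, b2, b3, b4⟩ := hO.bd a _ (hO.dot_mem a)
    rw [← hG] at b2 b4
    have hl := hP.l_pos
    have hθ := hP.th_pos
    have hGl := hP.Gl
    have key : ∀ (k : ℤ) (t : ℝ), 1 ≤ k → k + 2 ≤ P.G → (k + P.th) * P.l ≤ t →
        t ≤ (k + 1) * P.l → t ^ 2 ≤ 1 := by
      intro k t k1 k2 t1 t2
      have k1' : (1 : ℝ) ≤ k := by exact_mod_cast k1
      have k2' : (k : ℝ) + 2 ≤ P.G := by exact_mod_cast k2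
      have e1 : 0 ≤ t := le_trans (by positivity) t1
      have e2 : t ≤ 1 := by nlinarith
      nlinarith
    have e1 := key _ _ b1 b2 h1 h2
    have e2 := key _ _ b3 b4 h3 h4
    have e3 : x 2 ^ 2 ≤ 1 := by
      have hG0 : (0 : ℝ) ≤ P.G := Nat.cast_nonneg _
      rw [sq_le_one_iff_abs_le_one]
      nlinarith [hP.h_le]
    refine (sq_le_sq₀ (norm_nonneg _) (by norm_num)).1 ?_
    rw [EuclideanSpace.real_norm_sq_eq, Fin.sum_univ_three]
    linarith
  · by_contra h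
    exact hab (dot_inj hO (Q_disj hP (hs a x (left_ne_zero_of_mul h))
      (hs b x (right_ne_zero_of_mul h))))
  · have e1 : (fun x => L.th P a x ^ 2) =
        (P.Q (L.dot a)).indicator fun x => P.m0⁻¹ * chi P.Om (x 2) ^ 2 := by
      funext x
      by_cases h : x ∈ P.Q (L.dot a)
      · rw [Lay.th, Pl.th0, Set.indicator_of_mem h, Set.indicator_of_mem h, div_pow,
          Real.sq_sqrt hm.le, div_eq_inv_mul]
      · rw [Lay.th, Pl.th0, Set.indicator_of_notMem h, Set.indicator_of_notMem h]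
        simp
    rw [e1, integral_indicator (meas_Q P _), integral_const_mul, hL.vol_Q P hP,
      inv_mul_cancel₀ hm.ne']

end Leak

open Leak in
theorem leak (hL : LocStmt) (hC : CellStmt) (hY : LayerStmt) : LeakStmt := by
  classical
  intro ι ρ _ _ _ L P fl fb fr hO hP hV
  refine ⟨ons hL hO hP hV.G_eq, fun ψ hψ => ?_⟩
  set g : E3 → ℝ := fun x => ‖ψ x‖ ^ 2 with hg
  have hg0 : ∀ x, 0 ≤ g x := fun x => by positivity
  have ig : Integrable g := int_sq' hψ
  set T : Finset (ℤ × ℤ) := (Finset.Ico (0 : ℤ) P.G ×ˢ Finset.Ico (0 : ℤ) P.G).filter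
    fun c => ∀ a, L.dot a ≠ c with hT
  have hTc : (T.card : ℝ) ≤ P.G ^ 2 := by
    have : T.card ≤ P.G ^ 2 := (Finset.card_filter_le _ _).trans (by simp [sq])
    exact_mod_cast this
  have hU : MeasurableSet (⋃ c, P.Q c)ᶜ := (MeasurableSet.iUnion (meas_Q P)).compl
  have iz : Integrable fun x => (1 - P.zeta x) * g x :=
    int_sq hψ (continuous_const.sub (hL.tab_smooth P _).continuous)
  have i1 : Integrable fun x => ∑ a, (P.Q (L.dot a)).indicator g x :=
    integrable_finsetSum _ fun a _ => ig.indicator (meas_Q P _)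
  have i2 : Integrable fun x => ∑ c ∈ T, (P.Q c).indicator g x :=
    integrable_finsetSum _ fun c _ => ig.indicator (meas_Q P _)
  have h1 : ∀ x, g x ≤ ∑ a, (P.Q (L.dot a)).indicator g x + ∑ c ∈ T, (P.Q c).indicator g x +
      (⋃ c, P.Q c)ᶜ.indicator g x + (1 - P.zeta x) * g x := by
    intro x
    have hi : ∀ s : Set E3, 0 ≤ s.indicator g x := fun s => Set.indicator_nonneg (fun y _ => hg0 y) x
    have a1 : 0 ≤ ∑ a, (P.Q (L.dot a)).indicator g x := Finset.sum_nonneg fun _ _ => hi _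
    have a2 : 0 ≤ ∑ c ∈ T, (P.Q c).indicator g x := Finset.sum_nonneg fun _ _ => hi _
    have a3 := hi (⋃ c, P.Q c)ᶜ
    have a4 : 0 ≤ (1 - P.zeta x) * g x :=
      mul_nonneg (sub_nonneg.2 (hL.zeta_mem P hP x).2) (hg0 x)
    by_cases hx : x ∈ ⋃ c, P.Q c
    · obtain ⟨c, hc⟩ := Set.mem_iUnion.1 hx
      by_cases hG : inG P.G c
      · by_cases hd : ∀ a, L.dot a ≠ c
        · have := Finset.single_le_sum (f := fun c => (P.Q c).indicator g x) (s := T)
            (fun _ _ => hi _) (a := c) (by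
              simp only [hT, Finset.mem_filter, Finset.mem_product, Finset.mem_Ico]
              exact ⟨⟨⟨hG.1, hG.2.1⟩, hG.2.2⟩, hd⟩)
          simp only [Set.indicator_of_mem hc] at this
          linarith
        · push Not at hd
          obtain ⟨a, rfl⟩ := hd
          have := Finset.single_le_sum (f := fun a => (P.Q (L.dot a)).indicator g x)
            (fun _ _ => hi _) (Finset.mem_univ a)
          simp only [Set.indicator_of_mem hc] at this
          linarith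
      · have : P.zeta x = 0 := by rw [Pl.zeta, tab_Q hL hP _ hc, ext, if_neg hG]
        rw [this]
        linarith
    · rw [Set.indicator_of_mem (Set.mem_compl hx)]
      linarith
  have h2 := integral_mono ig (((i1.add i2).add (ig.indicator hU)).add iz) h1
  rw [integral_add' ((i1.add i2).add (ig.indicator hU)) iz, integral_add' (i1.add i2)
    (ig.indicator hU), integral_add' i1 i2,
    integral_finsetSum _ fun a _ => ig.indicator (meas_Q P _),
    integral_finsetSum _ fun a _ => ig.indicator (meas_Q P _), integral_indicator hU] at h2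
  simp only [integral_indicator (meas_Q P _)] at h2
  have hq := q_nonneg P ψ
  have hk := hL.kz_ge P hP
  have hN : 0 ≤ nsq ψ := integral_nonneg hg0
  have h3 : ∑ a, ∫ x in P.Q (L.dot a), g x ≤
      n1 (coef (L.th P) ψ) + P.G ^ 2 * (400 * P.kz * P.l ^ 2 * P.q ψ) := by
    refine (Finset.sum_le_sum fun a _ => defect_le hL hC hP hψ (L.dot a)).trans ?_
    rw [Finset.sum_add_distrib, Finset.sum_const, nsmul_eq_mul]
    refine add_le_add le_rfl (mul_le_mul_of_nonneg_right ?_ (by positivity))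
    rw [hV.G_eq]
    exact_mod_cast hO.card_ι
  have h4 : ∑ c ∈ T, ∫ x in P.Q c, g x ≤ P.G ^ 2 *
      (2 * Real.exp (-(2 * (fb - fl))) * nsq ψ + 36 * P.G ^ 2 * P.l ^ 2 * P.q ψ) := by
    refine (Finset.sum_le_card_nsmul _ _ _ fun c hc => ?_).trans
      (by rw [nsmul_eq_mul]; exact mul_le_mul_of_nonneg_right hTc (by positivity))
    simp only [hT, Finset.mem_filter, Finset.mem_product, Finset.mem_Ico] at hc
    exact nondot hL hC hO hP hV hψ ⟨hc.1.1.1, hc.1.1.2, hc.1.2⟩ hc.2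
  have h5 := hY P hP ψ hψ
  have hG : (1 : ℝ) ≤ P.G := by exact_mod_cast hP.G_pos
  have h6 : (P.G : ℝ) ^ 2 * (400 * P.kz) + P.G ^ 2 * (36 * P.G ^ 2) + 22 ≤
      1000 * P.G ^ 4 * P.kz := by
    have e1 : (1 : ℝ) ≤ P.G ^ 2 := one_le_pow₀ hG
    have e2 : (P.G : ℝ) ^ 2 ≤ P.G ^ 4 := pow_le_pow_right₀ hG (by norm_num)
    nlinarith
  have h7 := mul_le_mul_of_nonneg_right h6 (mul_nonneg (sq_nonneg P.l) hq)
  have h8 : nsq ψ = ∫ x, g x := rfl
  have h9 : pot (fun x => 1 - P.zeta x) ψ = ∫ x, (1 - P.zeta x) * g x := rfl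
  rw [← h8, ← h9] at h2
  nlinarith

open Leak in
theorem off (hL : LocStmt) : OffStmt := by
  intro ι ρ _ _ _ L P μ M hO hP hG hμ hM
  have hd : ∀ a, L.mu μ (L.dot a) = μ a := fun a => by
    rw [Lay.mu, Finset.sum_eq_single a (fun b _ hb => if_neg fun h => hb (dot_inj hO h)) (by simp),
      if_pos rfl]
  have hm : ∀ c, |L.mu μ c| ≤ M := fun c => by
    by_cases h : ∃ a, L.dot a = c
    · obtain ⟨a, rfl⟩ := h
      rw [hd]
      exact hμ a
    · rw [Lay.mu, Finset.sum_eq_zero fun a _ => if_neg fun h' => h ⟨a, h'⟩, abs_zero]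
      exact hM
  refine ⟨hm, fun ψ hψ => ?_⟩
  set g : E3 → ℝ := fun x => ‖ψ x‖ ^ 2 with hg
  have hg0 : ∀ x, 0 ≤ g x := fun x => by positivity
  have ig : Integrable g := int_sq' hψ
  have it : Integrable fun x => P.tab (L.mu μ) x * g x := int_sq hψ (hL.tab_smooth P _).continuous
  have i0 : ∀ a, Integrable ((P.Q (L.dot a)).indicator g) := fun a => ig.indicator (meas_Q P _)
  have i1 : Integrable fun x => ∑ a, (P.Q (L.dot a)).indicator g x :=
    integrable_finsetSum _ fun a _ => i0 a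
  have i2 : Integrable fun x => ∑ a, μ a * (P.Q (L.dot a)).indicator g x :=
    integrable_finsetSum _ fun a _ => (i0 a).const_mul _
  have h1 : ∀ x, ‖P.tab (L.mu μ) x * g x - ∑ a, μ a * (P.Q (L.dot a)).indicator g x‖ ≤
      M * (g x - ∑ a, (P.Q (L.dot a)).indicator g x) := by
    intro x
    by_cases hx : ∃ a, x ∈ P.Q (L.dot a)
    · obtain ⟨a, ha⟩ := hx
      have e1 : ∀ b, b ≠ a → (P.Q (L.dot b)).indicator g x = 0 := fun b hb =>
        Set.indicator_of_notMem (fun h => hb (dot_inj hO (Q_disj hP h ha))) _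
      rw [Finset.sum_eq_single a (fun b _ hb => by rw [e1 b hb, mul_zero]) (by simp),
        Finset.sum_eq_single a (fun b _ hb => e1 b hb) (by simp), Set.indicator_of_mem ha,
        tab_Q hL hP _ ha, ext, if_pos (hG ▸ cel_inG hO (hO.dot_mem a)), hd]
      simp
    · have e1 : ∀ b, (P.Q (L.dot b)).indicator g x = 0 := fun b =>
        Set.indicator_of_notMem (fun h => hx ⟨b, h⟩) _
      simp only [e1, mul_zero, Finset.sum_const_zero, sub_zero]
      rw [norm_mul, Real.norm_of_nonneg (hg0 x)]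
      exact mul_le_mul_of_nonneg_right (hL.tab_abs P hP _ M hm x) (hg0 x)
  have h2 := norm_integral_le_of_norm_le ((ig.sub i1).const_mul M) (.of_forall h1)
  simp only [Pi.sub_apply] at h2
  rw [integral_sub it i2, integral_const_mul, integral_sub ig i1,
    integral_finsetSum _ fun a _ => (i0 a).const_mul _, integral_finsetSum _ fun a _ => i0 a,
    Real.norm_eq_abs] at h2
  simp only [integral_const_mul, integral_indicator (meas_Q P _)] at h2
  have h3 : |∑ a, μ a * (∫ x in P.Q (L.dot a), g x) - ∑ a, μ a * ‖coef (L.th P) ψ a‖ ^ 2| ≤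
      M * (∑ a, (∫ x in P.Q (L.dot a), g x) - n1 (coef (L.th P) ψ)) := by
    rw [n1, ← Finset.sum_sub_distrib, ← Finset.sum_sub_distrib, Finset.mul_sum]
    refine (Finset.abs_sum_le_sum_abs _ _).trans (Finset.sum_le_sum fun a _ => ?_)
    have e1 : 0 ≤ (∫ x in P.Q (L.dot a), g x) - ‖coef (L.th P) ψ a‖ ^ 2 :=
      sub_nonneg.2 (defect_nonneg hL hP hψ (L.dot a))
    rw [← mul_sub, abs_mul, abs_of_nonneg e1]
    exact mul_le_mul_of_nonneg_right (hμ a) e1
  have h8 : nsq ψ = ∫ x, g x := rfl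
  have h9 : pot (P.tab (L.mu μ)) ψ = ∫ x, P.tab (L.mu μ) x * g x := rfl
  rw [← h8, ← h9] at h2
  refine (abs_sub_le _ _ _).trans ((add_le_add h2 h3).trans (le_of_eq ?_))
  ring

end Crest.Agent.R338
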