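import Crest.Agent.R338.Loc2

/-! Row 338: `LocStmt`. -/

noncomputable section

open MeasureTheory Set

namespace Crest.Agent.R338

namespace Loc

open Loc1 Loc2

theorem psi0_pos (P : Pl) (x : E3) : 0 < P.psi0 x := mul_pos (Real.exp_pos _) (chi_pos _ _)

theorem psi0_c1 (P : Pl) : ContDiff ℝ 1 P.psi0 :=
  ((fl_smooth P).of_le (by norm_num)).neg.exp.mul
    (((chi_c2 P.Om).of_le (by norm_num)).comp (coord_smooth 2))

theorem psi0C_c1 (P : Pl) : ContDiff ℝ 1 fun x => (P.psi0 x : ℂ) :=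
  Complex.ofRealCLM.contDiff.comp (psi0_c1 P)

theorem v_c1 (P : Pl) (ψ : E3 → ℂ) (h : C1c ψ) : C1c (P.v ψ) := by
  refine ⟨?_, ?_⟩
  · have h1 : ContDiff ℝ 1 fun x => ((P.psi0 x : ℂ))⁻¹ :=
      (psi0C_c1 P).inv fun x => by exact_mod_cast (psi0_pos P x).ne'
    exact h.1.mul h1
  · exact h.2.mul_right (f' := fun x => ((P.psi0 x : ℂ))⁻¹)

theorem pd_psi0 (P : Pl) (j : Fin 3) (x : E3) :
    pd j P.psi0 x = -(Xf P.fl P.Om j x * P.psi0 x) := by
  have h1 : HasFDerivAt P.fl (fderiv ℝ P.fl x) x :=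
    ((fl_smooth P).differentiable (by norm_num) x).hasFDerivAt
  have h2 := (chi_deriv P.Om (x 2)).comp_hasFDerivAt x
    (EuclideanSpace.proj 2 : E3 →L[ℝ] ℝ).hasFDerivAt
  have h3 : HasFDerivAt P.psi0 _ x := h1.neg.exp.mul h2
  rw [pd, h3.fderiv, Xf, pd, Pl.psi0]
  by_cases hj : j = 2
  · subst hj
    simp
    ring
  · simp [hj, Ne.symm hj]
    ring

theorem q_eq (P : Pl) (ψ : E3 → ℂ) (h : C1c ψ) :
    2 * P.q ψ = ∑ j, ∫ x, P.psi0 x ^ 2 * ‖pd j (P.v ψ) x‖ ^ 2 := by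
  rw [Pl.q, qq, ← mul_assoc, mul_one_div_cancel two_ne_zero, one_mul]
  refine Finset.sum_congr rfl fun j _ => integral_congr_ae (Filter.Eventually.of_forall fun x => ?_)
  have hne : ∀ y, (P.psi0 y : ℂ) ≠ 0 := fun y => by exact_mod_cast (psi0_pos P y).ne'
  have e : ψ = fun y => (P.psi0 y : ℂ) * P.v ψ y := funext fun y => by
    rw [Pl.v, mul_div_cancel₀ _ (hne y)]
  have h1 := Complex.ofRealCLM.hasFDerivAt.comp x
    ((psi0_c1 P).differentiable one_ne_zero x).hasFDerivAt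
  have h2 := ((v_c1 P ψ h).1.differentiable one_ne_zero x).hasFDerivAt
  have h3 : HasFDerivAt (fun y => (P.psi0 y : ℂ) * P.v ψ y) _ x := h1.mul h2
  rw [← e] at h3
  have h4 : pd j ψ x = P.psi0 x * pd j (P.v ψ) x + P.v ψ x * ((pd j P.psi0 x : ℝ) : ℂ) := by
    rw [pd, h3.fderiv]
    simp [pd]
  have h5 : pd j ψ x + (Xf P.fl P.Om j x : ℂ) * ψ x = P.psi0 x * pd j (P.v ψ) x := by
    rw [h4, pd_psi0, congrFun e x]
    push_cast
    ring
  simp only [h5, norm_mul, mul_pow, Complex.norm_real, Real.norm_eq_abs, sq_abs]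

theorem Q_meas (P : Pl) (c : ℤ × ℤ) : MeasurableSet (P.Q c) := by
  have h := fun j : Fin 3 => (coord_smooth j (n := 0)).continuous
  refine IsClosed.measurableSet ?_
  simp only [Pl.Q, ofPred_and]
  exact (isClosed_le continuous_const (h 0)).inter ((isClosed_le (h 0) continuous_const).inter
    ((isClosed_le continuous_const (h 1)).inter ((isClosed_le (h 1) continuous_const).inter
      (isClosed_le (h 2).abs continuous_const))))

theorem vol_Q (P : Pl) (hP : P.OK) (c : ℤ × ℤ) :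
    ∫ x in P.Q c, chi P.Om (x 2) ^ 2 = P.m0 := by
  let f : Fin 3 → ℝ → ℝ :=
    ![(Icc ((c.1 + P.th) * P.l) ((c.1 + 1) * P.l)).indicator fun _ => 1,
      (Icc ((c.2 + P.th) * P.l) ((c.2 + 1) * P.l)).indicator fun _ => 1,
      (Icc (-P.h) P.h).indicator fun z => chi P.Om z ^ 2]
  have hl := hP.l_pos
  have hth : P.th ≤ 1 := by linarith [hP.th_le]
  rw [← integral_indicator (Q_meas P c), ← (PiLp.volume_preserving_toLp (Fin 3)).integral_comp
    (MeasurableEquiv.toLp 2 (Fin 3 → ℝ)).measurableEmbedding]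
  have e : ∀ y : Fin 3 → ℝ, (P.Q c).indicator (fun x : E3 => chi P.Om (x 2) ^ 2)
      (WithLp.toLp 2 y) = ∏ i, f i (y i) := by
    intro y
    simp only [Fin.prod_univ_three, f, Matrix.cons_val_zero, Matrix.cons_val_one,
      Matrix.cons_val, indicator_apply, Pl.Q, mem_ofPred_eq, mem_Icc, abs_le]
    split_ifs <;> first | (simp; done) | tauto
  simp only [e]
  rw [integral_fintype_prod_volume_eq_prod, Fin.prod_univ_three]
  simp only [f, Matrix.cons_val_zero, Matrix.cons_val_one, Matrix.cons_val,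
    integral_indicator measurableSet_Icc, setIntegral_const, smul_eq_mul, mul_one]
  rw [Real.volume_real_Icc_of_le (by nlinarith), Real.volume_real_Icc_of_le (by nlinarith),
    integral_Icc_eq_integral_Ioc, ← intervalIntegral.integral_of_le (by linarith [hP.h_pos]),
    Pl.m0, Pl.Z]
  ring

theorem m0_pos (P : Pl) (hP : P.OK) : 0 < P.m0 := by
  have hl := hP.l_pos
  have hth : 0 < 1 - P.th := by linarith [hP.th_le]
  have := Z_pos P hP
  unfold Pl.m0
  positivity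

theorem coef_th0 (P : Pl) (hP : P.OK) (ψ : E3 → ℂ) (c : ℤ × ℤ) :
    ∫ x, (P.th0 c x : ℂ) * ψ x = ((Real.exp (-P.F c) * √P.m0 : ℝ) : ℂ) * P.avg ψ c := by
  have hm := m0_pos P hP
  have hs : (√P.m0 : ℂ) ≠ 0 := by exact_mod_cast (Real.sqrt_pos.2 hm).ne'
  have hss : (P.m0 : ℂ) = (√P.m0 : ℂ) * √P.m0 := by
    exact_mod_cast (Real.mul_self_sqrt hm.le).symm
  have e : (fun x => (P.th0 c x : ℂ) * ψ x) =
      (P.Q c).indicator fun x => ((chi P.Om (x 2) / √P.m0 : ℝ) : ℂ) * ψ x := by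
    funext x
    by_cases hx : x ∈ P.Q c <;> simp [Pl.th0, hx]
  rw [e, integral_indicator (Q_meas P c), Pl.avg, ← mul_div_assoc, mul_div_right_comm,
    ← integral_const_mul]
  refine setIntegral_congr_fun (Q_meas P c) fun x hx => ?_
  have h1 : ((chi P.Om (x 2) : ℝ) : ℂ) ≠ 0 := by exact_mod_cast (chi_pos _ _).ne'
  have h2 : ((Real.exp (-P.F c) : ℝ) : ℂ) ≠ 0 := by exact_mod_cast (Real.exp_pos _).ne'
  simp only [Pl.v, Pl.psi0, fl_Q P hP c x hx, Complex.ofReal_mul, Complex.ofReal_div,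
    Complex.ofReal_pow]
  generalize ((Real.exp (-P.F c) : ℝ) : ℂ) = E at *
  rw [hss]
  field_simp

end Loc

open Loc1 Loc2 Loc in
theorem loc : LocStmt where
  S_zero := S_zero
  S_one := S_one
  S_mono := S_mono
  S_smooth := S_smooth
  S_deriv t := ⟨S0_deriv t, S1_deriv t, S2_deriv t⟩
  S1_bd := S1_bd
  gam_c1 := gam_c1
  gam_deriv := gam_deriv
  gam_abs := gam_abs
  gam_sq := gam_sq
  gam_out := gam_out
  Gam_deriv := Gam_deriv
  Gam_in := Gam_in
  chi_pos := chi_pos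
  chi_c2 := chi_c2
  chi_anti := chi_anti
  chi_le := chi_le
  Z_pos := Z_pos
  kz_ge := kz_ge
  kz_le := kz_le
  tail := tail
  tab_loc := tab_loc
  fl_loc := fl_loc
  fl_Q := fl_Q
  fl_mem := fl_mem
  tab_smooth := tab_smooth
  fl_smooth := fl_smooth
  fl_pd2 := fl_pd2
  zeta_mem := zeta_mem
  zeta_one := zeta_one
  tab_abs := tab_abs
  v_c1 := v_c1
  q_eq := q_eq
  vol_Q := vol_Q
  coef_th0 P hP ψ c _ := coef_th0 P hP ψ c

end Crest.Agent.R338
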