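import Crest.Agent.R338.DefsP

/-! Row 338, `LocStmt`, part 1: the step, `γ`, `Γ`, `χ`. -/

noncomputable section

open MeasureTheory Set

namespace Crest.Agent.R338.Loc1

theorem pp_of_nonneg {t : ℝ} (h : 0 ≤ t) : pp t = t := max_eq_left h
theorem pp_of_nonpos {t : ℝ} (h : t ≤ 0) : pp t = 0 := max_eq_right h
theorem pp_nonneg (t : ℝ) : 0 ≤ pp t := le_max_right _ _
theorem pp_cont : Continuous (pp : ℝ → ℝ) := continuous_id.max continuous_const

theorem hasDerivAt_pp_pow (n : ℕ) (t : ℝ) :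
    HasDerivAt (fun s : ℝ => pp s ^ (n + 2)) (((n : ℝ) + 2) * pp t ^ (n + 1)) t := by
  rcases lt_trichotomy t 0 with h | rfl | h
  · have : (fun s : ℝ => pp s ^ (n + 2)) =ᶠ[nhds t] fun _ => 0 := by
      filter_upwards [Iio_mem_nhds h] with s hs
      simp [pp_of_nonpos (le_of_lt hs)]
    rw [pp_of_nonpos h.le]
    simpa using (hasDerivAt_const t (0 : ℝ)).congr_of_eventuallyEq this
  · have h1 : HasDerivWithinAt (fun s : ℝ => pp s ^ (n + 2)) 0 (Iic 0) 0 :=
      (hasDerivWithinAt_const (0 : ℝ) _ (0 : ℝ)).congr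
        (fun s hs => by simp [pp_of_nonpos hs]) (by simp [pp])
    have h2 : HasDerivWithinAt (fun s : ℝ => pp s ^ (n + 2)) 0 (Ici 0) 0 := by
      have := (hasDerivAt_pow (n + 2) (0 : ℝ)).hasDerivWithinAt (s := Ici 0)
      simp only [ne_eq, Nat.add_eq_zero_iff, Nat.add_one_sub_one,
        one_ne_zero, and_false, not_false_eq_true, zero_pow, mul_zero] at this
      exact this.congr (fun s hs => by rw [pp_of_nonneg hs]) (by simp [pp])
    have := h1.union h2
    rw [Iic_union_Ici, hasDerivWithinAt_univ] at this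
    simpa [pp] using this
  · have : (fun s : ℝ => pp s ^ (n + 2)) =ᶠ[nhds t] fun s => s ^ (n + 2) := by
      filter_upwards [Ioi_mem_nhds h] with s hs
      rw [pp_of_nonneg (le_of_lt hs)]
    rw [pp_of_nonneg h.le]
    simpa using (hasDerivAt_pow (n + 2) t).congr_of_eventuallyEq this

theorem contDiff_pp_pow (n : ℕ) : ContDiff ℝ n fun s : ℝ => pp s ^ (n + 1) := by
  induction n with
  | zero => exact contDiff_zero.2 (pp_cont.pow _)
  | succ n ih =>
    rw [Nat.cast_succ, contDiff_succ_iff_deriv]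
    refine ⟨fun t => (hasDerivAt_pp_pow n t).differentiableAt, by simp, ?_⟩
    have : deriv (fun s : ℝ => pp s ^ (n + 1 + 1)) = fun t => ((n : ℝ) + 2) * pp t ^ (n + 1) :=
      funext fun t => (hasDerivAt_pp_pow n t).deriv
    rw [this]
    exact contDiff_const.mul ih

/-- derivative of `Qs` -/
def Qd (t : ℝ) : ℝ := -(8 + 72 * (1 - t) + 360 * (1 - t) ^ 2 + 1320 * (1 - t) ^ 3 +
  3960 * (1 - t) ^ 4 + 10296 * (1 - t) ^ 5 + 24024 * (1 - t) ^ 6)

theorem hasDerivAt_Qs (t : ℝ) : HasDerivAt Qs (Qd t) t := by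
  have h : HasDerivAt (fun s : ℝ => 1 - s) (-1) t := (hasDerivAt_id t).const_sub 1
  have := (((((((h.const_mul 8).const_add 1).add ((h.pow 2).const_mul 36)).add
    ((h.pow 3).const_mul 120)).add ((h.pow 4).const_mul 330)).add ((h.pow 5).const_mul 792)).add
    ((h.pow 6).const_mul 1716)).add ((h.pow 7).const_mul 3432)
  refine HasDerivAt.congr_deriv this ?_
  unfold Qd
  norm_num
  ring

theorem S_zero (t : ℝ) (h : t ≤ 0) : S0 t = 0 := by
  simp [S0, pp_of_nonpos h, pp_of_nonpos (show t - 1 ≤ 0 by linarith)]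

theorem S_one (t : ℝ) (h : 1 ≤ t) : S0 t = 1 := by
  rw [S0, pp_of_nonneg (show 0 ≤ t by linarith), pp_of_nonneg (show 0 ≤ t - 1 by linarith)]
  unfold Qs
  ring

theorem S_smooth : ContDiff ℝ 7 (S0 : ℝ → ℝ) := by
  have hQ : ContDiff ℝ 7 (Qs : ℝ → ℝ) := by unfold Qs; fun_prop
  have h8 : ContDiff ℝ 7 fun s : ℝ => pp s ^ 8 := contDiff_pp_pow 7
  exact (h8.mul hQ).add ((h8.comp (contDiff_id.sub contDiff_const)).mul
    (hQ.comp (contDiff_const.sub contDiff_id)))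

theorem hasDerivAt_pp_one_sub (n : ℕ) (t : ℝ) :
    HasDerivAt (fun s : ℝ => pp (1 - s) ^ (n + 2)) (-(((n : ℝ) + 2) * pp (1 - t) ^ (n + 1))) t := by
  exact ((hasDerivAt_pp_pow n (1 - t)).comp t ((hasDerivAt_id t).const_sub 1)).congr_deriv
    (by ring)

theorem hasDerivAt_pp_sub (n : ℕ) (c t : ℝ) :
    HasDerivAt (fun s : ℝ => pp (s - c) ^ (n + 2)) (((n : ℝ) + 2) * pp (t - c) ^ (n + 1)) t := by
  exact (hasDerivAt_pp_pow n (t - c)).comp_sub_const t c

theorem cases3 (t : ℝ) : (pp t = 0 ∧ pp (t - 1) = 0 ∧ pp (1 - t) = 1 - t) ∨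
    (pp t = t ∧ pp (t - 1) = 0 ∧ pp (1 - t) = 1 - t) ∨
    (pp t = t ∧ pp (t - 1) = t - 1 ∧ pp (1 - t) = 0) := by
  rcases le_total t 0 with h | h
  · exact .inl ⟨pp_of_nonpos h, pp_of_nonpos (by linarith), pp_of_nonneg (by linarith)⟩
  rcases le_total t 1 with h' | h'
  · exact .inr (.inl ⟨pp_of_nonneg h, pp_of_nonpos (by linarith), pp_of_nonneg (by linarith)⟩)
  · exact .inr (.inr ⟨pp_of_nonneg h, pp_of_nonneg (by linarith), pp_of_nonpos (by linarith)⟩)

theorem S0_deriv (t : ℝ) : HasDerivAt S0 (S1 t) t := by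
  have hq : HasDerivAt (fun s : ℝ => Qs (1 - s)) (-Qd (1 - t)) t := by
    exact ((hasDerivAt_Qs (1 - t)).comp t ((hasDerivAt_id t).const_sub 1)).congr_deriv (by ring)
  have := ((hasDerivAt_pp_pow 6 t).mul (hasDerivAt_Qs t)).add ((hasDerivAt_pp_sub 6 1 t).mul hq)
  refine HasDerivAt.congr_deriv this ?_
  unfold S1 Qs Qd
  rcases cases3 t with ⟨h1, h2, h3⟩ | ⟨h1, h2, h3⟩ | ⟨h1, h2, h3⟩ <;> rw [h1, h2, h3] <;>
    push_cast <;> ring

theorem S1_deriv (t : ℝ) : HasDerivAt S1 (S2 t) t := by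
  have := ((hasDerivAt_pp_pow 5 t).const_mul 51480).mul (hasDerivAt_pp_one_sub 5 t)
  refine HasDerivAt.congr_deriv this ?_
  unfold S2
  rcases cases3 t with ⟨h1, -, h3⟩ | ⟨h1, -, h3⟩ | ⟨h1, -, h3⟩ <;> rw [h1, h3] <;>
    push_cast <;> ring

theorem S2_deriv (t : ℝ) : HasDerivAt S2 (S3 t) t := by
  have := (((hasDerivAt_pp_pow 4 t).const_mul 360360).mul (hasDerivAt_pp_one_sub 4 t)).mul
    (((hasDerivAt_id t).const_mul 2).const_sub 1)
  refine HasDerivAt.congr_deriv this ?_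
  unfold S3
  rcases cases3 t with ⟨h1, -, h3⟩ | ⟨h1, -, h3⟩ | ⟨h1, -, h3⟩ <;> simp only [Pi.mul_apply, h1, h3, id] <;>
    push_cast <;> ring

theorem S1_bd (t : ℝ) : 0 ≤ S1 t ∧ S1 t ≤ 4 := by
  have h1 := pp_nonneg t
  have h2 := pp_nonneg (1 - t)
  refine ⟨by unfold S1; positivity, ?_⟩
  have h3 : pp t * pp (1 - t) ≤ 1 / 4 := by
    rcases cases3 t with ⟨h1, -, h3⟩ | ⟨h1, -, h3⟩ | ⟨h1, -, h3⟩ <;> rw [h1, h3] <;>
      nlinarith [sq_nonneg (t - 1 / 2)]
  have h4 := pow_le_pow_left₀ (mul_nonneg h1 h2) h3 7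
  unfold S1
  rw [mul_assoc, ← mul_pow]
  norm_num at h4 ⊢
  linarith

theorem S_mono : Monotone (S0 : ℝ → ℝ) :=
  monotone_of_deriv_nonneg (fun t => (S0_deriv t).differentiableAt) fun t => by
    rw [(S0_deriv t).deriv]; exact (S1_bd t).1

theorem S_mem (t : ℝ) : 0 ≤ S0 t ∧ S0 t ≤ 1 := by
  constructor
  · rw [← S_zero (min t 0) (min_le_right _ _)]; exact S_mono (min_le_left _ _)
  · rw [← S_one (max t 1) (le_max_right _ _)]; exact S_mono (le_max_left _ _)

/-! ### `γ` -/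

theorem gam_in {z : ℝ} (h : |z| ≤ 1) : gam z = z - z ^ 3 / 3 := by
  rw [abs_le] at h
  rw [gam, min_eq_left h.2, max_eq_right h.1]

theorem gam_hi {z : ℝ} (h : 1 ≤ z) : gam z = 2 / 3 := by
  rw [gam, min_eq_right h, max_eq_right (by norm_num)]; norm_num

theorem gam_lo {z : ℝ} (h : z ≤ -1) : gam z = -(2 / 3) := by
  rw [gam, min_eq_left (by linarith), max_eq_left h]; norm_num

theorem gam_eq : gam = fun z => z - z ^ 3 / 3 + pp (z - 1) ^ 2 * ((z + 2) / 3) +
    pp (1 - (z + 2)) ^ 2 * ((z - 2) / 3) := by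
  funext z
  rcases le_total z (-1) with h | h
  · rw [gam_lo h, pp_of_nonpos (by linarith), pp_of_nonneg (by linarith)]; ring
  rcases le_total z 1 with h' | h'
  · rw [gam_in (abs_le.2 ⟨h, h'⟩), pp_of_nonpos (by linarith), pp_of_nonpos (by linarith)]; ring
  · rw [gam_hi h', pp_of_nonneg (by linarith), pp_of_nonpos (by linarith)]; ring

theorem gam_deriv (z : ℝ) : HasDerivAt gam (1 - min (z ^ 2) 1) z := by
  have h1 : HasDerivAt (fun s : ℝ => pp (1 - (s + 2)) ^ 2) (-(2 * pp (1 - (z + 2)))) z := by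
    exact ((hasDerivAt_pp_one_sub 0 (z + 2)).comp_add_const z 2).congr_deriv (by simp)
  have := (((hasDerivAt_id z).sub ((hasDerivAt_pow 3 z).div_const 3)).add
    ((hasDerivAt_pp_sub 0 1 z).mul (((hasDerivAt_id z).add_const 2).div_const 3))).add
    (h1.mul (((hasDerivAt_id z).sub_const 2).div_const 3))
  rw [gam_eq]
  refine HasDerivAt.congr_deriv this ?_
  rcases le_total z (-1) with h | h
  · rw [min_eq_right (by nlinarith), pp_of_nonpos (by linarith), pp_of_nonneg (by linarith)]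
    simp only [id]; push_cast; ring
  rcases le_total z 1 with h' | h'
  · rw [min_eq_left (by nlinarith), pp_of_nonpos (by linarith), pp_of_nonpos (by linarith)]
    simp only [id]; push_cast; ring
  · rw [min_eq_right (by nlinarith), pp_of_nonneg (by linarith), pp_of_nonpos (by linarith)]
    simp only [id]; push_cast; ring

theorem gam_c1 : ContDiff ℝ 1 gam := by
  rw [contDiff_one_iff_deriv]
  refine ⟨fun z => (gam_deriv z).differentiableAt, ?_⟩
  rw [show deriv gam = fun z => 1 - min (z ^ 2) 1 from funext fun z => (gam_deriv z).deriv]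
  fun_prop

theorem gam_abs (z : ℝ) : 2 / 3 * min |z| 1 ≤ |gam z| ∧ |gam z| ≤ min |z| 1 := by
  rcases le_total z (-1) with h | h
  · rw [gam_lo h, min_eq_right (by rw [abs_of_nonpos (by linarith)]; linarith), abs_neg,
      abs_of_nonneg (by norm_num)]
    norm_num
  rcases le_total z 1 with h' | h'
  · have hz : |z| ≤ 1 := abs_le.2 ⟨h, h'⟩
    have h2 : z ^ 2 ≤ 1 := by nlinarith
    rw [gam_in hz, min_eq_left hz, show z - z ^ 3 / 3 = z * (1 - z ^ 2 / 3) by ring, abs_mul,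
      abs_of_nonneg (show 0 ≤ 1 - z ^ 2 / 3 by linarith)]
    constructor <;> nlinarith [abs_nonneg z, sq_nonneg z]
  · rw [gam_hi h', min_eq_right (by rw [abs_of_nonneg (by linarith)]; linarith),
      abs_of_nonneg (by norm_num)]
    norm_num

theorem gam_sq (z : ℝ) (h : |z| ≤ 1) : z ^ 2 - gam z ^ 2 = 2 / 3 * z ^ 4 - z ^ 6 / 9 := by
  rw [gam_in h]; ring

theorem gam_out (z : ℝ) (h : 1 ≤ |z|) : gam z ^ 2 = 4 / 9 := by
  rcases le_abs.1 h with h | h
  · rw [gam_hi h]; norm_num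
  · rw [gam_lo (by linarith)]; norm_num

theorem gam_neg (z : ℝ) : gam (-z) = -gam z := by
  rcases le_total z (-1) with h | h
  · rw [gam_lo h, gam_hi (by linarith), neg_neg]
  rcases le_total z 1 with h' | h'
  · have hz : |z| ≤ 1 := abs_le.2 ⟨h, h'⟩
    rw [gam_in hz, gam_in (by rwa [abs_neg])]; ring
  · rw [gam_hi h', gam_lo (by linarith)]

theorem gam_nonneg {z : ℝ} (h : 0 ≤ z) : 0 ≤ gam z := by
  rcases le_total z 1 with h' | h'
  · rw [gam_in (abs_le.2 ⟨by linarith, h'⟩)]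
    nlinarith [mul_nonneg h (show 0 ≤ 1 - z ^ 2 by nlinarith)]
  · rw [gam_hi h']; norm_num

theorem Gam_deriv (z : ℝ) : HasDerivAt Gam (gam z) z :=
  (gam_c1.continuous.integral_hasStrictDerivAt 0 z).hasDerivAt

theorem Gam_in (z : ℝ) (h : |z| ≤ 1) : Gam z = z ^ 2 / 2 - z ^ 4 / 12 := by
  have : Gam z = ∫ t in (0 : ℝ)..z, (t - t ^ 3 / 3) := by
    refine intervalIntegral.integral_congr fun t ht => gam_in ?_
    rw [abs_le] at h ⊢
    rcases mem_uIcc.1 ht with ht | ht <;> constructor <;> linarith [ht.1, ht.2]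
  rw [this, intervalIntegral.integral_sub (by simp) (by simp), intervalIntegral.integral_div]
  simp
  ring

theorem Gam_neg (z : ℝ) : Gam (-z) = Gam z := by
  have := intervalIntegral.integral_comp_neg (a := 0) (b := z) (f := gam)
  simp only [gam_neg, intervalIntegral.integral_neg, neg_zero] at this
  rw [Gam, intervalIntegral.integral_symm, ← this, neg_neg, Gam]

theorem Gam_abs (z : ℝ) : Gam |z| = Gam z := by
  rcases abs_choice z with h | h <;> rw [h]
  exact Gam_neg z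

theorem Gam_mono : MonotoneOn Gam (Ici 0) :=
  monotoneOn_of_deriv_nonneg (convex_Ici 0)
    (fun z _ => (Gam_deriv z).continuousAt.continuousWithinAt)
    (fun z _ => (Gam_deriv z).differentiableAt.differentiableWithinAt) fun z hz => by
      rw [(Gam_deriv z).deriv]
      exact gam_nonneg (interior_subset hz)

theorem Gam_c2 : ContDiff ℝ 2 Gam := by
  rw [show (2 : WithTop ℕ∞) = 1 + 1 from rfl, contDiff_succ_iff_deriv]
  refine ⟨fun z => (Gam_deriv z).differentiableAt, by simp, ?_⟩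
  rw [show deriv Gam = gam from funext fun z => (Gam_deriv z).deriv]
  exact gam_c1

theorem chi_pos (Ω z : ℝ) : 0 < chi Ω z := Real.exp_pos _

theorem chi_c2 (Ω : ℝ) : ContDiff ℝ 2 (chi Ω) := (contDiff_const.mul Gam_c2).neg.exp

theorem chi_anti (Ω z z' : ℝ) (hΩ : 0 ≤ Ω) (h : |z| ≤ |z'|) : chi Ω z' ≤ chi Ω z := by
  unfold chi
  rw [Real.exp_le_exp, neg_le_neg_iff, ← Gam_abs z, ← Gam_abs z']
  exact mul_le_mul_of_nonneg_left (Gam_mono (abs_nonneg z) (abs_nonneg z') h) hΩ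

theorem chi_le (Ω z : ℝ) (hΩ : 0 ≤ Ω) : chi Ω z ≤ 1 := by
  have := chi_anti Ω 0 z hΩ (by simp)
  simpa [chi, Gam] using this

theorem chi_deriv (Ω z : ℝ) : HasDerivAt (chi Ω) (chi Ω z * -(Ω * gam z)) z :=
  ((Gam_deriv z).const_mul Ω).neg.exp

/-! ### The normalisation `Z` -/

theorem chi_sq_cont (Ω : ℝ) : Continuous fun z => chi Ω z ^ 2 := (chi_c2 Ω).continuous.pow 2

theorem h_le {P : Pl} (hP : P.OK) : P.h ≤ 1 / 16 := by
  have h1 : (1 : ℝ) ≤ P.G := by exact_mod_cast hP.G_pos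
  nlinarith [hP.Gl, hP.h_le, hP.l_pos]

theorem Z_pos (P : Pl) (hP : P.OK) : 0 < P.Z :=
  intervalIntegral.intervalIntegral_pos_of_pos ((chi_sq_cont _).intervalIntegrable _ _)
    (fun z => pow_pos (chi_pos _ z) 2) (by linarith [hP.h_pos])

theorem kz_ge (P : Pl) (hP : P.OK) : 1 / 2 ≤ P.kz := by
  have h1 : P.Z ≤ ∫ _ in (-P.h)..P.h, (1 : ℝ) :=
    intervalIntegral.integral_mono_on (by linarith [hP.h_pos])
      ((chi_sq_cont _).intervalIntegrable _ _) (by simp) fun z _ =>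
        pow_le_one₀ (chi_pos _ _).le (chi_le _ _ hP.Om_pos.le)
  simp only [intervalIntegral.integral_const, smul_eq_mul, mul_one] at h1
  rw [Pl.kz, le_div_iff₀ (Z_pos P hP)]
  linarith

theorem kz_le (P : Pl) (hP : P.OK) : P.kz ≤ 2 * P.h * √P.Om := by
  have hΩ := hP.Om_pos
  have hs : 0 < √P.Om := Real.sqrt_pos.2 hΩ
  have hss : √P.Om ^ 2 = P.Om := Real.sq_sqrt hΩ.le
  set r := (√P.Om)⁻¹ with hr
  have hr0 : 0 < r := inv_pos.2 hs
  have hrs : r * √P.Om = 1 := inv_mul_cancel₀ hs.ne'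
  have hr2 : P.Om * r ^ 2 = 1 := by rw [← hss, ← mul_pow, mul_comm, hrs, one_pow]
  have hrh : r ≤ P.h := by
    refine le_of_sq_le_sq ?_ hP.h_pos.le
    have := hP.Omh
    rw [← hr2] at this
    exact le_of_mul_le_mul_left this hΩ
  have hc : 1 / 4 ≤ chi P.Om r ^ 2 := by
    have h1 : |r| ≤ 1 := by rw [abs_of_pos hr0]; linarith [h_le hP]
    rw [chi, Gam_in r h1, ← Real.exp_nat_mul]
    have h2 : Real.exp (-1) ≤ Real.exp ((2 : ℕ) * -(P.Om * (r ^ 2 / 2 - r ^ 4 / 12))) := by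
      rw [Real.exp_le_exp]
      push_cast
      nlinarith [mul_nonneg hΩ.le (show 0 ≤ r ^ 4 by positivity)]
    linarith [Real.exp_neg_one_gt_d9]
  have h1 : ∫ _ in (-r)..r, (1 / 4 : ℝ) ≤ ∫ z in (-r)..r, chi P.Om z ^ 2 :=
    intervalIntegral.integral_mono_on (by linarith) (by simp)
      ((chi_sq_cont _).intervalIntegrable _ _) fun z hz => hc.trans
        (pow_le_pow_left₀ (chi_pos _ _).le (chi_anti _ _ _ hΩ.le
          (by rw [abs_of_pos hr0]; exact abs_le.2 hz)) 2)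
  have h2 : ∫ z in (-r)..r, chi P.Om z ^ 2 ≤ P.Z :=
    intervalIntegral.integral_mono_interval (by linarith) (by linarith) hrh
      (Filter.Eventually.of_forall fun z => sq_nonneg _) ((chi_sq_cont _).intervalIntegrable _ _)
  simp only [intervalIntegral.integral_const, smul_eq_mul] at h1
  rw [Pl.kz, div_le_iff₀ (Z_pos P hP)]
  have h3 : r / 2 ≤ P.Z := by linarith
  nlinarith [mul_le_mul_of_nonneg_left h3 (mul_pos hP.h_pos hs).le]

theorem tail (P : Pl) (hP : P.OK) :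
    ∫ z in (-(2 * P.h))..(2 * P.h), chi P.Om z ^ 2 ≤ (1 + P.tl) * P.Z := by
  have hh := hP.h_pos
  have hΩ := hP.Om_pos
  have hi := fun a b => (chi_sq_cont P.Om).intervalIntegrable (μ := volume) a b
  have hc : chi P.Om P.h ^ 2 ≤ Real.exp (-(P.Om * P.h ^ 2 / 2)) := by
    have h1 : |P.h| ≤ 1 := by rw [abs_of_pos hh]; linarith [h_le hP]
    rw [chi, Gam_in _ h1, ← Real.exp_nat_mul, Real.exp_le_exp]
    push_cast
    have h2 : P.h ^ 2 ≤ 1 := by nlinarith [h_le hP]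
    have h3 : P.h ^ 4 ≤ P.h ^ 2 := by nlinarith [sq_nonneg P.h]
    nlinarith [mul_le_mul_of_nonneg_left h3 hΩ.le, mul_nonneg hΩ.le (sq_nonneg P.h)]
  have hb : ∀ z, P.h ≤ |z| → chi P.Om z ^ 2 ≤ Real.exp (-(P.Om * P.h ^ 2 / 2)) := fun z hz =>
    (pow_le_pow_left₀ (chi_pos _ _).le (chi_anti _ _ _ hΩ.le (by rwa [abs_of_pos hh])) 2).trans hc
  have h1 : ∫ z in (-(2 * P.h))..(-P.h), chi P.Om z ^ 2 ≤
      ∫ _ in (-(2 * P.h))..(-P.h), Real.exp (-(P.Om * P.h ^ 2 / 2)) :=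
    intervalIntegral.integral_mono_on (by linarith) (hi _ _) (by simp) fun z hz =>
      hb z (le_abs.2 (.inr (by linarith [hz.2])))
  have h2 : ∫ z in P.h..(2 * P.h), chi P.Om z ^ 2 ≤
      ∫ _ in P.h..(2 * P.h), Real.exp (-(P.Om * P.h ^ 2 / 2)) :=
    intervalIntegral.integral_mono_on (by linarith) (hi _ _) (by simp) fun z hz =>
      hb z (le_abs.2 (.inl hz.1))
  simp only [intervalIntegral.integral_const, smul_eq_mul] at h1 h2
  rw [← intervalIntegral.integral_add_adjacent_intervals (hi _ (-P.h)) (hi _ _),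
    ← intervalIntegral.integral_add_adjacent_intervals (hi (-P.h) P.h) (hi _ _)]
  have h3 : P.tl * P.Z = 2 * P.h * Real.exp (-(P.Om * P.h ^ 2 / 2)) := by
    have := (Z_pos P hP).ne'
    rw [Pl.tl, Pl.kz]; field_simp
  have h4 : P.Z = ∫ z in (-P.h)..P.h, chi P.Om z ^ 2 := rfl
  rw [add_mul, h3, one_mul]
  linarith

end Crest.Agent.R338.Loc1
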