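import Crest.Agent.R338.Loc1

/-! Row 338, `LocStmt`, part 2: the interpolation. -/

noncomputable section

open MeasureTheory Set

namespace Crest.Agent.R338.Loc2

open Loc1

theorem Bd0 (θ t : ℝ) : Bd 0 θ t = S0 (t / θ) - S0 ((t - 1) / θ) := by simp [Bd, Sd]

theorem tab_eq (P : Pl) (a : ℤ × ℤ → ℝ) (x : E3) : P.tab a x =
    ∑ i ∈ Finset.range P.G, ∑ j ∈ Finset.range P.G,
      a ((i : ℤ), (j : ℤ)) * (Bd 0 P.th (x 0 / P.l - i) * Bd 0 P.th (x 1 / P.l - j)) := by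
  simp [Pl.tab, tabD]

theorem Bd0_nonneg {θ : ℝ} (hθ : 0 < θ) (t : ℝ) : 0 ≤ Bd 0 θ t := by
  rw [Bd0, sub_nonneg]
  exact S_mono (div_le_div_of_nonneg_right (by linarith) hθ.le)

theorem sum_Bd0 (θ s : ℝ) (G : ℕ) :
    ∑ i ∈ Finset.range G, Bd 0 θ (s - i) = S0 (s / θ) - S0 ((s - G) / θ) := by
  induction G with
  | zero => simp
  | succ G ih =>
    rw [Finset.sum_range_succ, ih, Bd0]
    push_cast
    rw [sub_sub s, sub_add_sub_cancel]

theorem sum_Bd0_mem {θ : ℝ} (hθ : 0 < θ) (s : ℝ) (G : ℕ) :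
    0 ≤ ∑ i ∈ Finset.range G, Bd 0 θ (s - i) ∧ ∑ i ∈ Finset.range G, Bd 0 θ (s - i) ≤ 1 := by
  refine ⟨Finset.sum_nonneg fun i _ => Bd0_nonneg hθ _, ?_⟩
  rw [sum_Bd0]
  linarith [(S_mem (s / θ)).2, (S_mem ((s - G) / θ)).1]

theorem zeta_eq (P : Pl) (x : E3) : P.zeta x =
    (∑ i ∈ Finset.range P.G, Bd 0 P.th (x 0 / P.l - i)) *
      ∑ j ∈ Finset.range P.G, Bd 0 P.th (x 1 / P.l - j) := by
  rw [Pl.zeta, tab_eq, Finset.sum_mul_sum]
  simp

theorem zeta_mem (P : Pl) (hP : P.OK) (x : E3) : 0 ≤ P.zeta x ∧ P.zeta x ≤ 1 := by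
  rw [zeta_eq]
  obtain ⟨h1, h2⟩ := sum_Bd0_mem hP.th_pos (x 0 / P.l) P.G
  obtain ⟨h3, h4⟩ := sum_Bd0_mem hP.th_pos (x 1 / P.l) P.G
  exact ⟨mul_nonneg h1 h3, mul_le_one₀ h2 h3 h4⟩

theorem zeta_one (P : Pl) (hP : P.OK) (x : E3) (h1 : P.th * P.l ≤ x 0) (h2 : x 0 ≤ P.G * P.l)
    (h3 : P.th * P.l ≤ x 1) (h4 : x 1 ≤ P.G * P.l) : P.zeta x = 1 := by
  have key : ∀ y : ℝ, P.th * P.l ≤ y → y ≤ P.G * P.l →
      ∑ i ∈ Finset.range P.G, Bd 0 P.th (y / P.l - i) = 1 := by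
    intro y h1 h2
    rw [← le_div_iff₀ hP.l_pos] at h1
    rw [← div_le_iff₀ hP.l_pos] at h2
    rw [sum_Bd0, S_one _ ((one_le_div hP.th_pos).2 h1),
      S_zero _ (div_nonpos_of_nonpos_of_nonneg (by linarith) hP.th_pos.le), sub_zero]
  rw [zeta_eq, key _ h1 h2, key _ h3 h4, mul_one]

theorem tab_mono (P : Pl) (hP : P.OK) {a b : ℤ × ℤ → ℝ} (h : ∀ c, a c ≤ b c) (x : E3) :
    P.tab a x ≤ P.tab b x := by
  rw [tab_eq, tab_eq]
  exact Finset.sum_le_sum fun i _ => Finset.sum_le_sum fun j _ =>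
    mul_le_mul_of_nonneg_right (h _) (mul_nonneg (Bd0_nonneg hP.th_pos _) (Bd0_nonneg hP.th_pos _))

theorem tab_const (P : Pl) (M : ℝ) (x : E3) : P.tab (fun _ => M) x = M * P.zeta x := by
  rw [Pl.zeta, tab_eq, tab_eq]
  simp [Finset.mul_sum]

theorem tab_abs (P : Pl) (hP : P.OK) (a : ℤ × ℤ → ℝ) (M : ℝ) (h : ∀ c, |a c| ≤ M) (x : E3) :
    |P.tab a x| ≤ M := by
  have hM : 0 ≤ M := (abs_nonneg _).trans (h 0)
  have h1 := tab_mono P hP (fun c => (abs_le.1 (h c)).1) x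
  have h2 := tab_mono P hP (fun c => (abs_le.1 (h c)).2) x
  rw [tab_const] at h1 h2
  obtain ⟨h3, h4⟩ := zeta_mem P hP x
  rw [abs_le]
  constructor <;> nlinarith

theorem fl_mem (P : Pl) (hP : P.OK) (x : E3) : 0 ≤ P.fl x ∧ P.fl x ≤ P.fv := by
  have hM : 0 ≤ P.fv := (hP.F_nonneg 0).trans (hP.F_le 0)
  have h1 := tab_mono P hP (a := fun _ => -P.fv) (b := fun c => P.F c - P.fv)
    (fun c => by linarith [hP.F_nonneg c]) x
  have h2 := tab_mono P hP (b := fun _ => 0) (a := fun c => P.F c - P.fv)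
    (fun c => by linarith [hP.F_le c]) x
  rw [tab_const] at h1 h2
  obtain ⟨h3, h4⟩ := zeta_mem P hP x
  unfold Pl.fl
  constructor <;> nlinarith

/-- local form of the bumps -/
theorem Bd0_loc {θ s : ℝ} (hθ : 0 < θ) {c : ℤ} (h1 : c - 1 + θ ≤ s) (h2 : s ≤ c + 1) (i : ℤ) :
    Bd 0 θ (s - i) = (if i = c - 1 then 1 - S0 ((s - c) / θ) else 0) +
      if i = c then S0 ((s - c) / θ) else 0 := by
  have hz : ∀ t : ℝ, t ≤ 0 → S0 (t / θ) = 0 := fun t ht =>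
    S_zero _ (div_nonpos_of_nonpos_of_nonneg ht hθ.le)
  have ho : ∀ t : ℝ, θ ≤ t → S0 (t / θ) = 1 := fun t ht => S_one _ ((one_le_div hθ).2 ht)
  rw [Bd0]
  rcases lt_trichotomy i (c - 1) with h | h | h
  · have : (i : ℝ) + 2 ≤ c := by exact_mod_cast (by omega : i + 2 ≤ c)
    rw [if_neg (by omega), if_neg (by omega), ho _ (by linarith), ho _ (by linarith)]; ring
  · subst h
    rw [if_pos rfl, if_neg (by omega), ho _ (by push_cast; linarith)]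
    push_cast
    rw [add_zero, show s - (c - 1) - 1 = s - c by ring]
  · rcases eq_or_lt_of_le (show c ≤ i by omega) with h' | h'
    · subst h'
      rw [if_neg (by omega), if_pos rfl, hz (s - c - 1) (by linarith)]; ring
    · have : (c : ℝ) + 1 ≤ i := by exact_mod_cast (by omega : c + 1 ≤ i)
      rw [if_neg (by omega), if_neg (by omega), hz _ (by linarith), hz _ (by linarith)]; ring

theorem sum_ite_cast (G : ℕ) (g : ℤ → ℝ) (c : ℤ) (u : ℝ) :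
    ∑ i ∈ Finset.range G, g i * (if (i : ℤ) = c then u else 0) =
      (if 0 ≤ c ∧ c < G then g c else 0) * u := by
  split_ifs with h
  · obtain ⟨k, rfl⟩ := Int.eq_ofNat_of_zero_le h.1
    rw [Finset.sum_eq_single k]
    · simp
    · intro b _ hb
      rw [if_neg (by exact_mod_cast hb), mul_zero]
    · intro hk
      exact absurd (Finset.mem_range.2 (by exact_mod_cast h.2)) hk
  · rw [zero_mul]
    refine Finset.sum_eq_zero fun i hi => ?_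
    have := Finset.mem_range.1 hi
    rw [if_neg (by omega), mul_zero]

theorem sum_loc {θ s : ℝ} (hθ : 0 < θ) {c : ℤ} (h1 : c - 1 + θ ≤ s) (h2 : s ≤ c + 1) (G : ℕ)
    (g : ℤ → ℝ) : ∑ i ∈ Finset.range G, g i * Bd 0 θ (s - i) =
      (if 0 ≤ c - 1 ∧ c - 1 < G then g (c - 1) else 0) * (1 - S0 ((s - c) / θ)) +
      (if 0 ≤ c ∧ c < G then g c else 0) * S0 ((s - c) / θ) := by
  rw [← sum_ite_cast, ← sum_ite_cast, ← Finset.sum_add_distrib]
  refine Finset.sum_congr rfl fun i _ => ?_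
  rw [← mul_add, ← Bd0_loc hθ h1 h2 i, Int.cast_natCast]

theorem ext_eq (G : ℕ) (a : ℤ × ℤ → ℝ) (i j : ℤ) :
    ext G a (i, j) = if 0 ≤ j ∧ j < G then (if 0 ≤ i ∧ i < G then a (i, j) else 0) else 0 := by
  unfold ext inG
  split_ifs <;> first | rfl | tauto

theorem tab_loc (P : Pl) (hP : P.OK) (a : ℤ × ℤ → ℝ) (c : ℤ × ℤ) (x : E3)
    (h1 : (c.1 - 1 + P.th) * P.l ≤ x 0) (h2 : x 0 ≤ (c.1 + 1) * P.l)
    (h3 : (c.2 - 1 + P.th) * P.l ≤ x 1) (h4 : x 1 ≤ (c.2 + 1) * P.l) :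
    P.tab a x = bil (ext P.G a (c.1 - 1, c.2 - 1)) (ext P.G a (c.1, c.2 - 1))
      (ext P.G a (c.1 - 1, c.2)) (ext P.G a c) (S0 ((x 0 / P.l - c.1) / P.th))
      (S0 ((x 1 / P.l - c.2) / P.th)) := by
  obtain ⟨c1, c2⟩ := c
  rw [← le_div_iff₀ hP.l_pos] at h1 h3
  rw [← div_le_iff₀ hP.l_pos] at h2 h4
  rw [tab_eq, Finset.sum_comm]
  simp only [← mul_assoc, ← Finset.sum_mul]
  rw [sum_loc hP.th_pos h3 h4 P.G
    (fun j => ∑ i ∈ Finset.range P.G, a ((i : ℤ), j) * Bd 0 P.th (x 0 / P.l - i))]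
  simp only [fun j => sum_loc hP.th_pos h1 h2 P.G fun i => a (i, j), ext_eq, bil]
  split_ifs <;> ring

theorem ext_F (P : Pl) (hP : P.OK) (c : ℤ × ℤ) :
    ext P.G (fun c => P.F c - P.fv) c = P.F c - P.fv := by
  unfold ext
  split_ifs with h
  · rfl
  · rw [hP.out c h, sub_self]

theorem fl_loc (P : Pl) (hP : P.OK) (c : ℤ × ℤ) (x : E3)
    (h1 : (c.1 - 1 + P.th) * P.l ≤ x 0) (h2 : x 0 ≤ (c.1 + 1) * P.l)
    (h3 : (c.2 - 1 + P.th) * P.l ≤ x 1) (h4 : x 1 ≤ (c.2 + 1) * P.l) :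
    P.fl x = bil (P.F (c.1 - 1, c.2 - 1)) (P.F (c.1, c.2 - 1)) (P.F (c.1 - 1, c.2)) (P.F c)
      (S0 ((x 0 / P.l - c.1) / P.th)) (S0 ((x 1 / P.l - c.2) / P.th)) := by
  rw [Pl.fl, tab_loc P hP _ c x h1 h2 h3 h4]
  simp only [ext_F P hP, bil]
  ring

theorem fl_Q (P : Pl) (hP : P.OK) (c : ℤ × ℤ) (x : E3) (hx : x ∈ P.Q c) : P.fl x = P.F c := by
  obtain ⟨h1, h2, h3, h4, -⟩ := hx
  have hl := hP.l_pos
  rw [fl_loc P hP c x (by nlinarith) h2 (by nlinarith) h4]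
  rw [← le_div_iff₀ hl] at h1 h3
  rw [S_one _ ((one_le_div hP.th_pos).2 (by linarith)),
    S_one _ ((one_le_div hP.th_pos).2 (by linarith))]
  simp [bil]

theorem coord_smooth (j : Fin 3) {n : WithTop ℕ∞} : ContDiff ℝ n fun x : E3 => x j :=
  (EuclideanSpace.proj j : E3 →L[ℝ] ℝ).contDiff

theorem tab_smooth (P : Pl) (a : ℤ × ℤ → ℝ) : ContDiff ℝ 7 (P.tab a) := by
  have hB : ContDiff ℝ 7 (Bd 0 P.th : ℝ → ℝ) := by
    rw [funext (Bd0 P.th)]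
    exact (S_smooth.comp (contDiff_id.div_const _)).sub
      (S_smooth.comp ((contDiff_id.sub contDiff_const).div_const _))
  rw [funext (tab_eq P a)]
  exact ContDiff.sum fun i _ => ContDiff.sum fun j _ => contDiff_const.mul
    ((hB.comp (((coord_smooth 0).div_const _).sub contDiff_const)).mul
      (hB.comp (((coord_smooth 1).div_const _).sub contDiff_const)))

theorem fl_smooth (P : Pl) : ContDiff ℝ 7 P.fl := contDiff_const.add (tab_smooth P _)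

theorem fl_pd2 (P : Pl) (x : E3) : pd 2 P.fl x = 0 := by
  have hd : DifferentiableAt ℝ P.fl x := (fl_smooth P).differentiable (by norm_num) x
  rw [pd, ← hd.lineDeriv_eq_fderiv, lineDeriv]
  have : (fun t : ℝ => P.fl (x + t • EuclideanSpace.single 2 (1 : ℝ))) = fun _ => P.fl x := by
    funext t
    simp [Pl.fl, Pl.tab]
  rw [this, deriv_const]

end Crest.Agent.R338.Loc2
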