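import Crest.Agent.R338.Defs

/-!
# Row 338: lower bounds need only be checked on antisymmetric `C¹_c` functions
-/

noncomputable section

open MeasureTheory Function Filter Topology
open scoped ENNReal ComplexConjugate
open Crest.MathPhysics.ElectronicCoulomb

namespace Crest.Agent.R338

namespace LowerE

variable {n : ℕ}

theorem perm_perm (σ τ : Equiv.Perm (Fin n)) (x : Config n) :
    permConfig σ (permConfig τ x) = permConfig (τ * σ) x := rfl

/-- Relabelling as a continuous linear map. -/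
def pc (σ : Equiv.Perm (Fin n)) : Config n →L[ℝ] Config n := LinearMap.toContinuousLinearMap
  { toFun := permConfig σ
    map_add' := fun _ _ => rfl
    map_smul' := fun _ _ => rfl }

theorem pc_eq (σ : Equiv.Perm (Fin n)) : (pc σ : Config n → Config n) = permConfig σ := rfl

theorem pc_single (σ : Equiv.Perm (Fin n)) (j : Fin n × Fin 3) :
    pc σ (EuclideanSpace.single j (1 : ℝ)) = EuclideanSpace.single (σ⁻¹ j.1, j.2) (1 : ℝ) := by
  ext ⟨k, c⟩
  obtain ⟨i, c'⟩ := j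
  simp [pc_eq, permConfig, Equiv.eq_symm_apply]

theorem c1c_perm (σ : Equiv.Perm (Fin n)) {f : Config n → ℂ} (h : C1c f) :
    C1c fun x => f (permConfig σ x) := by
  refine ⟨h.1.comp (pc σ).contDiff, h.2.comp_isClosedEmbedding (g := permConfig σ) ?_⟩
  refine LeftInverse.isClosedEmbedding (f := permConfig σ⁻¹) (fun x => ?_) (pc σ⁻¹).continuous
    (pc σ).continuous
  rw [perm_perm, mul_inv_cancel]
  rfl

theorem memLp_c1c {f : Config n → ℂ} (h : C1c f) : MemLp f 2 volume :=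
  h.1.continuous.memLp_of_hasCompactSupport h.2

theorem memLp_pd {f : Config n → ℂ} (h : C1c f) (j : Fin n × Fin 3) : MemLp (pd j f) 2 volume :=
  ((h.1.continuous_fderiv one_ne_zero).clm_apply continuous_const).memLp_of_hasCompactSupport
    (h.2.fderiv_apply ℝ _)

theorem int_sq {f : Config n → ℂ} (h : MemLp f 2 volume) : Integrable fun x => ‖f x‖ ^ 2 :=
  (memLp_two_iff_integrable_sq_norm h.1).1 h

/-- The signed average of a family of functions. -/
def av (F : Equiv.Perm (Fin n) → Config n → ℂ) (x : Config n) : ℂ :=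
  (Fintype.card (Equiv.Perm (Fin n)) : ℂ)⁻¹ *
    ∑ σ : Equiv.Perm (Fin n), ((Equiv.Perm.sign σ : ℤ) : ℂ) * F σ (permConfig σ x)

theorem norm_sign (σ : Equiv.Perm (Fin n)) : ‖((Equiv.Perm.sign σ : ℤ) : ℂ)‖ = 1 := by
  rcases Int.units_eq_one_or (Equiv.Perm.sign σ) with h | h <;> simp [h]

theorem sign_sq (σ : Equiv.Perm (Fin n)) :
    ((Equiv.Perm.sign σ : ℤ) : ℂ) * ((Equiv.Perm.sign σ : ℤ) : ℂ) = 1 := by
  rcases Int.units_eq_one_or (Equiv.Perm.sign σ) with h | h <;> simp [h]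

theorem norm_av_le (F : Equiv.Perm (Fin n) → Config n → ℂ) (x : Config n) :
    ‖av F x‖ ^ 2 ≤ (Fintype.card (Equiv.Perm (Fin n)) : ℝ)⁻¹ *
      ∑ σ : Equiv.Perm (Fin n), ‖F σ (permConfig σ x)‖ ^ 2 := by
  have hN : (0 : ℝ) < Fintype.card (Equiv.Perm (Fin n)) := by exact_mod_cast Fintype.card_pos
  have h1 : ‖∑ σ : Equiv.Perm (Fin n), ((Equiv.Perm.sign σ : ℤ) : ℂ) * F σ (permConfig σ x)‖ ≤
      ∑ σ : Equiv.Perm (Fin n), ‖F σ (permConfig σ x)‖ :=
    (norm_sum_le _ _).trans (le_of_eq (Finset.sum_congr rfl fun σ _ => by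
      rw [norm_mul, norm_sign, one_mul]))
  have h2 := (pow_le_pow_left₀ (norm_nonneg _) h1 2).trans sq_sum_le_card_mul_sum_sq
  rw [Finset.card_univ] at h2
  rw [av, norm_mul, norm_inv, Complex.norm_natCast, mul_pow]
  refine (mul_le_mul_of_nonneg_left h2 (sq_nonneg _)).trans (le_of_eq ?_)
  field_simp

/-- Averaging does not increase the norm. -/
theorem sum_av_le (hS : SliceStmt) {I : Type} [Fintype I] (f : I → Config n → ℂ)
    (hf : ∀ i, MemLp (f i) 2 volume) (act : Equiv.Perm (Fin n) → I ≃ I) :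
    ∑ i, ∫ x, ‖av (fun σ => f (act σ i)) x‖ ^ 2 ≤ ∑ i, ∫ x, ‖f i x‖ ^ 2 := by
  have hN : (Fintype.card (Equiv.Perm (Fin n)) : ℝ) ≠ 0 := by exact_mod_cast Fintype.card_ne_zero
  have hp := (hS n).2.2.2.1
  have hi : ∀ i σ, Integrable fun x => ‖f i (permConfig σ x)‖ ^ 2 := fun i σ =>
    (hp σ).1.integrable_comp_of_integrable (int_sq (hf i))
  calc ∑ i, ∫ x, ‖av (fun σ => f (act σ i)) x‖ ^ 2
      ≤ ∑ i, ∫ x, (Fintype.card (Equiv.Perm (Fin n)) : ℝ)⁻¹ *
          ∑ σ : Equiv.Perm (Fin n), ‖f (act σ i) (permConfig σ x)‖ ^ 2 :=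
        Finset.sum_le_sum fun i _ => integral_mono_of_nonneg
          (Eventually.of_forall fun x => sq_nonneg _)
          ((integrable_finsetSum _ fun σ _ => hi _ σ).const_mul _)
          (Eventually.of_forall fun x => norm_av_le _ x)
    _ = (Fintype.card (Equiv.Perm (Fin n)) : ℝ)⁻¹ *
          ∑ σ : Equiv.Perm (Fin n), ∑ i, ∫ x, ‖f (act σ i) x‖ ^ 2 := by
        rw [Finset.sum_comm, Finset.mul_sum]
        refine Finset.sum_congr rfl fun i _ => ?_
        rw [integral_const_mul, integral_finsetSum _ fun σ _ => hi _ σ]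
        congr 1
        exact Finset.sum_congr rfl fun σ _ =>
          (hp σ).1.integral_comp (hp σ).2 fun x => ‖f (act σ i) x‖ ^ 2
    _ = _ := by
        simp only [Equiv.sum_comp (act _) fun i => ∫ x, ‖f i x‖ ^ 2, Finset.sum_const,
          Finset.card_univ, nsmul_eq_mul]
        field_simp

theorem c1c_av {F : Equiv.Perm (Fin n) → Config n → ℂ} (hF : ∀ σ, C1c (F σ)) : C1c (av F) := by
  refine ⟨contDiff_const.mul (ContDiff.sum fun σ _ => contDiff_const.mul (c1c_perm σ (hF σ)).1), ?_⟩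
  have h : HasCompactSupport (∑ σ : Equiv.Perm (Fin n),
      fun x => ((Equiv.Perm.sign σ : ℤ) : ℂ) * F σ (permConfig σ x)) :=
    HasCompactSupport.finset_sum fun σ _ => (c1c_perm σ (hF σ)).2.mul_left
  have e : av F = fun x => (Fintype.card (Equiv.Perm (Fin n)) : ℂ)⁻¹ * (∑ σ : Equiv.Perm (Fin n),
      fun x => ((Equiv.Perm.sign σ : ℤ) : ℂ) * F σ (permConfig σ x)) x := by
    funext x
    rw [av, Finset.sum_apply]
  rw [e]
  exact h.mul_left

theorem pd_av {F : Equiv.Perm (Fin n) → Config n → ℂ} (hF : ∀ σ, C1c (F σ)) (j : Fin n × Fin 3) :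
    pd j (av F) = av fun σ => pd (σ⁻¹ j.1, j.2) (F σ) := by
  funext x
  have h1 : ∀ σ : Equiv.Perm (Fin n), HasFDerivAt (fun x => F σ (permConfig σ x))
      ((fderiv ℝ (F σ) (permConfig σ x)).comp (pc σ)) x := fun σ =>
    (((hF σ).1.differentiable one_ne_zero) (permConfig σ x)).hasFDerivAt.comp x (pc σ).hasFDerivAt
  have h2 := (HasFDerivAt.fun_sum (u := Finset.univ) fun σ _ =>
    (h1 σ).const_mul ((Equiv.Perm.sign σ : ℤ) : ℂ)).const_mul
      (Fintype.card (Equiv.Perm (Fin n)) : ℂ)⁻¹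
  have h3 : fderiv ℝ (av F) x = _ := h2.fderiv
  rw [pd, h3]
  simp only [av, pd, smul_apply, sum_apply,
    ContinuousLinearMap.comp_apply, pc_single, smul_eq_mul]

/-- Relabelling of spins. -/
def spinE (σ : Equiv.Perm (Fin n)) : Spin n ≃ Spin n := Equiv.arrowCongr σ.symm (Equiv.refl _)

theorem spinE_apply (σ : Equiv.Perm (Fin n)) (s : Spin n) : spinE σ s = fun i => s (σ i) := rfl

/-- Antisymmetrisation. -/
def asym (g : Wave n) : Wave n := fun s => av fun σ => g (spinE σ s)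

theorem antisym_asym (g : Wave n) : Antisym (asym g) := by
  intro τ s x
  rw [asym, asym, av, av, mul_left_comm, Finset.mul_sum _ _ ((Equiv.Perm.sign τ : ℤ) : ℂ),
    ← Equiv.sum_comp (Equiv.mulLeft τ) (fun σ => ((Equiv.Perm.sign τ : ℤ) : ℂ) *
      (((Equiv.Perm.sign σ : ℤ) : ℂ) * g (spinE σ s) (permConfig σ x)))]
  congr 1
  refine Finset.sum_congr rfl fun σ _ => ?_
  rw [Equiv.coe_mulLeft, Equiv.Perm.sign_mul, Units.val_mul, Int.cast_mul, ← mul_assoc,
    ← mul_assoc, sign_sq, one_mul]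
  rfl

theorem asym_sub {Ψ : Wave n} (h : Antisym Ψ) (g : Wave n) (s : Spin n) (x : Config n) :
    Ψ s x - asym g s x = asym (fun s x => Ψ s x - g s x) s x := by
  have hN : (Fintype.card (Equiv.Perm (Fin n)) : ℂ) ≠ 0 := by exact_mod_cast Fintype.card_ne_zero
  have h1 : ∀ σ : Equiv.Perm (Fin n),
      ((Equiv.Perm.sign σ : ℤ) : ℂ) * Ψ (spinE σ s) (permConfig σ x) = Ψ s x := fun σ => by
    rw [spinE_apply, h, ← mul_assoc, sign_sq, one_mul]
  simp only [asym, av, mul_sub, Finset.sum_sub_distrib, h1, Finset.sum_const, Finset.card_univ,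
    nsmul_eq_mul]
  rw [← mul_assoc, inv_mul_cancel₀ hN, one_mul]

theorem dir_asym_le (hS : SliceStmt) {g : Wave n} (hg : ∀ s, C1c (g s)) :
    ∑ s, dir (asym g s) ≤ ∑ s, dir (g s) := by
  have h := sum_av_le hS (I := Spin n × (Fin n × Fin 3)) (fun p => pd p.2 (g p.1))
    (fun p => memLp_pd (hg p.1) p.2)
    (fun σ => (spinE σ).prodCongr ((σ⁻¹ : Equiv.Perm (Fin n)).prodCongr (Equiv.refl _)))
  rw [Fintype.sum_prod_type, Fintype.sum_prod_type] at h
  refine le_trans (le_of_eq ?_) h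
  refine Finset.sum_congr rfl fun s _ => Finset.sum_congr rfl fun j _ => ?_
  rw [asym, pd_av fun σ => hg _]
  rfl

/-- Antisymmetric approximants. -/
theorem exists_approx (hD : DensStmt) (hS : SliceStmt) {Ψ : Wave n} (hΨ : IsFermionic Ψ)
    (hk : kinetic Ψ < ⊤) {ε : ℝ} (hε : 0 < ε) : ∃ G : Wave n, (∀ s, C1c (G s)) ∧ Antisym G ∧
      ∑ s, ∫ x, ‖Ψ s x - G s x‖ ^ 2 ≤ ε ∧ ∑ s, dir (G s) / 2 ≤ (kinetic Ψ).toReal + ε := by
  have hN : (0 : ℝ) < Fintype.card (Spin n) := by exact_mod_cast Fintype.card_pos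
  have hk' : ∀ s, kineticOne (Ψ s) < ⊤ := fun s => ENNReal.sum_lt_top.1 hk s (Finset.mem_univ s)
  choose g hg h1 h2 using fun s => hD n (Ψ s) (hΨ.1 s) (hk' s) _ (div_pos hε hN)
  have e : ∑ _s : Spin n, ε / Fintype.card (Spin n) = ε := by
    rw [Finset.sum_const, Finset.card_univ, nsmul_eq_mul]
    field_simp
  refine ⟨asym g, fun s => c1c_av fun σ => hg _, antisym_asym g, ?_, ?_⟩
  · simp only [asym_sub hΨ.2]
    refine (sum_av_le hS (fun s x => Ψ s x - g s x)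
      (fun s => (hΨ.1 s).sub (memLp_c1c (hg s))) spinE).trans ?_
    rw [← e]
    exact Finset.sum_le_sum fun s _ => h1 s
  · rw [← Finset.sum_div, kinetic, ENNReal.toReal_sum fun s _ => (hk' s).ne, ← e,
      ← Finset.sum_add_distrib]
    refine (div_le_div_of_nonneg_right (dir_asym_le hS hg) zero_le_two).trans ?_
    rw [Finset.sum_div]
    exact Finset.sum_le_sum fun s _ => h2 s

theorem sq_sub_le (a b : ℂ) {δ : ℝ} (hδ : 0 < δ) :
    |‖a‖ ^ 2 - ‖b‖ ^ 2| ≤ δ * ‖b‖ ^ 2 + (1 / δ + 1) * ‖b - a‖ ^ 2 := by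
  have h1 := abs_le.1 (abs_norm_sub_norm_le b a)
  have ha := norm_nonneg a
  have hb := norm_nonneg b
  have hr := norm_nonneg (b - a)
  generalize ‖b - a‖ = r at *
  generalize ‖a‖ = A at *
  generalize ‖b‖ = B at *
  have h2 : 2 * B * r ≤ δ * B ^ 2 + 1 / δ * r ^ 2 := by
    have : δ * B ^ 2 + 1 / δ * r ^ 2 - 2 * B * r = (δ * B - r) ^ 2 / δ := by
      field_simp
      ring
    have h3 : 0 ≤ (δ * B - r) ^ 2 / δ := by positivity
    linarith
  rw [abs_le]
  constructor <;> nlinarith [h1.1, h1.2]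

theorem int_bdd {U : Config n → ℝ} (hU : Measurable U) {K : ℝ} (hK : ∀ x, |U x| ≤ K)
    {f : Config n → ℂ} (hf : MemLp f 2 volume) : Integrable fun x => U x * ‖f x‖ ^ 2 :=
  (int_sq hf).bdd_mul hU.aestronglyMeasurable (Eventually.of_forall hK)

theorem pot_le {U : Config n → ℝ} (hU : Measurable U) {K : ℝ} (hK : ∀ x, |U x| ≤ K)
    {f g : Config n → ℂ} (hf : MemLp f 2 volume) (hg : MemLp g 2 volume) {δ : ℝ} (hδ : 0 < δ) :
    ∫ x, U x * ‖g x‖ ^ 2 ≤ (∫ x, U x * ‖f x‖ ^ 2) +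
      K * (δ * (∫ x, ‖f x‖ ^ 2) + (1 / δ + 1) * ∫ x, ‖f x - g x‖ ^ 2) := by
  have i1 := (int_sq hf).const_mul δ
  have i2 := (int_sq (f := fun x => f x - g x) (hf.sub hg)).const_mul (1 / δ + 1)
  have i3 : Integrable fun x => K * (δ * ‖f x‖ ^ 2 + (1 / δ + 1) * ‖f x - g x‖ ^ 2) :=
    (i1.add i2).const_mul K
  rw [← integral_const_mul, ← integral_const_mul, ← integral_add i1 i2, ← integral_const_mul,
    ← integral_add (int_bdd hU hK hf) i3]
  refine integral_mono (int_bdd hU hK hg) ((int_bdd hU hK hf).add i3) fun x => ?_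
  have h1 := sq_sub_le (g x) (f x) hδ
  have h2 : U x * (‖g x‖ ^ 2 - ‖f x‖ ^ 2) ≤ K * (δ * ‖f x‖ ^ 2 + (1 / δ + 1) * ‖f x - g x‖ ^ 2) :=
    (le_abs_self _).trans (by
      rw [abs_mul]
      exact mul_le_mul (hK x) h1 (abs_nonneg _) ((abs_nonneg _).trans (hK x)))
  simp only
  linarith

/-- The bound for a bounded potential. -/
theorem bounded_case (hD : DensStmt) (hS : SliceStmt) {U : Config n → ℝ} (hU : Measurable U)
    {K : ℝ} (hK : ∀ x, |U x| ≤ K)
    (h : ∀ G : Wave n, (∀ s, C1c (G s)) → Antisym G →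
      0 ≤ ∑ s, dir (G s) / 2 + ∑ s, ∫ x, U x * ‖G s x‖ ^ 2)
    {Ψ : Wave n} (hΨ : IsFermionic Ψ) (hk : kinetic Ψ < ⊤) (h1 : ∑ s, ∫ x, ‖Ψ s x‖ ^ 2 = 1) :
    0 ≤ (kinetic Ψ).toReal + ∑ s, ∫ x, U x * ‖Ψ s x‖ ^ 2 := by
  have hK0 : 0 ≤ K := (abs_nonneg _).trans (hK 0)
  have key : ∀ δ : ℝ, 0 < δ → δ ≤ 1 →
      0 ≤ (kinetic Ψ).toReal + (∑ s, ∫ x, U x * ‖Ψ s x‖ ^ 2) + δ * (1 + 3 * K) := by
    intro δ hδ hδ1
    obtain ⟨G, hG, hA, h2, h3⟩ := exists_approx hD hS hΨ hk (pow_pos hδ 2)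
    have h4 := h G hG hA
    have h5 := Finset.sum_le_sum fun s (_ : s ∈ Finset.univ) =>
      pot_le hU hK (hΨ.1 s) (memLp_c1c (hG s)) hδ
    rw [Finset.sum_add_distrib, ← Finset.mul_sum, Finset.sum_add_distrib, ← Finset.mul_sum,
      ← Finset.mul_sum, h1] at h5
    have h6 : (1 / δ + 1) * ∑ s, ∫ x, ‖Ψ s x - G s x‖ ^ 2 ≤ 2 * δ := by
      refine (mul_le_mul_of_nonneg_left h2 (by positivity)).trans ?_
      have : (1 / δ + 1) * δ ^ 2 = δ + δ ^ 2 := by field_simp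
      nlinarith
    have h7 := mul_le_mul_of_nonneg_left h6 hK0
    nlinarith
  refine le_of_forall_pos_le_add fun η hη => ?_
  have hc : 0 < 1 + 3 * K := by positivity
  have h2 := key (min 1 (η / (1 + 3 * K))) (lt_min one_pos (div_pos hη hc)) (min_le_left _ _)
  have h3 : min 1 (η / (1 + 3 * K)) * (1 + 3 * K) ≤ η := (le_div_iff₀ hc).1 (min_le_right _ _)
  linarith

theorem sum_sq_eq_one {Ψ : Wave n} (hΨ : IsFermionic Ψ) (h : normSq Ψ = 1) :
    ∑ s, ∫ x, ‖Ψ s x‖ ^ 2 = 1 := by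
  have h1 : ∀ s, ∫⁻ x, ‖Ψ s x‖ₑ ^ 2 = ENNReal.ofReal (∫ x, ‖Ψ s x‖ ^ 2) := fun s => by
    rw [ofReal_integral_eq_lintegral_ofReal (int_sq (hΨ.1 s))
      (Eventually.of_forall fun x => sq_nonneg _)]
    exact lintegral_congr fun x => by rw [ENNReal.ofReal_pow (norm_nonneg _), ofReal_norm]
  rw [normSq] at h
  simp only [h1] at h
  rw [← ENNReal.ofReal_sum_of_nonneg fun s _ => integral_nonneg fun x => sq_nonneg _] at h
  exact ENNReal.ofReal_eq_one.1 h

end LowerE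

open LowerE in
theorem lowerE (hD : DensStmt) (hS : SliceStmt) : LowerStmt := by
  intro n W W' M0 lam hW hWW hM0 hint h Ψ ⟨hΨ, hk, hWΨ⟩ h1
  have h1' := sum_sq_eq_one hΨ h1
  set T : ℕ → Config n → ℝ := fun M x => min (max (W x) (-(M : ℝ))) M with hT
  have hTm : ∀ M, Measurable (T M) := fun M => (hW.max measurable_const).min measurable_const
  have hTM : ∀ M x, |T M x| ≤ M := fun M x =>
    abs_le.2 ⟨le_min (le_max_right _ _) (neg_le_self (Nat.cast_nonneg M)), min_le_right _ _⟩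
  have hTW : ∀ M x, |T M x| ≤ |W x| := fun M x => by
    have h0 : (0 : ℝ) ≤ M := Nat.cast_nonneg M
    refine abs_le.2 ⟨le_min ((neg_abs_le _).trans (le_max_left _ _))
      ((neg_nonpos.2 (abs_nonneg _)).trans h0), (min_le_left _ _).trans (max_le (le_abs_self _)
        ((neg_nonpos.2 h0).trans (abs_nonneg _)))⟩
  have split : ∀ (M : ℕ) (G : Wave n), (∀ s, MemLp (G s) 2 volume) →
      ∑ s, ∫ x, (T M x - lam) * ‖G s x‖ ^ 2 =
        ∑ s, (∫ x, T M x * ‖G s x‖ ^ 2) - lam * ∑ s, ∫ x, ‖G s x‖ ^ 2 := by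
    intro M G hG
    rw [Finset.mul_sum, ← Finset.sum_sub_distrib]
    refine Finset.sum_congr rfl fun s _ => ?_
    rw [← integral_const_mul,
      ← integral_sub (int_bdd (hTm M) (hTM M) (hG s)) ((int_sq (hG s)).const_mul lam)]
    simp only [sub_mul]
  have key : ∀ M : ℕ, M0 ≤ M → lam ≤ (kinetic Ψ).toReal + ∑ s, ∫ x, T M x * ‖Ψ s x‖ ^ 2 := by
    intro M hM
    have h2 := bounded_case hD hS (U := fun x => T M x - lam) ((hTm M).sub_const lam)
      (K := M + |lam|) (fun x => (abs_sub _ _).trans (add_le_add (hTM M x) le_rfl))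
      (fun G hG hA => ?_) hΨ hk h1'
    · rw [split M Ψ hΨ.1, h1'] at h2
      linarith
    · have h3 := h G hG hA
      rw [Finset.sum_add_distrib] at h3
      have h4 : ∑ s, pot W' (G s) ≤ ∑ s, ∫ x, T M x * ‖G s x‖ ^ 2 :=
        Finset.sum_le_sum fun s _ => integral_mono (hint _ (hG s))
          (int_bdd (hTm M) (hTM M) (memLp_c1c (hG s))) fun x => mul_le_mul_of_nonneg_right
            (le_min ((hWW x).trans (le_max_left _ _)) ((hM0 x).trans hM)) (sq_nonneg _)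
      rw [split M G fun s => memLp_c1c (hG s)]
      simp only [nsq] at h3
      linarith
  have lim : Tendsto (fun M : ℕ => (kinetic Ψ).toReal + ∑ s, ∫ x, T M x * ‖Ψ s x‖ ^ 2) atTop
      (𝓝 (energy W Ψ)) := by
    refine tendsto_const_nhds.add (tendsto_finsetSum _ fun s _ => ?_)
    refine tendsto_integral_of_dominated_convergence (fun x => ‖W x * ‖Ψ s x‖ ^ 2‖)
      (fun M => (int_bdd (hTm M) (hTM M) (hΨ.1 s)).1) (hWΨ s).norm
      (fun M => Eventually.of_forall fun x => ?_) (Eventually.of_forall fun x => ?_)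
    · rw [norm_mul, norm_mul]
      exact mul_le_mul_of_nonneg_right (hTW M x) (norm_nonneg _)
    · refine tendsto_atTop_of_eventually_const (i₀ := ⌈|W x|⌉₊) fun M hM => ?_
      have h2 := abs_le.1 (Nat.ceil_le.1 hM)
      simp only [hT, max_eq_left h2.1, min_eq_left h2.2]
  refine ge_of_tendsto lim ?_
  filter_upwards [eventually_ge_atTop ⌈M0⌉₊] with M hM using key M (Nat.ceil_le.1 hM)

end Crest.Agent.R338
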