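import Crest.Agent.R338.Defs

/-!
# Row 338: the many-body lower bound
-/

noncomputable section

open MeasureTheory Function Filter
open scoped ENNReal ComplexConjugate
open Crest.MathPhysics.ElectronicCoulomb

namespace Crest.Agent.R338

namespace MBLower

set_option linter.unusedSectionVars false

variable {n : ℕ}

theorem int_norm_sq {f : Config n → ℂ} (hc : Continuous f) (hs : HasCompactSupport f) :
    Integrable fun x => ‖f x‖ ^ 2 := by
  have h1 : Continuous fun x => ‖f x‖ ^ 2 := by fun_prop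
  have h2 : HasCompactSupport fun x => ‖f x‖ ^ 2 :=
    hs.mono' fun x hx => subset_tsupport _ fun h0 => hx (by simp [h0])
  exact h1.integrable_of_hasCompactSupport h2

theorem cont_elPos (i : Fin n) : Continuous (elPos i : Config n → E3) := by
  unfold elPos; fun_prop

theorem elPos_ins (i : Fin n) (z : Rest n i) (y : E3) : elPos i (ins i z y) = y := by
  ext c; simp [elPos, ins]

theorem elPos_perm (σ : Equiv.Perm (Fin n)) (i : Fin n) (x : Config n) :
    elPos i (permConfig σ x) = elPos (σ i) x := rfl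

theorem bdd_of_c1c {Ψ : Config n → ℂ} (h : C1c Ψ) : Bdd Ψ := by
  refine ⟨h.1.continuous.measurable, h.1.continuous.bounded_above_of_compact_support h.2, ?_⟩
  obtain ⟨r, hr⟩ := h.2.isCompact.isBounded.exists_norm_le
  exact ⟨r, fun x hx => hr x (subset_tsupport _ hx)⟩

theorem sq_hyp {Ψ : Config n → ℂ} (h : Bdd Ψ) :
    Measurable (fun x => ‖Ψ x‖ ^ 2) ∧ (∃ B, ∀ x, |‖Ψ x‖ ^ 2| ≤ B) ∧
      ∃ r, ∀ x, ‖Ψ x‖ ^ 2 ≠ 0 → ‖x‖ ≤ r := by
  refine ⟨h.meas.norm.pow_const 2, ?_, ?_⟩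
  · obtain ⟨B, hB⟩ := h.bdd
    refine ⟨B ^ 2, fun x => ?_⟩
    rw [abs_of_nonneg (by positivity)]
    exact pow_le_pow_left₀ (norm_nonneg _) (hB x) 2
  · obtain ⟨r, hr⟩ := h.supp
    refine ⟨r, fun x hx => hr x fun h0 => hx ?_⟩
    simp [h0]

theorem int_nuc (hS : SliceStmt) {K0 : ℕ} (R : Fin K0 → E3) {Ψ : Config n → ℂ} (h : Bdd Ψ)
    (i : Fin n) : Integrable fun x => nucV R (elPos i x) * ‖Ψ x‖ ^ 2 :=
  ((hS n).2.2.2.2.2 K0 R 0 _ (sq_hyp h).1 (sq_hyp h).2.1 (sq_hyp h).2.2).1 i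

theorem int_uT (hS : SliceStmt) (τ : ℝ) {Ψ : Config n → ℂ} (h : Bdd Ψ) :
    Integrable fun x => uT τ x * ‖Ψ x‖ ^ 2 := by
  have h1 := ((hS n).2.2.2.2.2 0 (fun _ => 0) τ _ (sq_hyp h).1 (sq_hyp h).2.1 (sq_hyp h).2.2).2.2
  simp only [uT, Finset.sum_mul]
  refine integrable_finsetSum _ fun i _ => integrable_finsetSum _ fun j _ => ?_
  by_cases hij : i < j
  · simpa only [if_pos hij] using h1 i j
  · simp only [if_neg hij, zero_mul]
    exact integrable_zero _ _ _

theorem int_sq {Ψ : Config n → ℂ} (h : C1c Ψ) : Integrable fun x => ‖Ψ x‖ ^ 2 :=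
  int_norm_sq h.1.continuous h.2

theorem int_pd_sq {Ψ : Config n → ℂ} (h : C1c Ψ) (j : Fin n × Fin 3) :
    Integrable fun x => ‖pd j Ψ x‖ ^ 2 := by
  have hc : Continuous (pd j Ψ) :=
    (h.1.continuous_fderiv one_ne_zero).clm_apply continuous_const
  have hs : HasCompactSupport (pd j Ψ) := h.2.fderiv_apply ℝ _
  exact int_norm_sq hc hs

/-- Fubini in the slot `i`. -/
theorem fub (hS : SliceStmt) (i : Fin n) {F : Config n → ℝ} (hF : Integrable F) :
    Integrable (fun z : Rest n i => ∫ y, F (ins i z y)) ∧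
      ∫ z : Rest n i, ∫ y, F (ins i z y) = ∫ x, F x := by
  obtain ⟨mp, me⟩ := (hS n).1 i
  have h1 : Integrable (fun p : Rest n i × E3 => F (ins i p.1 p.2))
      ((volume : Measure (Rest n i)).prod volume) := (mp.integrable_comp_emb me).2 hF
  refine ⟨h1.integral_prod_left, ?_⟩
  rw [← mp.integral_comp me F, integral_prod _ h1]

variable {ι : Type} [Fintype ι] [DecidableEq ι]

theorem int_theta {θ : ι → E3 → ℝ} (hθ : ONS θ) (a : ι) : Integrable (θ a) := by
  obtain ⟨B, hB⟩ := hθ.bdd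
  obtain ⟨r, hr⟩ := hθ.supp
  have hs : support (θ a) ⊆ Metric.closedBall 0 r := fun x hx => by
    simpa using hr a x hx
  rw [← integrableOn_iff_integrable_of_support_subset hs]
  exact Measure.integrableOn_of_bounded (M := B) measure_closedBall_lt_top.ne
    (hθ.meas a).aestronglyMeasurable (Eventually.of_forall fun x => hB a x)

theorem int_coef (hS : SliceStmt) {θ : ι → E3 → ℝ} (hθ : ONS θ) (i : Fin n)
    {Ψ : Config n → ℂ} (h : C1c Ψ) (a : ι) :
    Integrable fun z : Rest n i => coef θ (fun y => Ψ (ins i z y)) a := by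
  obtain ⟨mp, me⟩ := (hS n).1 i
  obtain ⟨B, hB⟩ := hθ.bdd
  have h0 : Integrable Ψ := h.1.continuous.integrable_of_hasCompactSupport h.2
  have h1 : Integrable (fun p : Rest n i × E3 => Ψ (ins i p.1 p.2))
      ((volume : Measure (Rest n i)).prod volume) := (mp.integrable_comp_emb me).2 h0
  have h2 : Integrable (fun p : Rest n i × E3 => (θ a p.2 : ℂ) * Ψ (ins i p.1 p.2))
      ((volume : Measure (Rest n i)).prod volume) := by
    refine h1.bdd_mul (c := B) ?_ (Eventually.of_forall fun p => ?_)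
    · exact (Complex.measurable_ofReal.comp
        ((hθ.meas a).comp measurable_snd)).aestronglyMeasurable
    · rw [Complex.norm_real, Real.norm_eq_abs]
      exact hB a _
  exact h2.integral_prod_left

theorem bdd_coef {θ : ι → E3 → ℝ} (hθ : ONS θ) (i : Fin n)
    {Ψ : Config n → ℂ} (h : C1c Ψ) (a : ι) :
    ∃ C, ∀ z : Rest n i, ‖coef θ (fun y => Ψ (ins i z y)) a‖ ≤ C := by
  obtain ⟨B, hB⟩ := (bdd_of_c1c h).bdd
  refine ⟨∫ y, ‖θ a y‖ * B, fun z => ?_⟩
  refine norm_integral_le_of_norm_le ((int_theta hθ a).norm.mul_const B)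
    (Eventually.of_forall fun y => ?_)
  rw [norm_mul, Complex.norm_real]
  exact mul_le_mul_of_nonneg_left (hB _) (norm_nonneg _)

theorem int_cc (hS : SliceStmt) {θ : ι → E3 → ℝ} (hθ : ONS θ) (i : Fin n)
    {Ψ : Config n → ℂ} (h : C1c Ψ) (a b : ι) :
    Integrable fun z : Rest n i =>
      conj (coef θ (fun y => Ψ (ins i z y)) a) * coef θ (fun y => Ψ (ins i z y)) b := by
  obtain ⟨C, hC⟩ := bdd_coef hθ i h a
  refine (int_coef hS hθ i h b).bdd_mul (c := C) ?_ (Eventually.of_forall fun z => ?_)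
  · exact Complex.continuous_conj.comp_aestronglyMeasurable (int_coef hS hθ i h a).1
  · rw [Complex.norm_conj]
    exact hC z

theorem int_qf (hS : SliceStmt) {θ : ι → E3 → ℝ} (hθ : ONS θ) (A : ι → ι → ℝ) (i : Fin n)
    {Ψ : Config n → ℂ} (h : C1c Ψ) :
    Integrable fun z : Rest n i => qf A (coef θ fun y => Ψ (ins i z y)) := by
  unfold qf
  exact integrable_finsetSum _ fun a _ => integrable_finsetSum _ fun b _ =>
    (int_cc hS hθ i h a b).re.const_mul _

theorem int_n1 (hS : SliceStmt) {θ : ι → E3 → ℝ} (hθ : ONS θ) (i : Fin n)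
    {Ψ : Config n → ℂ} (h : C1c Ψ) :
    Integrable fun z : Rest n i => n1 (coef θ fun y => Ψ (ins i z y)) := by
  unfold n1
  refine integrable_finsetSum _ fun a _ => ?_
  refine (int_cc hS hθ i h a a).norm.congr (Eventually.of_forall fun z => ?_)
  simp only [norm_mul, Complex.norm_conj, sq]

/-- The one-body lower bound in the slot `i`. -/
theorem slot (hS : SliceStmt) {K0 : ℕ} {R : Fin K0 → E3} {φ θ : ι → E3 → ℝ} {A K : ι → ι → ℝ}
    {E1 e Γ s τ : ℝ} (hO : OneBody (nucV R) φ θ A K E1 e Γ s τ) (i : Fin n)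
    {Ψ : Config n → ℂ} (h : C1c Ψ) :
    (E1 - e) * nsq Ψ + aP θ A i Ψ + Γ * (nsq Ψ - nP θ i Ψ) ≤
      (∑ c : Fin 3, ∫ x, ‖pd (i, c) Ψ x‖ ^ 2) / 2 + ∫ x, nucV R (elPos i x) * ‖Ψ x‖ ^ 2 := by
  have hsl := fun z => (hS n).2.2.2.2.1 i z Ψ h
  obtain ⟨i1, e1⟩ := fub hS i (int_sq h)
  have h2 := fun c : Fin 3 => fub hS i (int_pd_sq h (i, c))
  obtain ⟨i3, e3⟩ := fub hS i (int_nuc hS R (bdd_of_c1c h) i)
  have i4 := int_qf hS hO.ons A i h
  have i5 := int_n1 hS hO.ons i h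
  have i2 : Integrable fun z : Rest n i => ∑ c : Fin 3, ∫ y, ‖pd (i, c) Ψ (ins i z y)‖ ^ 2 :=
    integrable_finsetSum _ fun c _ => (h2 c).1
  have e2 : ∫ z : Rest n i, ∑ c : Fin 3, ∫ y, ‖pd (i, c) Ψ (ins i z y)‖ ^ 2 =
      ∑ c : Fin 3, ∫ x, ‖pd (i, c) Ψ x‖ ^ 2 := by
    rw [integral_finsetSum _ fun c _ => (h2 c).1]
    exact Finset.sum_congr rfl fun c _ => (h2 c).2
  have hle : ∫ z : Rest n i, ((E1 - e) * (∫ y, ‖Ψ (ins i z y)‖ ^ 2) +
        qf A (coef θ fun y => Ψ (ins i z y)) +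
        Γ * ((∫ y, ‖Ψ (ins i z y)‖ ^ 2) - n1 (coef θ fun y => Ψ (ins i z y)))) ≤
      ∫ z : Rest n i, ((∑ c : Fin 3, ∫ y, ‖pd (i, c) Ψ (ins i z y)‖ ^ 2) / 2 +
        ∫ y, nucV R (elPos i (ins i z y)) * ‖Ψ (ins i z y)‖ ^ 2) := by
    refine integral_mono (((i1.const_mul _).add i4).add ((i1.sub i5).const_mul _))
      ((i2.div_const 2).add i3) fun z => ?_
    have := hO.lower _ (hsl z).1
    simp only [nsq, dir, pot, (hsl z).2] at this
    simpa only [elPos_ins] using this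
  have j1 : Integrable fun z : Rest n i => (E1 - e) * (∫ y, ‖Ψ (ins i z y)‖ ^ 2) +
      qf A (coef θ fun y => Ψ (ins i z y)) := (i1.const_mul _).add i4
  have j2 : Integrable fun z : Rest n i =>
      Γ * ((∫ y, ‖Ψ (ins i z y)‖ ^ 2) - n1 (coef θ fun y => Ψ (ins i z y))) :=
    (i1.sub i5).const_mul _
  rw [integral_add j1 j2,
    integral_add (i1.const_mul _) i4, integral_const_mul, integral_const_mul, integral_sub i1 i5,
    integral_add (i2.div_const 2) i3, integral_div, e1, e2, e3] at hle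
  exact hle

theorem card_lt_le (n : ℕ) (e : ℝ) (he : 0 ≤ e) :
    ∑ i : Fin n, ∑ j : Fin n, (if i < j then e else 0) ≤ (n : ℝ) ^ 2 * e := by
  calc ∑ i : Fin n, ∑ j : Fin n, (if i < j then e else 0) ≤ ∑ _i : Fin n, ∑ _j : Fin n, e := by
        refine Finset.sum_le_sum fun i _ => Finset.sum_le_sum fun j _ => ?_
        split_ifs
        · exact le_rfl
        · exact he
    _ = (n : ℝ) ^ 2 * e := by simp; ring

theorem eF_pair {A K K' : ι → ι → ℝ} {e : ℝ} (he : 0 ≤ e) (h : ∀ a b, |K' a b - K a b| ≤ e)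
    (c : (Fin n → ι) → ℂ) : eF A K c - (n : ℝ) ^ 2 * e * nF c ≤ eF A K' c := by
  unfold eF e2 nF
  have : ∑ g : Fin n → ι, (∑ i, ∑ j, if i < j then K (g i) (g j) else 0) * ‖c g‖ ^ 2 -
      (n : ℝ) ^ 2 * e * ∑ g, ‖c g‖ ^ 2 ≤
      ∑ g : Fin n → ι, (∑ i, ∑ j, if i < j then K' (g i) (g j) else 0) * ‖c g‖ ^ 2 := by
    rw [Finset.mul_sum, ← Finset.sum_sub_distrib]
    refine Finset.sum_le_sum fun g _ => ?_
    rw [← sub_mul]
    refine mul_le_mul_of_nonneg_right ?_ (by positivity)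
    have h1 := card_lt_le n e he
    have h2 : (∑ i, ∑ j, if i < j then K (g i) (g j) else 0) ≤
        (∑ i, ∑ j, if i < j then K' (g i) (g j) else 0) +
          ∑ i : Fin n, ∑ j : Fin n, (if i < j then e else 0) := by
      rw [← Finset.sum_add_distrib]
      refine Finset.sum_le_sum fun i _ => ?_
      rw [← Finset.sum_add_distrib]
      refine Finset.sum_le_sum fun j _ => ?_
      split_ifs
      · have := (abs_le.1 (h (g i) (g j))).1
        linarith
      · simp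
    linarith
  linarith

/-- The lower bound for one spin component. -/
theorem one_spin (hS : SliceStmt) (hK : KeyStmt) (hC : CmpStmt) {K0 : ℕ} {R : Fin K0 → E3}
    {φ θ : ι → E3 → ℝ} {A K : ι → ι → ℝ} {E1 e Γ s τ a0 : ℝ}
    (hO : OneBody (nucV R) φ θ A K E1 e Γ s τ) (he : 0 ≤ e) (hΓ : 0 < Γ) (hτ : 0 ≤ τ)
    (ha0 : 0 ≤ a0) (hA : ∀ a b, A a b = A b a) (hA' : ∀ a, ∑ b, |A a b| ≤ a0)
    {Ψ : Config n → ℂ} (h : C1c Ψ) :
    (n * E1 - (n + n ^ 2) * e - 2 * (n * a0 + n ^ 2 * τ) ^ 2 / Γ) * nsq Ψ +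
        Γ / 2 * (nsq Ψ - nF (coefN θ Ψ)) + eF A K (coefN θ Ψ) ≤
      dir Ψ / 2 + pot (fun x => ∑ i, nucV R (elPos i x) + uT τ x) Ψ := by
  have hB := bdd_of_c1c h
  obtain ⟨k1, -, k3⟩ := hK n ι θ Ψ hO.ons hB
  have hc := (abs_le.1 (hC n ι θ A τ a0 Ψ hO.ons hB hτ ha0 hA hA')).1
  have hp := eF_pair (A := A) he hO.pair (coefN θ Ψ)
  have hs := Finset.sum_le_sum fun i (_ : i ∈ (Finset.univ : Finset (Fin n))) => slot hS hO i h
  have hd : dir Ψ = ∑ i : Fin n, ∑ c : Fin 3, ∫ x, ‖pd (i, c) Ψ x‖ ^ 2 := by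
    unfold dir
    rw [Fintype.sum_prod_type]
  have hpot : pot (fun x => ∑ i, nucV R (elPos i x) + uT τ x) Ψ =
      ∑ i, (∫ x, nucV R (elPos i x) * ‖Ψ x‖ ^ 2) + pot (uT τ) Ψ := by
    unfold pot
    simp only [add_mul, Finset.sum_mul]
    rw [integral_add (integrable_finsetSum _ fun i _ => int_nuc hS R hB i) (int_uT hS τ hB),
      integral_finsetSum _ fun i _ => int_nuc hS R hB i]
  rw [Finset.sum_add_distrib, Finset.sum_add_distrib, Finset.sum_add_distrib, ← Finset.mul_sum,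
    ← Finset.mul_sum, ← Finset.sum_div, ← hd, Finset.sum_const, Finset.card_univ,
    Fintype.card_fin, nsmul_eq_mul] at hs
  rw [hpot]
  set N := nsq Ψ with hN
  set D := N - nF (coefN θ Ψ) with hD
  set B := n * a0 + n ^ 2 * τ with hBd
  have hN0 : 0 ≤ N := integral_nonneg fun x => by positivity
  have hD0 : 0 ≤ D := sub_nonneg.2 k1
  have hF0 : (n : ℝ) ^ 2 * e * nF (coefN θ Ψ) ≤ (n : ℝ) ^ 2 * e * N :=
    mul_le_mul_of_nonneg_left k1 (by positivity)
  have hamgm : 2 * B * √D * √N ≤ Γ / 2 * D + 2 * B ^ 2 / Γ * N := by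
    have e1 : √D ^ 2 = D := Real.sq_sqrt hD0
    have e2 : √N ^ 2 = N := Real.sq_sqrt hN0
    have h0 : 0 ≤ (Γ * √D - 2 * B * √N) ^ 2 / (2 * Γ) := by positivity
    have h1 : (Γ * √D - 2 * B * √N) ^ 2 / (2 * Γ) =
        Γ / 2 * √D ^ 2 + 2 * B ^ 2 / Γ * √N ^ 2 - 2 * B * √D * √N := by
      field_simp
      ring
    rw [h1, e1, e2] at h0
    linarith
  have hG : Γ * D ≤ Γ * ∑ i, (N - nP θ i Ψ) := mul_le_mul_of_nonneg_left k3 hΓ.le
  have hexp : (n * E1 - (n + n ^ 2) * e - 2 * B ^ 2 / Γ) * N =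
      n * ((E1 - e) * N) - (n : ℝ) ^ 2 * e * N - 2 * B ^ 2 / Γ * N := by ring
  rw [hexp]
  linarith

theorem as_coefN (hS : SliceStmt) (θ : ι → E3 → ℝ) {Ψ : Wave n} (h : Antisym Ψ) :
    AS fun s => coefN θ (Ψ s) := by
  intro σ s g
  obtain ⟨mp, me⟩ := (hS n).2.2.2.1 σ
  show ∫ x, (tens (fun i => θ (g (σ i))) x : ℂ) * Ψ (fun i => s (σ i)) x =
    ((Equiv.Perm.sign σ : ℤ) : ℂ) * ∫ x, (tens (fun i => θ (g i)) x : ℂ) * Ψ s x
  rw [← mp.integral_comp me, ← integral_const_mul]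
  refine integral_congr_ae (Eventually.of_forall fun x => ?_)
  have h1 : tens (fun i => θ (g (σ i))) (permConfig σ x) = tens (fun i => θ (g i)) x := by
    unfold tens
    simp only [elPos_perm]
    exact Equiv.prod_comp σ fun i => θ (g i) (elPos i x)
  simp only [h1, h σ s x]
  ring

theorem nucV_nonpos {K0 : ℕ} (R : Fin K0 → E3) (x : E3) : nucV R x ≤ 0 :=
  Finset.sum_nonpos fun _ _ => neg_nonpos.2 (by positivity)

end MBLower

open MBLower

theorem mbLower (hS : SliceStmt) (hK : KeyStmt) (hC : CmpStmt) (hL : LowerStmt) : MBLowerStmt := by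
  intro n ι _ _ K0 R φ θ A K E1 e Γ s τ a0 lam hO he hΓ hτ ha0 hA hA' hlam hF
  refine hL n _ (fun x => ∑ i, nucV R (elPos i x) + uT τ x) ((n : ℝ) ^ 2 * τ) _ ?_ ?_ ?_ ?_ ?_
  · unfold unitNucleiPotential
    have hm := fun i : Fin n => (cont_elPos i).measurable
    refine Measurable.add (Finset.measurable_sum _ fun i _ => Finset.measurable_sum _ fun α _ =>
      (measurable_const.div ((hm i).sub measurable_const).norm).neg)
      (Finset.measurable_sum _ fun i _ => Finset.measurable_sum _ fun j _ => ?_)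
    by_cases hij : i < j
    · simp only [if_pos hij]
      exact measurable_const.div ((hm i).sub (hm j)).norm
    · simp only [if_neg hij]
      exact measurable_const
  · intro x
    unfold unitNucleiPotential uT nucV
    refine add_le_add le_rfl (Finset.sum_le_sum fun i _ => Finset.sum_le_sum fun j _ => ?_)
    split_ifs
    · exact min_le_left _ _
    · exact le_rfl
  · intro x
    have h1 : ∑ i, nucV R (elPos i x) ≤ 0 := Finset.sum_nonpos fun i _ => nucV_nonpos R _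
    have h2 : uT τ x ≤ ∑ i : Fin n, ∑ j : Fin n, (if i < j then τ else 0) := by
      unfold uT
      refine Finset.sum_le_sum fun i _ => Finset.sum_le_sum fun j _ => ?_
      split_ifs
      · exact min_le_right _ _
      · exact le_rfl
    have h3 := card_lt_le n τ hτ
    linarith
  · intro f hf
    have hB := bdd_of_c1c hf
    simp only [add_mul, Finset.sum_mul]
    exact (integrable_finsetSum _ fun i _ => int_nuc hS R hB i).add (int_uT hS τ hB)
  · intro Ψ hΨ hanti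
    have h1 := Finset.sum_le_sum fun s (_ : s ∈ (Finset.univ : Finset (Spin n))) =>
      one_spin hS hK hC hO he hΓ hτ ha0 hA hA' (hΨ s)
    have h2 := hF _ (as_coefN hS θ hanti)
    have h3 : ∑ s, nF (coefN θ (Ψ s)) ≤ ∑ s, nsq (Ψ s) :=
      Finset.sum_le_sum fun s _ => (hK n ι θ (Ψ s) hO.ons (bdd_of_c1c (hΨ s))).1
    refine le_trans ?_ h1
    rw [Finset.sum_add_distrib, Finset.sum_add_distrib, ← Finset.mul_sum, ← Finset.mul_sum,
      Finset.sum_sub_distrib]
    have h4 := mul_le_mul_of_nonneg_right hlam (sub_nonneg.2 h3)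
    have hexp : (n * E1 + lam - (n + n ^ 2) * e - 2 * (n * a0 + n ^ 2 * τ) ^ 2 / Γ) *
        ∑ s, nsq (Ψ s) = (n * E1 - (n + n ^ 2) * e - 2 * (n * a0 + n ^ 2 * τ) ^ 2 / Γ) *
        ∑ s, nsq (Ψ s) + lam * (∑ s, nsq (Ψ s) - ∑ s, nF (coefN θ (Ψ s))) +
        lam * ∑ s, nF (coefN θ (Ψ s)) := by ring
    rw [hexp]
    linarith

end Crest.Agent.R338
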