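import Crest.Agent.R338.MBUpperA

/-!
# Row 338: the many-body upper bound
-/

noncomputable section

open MeasureTheory Function
open scoped ComplexConjugate
open Crest.MathPhysics.ElectronicCoulomb

namespace Crest.Agent.R338

namespace MBUpper

open Slice

variable {n : ℕ} {ι : Type} [Fintype ι] [DecidableEq ι]

theorem int_pd {J : Type} [Fintype J] [DecidableEq J] {f : EuclideanSpace ℝ J → ℂ} (h : C1c f)
    (j : J) : Integrable fun x => ‖pd j f x‖ ^ 2 := by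
  have h1 : Continuous (pd j f) := (h.1.continuous_fderiv one_ne_zero).clm_apply continuous_const
  have h2 : HasCompactSupport (pd j f) := h.2.fderiv_apply ℝ _
  exact (h1.memLp_of_hasCompactSupport (p := 2) h2).integrable_norm_pow two_ne_zero

theorem int_pot {Ψ : Config n → ℂ} (h : Bdd Ψ) {K : ℕ} (R : Fin K → E3) (τ : ℝ) :
    (∀ i, Integrable fun x => nucV R (elPos i x) * ‖Ψ x‖ ^ 2) ∧
    (∀ i j, Integrable fun x => 1 / ‖elPos i x - elPos j x‖ * ‖Ψ x‖ ^ 2) ∧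
    (∀ i j, Integrable fun x => wt τ (elPos i x - elPos j x) * ‖Ψ x‖ ^ 2) := by
  obtain ⟨B, hB⟩ := h.bdd
  obtain ⟨r, hr⟩ := h.supp
  refine (slice n).2.2.2.2.2 K R τ _ (h.meas.norm.pow_const 2) ⟨B ^ 2, fun x => ?_⟩
    ⟨r, fun x hx => hr x fun h0 => hx (by simp [h0])⟩
  rw [abs_of_nonneg (by positivity)]
  exact pow_le_pow_left₀ (norm_nonneg _) (hB x) 2

section one

variable {K0 : ℕ} {R : Fin K0 → E3} {φ θ : ι → E3 → ℝ} {A K : ι → ι → ℝ} {E1 e Γ s τ : ℝ}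

theorem coef_slice (h : OneBody (nucV R) φ θ A K E1 e Γ s τ) (c : (Fin n → ι) → ℂ) (i : Fin n)
    (z : Rest n i) : (coef θ fun y => sup (fun _ => φ) c (ins i z y)) = ct (fun _ => φ) c i z := by
  rw [sup_ins, coef_lin (b1_ons h.ons) (fun a => b1_c1 (h.c1 a)) h.bi]

/-- The one-body energy in the slot `i`. -/
theorem one_le (h : OneBody (nucV R) φ θ A K E1 e Γ s τ) (c : (Fin n → ι) → ℂ) (i : Fin n) :
    (∑ k, ∫ x, ‖pd (i, k) (sup (fun _ => φ) c) x‖ ^ 2) / 2 +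
        ∫ x, nucV R (elPos i x) * ‖sup (fun _ => φ) c x‖ ^ 2 ≤
      E1 * nsq (sup (fun _ => φ) c) + aP θ A i (sup (fun _ => φ) c) +
        e * nP θ i (sup (fun _ => φ) c) := by
  have hφ : ∀ (_ : Fin n) a, B1 (φ a) := fun _ a => b1_c1 (h.c1 a)
  have hc := c1_sup h.c1 c
  have hb := bdd_sup hφ c
  set Ψ := sup (fun _ => φ) c with hΨ
  set d := ct (fun _ => φ) c i with hd
  have hs : ∀ z, (fun y => Ψ (ins i z y)) = lin φ (d z) := fun z => sup_ins _ c i z
  have hs' : ∀ z y, Ψ (ins i z y) = lin φ (d z) y := fun z y => congrFun (hs z) y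
  have k1 := fun k => slice_int i (int_pd hc (i, k))
  have k2 := slice_int i ((int_pot hb R τ).1 i)
  have k3 := slice_int i (bdd_int hb)
  have e1 : ∀ k z y, pd (i, k) Ψ (ins i z y) = pd k (lin φ (d z)) y := fun k z y => by
    rw [← (slice_c1 i z Ψ hc).2, hs]
  simp only [e1, hs', elPos_ins] at k1 k2 k3
  have i1 : Integrable fun z => dir (lin φ (d z)) := integrable_finsetSum _ fun k _ => (k1 k).2
  have i2 : Integrable fun z => pot (nucV R) (lin φ (d z)) := k2.2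
  have i3 : Integrable fun z => nsq (lin φ (d z)) := k3.2
  have i4 : Integrable fun z => qf A (d z) := int_qf hφ c i A
  have i5 : Integrable fun z => n1 (d z) := int_n1 hφ c i
  have f1 : ∑ k, ∫ x, ‖pd (i, k) Ψ x‖ ^ 2 = ∫ z, dir (lin φ (d z)) := by
    simp only [fun k => (k1 k).1]
    exact (integral_finsetSum _ fun k _ => (k1 k).2).symm
  have f2 : ∫ x, nucV R (elPos i x) * ‖Ψ x‖ ^ 2 = ∫ z, pot (nucV R) (lin φ (d z)) := k2.1
  have f3 : nsq Ψ = ∫ z, nsq (lin φ (d z)) := k3.1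
  have f4 : aP θ A i Ψ = ∫ z, qf A (d z) := by simp only [aP, hΨ, hd, coef_slice h]
  have f5 : nP θ i Ψ = ∫ z, n1 (d z) := by simp only [nP, hΨ, hd, coef_slice h]
  have key := integral_mono ((i1.div_const 2).add i2)
    (((i3.const_mul E1).add i4).add (i5.const_mul e)) fun z => h.upper (d z)
  rw [integral_add' (i1.div_const 2) i2, integral_add' ((i3.const_mul E1).add i4) (i5.const_mul e),
    integral_add' (i3.const_mul E1) i4, integral_div, integral_const_mul,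
    integral_const_mul] at key
  rw [f1, f2, f3, f4, f5]
  exact key

omit [DecidableEq ι] in
theorem lin_sq_le (φ : ι → E3 → ℝ) (c : ι → ℂ) (y : E3) :
    ‖lin φ c y‖ ^ 2 ≤ n1 c * ∑ a, φ a y ^ 2 := by
  have h1 : ‖lin φ c y‖ ≤ ∑ a, ‖c a‖ * |φ a y| :=
    (norm_sum_le _ _).trans (le_of_eq (Finset.sum_congr rfl fun a _ => by simp))
  refine (pow_le_pow_left₀ (norm_nonneg _) h1 2).trans ?_
  simpa only [sq_abs, n1] using Finset.sum_mul_sq_le_sq_mul_sq Finset.univ (fun a => ‖c a‖)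
    fun a => |φ a y|

theorem tail_one (h : OneBody (nucV R) φ θ A K E1 e Γ s τ) (he : 0 ≤ e) (c : ι → ℂ) (x : E3) :
    ∫ y, (1 / ‖x - y‖ - wt τ (x - y)) * ‖lin φ c y‖ ^ 2 ≤ e * n1 c := by
  have h0 : ∀ y, 0 ≤ 1 / ‖x - y‖ - wt τ (x - y) := fun y => sub_nonneg.2 (min_le_left _ _)
  have hn : 0 ≤ n1 c := Finset.sum_nonneg fun _ _ => sq_nonneg _
  by_cases hi : Integrable fun y => (1 / ‖x - y‖ - wt τ (x - y)) * ‖lin φ c y‖ ^ 2
  · rw [integral_eq_lintegral_of_nonneg_ae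
      (Filter.Eventually.of_forall fun y => mul_nonneg (h0 y) (sq_nonneg _)) hi.1]
    refine ENNReal.toReal_le_of_le_ofReal (mul_nonneg he hn) ?_
    calc ∫⁻ y, ENNReal.ofReal ((1 / ‖x - y‖ - wt τ (x - y)) * ‖lin φ c y‖ ^ 2)
        ≤ ∫⁻ y, ENNReal.ofReal (n1 c) *
            ENNReal.ofReal ((1 / ‖x - y‖ - wt τ (x - y)) * ∑ a, φ a y ^ 2) := by
          refine lintegral_mono fun y => ?_
          rw [← ENNReal.ofReal_mul hn, mul_left_comm]
          exact ENNReal.ofReal_le_ofReal (mul_le_mul_of_nonneg_left (lin_sq_le φ c y) (h0 y))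
      _ ≤ ENNReal.ofReal (n1 c) * ENNReal.ofReal e := by
          rw [lintegral_const_mul' _ _ ENNReal.ofReal_ne_top]
          exact mul_le_mul_right (h.tail x) _
      _ = ENNReal.ofReal (e * n1 c) := by rw [← ENNReal.ofReal_mul hn, mul_comm]
  · rw [integral_undef hi]
    exact mul_nonneg he hn

/-- The short-range part of the repulsion of a pair. -/
theorem tail_le (h : OneBody (nucV R) φ θ A K E1 e Γ s τ) (he : 0 ≤ e) (c : (Fin n → ι) → ℂ)
    {i j : Fin n} (hij : i ≠ j) :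
    ∫ x, 1 / ‖elPos i x - elPos j x‖ * ‖sup (fun _ => φ) c x‖ ^ 2 ≤
      (∫ x, wt τ (elPos i x - elPos j x) * ‖sup (fun _ => φ) c x‖ ^ 2) +
        e * nP θ j (sup (fun _ => φ) c) := by
  have hφ : ∀ (_ : Fin n) a, B1 (φ a) := fun _ a => b1_c1 (h.c1 a)
  obtain ⟨-, i1, i2⟩ := int_pot (bdd_sup hφ c) R τ
  obtain ⟨k1, k2⟩ := slice_int j (F := fun x => 1 / ‖elPos i x - elPos j x‖ *
    ‖sup (fun _ => φ) c x‖ ^ 2 - wt τ (elPos i x - elPos j x) * ‖sup (fun _ => φ) c x‖ ^ 2)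
    ((i1 i j).sub (i2 i j))
  rw [← sub_le_iff_le_add', ← integral_sub (i1 i j) (i2 i j), k1, nP, ← integral_const_mul]
  simp only [coef_slice h]
  refine integral_mono k2 ((int_n1 hφ c j).const_mul e) fun z => ?_
  refine le_trans (le_of_eq ?_) (tail_one h he (ct (fun _ => φ) c j z) (z ⟨i, hij⟩))
  simp only [elPos_ins, elPos_ins_ne hij, ← sub_mul, congrFun (sup_ins (fun _ => φ) c j z)]

theorem sum_lt_le {u v : Fin n → Fin n → ℝ} {b : ℝ} (hb : 0 ≤ b)
    (h : ∀ i j, i < j → u i j ≤ v i j + b) :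
    (∑ i, ∑ j, if i < j then u i j else 0) ≤ (∑ i, ∑ j, if i < j then v i j else 0) + n ^ 2 * b := by
  have h1 : (n : ℝ) ^ 2 * b = ∑ _i : Fin n, ∑ _j : Fin n, b := by simp [sq, mul_assoc]
  rw [h1, ← Finset.sum_add_distrib]
  refine Finset.sum_le_sum fun i _ => ?_
  rw [← Finset.sum_add_distrib]
  refine Finset.sum_le_sum fun j _ => ?_
  split_ifs with hij
  · exact h i j hij
  · linarith

theorem int_pair {u : Fin n → Fin n → Config n → ℝ} {f : Config n → ℝ}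
    (h : ∀ i j, Integrable fun x => u i j x * f x) :
    Integrable (fun x => (∑ i, ∑ j, if i < j then u i j x else 0) * f x) ∧
      ∫ x, (∑ i, ∑ j, if i < j then u i j x else 0) * f x =
        ∑ i, ∑ j, if i < j then ∫ x, u i j x * f x else 0 := by
  have h1 : ∀ i j, Integrable fun x => if i < j then u i j x * f x else 0 := fun i j => by
    split_ifs
    exacts [h i j, integrable_zero _ _ _]
  simp only [Finset.sum_mul, ite_mul, zero_mul]
  refine ⟨integrable_finsetSum _ fun i _ => integrable_finsetSum _ fun j _ => h1 i j, ?_⟩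
  rw [integral_finsetSum _ fun i _ => integrable_finsetSum _ fun j _ => h1 i j]
  refine Finset.sum_congr rfl fun i _ => ?_
  rw [integral_finsetSum _ fun j _ => h1 i j]
  refine Finset.sum_congr rfl fun j _ => ?_
  split_ifs <;> simp

theorem pot_split {Ψ : Config n → ℂ} (hb : Bdd Ψ) (R : Fin K0 → E3) :
    Integrable (fun x => unitNucleiPotential R x * ‖Ψ x‖ ^ 2) ∧
      pot (unitNucleiPotential R) Ψ = (∑ i, ∫ x, nucV R (elPos i x) * ‖Ψ x‖ ^ 2) +
        ∑ i, ∑ j, if i < j then ∫ x, 1 / ‖elPos i x - elPos j x‖ * ‖Ψ x‖ ^ 2 else 0 := by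
  obtain ⟨i1, i2, -⟩ := int_pot hb R 0
  obtain ⟨j1, j2⟩ := int_pair (u := fun i j x => 1 / ‖elPos i x - elPos j x‖) i2
  have h1 : ∀ x, unitNucleiPotential R x * ‖Ψ x‖ ^ 2 = ∑ i, nucV R (elPos i x) * ‖Ψ x‖ ^ 2 +
      (∑ i, ∑ j, if i < j then 1 / ‖elPos i x - elPos j x‖ else 0) * ‖Ψ x‖ ^ 2 := fun x => by
    rw [← Finset.sum_mul, ← add_mul]
    rfl
  have i3 := integrable_finsetSum Finset.univ fun i _ => i1 i
  simp only [pot, h1]
  exact ⟨i3.add j1, by rw [integral_add i3 j1, j2, integral_finsetSum _ fun i _ => i1 i]⟩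

omit [DecidableEq ι] in
theorem eF_le {K K' : ι → ι → ℝ} {e : ℝ} (he : 0 ≤ e) (h : ∀ a b, |K' a b - K a b| ≤ e)
    (A : ι → ι → ℝ) (c : (Fin n → ι) → ℂ) : eF A K' c ≤ eF A K c + n ^ 2 * e * nF c := by
  unfold eF e2 nF
  rw [add_assoc, Finset.mul_sum, ← Finset.sum_add_distrib]
  refine add_le_add_right (Finset.sum_le_sum fun g _ => ?_) _
  rw [← add_mul]
  exact mul_le_mul_of_nonneg_right
    (sum_lt_le he fun i j _ => by linarith [(abs_le.1 (h (g i) (g j))).2]) (sq_nonneg _)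

theorem pow_le {s : ℝ} (hs : 0 ≤ s) (h : 2 * n * s ≤ 1) : (1 + s) ^ n ≤ 1 + 2 * n * s := by
  have h0 : (0 : ℝ) ≤ n * s := by positivity
  have h1 : (1 + s) ^ n ≤ Real.exp (n * s) := by
    rw [Real.exp_nat_mul]
    exact pow_le_pow_left₀ (by linarith) (by linarith [Real.add_one_le_exp s]) n
  have h2 := Real.abs_exp_sub_one_le (x := n * s) (by rw [abs_of_nonneg h0]; linarith)
  rw [abs_of_nonneg h0] at h2
  linarith [(abs_le.1 h2).2]

/-- The energy of one spin component of the trial state. -/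
theorem comp_le (hK : KeyStmt) (hC : CmpStmt) (h : OneBody (nucV R) φ θ A K E1 e Γ s τ)
    (he : 0 ≤ e) (hs : 0 ≤ s) (hτ : 0 ≤ τ) {a0 : ℝ} (ha : 0 ≤ a0) (hA : ∀ a b, A a b = A b a)
    (hA' : ∀ a, ∑ b, |A a b| ≤ a0) (hn : 2 * n * s ≤ 1) (lam : ℝ) (c : (Fin n → ι) → ℂ) :
    nF c ≤ nsq (sup (fun _ => φ) c) ∧
    dir (sup (fun _ => φ) c) / 2 + pot (unitNucleiPotential R) (sup (fun _ => φ) c) ≤
      (n * E1 + lam + (n + 2 * n ^ 2) * e + (2 * (n * a0 + n ^ 2 * τ) + |lam|) * √(2 * n * s)) *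
        nsq (sup (fun _ => φ) c) + (eF A K c - lam * nF c) := by
  have hφ : ∀ a, B1 (φ a) := fun a => b1_c1 (h.c1 a)
  have hb := bdd_sup (f := fun _ => φ) (fun _ => hφ) c
  have hg := gram h.ons hφ hs h.gram c
  have hc := coefN_sup (b1_ons h.ons) hφ h.bi c
  have h1 := fun i => one_le h c i
  have h2 := fun i j (hij : i < j) => tail_le h he c hij.ne
  set Ψ := sup (fun _ => φ) c with hΨ
  obtain ⟨k1, k2, -⟩ := hK n ι θ Ψ h.ons hb
  have k3 := (abs_le.1 (hC n ι θ A τ a0 Ψ h.ons hb hτ ha hA hA')).2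
  rw [hc] at k1 k3
  refine ⟨k1, ?_⟩
  have hF : 0 ≤ nF c := Finset.sum_nonneg fun _ _ => sq_nonneg _
  have hN : 0 ≤ nsq Ψ := hF.trans k1
  have h0 : (0 : ℝ) ≤ 2 * n * s := by positivity
  have g1 : nsq Ψ - nF c ≤ 2 * n * s * nsq Ψ := by
    have := mul_le_mul_of_nonneg_right (pow_le hs hn) hF
    have := mul_le_mul_of_nonneg_left k1 h0
    linarith
  have g2 : √(nsq Ψ - nF c) * √(nsq Ψ) ≤ √(2 * n * s) * nsq Ψ := by
    calc √(nsq Ψ - nF c) * √(nsq Ψ) ≤ √(2 * n * s * nsq Ψ) * √(nsq Ψ) :=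
          mul_le_mul_of_nonneg_right (Real.sqrt_le_sqrt g1) (Real.sqrt_nonneg _)
      _ = √(2 * n * s) * nsq Ψ := by rw [Real.sqrt_mul h0, mul_assoc, Real.mul_self_sqrt hN]
  have g3 : nsq Ψ - nF c ≤ √(2 * n * s) * nsq Ψ :=
    g1.trans (mul_le_mul_of_nonneg_right (Real.le_sqrt_of_sq_le (by nlinarith)) hN)
  have g4 : lam * nF c ≤ lam * nsq Ψ + |lam| * (√(2 * n * s) * nsq Ψ) := by
    have := mul_le_mul_of_nonneg_left g3 (abs_nonneg lam)
    have := mul_le_mul_of_nonneg_right (neg_abs_le lam) (sub_nonneg.2 k1)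
    linarith
  have g5 := mul_le_mul_of_nonneg_left g2 (by positivity : (0 : ℝ) ≤ 2 * (n * a0 + n ^ 2 * τ))
  have g6 := eF_le he h.pair A c
  have g7 := mul_le_mul_of_nonneg_left k1 (by positivity : (0 : ℝ) ≤ n ^ 2 * e)
  have g8 : dir Ψ / 2 + ∑ i, ∫ x, nucV R (elPos i x) * ‖Ψ x‖ ^ 2 ≤
      n * (E1 * nsq Ψ) + ∑ i, aP θ A i Ψ + n * (e * nsq Ψ) := by
    have e1 := Finset.sum_le_sum fun i (_ : i ∈ Finset.univ) => (h1 i).trans
      (add_le_add_right (mul_le_mul_of_nonneg_left (k2 i) he) _)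
    simp only [Finset.sum_add_distrib, Finset.sum_const, Finset.card_univ, Fintype.card_fin,
      nsmul_eq_mul, ← Finset.sum_div] at e1
    rw [dir, Fintype.sum_prod_type]
    exact e1
  have g9 : (∑ i, ∑ j, if i < j then ∫ x, 1 / ‖elPos i x - elPos j x‖ * ‖Ψ x‖ ^ 2 else 0) ≤
      pot (uT τ) Ψ + n ^ 2 * (e * nsq Ψ) := by
    have e1 : pot (uT τ) Ψ =
        ∑ i, ∑ j, if i < j then ∫ x, wt τ (elPos i x - elPos j x) * ‖Ψ x‖ ^ 2 else 0 :=
      (int_pair (u := fun i j x => wt τ (elPos i x - elPos j x)) (int_pot hb R τ).2.2).2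
    rw [e1]
    exact sum_lt_le (mul_nonneg he hN) fun i j hij => (h2 i j hij).trans
      (add_le_add_right (mul_le_mul_of_nonneg_left (k2 j) he) _)
  rw [(pot_split hb R).2]
  linarith

end one

end MBUpper

set_option linter.unusedVariables false in
open MBUpper in
theorem mbUpper (hS : SliceStmt) (hK : KeyStmt) (hC : CmpStmt) (hU : UpperStmt) : MBUpperStmt := by
  rintro n ι _ _ K0 R φ θ A K E1 e Γ s τ a0 lam h he hs hτ ha hA hA' hn ⟨c, hc, hpos, hle⟩
  have key := fun σ => comp_le hK hC h he hs hτ ha hA hA' hn lam (c σ)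
  refine hU n _ _ (fun σ => sup (fun _ => φ) (c σ)) (fun σ => c1_sup h.c1 _) (antisym_sup φ hc)
    (fun σ => (pot_split (bdd_sup (fun _ a => b1_c1 (h.c1 a)) _) R).1)
    (hpos.trans_le (Finset.sum_le_sum fun σ _ => (key σ).1)) ?_
  refine (Finset.sum_le_sum fun σ _ => (key σ).2).trans ?_
  rw [Finset.sum_add_distrib, Finset.sum_sub_distrib, ← Finset.mul_sum, ← Finset.mul_sum]
  linarith

end Crest.Agent.R338
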