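import Crest.Agent.R338.Slice

/-!
# Row 338: superpositions of tensor products and their slices
-/

noncomputable section

open MeasureTheory Function
open scoped ComplexConjugate
open Crest.MathPhysics.ElectronicCoulomb

namespace Crest.Agent.R338

namespace MBUpper

open Slice

variable {n : ℕ} {ι : Type} [Fintype ι] [DecidableEq ι]

/-- Bounded measurable functions with bounded support. -/
structure B1 (u : E3 → ℝ) : Prop where
  meas : Measurable u
  bdd : ∃ B, ∀ x, |u x| ≤ B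
  supp : ∃ r, ∀ x, u x ≠ 0 → ‖x‖ ≤ r

theorem hcs {X F : Type} [NormedAddCommGroup X] [ProperSpace X] [Zero F] {u : X → F} {r : ℝ}
    (h : ∀ x, u x ≠ 0 → ‖x‖ ≤ r) : HasCompactSupport u :=
  HasCompactSupport.intro (isCompact_closedBall 0 r) fun x hx => by
    by_contra h0
    exact hx (mem_closedBall_zero_iff.2 (h x h0))

theorem B1.memLp {u : E3 → ℝ} (h : B1 u) (p : ENNReal) : MemLp u p volume := by
  obtain ⟨B, hB⟩ := h.bdd
  obtain ⟨r, hr⟩ := h.supp
  exact (hcs hr).memLp_of_bound h.meas.aestronglyMeasurable B (Filter.Eventually.of_forall hB)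

omit [Fintype ι] [DecidableEq ι] in
theorem b1_ons {θ : ι → E3 → ℝ} (h : ONS θ) (a : ι) : B1 (θ a) :=
  ⟨h.meas a, h.bdd.imp fun _ hB => hB a, h.supp.imp fun _ hr => hr a⟩

theorem b1_c1 {u : E3 → ℝ} (h : C1c u) : B1 u := by
  refine ⟨h.1.continuous.measurable, h.1.continuous.bounded_above_of_compact_support h.2, ?_⟩
  obtain ⟨r, hr⟩ := h.2.isCompact.isBounded.exists_norm_le
  exact ⟨r, fun x hx => hr x (subset_tsupport _ hx)⟩

theorem bdd_memLp {Ψ : Config n → ℂ} (h : Bdd Ψ) (p : ENNReal) : MemLp Ψ p volume := by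
  obtain ⟨B, hB⟩ := h.bdd
  obtain ⟨r, hr⟩ := h.supp
  exact (hcs hr).memLp_of_bound h.meas.aestronglyMeasurable B (Filter.Eventually.of_forall hB)

theorem bdd_int {Ψ : Config n → ℂ} (h : Bdd Ψ) : Integrable fun x => ‖Ψ x‖ ^ 2 :=
  (bdd_memLp h 2).integrable_norm_pow two_ne_zero

theorem bdd_tens {u : Fin n → E3 → ℝ} (h : ∀ i, B1 (u i)) : Bdd fun x => (tens u x : ℂ) := by
  choose B hB using fun i => (h i).bdd
  choose r hr using fun i => (h i).supp
  refine ⟨Complex.measurable_ofReal.comp (Finset.measurable_prod _ fun i _ =>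
    (h i).meas.comp (cont_elPos i).measurable), ⟨∏ i, B i, fun x => ?_⟩,
    ⟨√(∑ i, r i ^ 2), fun x hx => ?_⟩⟩
  · rw [Complex.norm_real, Real.norm_eq_abs, tens, Finset.abs_prod]
    exact Finset.prod_le_prod (fun i _ => abs_nonneg _) fun i _ => hB i _
  · have h1 : ∀ i, ‖elPos i x‖ ≤ r i := fun i => hr i _
      (Finset.prod_ne_zero_iff.1 (Complex.ofReal_ne_zero.1 hx) i (Finset.mem_univ i))
    rw [EuclideanSpace.norm_eq, Fintype.sum_prod_type]
    refine Real.sqrt_le_sqrt (Finset.sum_le_sum fun i _ => ?_)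
    refine le_trans (le_of_eq ?_) (pow_le_pow_left₀ (norm_nonneg _) (h1 i) 2)
    rw [EuclideanSpace.norm_sq_eq]
    rfl

theorem bdd_sum {κ : Type} [Fintype κ] (c : κ → ℂ) {F : κ → Config n → ℂ} (h : ∀ g, Bdd (F g)) :
    Bdd fun x => ∑ g, c g * F g x := by
  choose B hB using fun g => (h g).bdd
  choose r hr using fun g => (h g).supp
  refine ⟨Finset.measurable_sum _ fun g _ => (h g).meas.const_mul _,
    ⟨∑ g, ‖c g‖ * B g, fun x => ?_⟩, ⟨∑ g, |r g|, fun x hx => ?_⟩⟩
  · refine (norm_sum_le _ _).trans (Finset.sum_le_sum fun g _ => ?_)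
    rw [norm_mul]
    exact mul_le_mul_of_nonneg_left (hB g x) (norm_nonneg _)
  · obtain ⟨g, -, hg⟩ := Finset.exists_ne_zero_of_sum_ne_zero hx
    exact ((hr g x (right_ne_zero_of_mul hg)).trans (le_abs_self _)).trans
      (Finset.single_le_sum (f := fun g => |r g|) (fun _ _ => abs_nonneg _) (Finset.mem_univ g))

/-- Superposition of tensor products. -/
def sup (f : Fin n → ι → E3 → ℝ) (c : (Fin n → ι) → ℂ) (x : Config n) : ℂ :=
  ∑ g, c g * (tens (fun i => f i (g i)) x : ℂ)

/-- The coefficients of a slice. -/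
def ct (f : Fin n → ι → E3 → ℝ) (c : (Fin n → ι) → ℂ) (i : Fin n) (z : Rest n i) (a : ι) : ℂ :=
  ∑ g, if g i = a then c g * ((∏ j : {j : Fin n // j ≠ i}, f j (g j) (z j) : ℝ) : ℂ) else 0

theorem sup_ins (f : Fin n → ι → E3 → ℝ) (c : (Fin n → ι) → ℂ) (i : Fin n) (z : Rest n i) :
    (fun y => sup f c (ins i z y)) = lin (f i) (ct f c i z) := by
  funext y
  simp only [sup, lin, ct, Finset.sum_mul, ite_mul, zero_mul]
  rw [Finset.sum_comm]
  refine Finset.sum_congr rfl fun g _ => ?_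
  rw [Finset.sum_ite_eq, if_pos (Finset.mem_univ _), tens,
    Fintype.prod_eq_mul_prod_subtype_ne _ i, elPos_ins,
    Finset.prod_congr rfl fun (j : {j : Fin n // j ≠ i}) _ => by rw [elPos_ins_ne j.2]]
  push_cast
  ring

theorem ct_congr {f f' : Fin n → ι → E3 → ℝ} (c : (Fin n → ι) → ℂ) {i : Fin n}
    (h : ∀ j, j ≠ i → f j = f' j) : ct f c i = ct f' c i := by
  funext z a
  unfold ct
  simp only [Finset.prod_congr rfl fun (j : {j : Fin n // j ≠ i}) _ =>
    congrFun (congrFun (h j j.2) _) (z j)]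

omit [DecidableEq ι] in
theorem bdd_sup {f : Fin n → ι → E3 → ℝ} (h : ∀ i a, B1 (f i a)) (c : (Fin n → ι) → ℂ) :
    Bdd (sup f c) :=
  bdd_sum c fun g => bdd_tens fun i => h i (g i)

theorem memLp_prod {κ : Type} [Fintype κ] {u : κ → E3 → ℝ} (h : ∀ j, B1 (u j)) :
    MemLp (fun z : κ → E3 => ∏ j, u j (z j)) 2 volume := by
  have hm : Measurable fun z : κ → E3 => ∏ j, u j (z j) :=
    Finset.measurable_prod _ fun j _ => (h j).meas.comp (measurable_pi_apply j)
  refine (memLp_two_iff_integrable_sq hm.aestronglyMeasurable).2 ?_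
  simp only [← Finset.prod_pow]
  exact Integrable.fintype_prod (f := fun j y => u j y ^ 2) fun j => ((h j).memLp 2).integrable_sq

theorem memLp_ct {f : Fin n → ι → E3 → ℝ} (h : ∀ i a, B1 (f i a)) (c : (Fin n → ι) → ℂ)
    (i : Fin n) (a : ι) : MemLp (fun z => ct f c i z a) 2 volume := by
  refine memLp_finsetSum _ fun g _ => ?_
  split_ifs
  · exact (memLp_prod fun j : {j : Fin n // j ≠ i} => h j (g j)).ofReal.const_mul _
  · exact MemLp.zero

theorem int_n1 {f : Fin n → ι → E3 → ℝ} (h : ∀ i a, B1 (f i a)) (c : (Fin n → ι) → ℂ)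
    (i : Fin n) : Integrable fun z => n1 (ct f c i z) :=
  integrable_finsetSum _ fun a _ => (memLp_ct h c i a).integrable_norm_pow two_ne_zero

theorem int_qf {f : Fin n → ι → E3 → ℝ} (h : ∀ i a, B1 (f i a)) (c : (Fin n → ι) → ℂ)
    (i : Fin n) (A : ι → ι → ℝ) : Integrable fun z => qf A (ct f c i z) :=
  integrable_finsetSum _ fun a _ => integrable_finsetSum _ fun b _ =>
    ((memLp_ct h c i a).star.integrable_mul (memLp_ct h c i b)).re.const_mul _

theorem slice_int (i : Fin n) {F : Config n → ℝ} (hF : Integrable F) :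
    ∫ x, F x = ∫ z, ∫ y, F (ins i z y) ∧ Integrable fun z => ∫ y, F (ins i z y) := by
  have h1 : Integrable (fun p : Rest n i × E3 => F (ins i p.1 p.2))
      ((volume : Measure (Rest n i)).prod volume) :=
    ((mp_ins i).integrable_comp_emb (insE i).measurableEmbedding).2 hF
  refine ⟨?_, h1.integral_prod_left⟩
  rw [← (mp_ins i).integral_comp (insE i).measurableEmbedding F]
  exact integral_prod _ h1

theorem norm_sq_disj {κ : Type} [Fintype κ] (c : κ → ℂ) {t : κ → ℝ}
    (h : ∀ a b, a ≠ b → t a * t b = 0) : ‖∑ a, c a * (t a : ℂ)‖ ^ 2 = ∑ a, ‖c a‖ ^ 2 * t a ^ 2 := by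
  by_cases h0 : ∀ a, t a = 0
  · simp [h0]
  obtain ⟨a, ha⟩ := not_forall.1 h0
  have h1 : ∀ b, b ≠ a → t b = 0 := fun b hb => (mul_eq_zero.1 (h b a hb)).resolve_right ha
  rw [Finset.sum_eq_single a (fun b _ hb => by simp [h1 b hb]) (by simp),
    Finset.sum_eq_single a (fun b _ hb => by simp [h1 b hb]) (by simp)]
  simp [mul_pow]

omit [DecidableEq ι] in
theorem nsq_lin_ons {θ : ι → E3 → ℝ} (h : ONS θ) (c : ι → ℂ) : nsq (lin θ c) = n1 c := by
  unfold nsq lin n1
  simp only [fun x => norm_sq_disj c (t := fun a => θ a x) fun a b hab => h.disj a b x hab]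
  rw [integral_finsetSum _ fun a _ => ((b1_ons h a).memLp 2).integrable_sq.const_mul _]
  simp only [integral_const_mul, h.norm, mul_one]

omit [DecidableEq ι] in
theorem nsq_sup_ons {θ : ι → E3 → ℝ} (h : ONS θ) (c : (Fin n → ι) → ℂ) :
    nsq (sup (fun _ => θ) c) = nF c := by
  have h1 : ∀ (x : Config n) (g g' : Fin n → ι), g ≠ g' →
      tens (fun i => θ (g i)) x * tens (fun i => θ (g' i)) x = 0 := fun x g g' hg => by
    obtain ⟨i, hi⟩ := Function.ne_iff.1 hg
    rw [tens, tens, ← Finset.prod_mul_distrib]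
    exact Finset.prod_eq_zero (Finset.mem_univ i) (h.disj _ _ _ hi)
  have h2 : ∀ (g : Fin n → ι) (x : Config n),
      tens (fun i => θ (g i)) x ^ 2 = tens (fun i y => θ (g i) y ^ 2) x := fun g x =>
    (Finset.prod_pow _ _ _).symm
  unfold nsq sup nF
  simp only [fun x => norm_sq_disj c (h1 x), h2]
  rw [integral_finsetSum _ fun g _ => ((slice n).2.2.1 _ fun i =>
    ((b1_ons h (g i)).memLp 2).integrable_sq).const_mul _]
  simp only [integral_const_mul, (slice n).2.1, h.norm, Finset.prod_const_one, mul_one]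

theorem coef_lin {φ θ : ι → E3 → ℝ} (hθ : ∀ a, B1 (θ a)) (hφ : ∀ a, B1 (φ a))
    (bi : ∀ a b, ∫ x, θ a x * φ b x = if a = b then 1 else 0) (c : ι → ℂ) :
    coef θ (lin φ c) = c := by
  funext a
  have h1 : ∀ x, (θ a x : ℂ) * lin φ c x = ∑ b, c b * ((θ a x * φ b x : ℝ) : ℂ) := fun x => by
    rw [lin, Finset.mul_sum]
    exact Finset.sum_congr rfl fun b _ => by push_cast; ring
  unfold coef
  simp only [h1]
  rw [integral_finsetSum _ fun b _ =>
    (((hθ a).memLp 2).integrable_mul ((hφ b).memLp 2)).ofReal.const_mul _]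
  simp only [integral_const_mul, integral_complex_ofReal, bi]
  simp [apply_ite]

theorem coefN_sup {φ θ : ι → E3 → ℝ} (hθ : ∀ a, B1 (θ a)) (hφ : ∀ a, B1 (φ a))
    (bi : ∀ a b, ∫ x, θ a x * φ b x = if a = b then 1 else 0) (c : (Fin n → ι) → ℂ) :
    coefN θ (sup (fun _ => φ) c) = c := by
  funext g
  have h1 : ∀ x, (tens (fun i => θ (g i)) x : ℂ) * sup (fun _ => φ) c x =
      ∑ g', c g' * ((tens (fun i y => θ (g i) y * φ (g' i) y) x : ℝ) : ℂ) := fun x => by
    rw [sup, Finset.mul_sum]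
    refine Finset.sum_congr rfl fun g' _ => ?_
    simp only [tens, Finset.prod_mul_distrib]
    push_cast
    ring
  have h2 : ∀ g' : Fin n → ι,
      (∏ i, if g i = g' i then (1 : ℝ) else 0) = if g = g' then 1 else 0 := fun g' => by
    rw [Finset.prod_boole]
    simp [funext_iff]
  unfold coefN
  simp only [h1]
  rw [integral_finsetSum _ fun g' _ => ((slice n).2.2.1 _ fun i =>
    ((hθ (g i)).memLp 2).integrable_mul ((hφ (g' i)).memLp 2)).ofReal.const_mul _]
  simp only [integral_const_mul, integral_complex_ofReal, (slice n).2.1, bi, h2]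
  simp [apply_ite]

omit [DecidableEq ι] in
theorem c1_sup {φ : ι → E3 → ℝ} (h : ∀ a, C1c (φ a)) (c : (Fin n → ι) → ℂ) :
    C1c (sup (fun _ => φ) c) := by
  obtain ⟨r, hr⟩ := (bdd_sup (f := fun _ => φ) (fun _ a => b1_c1 (h a)) c).supp
  have h1 : ∀ i : Fin n, ContDiff ℝ 1 (elPos i : Config n → E3) := fun i => by
    unfold elPos
    fun_prop
  have h2 : ∀ g : Fin n → ι, ContDiff ℝ 1 fun x : Config n => ∏ i, φ (g i) (elPos i x) :=
    fun g => contDiff_prod fun i _ => (h (g i)).1.comp (h1 i)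
  exact ⟨ContDiff.sum fun g _ => contDiff_const.mul (Complex.ofRealCLM.contDiff.comp (h2 g)),
    hcs hr⟩

omit [DecidableEq ι] in
theorem antisym_sup (φ : ι → E3 → ℝ) {c : Spin n → (Fin n → ι) → ℂ} (h : AS c) :
    Antisym fun s => sup (fun _ => φ) (c s) := by
  intro σ s x
  simp only [sup]
  rw [Finset.mul_sum, ← (Equiv.arrowCongr σ (Equiv.refl ι)).symm.sum_comp]
  refine Finset.sum_congr rfl fun g _ => ?_
  have h1 : (Equiv.arrowCongr σ (Equiv.refl ι)).symm g = fun i => g (σ i) := rfl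
  have h2 : tens (fun i => φ (g (σ i))) (permConfig σ x) = tens (fun i => φ (g i)) x :=
    Equiv.prod_comp σ fun i => φ (g i) (elPos i x)
  rw [h1, h σ s g, h2, mul_assoc]

/-- The Gram bound. -/
theorem gram {φ θ : ι → E3 → ℝ} (hθ : ONS θ) (hφ : ∀ a, B1 (φ a)) {s : ℝ} (hs : 0 ≤ s)
    (hg : ∀ c, nsq (lin φ c) ≤ (1 + s) * n1 c) (c : (Fin n → ι) → ℂ) :
    nsq (sup (fun _ => φ) c) ≤ (1 + s) ^ n * nF c := by
  let f : ℕ → Fin n → ι → E3 → ℝ := fun m i => if (i : ℕ) < m then φ else θ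
  have hf : ∀ m i a, B1 (f m i a) := fun m i a => by
    simp only [f]
    split_ifs
    exacts [hφ a, b1_ons hθ a]
  have key : ∀ m ≤ n, nsq (sup (f m) c) ≤ (1 + s) ^ m * nF c := by
    intro m
    induction m with
    | zero =>
      intro _
      have : f 0 = fun _ => θ := funext fun i => if_neg (Nat.not_lt_zero _)
      rw [this, nsq_sup_ons hθ, pow_zero, one_mul]
    | succ m ih =>
      intro hm
      let i : Fin n := ⟨m, hm⟩
      have e1 : f (m + 1) i = φ := if_pos (Nat.lt_succ_self m)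
      have e2 : f m i = θ := if_neg (lt_irrefl m)
      have e3 : ct (f (m + 1)) c i = ct (f m) c i := ct_congr c fun j hj => by
        have : (j : ℕ) ≠ m := fun e => hj (Fin.ext e)
        exact if_congr (by omega) rfl rfl
      obtain ⟨h1, h2⟩ := slice_int i (bdd_int (bdd_sup (hf (m + 1)) c))
      have h3 := (slice_int i (bdd_int (bdd_sup (hf m) c))).1
      have h4 : ∀ z, ∫ y, ‖sup (f m) c (ins i z y)‖ ^ 2 = n1 (ct (f m) c i z) := fun z => by
        rw [← nsq_lin_ons hθ, ← e2, ← sup_ins]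
        rfl
      have h5 : ∀ z, ∫ y, ‖sup (f (m + 1)) c (ins i z y)‖ ^ 2 ≤ (1 + s) * n1 (ct (f m) c i z) :=
        fun z => by
          refine le_trans (le_of_eq ?_) (hg _)
          rw [← e3, ← e1, ← sup_ins]
          rfl
      calc nsq (sup (f (m + 1)) c) ≤ ∫ z, (1 + s) * n1 (ct (f m) c i z) :=
            h1.trans_le (integral_mono h2 ((int_n1 (hf m) c i).const_mul _) h5)
        _ = (1 + s) * nsq (sup (f m) c) := by
            rw [integral_const_mul, nsq, h3]
            simp only [h4]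
        _ ≤ (1 + s) ^ (m + 1) * nF c := by
            rw [pow_succ', mul_assoc]
            exact mul_le_mul_of_nonneg_left (ih (by omega)) (by linarith)
  have : f n = fun _ => φ := funext fun i => if_pos i.2
  rw [← this]
  exact key n le_rfl

end MBUpper

end Crest.Agent.R338
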