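import Crest.Agent.R338.DefsF

/-!
# Row 338: the corrected midpoint rule on a cube and the tiling of the slab
-/

noncomputable section

open MeasureTheory Function Set

namespace Crest.Agent.R338

namespace Mid

/-- Taylor's formula with a crude remainder bound. -/
theorem taylor_bd {F : Type} [NormedAddCommGroup F] [NormedSpace ℝ F] [CompleteSpace F]
    (n : ℕ) (f : E3 → F) (hf : ContDiff ℝ (n + 1 : ℕ) f) (x s : E3) (K : ℝ)
    (hK : ∀ t ∈ Icc (0 : ℝ) 1, ‖iteratedFDeriv ℝ (n + 1) f (x + t • s)‖ ≤ K) :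
    ‖f (x + s) - ∑ k ∈ Finset.range (n + 1),
      ((k.factorial : ℝ))⁻¹ • iteratedFDeriv ℝ k f x (fun _ => s)‖ ≤ K * ‖s‖ ^ (n + 1) := by
  have h := map_add_eq_sum_add_integral_iteratedFDeriv (f := f) (x := x) (y := s) (n := n)
    (fun t _ => by exact_mod_cast hf.contDiffAt)
  have hK0 : 0 ≤ K := (norm_nonneg _).trans (hK 0 ⟨le_rfl, zero_le_one⟩)
  rw [h, add_sub_cancel_left, norm_smul]
  have h1 : ‖((n.factorial : ℝ))⁻¹‖ ≤ 1 := by
    rw [norm_inv, Real.norm_natCast]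
    exact inv_le_one_of_one_le₀ (by exact_mod_cast Nat.factorial_pos n)
  have h2 : ‖∫ t in (0 : ℝ)..1, (1 - t) ^ n • iteratedFDeriv ℝ (n + 1) f (x + t • s) (fun _ => s)‖
      ≤ K * ‖s‖ ^ (n + 1) * |1 - 0| := by
    refine intervalIntegral.norm_integral_le_of_norm_le_const fun t ht => ?_
    rw [uIoc_of_le zero_le_one] at ht
    rw [norm_smul]
    have h3 : ‖(1 - t) ^ n‖ ≤ 1 := by
      rw [norm_pow, Real.norm_eq_abs, abs_of_nonneg (by linarith [ht.2])]
      exact pow_le_one₀ (by linarith [ht.2]) (by linarith [ht.1])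
    have h4 : ‖iteratedFDeriv ℝ (n + 1) f (x + t • s) (fun _ => s)‖ ≤ K * ‖s‖ ^ (n + 1) := by
      refine ((iteratedFDeriv ℝ (n + 1) f (x + t • s)).le_opNorm _).trans ?_
      rw [Finset.prod_const, Finset.card_univ, Fintype.card_fin]
      exact mul_le_mul_of_nonneg_right (hK t ⟨ht.1.le, ht.2⟩) (by positivity)
    calc _ ≤ 1 * (K * ‖s‖ ^ (n + 1)) := mul_le_mul h3 h4 (norm_nonneg _) zero_le_one
      _ = _ := one_mul _
  calc _ ≤ 1 * (K * ‖s‖ ^ (n + 1) * |1 - 0|) := mul_le_mul h1 h2 (norm_nonneg _) zero_le_one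
    _ = _ := by simp

theorem iter_neg {F : Type} [NormedAddCommGroup F] [NormedSpace ℝ F] (k : ℕ) (f : E3 → F)
    (x s : E3) : iteratedFDeriv ℝ k f x (fun _ => -s) =
      ((-1 : ℝ) ^ k) • iteratedFDeriv ℝ k f x (fun _ => s) := by
  have := (iteratedFDeriv ℝ k f x).map_smul_univ (fun _ => (-1 : ℝ)) (fun _ => s)
  simpa using this

/-- Symmetric second difference of a `C²` map. -/
theorem sym2 {F : Type} [NormedAddCommGroup F] [NormedSpace ℝ F] [CompleteSpace F]
    (f : E3 → F) (hf : ContDiff ℝ 2 f) (x s : E3) (K : ℝ)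
    (hK : ∀ t ∈ Icc (-1 : ℝ) 1, ‖iteratedFDeriv ℝ 2 f (x + t • s)‖ ≤ K) :
    ‖f (x + s) + f (x - s) - (2 : ℝ) • f x‖ ≤ 2 * (K * ‖s‖ ^ 2) := by
  have h1 := taylor_bd 1 f hf x s K fun t ht => hK t ⟨by linarith [ht.1], ht.2⟩
  have h2 := taylor_bd 1 f hf x (-s) K fun t ht => by
    have := hK (-t) ⟨by linarith [ht.2], by linarith [ht.1]⟩
    rwa [neg_smul, ← smul_neg] at this
  simp only [iter_neg, norm_neg, ← sub_eq_add_neg] at h2
  simp only [Finset.sum_range_succ, Finset.sum_range_zero, iteratedFDeriv_zero_apply] at h1 h2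
  have h3 := norm_add_le_of_le h1 h2
  refine le_trans (le_of_eq ?_) (h3.trans (le_of_eq (by ring)))
  congr 1
  simp only [Nat.factorial, Nat.cast_one, inv_one, one_smul, pow_zero, pow_one, Nat.succ_eq_add_one,
    zero_add, mul_one]
  module

/-- Symmetric fourth-order remainder of a `C⁴` function. -/
theorem sym4 (f : E3 → ℝ) (hf : ContDiff ℝ 4 f) (x s : E3) (K : ℝ)
    (hK : ∀ t ∈ Icc (-1 : ℝ) 1, ‖iteratedFDeriv ℝ 4 f (x + t • s)‖ ≤ K) :
    |f (x + s) + f (x - s) - 2 * f x - fderiv ℝ (fderiv ℝ f) x s s| ≤ 2 * (K * ‖s‖ ^ 4) := by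
  have h1 := taylor_bd 3 f hf x s K fun t ht => hK t ⟨by linarith [ht.1], ht.2⟩
  have h2 := taylor_bd 3 f hf x (-s) K fun t ht => by
    have := hK (-t) ⟨by linarith [ht.2], by linarith [ht.1]⟩
    rwa [neg_smul, ← smul_neg] at this
  simp only [iter_neg, norm_neg, ← sub_eq_add_neg] at h2
  simp only [Finset.sum_range_succ, Finset.sum_range_zero, iteratedFDeriv_zero_apply,
    iteratedFDeriv_two_apply] at h1 h2
  have h3 := norm_add_le_of_le h1 h2
  rw [← Real.norm_eq_abs]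
  refine le_trans (le_of_eq ?_) (h3.trans (le_of_eq (by ring)))
  congr 1
  simp only [Nat.factorial, smul_eq_mul]
  push_cast
  ring

theorem pd_pd (f : E3 → ℝ) (hf : ContDiff ℝ 2 f) (j : Fin 3) (x : E3) :
    pd j (pd j f) x = fderiv ℝ (fderiv ℝ f) x (EuclideanSpace.single j 1)
      (EuclideanSpace.single j 1) := by
  have hd : DifferentiableAt ℝ (fderiv ℝ f) x :=
    ((hf.fderiv_right (m := 1) (by norm_num)).differentiable (by norm_num)) x
  have : pd j f = fun y => fderiv ℝ f y (EuclideanSpace.single j 1) := rfl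
  rw [pd, this, fderiv_clm_apply hd (differentiableAt_const _)]
  simp

theorem lap_eq (f : E3 → ℝ) (hf : ContDiff ℝ 2 f) (x : E3) :
    lap f x = ∑ j, fderiv ℝ (fderiv ℝ f) x (EuclideanSpace.single j 1)
      (EuclideanSpace.single j 1) := by
  simp only [lap, pd_pd f hf]

theorem bil_expand (B : E3 →L[ℝ] E3 →L[ℝ] ℝ) (s : E3) :
    B s s = ∑ i, ∑ j, B (EuclideanSpace.single i 1) (EuclideanSpace.single j 1) * (s i * s j) := by
  have hs : s = ∑ i, s i • EuclideanSpace.single i (1 : ℝ) := by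
    ext k
    simp [Pi.single_apply]
  conv_lhs => rw [hs]
  simp only [map_sum, map_smul, sum_apply, smul_apply,
    smul_eq_mul, Finset.mul_sum]
  rw [Finset.sum_comm]
  refine Finset.sum_congr rfl fun i _ => Finset.sum_congr rfl fun j _ => by ring

theorem isClosed_cube (d : ℝ) (y : E3) : IsClosed (cube d y) := by
  have : cube d y = ⋂ j, {x : E3 | |x j - y j| ≤ d / 2} := by
    ext x; simp [cube]
  rw [this]
  exact isClosed_iInter fun j => isClosed_le (by fun_prop) continuous_const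

theorem norm_sq_le {d : ℝ} {s : E3} (hs : s ∈ cube d 0) : ‖s‖ ^ 2 ≤ d ^ 2 := by
  rw [EuclideanSpace.real_norm_sq_eq, Fin.sum_univ_three]
  have h : ∀ j, s j ^ 2 ≤ (d / 2) ^ 2 := fun j => by
    have := hs j
    simp only [PiLp.zero_apply, sub_zero] at this
    rw [← sq_abs]
    exact pow_le_pow_left₀ (abs_nonneg _) this 2
  nlinarith [h 0, h 1, h 2, sq_nonneg d]

theorem isCompact_cube0 (d : ℝ) : IsCompact (cube d 0) := by
  refine Metric.isCompact_of_isClosed_isBounded (isClosed_cube d 0) ?_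
  refine (Metric.isBounded_closedBall (x := (0 : E3)) (r := |d|)).subset fun s hs => ?_
  rw [mem_closedBall_zero_iff]
  simpa using sq_le_sq.1 (norm_sq_le hs)

theorem int_add (d : ℝ) (y : E3) (f : E3 → ℝ) :
    ∫ x in cube d y, f x = ∫ s in cube d 0, f (y + s) := by
  rw [← (measurePreserving_add_left volume y).setIntegral_preimage_emb
    (measurableEmbedding_addLeft y) f (cube d y)]
  congr 2
  ext s
  simp [cube]

theorem int_sub (d : ℝ) (y : E3) (f : E3 → ℝ) :
    ∫ x in cube d y, f x = ∫ s in cube d 0, f (y - s) := by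
  rw [← (Measure.measurePreserving_sub_left volume y).setIntegral_preimage_emb
    (MeasurableEquiv.subLeft y).measurableEmbedding f (cube d y)]
  congr 2
  ext s
  simp [cube]

theorem int_prod (d : ℝ) (hd : 0 ≤ d) (g : Fin 3 → ℝ → ℝ) :
    ∫ s in cube d 0, ∏ k, g k (s k) = ∏ k, ∫ t in (-(d / 2))..(d / 2), g k t := by
  rw [← (PiLp.volume_preserving_toLp (Fin 3)).setIntegral_preimage_emb
    (MeasurableEquiv.toLp 2 (Fin 3 → ℝ)).measurableEmbedding _ (cube d 0)]
  have : (WithLp.toLp 2 : (Fin 3 → ℝ) → E3) ⁻¹' cube d 0 =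
      Set.univ.pi fun _ => Icc (-(d / 2)) (d / 2) := by
    ext s
    simp only [cube, abs_le, mem_preimage, mem_ofPred_eq, PiLp.zero_apply, sub_zero, mem_pi,
      mem_univ, forall_true_left, mem_Icc]
  rw [this, volume_pi, Measure.restrict_pi_pi]
  simp only
  rw [integral_fintype_prod_eq_prod g]
  refine Finset.prod_congr rfl fun k _ => ?_
  rw [intervalIntegral.integral_of_le (by linarith), integral_Icc_eq_integral_Ioc]

theorem vol_cube (d : ℝ) (hd : 0 ≤ d) : volume.real (cube d 0) = d ^ 3 := by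
  have := int_prod d hd fun _ _ => 1
  simp at this
  rw [this]

theorem int_mono (d : ℝ) (hd : 0 ≤ d) (i j : Fin 3) :
    ∫ s in cube d 0, s i * s j = if i = j then d ^ 5 / 12 else 0 := by
  have h := int_prod d hd fun k t => t ^ ((if k = i then 1 else 0) + (if k = j then 1 else 0))
  have h2 : ∀ s : E3, ∏ k, s k ^ ((if k = i then 1 else 0) + (if k = j then 1 else 0)) =
      s i * s j := fun s => by
    simp only [pow_add, Finset.prod_mul_distrib]
    simp
  simp only [h2, integral_pow] at h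
  rw [h, Fin.prod_univ_three]
  fin_cases i <;> fin_cases j <;> simp <;> ring

theorem seg_mem {d : ℝ} {y s : E3} (hs : s ∈ cube d 0) {t : ℝ} (ht : t ∈ Icc (-1 : ℝ) 1) :
    y + t • s ∈ cube d y := fun j => by
  have h := hs j
  simp only [PiLp.zero_apply, sub_zero] at h
  simp only [PiLp.add_apply, PiLp.smul_apply, smul_eq_mul, add_sub_cancel_left, abs_mul]
  calc |t| * |s j| ≤ 1 * (d / 2) := mul_le_mul (abs_le.2 ht) h (abs_nonneg _) zero_le_one
    _ = d / 2 := one_mul _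

/-- A symmetric pointwise approximation integrates. -/
theorem int_approx (d : ℝ) (hd : 0 ≤ d) (y : E3) (f q : E3 → ℝ) (hf : Continuous f)
    (hq : Continuous q) (b : ℝ) (h : ∀ s ∈ cube d 0, |f (y + s) + f (y - s) - q s| ≤ b) :
    |2 * (∫ x in cube d y, f x) - ∫ s in cube d 0, q s| ≤ b * d ^ 3 := by
  have hc := isCompact_cube0 d
  have i1 : IntegrableOn (fun s => f (y + s)) (cube d 0) :=
    Continuous.continuousOn (by fun_prop) |>.integrableOn_compact hc
  have i2 : IntegrableOn (fun s => f (y - s)) (cube d 0) :=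
    Continuous.continuousOn (by fun_prop) |>.integrableOn_compact hc
  have i3 : IntegrableOn q (cube d 0) := hq.continuousOn.integrableOn_compact hc
  have e : 2 * (∫ x in cube d y, f x) - ∫ s in cube d 0, q s =
      ∫ s in cube d 0, (f (y + s) + f (y - s) - q s) := by
    have i4 : IntegrableOn (fun s => f (y + s) + f (y - s)) (cube d 0) := i1.add i2
    rw [integral_sub i4 i3, integral_add i1 i2, ← int_add, ← int_sub, two_mul]
  rw [e, ← vol_cube d hd, ← Real.norm_eq_abs]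
  exact norm_setIntegral_le_of_norm_le_const hc.measure_lt_top h

theorem null_hyp (j : Fin 3) (c : ℝ) : volume {x : E3 | x j = c} = 0 := by
  have hm : MeasurableSet {x : E3 | x j = c} :=
    (isClosed_eq (by fun_prop) continuous_const).measurableSet
  rw [← (PiLp.volume_preserving_toLp (Fin 3)).measure_preimage hm.nullMeasurableSet]
  exact Measure.pi_hyperplane (fun _ : Fin 3 => (volume : Measure ℝ)) j c

theorem cover1 (n : ℕ) (hn : 0 < n) (u : ℝ) (h0 : 0 ≤ u) (h1 : u ≤ n) :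
    ∃ a : Fin n, ((a : ℕ) : ℝ) ≤ u ∧ u ≤ (a : ℕ) + 1 := by
  by_cases h : ⌊u⌋₊ < n
  · exact ⟨⟨_, h⟩, Nat.floor_le h0, (Nat.lt_floor_add_one u).le⟩
  · have h2 : (n : ℝ) ≤ u := le_trans (by exact_mod_cast not_lt.1 h) (Nat.floor_le h0)
    refine ⟨⟨n - 1, by omega⟩, ?_, ?_⟩
    · simp only [Nat.cast_pred hn]; linarith
    · simp only [Nat.cast_pred hn]; linarith

theorem cell_iff {N : ℝ} (hN : 0 < N) (a c x : ℝ) :
    |x - (a + 1 / 2 - c) / N| ≤ 1 / N / 2 ↔ a ≤ N * x + c ∧ N * x + c ≤ a + 1 := by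
  have e1 : x - (a + 1 / 2 - c) / N = (N * x + c - a - 1 / 2) / N := by field_simp; ring
  have e2 : 1 / N / 2 = (1 / 2) / N := by field_simp
  rw [e1, e2, abs_div, abs_of_pos hN, div_le_div_iff_of_pos_right hN, abs_le]
  constructor <;> rintro ⟨h1, h2⟩ <;> constructor <;> linarith

theorem mem_cell {N1 NA : ℕ} (hN : 0 < N1) (α : LatIdx N1 NA) (x : E3) :
    x ∈ cube (1 / N1) (lat N1 NA α) ↔
      (((α.1 : ℕ) : ℝ) ≤ N1 * x 0 + NA ∧ N1 * x 0 + NA ≤ (α.1 : ℕ) + 1) ∧
      (((α.2.1 : ℕ) : ℝ) ≤ N1 * x 1 + NA ∧ N1 * x 1 + NA ≤ (α.2.1 : ℕ) + 1) ∧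
      (((α.2.2 : ℕ) : ℝ) ≤ N1 * x 2 + N1 ∧ N1 * x 2 + N1 ≤ (α.2.2 : ℕ) + 1) := by
  have hN' : (0 : ℝ) < N1 := by exact_mod_cast hN
  simp only [← cell_iff hN', cube, mem_ofPred_eq, Fin.forall_fin_succ, lat]
  simp

theorem mem_box {N1 NA : ℕ} (hN : 0 < N1) (x : E3) :
    x ∈ box (NA / N1) ↔ (0 ≤ N1 * x 0 + NA ∧ N1 * x 0 + NA ≤ (2 * NA : ℕ)) ∧
      (0 ≤ N1 * x 1 + NA ∧ N1 * x 1 + NA ≤ (2 * NA : ℕ)) ∧
      (0 ≤ N1 * x 2 + N1 ∧ N1 * x 2 + N1 ≤ (2 * N1 : ℕ)) := by
  have hN' : (0 : ℝ) < N1 := by exact_mod_cast hN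
  have key : ∀ c t : ℝ, |t| ≤ c / N1 ↔ 0 ≤ N1 * t + c ∧ N1 * t + c ≤ 2 * c := fun c t => by
    rw [le_div_iff₀ hN', ← abs_of_pos hN', ← abs_mul, abs_of_pos hN', abs_le]
    constructor <;> rintro ⟨h1, h2⟩ <;> constructor <;> linarith
  have h1 : (1 : ℝ) = N1 / N1 := (div_self hN'.ne').symm
  simp only [box, mem_ofPred_eq]
  rw [h1, key, key, key]
  push_cast
  rfl

theorem sep1 {a b : ℕ} (hab : a ≠ b) {u : ℝ} (ha : (a : ℝ) ≤ u ∧ u ≤ a + 1)
    (hb : (b : ℝ) ≤ u ∧ u ≤ b + 1) : u = max a b := by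
  rcases lt_or_gt_of_ne hab with h | h
  · have : (a : ℝ) + 1 ≤ b := by exact_mod_cast h
    rw [max_eq_right h.le]; linarith [ha.2, hb.1]
  · have : (b : ℝ) + 1 ≤ a := by exact_mod_cast h
    rw [max_eq_left h.le]; linarith [hb.2, ha.1]

end Mid

open Mid

theorem mid : MidStmt := by
  refine ⟨2, by norm_num, fun d M y φ hd hφ hM => ?_⟩
  have hφ2 : ContDiff ℝ 2 φ := hφ.of_le (by norm_num)
  have hM0 : 0 ≤ M := (norm_nonneg _).trans (hM y fun j => by simp; linarith)
  set B := fderiv ℝ (fderiv ℝ φ) with hB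
  have hB2 : ContDiff ℝ 2 B :=
    (hφ.fderiv_right (m := 3) (by norm_num)).fderiv_right (m := 2) (by norm_num)
  have hL : lap φ = fun x => ∑ j, B x (EuclideanSpace.single j 1) (EuclideanSpace.single j 1) :=
    funext (lap_eq φ hφ2)
  have hc := isCompact_cube0 d
  have h1 := int_approx d hd.le y φ (fun s => 2 * φ y + B y s s) hφ.continuous (by fun_prop)
    (2 * (M * d ^ 4)) fun s hs => by
      have := sym4 φ hφ y s M fun t ht => hM _ (seg_mem hs ht)
      have h4 : ‖s‖ ^ 4 ≤ d ^ 4 := by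
        have := pow_le_pow_left₀ (sq_nonneg _) (norm_sq_le hs) 2
        rwa [← pow_mul, ← pow_mul] at this
      rw [← sub_sub]
      exact this.trans (by gcongr)
  have h2 := int_approx d hd.le y (lap φ) (fun _ => 2 * lap φ y)
    (by rw [hL]; have := hB2.continuous; fun_prop) continuous_const (6 * (M * d ^ 2)) fun s hs => by
      have h := sym2 B hB2 y s M fun t ht => by
        rw [hB, norm_iteratedFDeriv_fderiv, norm_iteratedFDeriv_fderiv]
        exact hM _ (seg_mem hs ht)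
      have h' : 2 * (M * ‖s‖ ^ 2) ≤ 2 * (M * d ^ 2) := by
        have := norm_sq_le hs
        gcongr
      have e : lap φ (y + s) + lap φ (y - s) - 2 * lap φ y =
          ∑ j, (B (y + s) + B (y - s) - (2 : ℝ) • B y) (EuclideanSpace.single j 1)
            (EuclideanSpace.single j 1) := by
        simp only [hL, Fin.sum_univ_three, add_apply, sub_apply, smul_apply, smul_eq_mul]
        ring
      rw [e]
      refine (Finset.abs_sum_le_sum_abs _ _).trans ?_
      have h3 : ∀ j : Fin 3, |(B (y + s) + B (y - s) - (2 : ℝ) • B y) (EuclideanSpace.single j 1)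
          (EuclideanSpace.single j 1)| ≤ 2 * (M * d ^ 2) := fun j => by
        have := (B (y + s) + B (y - s) - (2 : ℝ) • B y).le_opNorm₂ (EuclideanSpace.single j 1)
          (EuclideanSpace.single j 1)
        simp only [PiLp.norm_single, norm_one, mul_one, Real.norm_eq_abs] at this
        exact this.trans (h.trans h')
      rw [Fin.sum_univ_three]
      linarith [h3 0, h3 1, h3 2]
  have e1 : ∫ s in cube d 0, (2 * φ y + B y s s) = 2 * φ y * d ^ 3 + d ^ 5 / 12 * lap φ y := by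
    have ic : ∀ g : E3 → ℝ, Continuous g → IntegrableOn g (cube d 0) := fun g hg =>
      hg.continuousOn.integrableOn_compact hc
    rw [integral_add (ic _ continuous_const) (ic _ (by fun_prop)), setIntegral_const, vol_cube d hd.le]
    simp only [bil_expand (B y)]
    rw [integral_finsetSum _ fun i _ => ic _ (by fun_prop)]
    have e : ∀ i : Fin 3, ∫ s in cube d 0, ∑ j, B y (EuclideanSpace.single i 1)
        (EuclideanSpace.single j 1) * (s i * s j) = ∑ j, ∫ s in cube d 0,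
        B y (EuclideanSpace.single i 1) (EuclideanSpace.single j 1) * (s i * s j) := fun i =>
      integral_finsetSum _ fun j _ => ic _ (by fun_prop)
    simp only [e, integral_const_mul, int_mono d hd.le, hL]
    simp [Finset.mul_sum, mul_comm]
  rw [e1] at h1
  rw [setIntegral_const, vol_cube d hd.le, smul_eq_mul] at h2
  have e2 : φ y - (∫ x in cube d y, φ x) / d ^ 3 + (∫ x in cube d y, lap φ x) / (24 * d) =
      -(2 * (∫ x in cube d y, φ x) - (2 * φ y * d ^ 3 + d ^ 5 / 12 * lap φ y)) / (2 * d ^ 3) +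
        (2 * (∫ x in cube d y, lap φ x) - d ^ 3 * (2 * lap φ y)) / (48 * d) := by
    field_simp
    ring
  rw [e2]
  refine (abs_add_le _ _).trans ?_
  rw [abs_div, abs_div, abs_neg, abs_of_pos (by positivity : 0 < 2 * d ^ 3),
    abs_of_pos (by positivity : 0 < 48 * d)]
  have h3 : 2 * (M * d ^ 4) * d ^ 3 / (2 * d ^ 3) + 6 * (M * d ^ 2) * d ^ 3 / (48 * d) ≤
      2 * d ^ 4 * M := by
    have : 2 * (M * d ^ 4) * d ^ 3 / (2 * d ^ 3) + 6 * (M * d ^ 2) * d ^ 3 / (48 * d) =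
        9 / 8 * (d ^ 4 * M) := by field_simp; ring
    have h4 : 0 ≤ d ^ 4 * M := by positivity
    rw [this]; linarith
  refine le_trans ?_ h3
  gcongr

theorem tile : TileStmt := by
  intro N1 NA hN f hf
  have hN' : (0 : ℝ) < N1 := by exact_mod_cast hN
  rcases Nat.eq_zero_or_pos NA with rfl | hA
  · have : volume (box (((0 : ℕ) : ℝ) / N1)) = 0 :=
      measure_mono_null (fun x hx => by simpa using hx.1) (null_hyp 0 0)
    rw [setIntegral_measure_zero _ this]
    have : IsEmpty (LatIdx N1 0) := ⟨fun α => absurd α.1.2 (by omega)⟩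
    simp
  have hU : box (NA / N1) = ⋃ α : LatIdx N1 NA, cube (1 / N1) (lat N1 NA α) := by
    ext x
    simp only [mem_iUnion, mem_cell hN, mem_box hN]
    constructor
    · rintro ⟨h0, h1, h2⟩
      obtain ⟨a, ha⟩ := cover1 _ (by omega) _ h0.1 h0.2
      obtain ⟨b, hb⟩ := cover1 _ (by omega) _ h1.1 h1.2
      obtain ⟨c, hc⟩ := cover1 _ (by omega) _ h2.1 h2.2
      exact ⟨(a, b, c), ha, hb, hc⟩
    · rintro ⟨⟨a, b, c⟩, ha, hb, hc⟩
      have k : ∀ {n : ℕ} (a : Fin n) {u : ℝ}, (((a : ℕ) : ℝ) ≤ u ∧ u ≤ (a : ℕ) + 1) →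
          0 ≤ u ∧ u ≤ n := fun a u h =>
        ⟨(Nat.cast_nonneg _).trans h.1, h.2.trans (by exact_mod_cast a.2)⟩
      exact ⟨k a ha, k b hb, k c hc⟩
  rw [hU] at hf ⊢
  rw [integral_iUnion_ae (fun α => (isClosed_cube _ _).measurableSet.nullMeasurableSet) ?_ hf,
    tsum_fintype]
  rintro ⟨a, b, c⟩ ⟨a', b', c'⟩ hne
  have k : ∀ (j : Fin 3) (p q : ℕ) (r : ℝ), p ≠ q →
      volume {x : E3 | ((p : ℝ) ≤ N1 * x j + r ∧ N1 * x j + r ≤ p + 1) ∧
        ((q : ℝ) ≤ N1 * x j + r ∧ N1 * x j + r ≤ q + 1)} = 0 := fun j p q r hpq =>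
    measure_mono_null (fun x hx => by
      have := sep1 hpq hx.1 hx.2
      simp only [mem_ofPred_eq]
      rw [eq_div_iff hN'.ne']
      linarith) (null_hyp j ((((max p q : ℕ) : ℝ) - r) / N1))
  by_cases h1 : a = a'
  · by_cases h2 : b = b'
    · have h3 : c ≠ c' := fun h3 => hne (by rw [h1, h2, h3])
      refine measure_mono_null (fun x hx => ?_) (k 2 c c' N1 (Fin.val_ne_of_ne h3))
      exact ⟨((mem_cell hN _ x).1 hx.1).2.2, ((mem_cell hN _ x).1 hx.2).2.2⟩
    · refine measure_mono_null (fun x hx => ?_) (k 1 b b' NA (Fin.val_ne_of_ne h2))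
      exact ⟨((mem_cell hN _ x).1 hx.1).2.1, ((mem_cell hN _ x).1 hx.2).2.1⟩
  · refine measure_mono_null (fun x hx => ?_) (k 0 a a' NA (Fin.val_ne_of_ne h1))
    exact ⟨((mem_cell hN _ x).1 hx.1).1, ((mem_cell hN _ x).1 hx.2).1⟩

end Crest.Agent.R338
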