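import Crest.Agent.R338.NetLowerA

/-!
# Row 338: lower bound for holes in a network
-/

set_option autoImplicit false
set_option linter.unusedSectionVars false

noncomputable section

open Function
open scoped ComplexConjugate

namespace Crest.Agent.R338

namespace NetLower

open NetLowerA

variable {ι κ : Type} [Fintype ι] [DecidableEq ι] [Fintype κ] {N R : ℕ} {X : Net ι κ N R}
  {T K : ι → ι → ℝ} {p b K0 kfar rep τ : ℝ}

/-- the matrix of the embedding -/
def M (X : Net ι κ N R) (p : ℝ) (a : ι) (α : Hv N R) : ℂ := (X.sw p a : ℂ) * (X.val a α : ℂ)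

theorem emb_eq (x : Hv N R → ℂ) (a : ι) : X.emb p x a = ∑ α, M X p a α * x α := by
  simp only [Net.emb, M, Finset.mul_sum, mul_assoc]

theorem M_hv (h : X.OK T p b) (α β : Hv N R) : M X p (X.hv α) β = if α = β then 1 else 0 := by
  rw [M, Net.sw, if_pos ⟨α, rfl⟩, h.val_hv]
  split_ifs <;> simp

theorem M_light {a : ι} (ha : ∀ α, X.hv α ≠ a) (β : Hv N R) :
    M X p a β = (√p : ℝ) * (X.val a β : ℂ) := by
  rw [M, Net.sw, if_neg (not_exists.2 ha)]

theorem M_norm (h : X.OK T p b) (hp : 0 < p) (x : Hv N R → ℂ) :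
    ∑ a, ‖∑ β, M X p a β * x β‖ ^ 2 ≤ (1 + p * b) * ∑ β, ‖x β‖ ^ 2 := by
  have hx : 0 ≤ ∑ β, ‖x β‖ ^ 2 := Finset.sum_nonneg fun _ _ => sq_nonneg _
  have key : ∀ a, ‖∑ β, M X p a β * x β‖ ^ 2 ≤ (∑ β, if X.hv β = a then ‖x β‖ ^ 2 else 0) +
      p * ((∑ β, (X.val a β : ℝ) ^ 2) * ∑ β, ‖x β‖ ^ 2) := by
    intro a
    have h1 : 0 ≤ p * ((∑ β, (X.val a β : ℝ) ^ 2) * ∑ β, ‖x β‖ ^ 2) := by positivity
    by_cases ha : ∃ α, X.hv α = a
    · obtain ⟨α, rfl⟩ := ha
      simp only [M_hv h, h.hv_inj.eq_iff, ite_mul, one_mul, zero_mul, Finset.sum_ite_eq,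
        Finset.sum_ite_eq', Finset.mem_univ, if_true]
      linarith
    · have ha' := not_exists.1 ha
      simp only [M_light ha', ha', if_false, Finset.sum_const_zero, zero_add, mul_assoc,
        ← Finset.mul_sum, norm_mul, mul_pow, Complex.norm_real, Real.norm_eq_abs, sq_abs,
        Real.sq_sqrt hp.le]
      refine mul_le_mul_of_nonneg_left ?_ hp.le
      have h2 := Finset.sum_mul_sq_le_sq_mul_sq Finset.univ (fun β => |(X.val a β : ℝ)|)
        fun β => ‖x β‖
      simp only [sq_abs] at h2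
      refine (pow_le_pow_left₀ (norm_nonneg _) ((norm_sum_le _ _).trans (le_of_eq ?_)) 2).trans h2
      simp
  refine (Finset.sum_le_sum fun a _ => key a).trans ?_
  rw [Finset.sum_add_distrib, Finset.sum_comm, ← Finset.mul_sum, ← Finset.sum_mul]
  simp only [Finset.sum_ite_eq, Finset.mem_univ, if_true]
  have := mul_le_mul_of_nonneg_left (mul_le_mul_of_nonneg_right h.val_sq hx) hp.le
  linarith

/-- the logical configuration with centre `r` and leaves `y` -/
def L (r : Fin R) (y : Fin N → Bool) : Fin (N + 1) → Hv N R :=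
  Fin.cons (Sum.inl r) fun n => Sum.inr (n, y n)

/-- the configuration with the contact `k` occupied -/
def site (X : Net ι κ N R) (k : κ) (y : Fin N → Bool) : Fin (N + 1) → ι :=
  Fin.cons (X.cc k) fun n => if n = X.lf k then X.cl k else X.hv (Sum.inr (n, y n))

theorem comp_site (h : X.OK T p b) (k : κ) (y : Fin N → Bool) (n : Fin (N + 1)) :
    X.comp (site X k y n) = n := by
  refine Fin.cases ?_ (fun n => ?_) n
  · exact h.cc_comp k
  · simp only [site, Fin.cons_succ]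
    split_ifs with hn
    · rw [h.cl_comp, hn]
    · rw [h.comp_hv]
      rfl

theorem exists_L {α : Fin (N + 1) → Hv N R} (hα : Injective (hc ∘ α)) :
    ∃ (σ : Equiv.Perm (Fin (N + 1))) (r : Fin R) (y : Fin N → Bool), L r y ∘ σ = α := by
  let σ := Equiv.ofBijective _ (Finite.injective_iff_bijective.1 hα)
  have hσ : ∀ n, hc (α (σ.symm n)) = n := fun n => σ.apply_symm_apply n
  obtain ⟨r, hr⟩ : ∃ r, α (σ.symm 0) = Sum.inl r := by
    have := hσ 0
    rcases h : α (σ.symm 0) with r | q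
    · exact ⟨r, rfl⟩
    · rw [h] at this
      exact absurd this (Fin.succ_ne_zero _)
  have : ∀ n : Fin N, ∃ β, α (σ.symm n.succ) = Sum.inr (n, β) := by
    intro n
    have := hσ n.succ
    rcases h : α (σ.symm n.succ) with r | ⟨m, β⟩
    · rw [h] at this
      exact absurd this (Fin.succ_ne_zero _).symm
    · rw [h] at this
      exact ⟨β, by rw [Fin.succ_inj.1 this]⟩
  choose y hy using this
  refine ⟨σ, r, y, funext fun i => ?_⟩
  obtain ⟨n, rfl⟩ := σ.symm.surjective i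
  rw [comp_apply, σ.apply_symm_apply]
  refine Fin.cases ?_ (fun n => ?_) n
  · exact hr.symm
  · exact (hy n).symm

theorem tp_site (h : X.OK T p b) (hp : 0 < p) (x : (Fin (N + 1) → Hv N R) → ℂ)
    (σ : Equiv.Perm (Fin (N + 1))) (k : κ) (y : Fin N → Bool) :
    tp (M X p) x (site X k y ∘ σ) = p * ∑ r, ∑ β : Bool,
      ((X.val (X.cc k) (Sum.inl r) * X.val (X.cl k) (Sum.inr (X.lf k, β)) : ℤ) : ℂ) *
        x (L r (update y (X.lf k) β) ∘ σ) := by
  have hne : σ.symm (X.lf k).succ ≠ σ.symm 0 := fun h => Fin.succ_ne_zero _ (σ.symm.injective h)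
  have h0 : (site X k y ∘ σ) (σ.symm 0) = X.cc k := by simp [site]
  have h1 : (site X k y ∘ σ) (σ.symm (X.lf k).succ) = X.cl k := by simp [site]
  have hpp : ((√p : ℝ) : ℂ) * (√p : ℝ) = p := by exact_mod_cast Real.mul_self_sqrt hp.le
  have hv0 : ∀ q, X.val (X.cc k) (Sum.inr q) = 0 := fun q => by
    by_contra h2
    exact Fin.succ_ne_zero _ ((h.val_comp _ _ h2).symm.trans (h.cc_comp k))
  have hv1 : ∀ r, X.val (X.cl k) (Sum.inl r) = 0 := fun r => by
    by_contra h2
    exact Fin.succ_ne_zero _ ((h.cl_comp k).symm.trans (h.val_comp _ _ h2))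
  have hv2 : ∀ n β, n ≠ X.lf k → X.val (X.cl k) (Sum.inr (n, β)) = 0 := fun n β hn => by
    by_contra h2
    exact hn (Fin.succ_inj.1 ((h.val_comp _ _ h2).symm.trans (h.cl_comp k)))
  have hup : ∀ r β, update (update (site X k y ∘ σ) (σ.symm 0) (X.hv (Sum.inl r)))
      (σ.symm (X.lf k).succ) (X.hv (Sum.inr (X.lf k, β))) =
      X.hv ∘ (L r (update y (X.lf k) β) ∘ σ) := by
    intro r β
    funext i
    obtain ⟨n, rfl⟩ := σ.symm.surjective i
    refine Fin.cases ?_ (fun n => ?_) n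
    · rw [update_of_ne hne.symm, update_self]
      simp [L]
    · by_cases hn : n = X.lf k
      · subst hn
        rw [update_self]
        simp [L]
      · rw [update_of_ne (fun h => hn (Fin.succ_inj.1 (σ.symm.injective h))),
          update_of_ne (fun h => Fin.succ_ne_zero _ (σ.symm.injective h))]
        simp [L, site, hn]
  rw [tp_expand (M_hv h) x _ (σ.symm 0), h0, Fintype.sum_sum_type, Finset.mul_sum]
  simp only [M_light (h.cc_light k), hv0, Int.cast_zero, mul_zero, zero_mul,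
    Finset.sum_const_zero, add_zero]
  refine Finset.sum_congr rfl fun r _ => ?_
  rw [tp_expand (M_hv h) x _ (σ.symm (X.lf k).succ), update_of_ne hne, h1, Fintype.sum_sum_type,
    Fintype.sum_prod_type, Finset.sum_eq_single (X.lf k)]
  · simp only [M_light (h.cl_light k), hv1, Int.cast_zero, mul_zero, zero_mul,
      Finset.sum_const_zero, zero_add, hup, tp_hv (M_hv h), Finset.mul_sum, ← hpp]
    refine Finset.sum_congr rfl fun β _ => ?_
    push_cast
    ring
  · intro n _ hn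
    simp [M_light (h.cl_light k), hv2 _ _ hn]
  · simp

theorem site_injOn (h : X.OK T p b) (β : Bool) :
    Set.InjOn (fun q : Equiv.Perm (Fin (N + 1)) × κ × (Fin N → Bool) => site X q.2.1 q.2.2 ∘ q.1)
      (Finset.univ.filter fun q : Equiv.Perm (Fin (N + 1)) × κ × (Fin N → Bool) =>
        q.2.2 (X.lf q.2.1) = β) := by
  rintro ⟨σ, k, y⟩ h1 ⟨σ', k', y'⟩ h2 he
  simp only [Finset.coe_filter, Finset.mem_univ, true_and, Set.mem_ofPred_eq] at h1 h2 he
  obtain rfl : σ = σ' := Equiv.ext fun i => by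
    rw [← comp_site h k y (σ i), ← comp_site h k' y' (σ' i)]
    exact congrArg X.comp (congrFun he i)
  have h3 := σ.surjective.injective_comp_right he
  obtain rfl : k = k' := h.cc_inj (congrFun h3 0)
  refine Prod.ext rfl (Prod.ext rfl (funext fun n => ?_))
  by_cases hn : n = X.lf k
  · rw [hn]
    exact h1.trans h2.symm
  · have h4 := congrFun h3 n.succ
    simp only [site, Fin.cons_succ, if_neg hn] at h4
    simpa using h.hv_inj h4

theorem e2_ge (h : X.OK T p b) (hK : X.KOK K K0 kfar rep τ) (hp : 0 < p) (hK0 : 0 ≤ K0) {hi : ℝ}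
    (hhi : 0 ≤ hi) (hrep : p ^ 2 * K0 * hi ≤ rep) (hH : ∀ x, hi * sN x ≤ X.H x)
    (x : (Fin (N + 1) → Hv N R) → ℂ) :
    p ^ 2 * K0 * hi * nF x ≤ ∑ g, pw K g * ‖tp (M X p) x g‖ ^ 2 := by
  classical
  set f : (Fin (N + 1) → ι) → ℝ := fun g => pw K g * ‖tp (M X p) x g‖ ^ 2 with hf
  have hf0 : ∀ g, 0 ≤ f g := fun g => mul_nonneg (pw_nonneg hK.nonneg g) (sq_nonneg _)
  rw [← Finset.sum_filter_add_sum_filter_not Finset.univ (fun g => ∀ i, ∃ α, X.hv α = g i), nF,
    ← Finset.sum_filter_add_sum_filter_not Finset.univ (fun α => ¬ Injective (hc ∘ α)), mul_add]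
  refine add_le_add ?_ ?_
  · refine le_trans ?_ (sum_le_of_injOn (fun α => X.hv ∘ α)
      (Finset.univ.filter fun α => ¬ Injective (hc ∘ α)) _ f hf0
      (h.hv_inj.comp_left.injOn) fun α _ =>
        Finset.mem_filter.2 ⟨Finset.mem_univ _, fun i => ⟨α i, rfl⟩⟩)
    rw [Finset.mul_sum]
    refine Finset.sum_le_sum fun α hα => ?_
    obtain ⟨i, j, hij, hne⟩ := not_injective_iff.1 (Finset.mem_filter.1 hα).2
    simp only [hf, tp_hv (M_hv h)]
    exact mul_le_mul_of_nonneg_right (hrep.trans ((hK.rep _ _ hij).trans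
      (le_pw hK.nonneg hK.symm (X.hv ∘ α) hne))) (sq_nonneg _)
  · set S := ∑ g with ¬ ∀ i, ∃ α, X.hv α = g i, f g
    have h1 : ∑ α with ¬¬ Injective (hc ∘ α), ‖x α‖ ^ 2 ≤
        ∑ σ : Equiv.Perm (Fin (N + 1)), sN fun r y => x (L r y ∘ σ) := by
      have h2 := Finset.sum_image_le_of_nonneg (s := Finset.univ)
        (g := fun q : Equiv.Perm (Fin (N + 1)) × Fin R × (Fin N → Bool) => L q.2.1 q.2.2 ∘ q.1)
        (f := fun α => ‖x α‖ ^ 2) fun _ _ => sq_nonneg _
      simp only [Fintype.sum_prod_type] at h2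
      refine (Finset.sum_le_sum_of_subset_of_nonneg (fun α hα => ?_) fun _ _ _ =>
        sq_nonneg _).trans h2
      obtain ⟨σ, r, y, rfl⟩ := exists_L (not_not.1 (Finset.mem_filter.1 hα).2)
      exact Finset.mem_image.2 ⟨(σ, r, y), Finset.mem_univ _, rfl⟩
    have h2 : ∀ β : Bool, ∑ q : Equiv.Perm (Fin (N + 1)) × κ × (Fin N → Bool) with
        q.2.2 (X.lf q.2.1) = β, f (site X q.2.1 q.2.2 ∘ q.1) ≤ S := fun β =>
      sum_le_of_injOn _ _ _ f hf0 (site_injOn h β) fun q _ => by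
        simp only [Finset.mem_filter, Finset.mem_univ, true_and, not_forall, not_exists]
        exact ⟨q.1.symm 0, fun α => by simpa [site] using h.cc_light q.2.1 α⟩
    have h3 : ∑ q : Equiv.Perm (Fin (N + 1)) × κ × (Fin N → Bool),
        f (site X q.2.1 q.2.2 ∘ q.1) ≤ 2 * S := by
      rw [← Finset.sum_filter_add_sum_filter_not Finset.univ (fun q => q.2.2 (X.lf q.2.1) = true)]
      simp only [Bool.not_eq_true]
      linarith [h2 true, h2 false]
    have h4 : ∀ σ : Equiv.Perm (Fin (N + 1)), 2 * (p ^ 2 * K0 * X.H fun r y => x (L r y ∘ σ)) ≤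
        ∑ k, ∑ y, f (site X k y ∘ σ) := by
      intro σ
      simp only [Net.H, sH, Finset.mul_sum]
      refine Finset.sum_le_sum fun k _ => Finset.sum_le_sum fun y _ => ?_
      have h5 := le_pw hK.nonneg hK.symm (site X k y ∘ σ) (i := σ.symm 0)
        (j := σ.symm (X.lf k).succ) fun h => Fin.succ_ne_zero _ (σ.symm.injective h).symm
      simp only [comp_apply, Equiv.apply_symm_apply, site, Fin.cons_zero, Fin.cons_succ, if_true,
        hK.con] at h5
      refine le_trans (le_of_eq ?_) (mul_le_mul_of_nonneg_right h5 (sq_nonneg _))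
      rw [tp_site h hp x σ k y, norm_mul, Complex.norm_real, Real.norm_of_nonneg hp.le]
      ring
    simp only [Fintype.sum_prod_type] at h3
    have h5 := (Finset.sum_le_sum fun σ _ => h4 σ).trans h3
    rw [← Finset.mul_sum, ← Finset.mul_sum] at h5
    have h6 : hi * ∑ σ : Equiv.Perm (Fin (N + 1)), sN (fun r y => x (L r y ∘ σ)) ≤
        ∑ σ : Equiv.Perm (Fin (N + 1)), X.H fun r y => x (L r y ∘ σ) := by
      rw [Finset.mul_sum]
      exact Finset.sum_le_sum fun σ _ => hH _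
    have h7 := mul_le_mul_of_nonneg_left ((mul_le_mul_of_nonneg_left h1 hhi).trans h6)
      (by positivity : 0 ≤ p ^ 2 * K0)
    linarith

theorem pow_mul_le {t : ℝ} (ht : 0 ≤ t) (k : ℕ) (hk : 2 * (k * t) ≤ 1) :
    (1 + t) ^ k * (1 - k * t) ≤ 1 ∧ (1 + t) ^ k ≤ 2 := by
  have h1 : (1 + t) ^ k * (1 - k * t) ≤ 1 := by
    rcases Nat.eq_zero_or_pos k with rfl | hk0
    · simp
    have hk1 : (1 : ℝ) ≤ k := by exact_mod_cast hk0
    have ht1 : t ≤ 1 := by nlinarith
    have h2 := one_add_mul_le_pow (a := -t) (by linarith) k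
    calc (1 + t) ^ k * (1 - k * t) ≤ (1 + t) ^ k * (1 + -t) ^ k :=
          mul_le_mul_of_nonneg_left (by linarith) (by positivity)
      _ = (1 - t ^ 2) ^ k := by rw [← mul_pow]; ring
      _ ≤ 1 := pow_le_one₀ (by nlinarith) (by nlinarith)
  have h0 : 0 ≤ (1 + t) ^ k := by positivity
  exact ⟨h1, by nlinarith⟩

theorem e1_mul (C : ℝ) (T : ι → ι → ℝ) {k : ℕ} (χ : (Fin k → ι) → ℂ) :
    e1 (fun a a' => C * T a a') χ = C * e1 T χ := by
  simp only [e1, Finset.mul_sum, mul_assoc]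

end NetLower

open NetLowerA NetLower in
theorem netLower : NetLowerStmt := by
  intro ι κ _ _ _ N R X T K p b K0 kfar rep τ C hi h hK hp _ hb hC hK0 hhi hpb hrep hτ hH c _
  rw [Finset.mul_sum]
  refine Finset.sum_le_sum fun s _ => ?_
  generalize c s = χ
  have hb0 : 0 < b := by linarith
  have hG0 : 0 ≤ p ^ 2 * K0 * hi := by positivity
  have hτ0 : 0 ≤ τ := hG0.trans hτ
  have hT : ∀ ξ, 0 ≤ qf T ξ := fun ξ => nonneg_of_mul_nonneg_right
    (by simpa [mul_comm] using (Finset.sum_nonneg fun _ _ => sq_nonneg _).trans (h.gap ξ)) hb0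
  have hx := e2_ge h hK hp hK0 hhi hrep hH fun α => χ (X.hv ∘ α)
  have hn' := nF_tp_le (by positivity) (M_norm h hp) fun α => χ (X.hv ∘ α)
  have hxn : nF (fun α => χ (X.hv ∘ α)) ≤ nF χ :=
    sum_le_of_inj h.hv_inj.comp_left (fun g => ‖χ g‖ ^ 2) fun _ => sq_nonneg _
  have hD := defect_le h.hv_inj (c := 1 + p * b) (by nlinarith) hb0.le (M_norm h hp) hT
    (fun ξ => by simpa only [emb_eq] using h.gap ξ) χ
  obtain ⟨hc1, hc2⟩ := pow_mul_le (t := p * b) (by positivity) (N + 1) (by push_cast; linarith)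
  have he := e1_nonneg hT χ
  set χ' := tp (M X p) fun α => χ (X.hv ∘ α)
  set G := p ^ 2 * K0 * hi
  push_cast at hD hc1
  set k : ℝ := N + 1 with hk
  have hk1 : 1 ≤ k := by have : (0 : ℝ) ≤ N := Nat.cast_nonneg N; linarith
  have hs : 0 < C / (4 * k * b) := by positivity
  have hq0 : 0 ≤ 1 - 2 * k * p * b := by linarith
  have hq1 : 1 - 2 * k * p * b ≤ 1 - k * (p * b) := by
    have : 0 ≤ k * (p * b) := by positivity
    linarith
  have hG1 : G * (1 - 2 * k * p * b) ≤ τ := by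
    have : 0 ≤ k * (p * b) := by positivity
    nlinarith
  have h1 := weighted_ge (pw K) hs (pw_nonneg hK.nonneg) (pw_le hτ0 hK.le) χ χ'
  have h2 := weighted_ge (fun _ => G * (1 - 2 * k * p * b)) hs (fun _ => mul_nonneg hG0 hq0)
    (fun _ => hG1) χ' χ
  simp only [← Finset.mul_sum, norm_sub_rev (χ' _)] at h2
  push_cast at h1
  rw [← hk] at h1
  change _ ≤ e2 K χ at h1
  rw [eF, e1_mul]
  simp only [nF] at *
  set n := ∑ g, ‖χ g‖ ^ 2
  set n' := ∑ g, ‖χ' g‖ ^ 2
  set nx := ∑ α : Fin (N + 1) → Hv N R, ‖χ (X.hv ∘ α)‖ ^ 2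
  set D := ∑ g, ‖χ g - χ' g‖ ^ 2
  have hn0 : 0 ≤ n := Finset.sum_nonneg fun _ _ => sq_nonneg _
  have hn0' : 0 ≤ n' := Finset.sum_nonneg fun _ _ => sq_nonneg _
  have hnx0 : 0 ≤ nx := Finset.sum_nonneg fun _ _ => sq_nonneg _
  have h3 : G * (1 - 2 * k * p * b) * n' ≤ G * nx := by
    rw [mul_assoc]
    refine mul_le_mul_of_nonneg_left ?_ hG0
    calc _ ≤ (1 - k * (p * b)) * ((1 + p * b) ^ (N + 1) * nx) :=
          mul_le_mul hq1 hn' hn0' (hq0.trans hq1)
      _ = (1 + p * b) ^ (N + 1) * (1 - k * (p * b)) * nx := by ring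
      _ ≤ nx := mul_le_of_le_one_left hnx0 hc1
  have h4 : 2 * (C / (4 * k * b) * D) ≤ C * e1 T χ := by
    have h5 : D ≤ k * (2 * b * e1 T χ) := hD.trans (by gcongr)
    calc _ ≤ 2 * (C / (4 * k * b) * (k * (2 * b * e1 T χ))) := by gcongr
      _ = _ := by field_simp; ring
  have h5 : (k ^ 2 * τ) ^ 2 / (C / (4 * k * b)) * n' ≤ 8 * (k ^ 5 * τ ^ 2 * b / C * n) := by
    have h6 : n' ≤ 2 * n := hn'.trans (mul_le_mul hc2 hxn hnx0 zero_le_two)
    calc _ ≤ (k ^ 2 * τ) ^ 2 / (C / (4 * k * b)) * (2 * n) := by gcongr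
      _ = _ := by field_simp; ring
  have h6 : τ ^ 2 / (C / (4 * k * b)) * n ≤ 4 * (k ^ 5 * τ ^ 2 * b / C * n) := by
    have h7 : k ≤ k ^ 5 := le_self_pow₀ hk1 (by norm_num)
    calc _ = 4 * (k * τ ^ 2 * b / C * n) := by field_simp
      _ ≤ _ := by gcongr
  have h7 : 0 ≤ k ^ 5 * τ ^ 2 * b / C * n := by positivity
  have h8 : (G * (1 - 2 * k * p * b) - 25 * k ^ 5 * τ ^ 2 * b / C) * n =
      G * (1 - 2 * k * p * b) * n - 25 * (k ^ 5 * τ ^ 2 * b / C * n) := by ring
  rw [h8]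
  linarith

end Crest.Agent.R338
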