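import Crest.Agent.R338.Defs

/-!
# Row 338: tensor powers of a one-body map
-/

set_option autoImplicit false
set_option linter.unusedSectionVars false

noncomputable section

open Function
open scoped ComplexConjugate

namespace Crest.Agent.R338.NetLowerA

variable {ι H : Type} [Fintype ι] [DecidableEq ι] [Fintype H] [DecidableEq H]

theorem sum_cons {A : Type} [AddCommMonoid A] {k : ℕ} (F : (Fin (k + 1) → ι) → A) :
    ∑ g, F g = ∑ a, ∑ h : Fin k → ι, F (Fin.cons a h) := by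
  rw [← (Fin.consEquiv fun _ => ι).sum_comp F, Fintype.sum_prod_type]
  rfl

theorem sum_le_of_injOn {A B : Type} (φ : A → B) (s : Finset A) (t : Finset B) (f : B → ℝ)
    (hf : ∀ b, 0 ≤ f b) (hφ : Set.InjOn φ s) (hst : ∀ a ∈ s, φ a ∈ t) :
    ∑ a ∈ s, f (φ a) ≤ ∑ b ∈ t, f b := by
  classical
  rw [← Finset.sum_image hφ]
  exact Finset.sum_le_sum_of_subset_of_nonneg (Finset.image_subset_iff.2 hst) fun b _ _ => hf b

theorem sum_le_of_inj {A B : Type} [Fintype A] [Fintype B] {φ : A → B} (hφ : Injective φ)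
    (f : B → ℝ) (hf : ∀ b, 0 ≤ f b) : ∑ a, f (φ a) ≤ ∑ b, f b :=
  sum_le_of_injOn φ _ _ f hf hφ.injOn fun _ _ => Finset.mem_univ _

/-- tensor power of the matrix `M` -/
def tp (M : ι → H → ℂ) {k : ℕ} (x : (Fin k → H) → ℂ) (h : Fin k → ι) : ℂ :=
  ∑ α, (∏ j, M (h j) (α j)) * x α

theorem tp_zero (M : ι → H → ℂ) (x : (Fin 0 → H) → ℂ) (h : Fin 0 → ι) :
    tp M x h = x default := by
  simp [tp]

theorem tp_cons (M : ι → H → ℂ) {k : ℕ} (x : (Fin (k + 1) → H) → ℂ) (a : ι) (h : Fin k → ι) :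
    tp M x (Fin.cons a h) = ∑ β, M a β * tp M (fun α => x (Fin.cons β α)) h := by
  simp only [tp, sum_cons, Fin.prod_univ_succ, Fin.cons_zero, Fin.cons_succ, Finset.mul_sum,
    mul_assoc]

theorem tp_hv {M : ι → H → ℂ} {hv : H → ι} (hM : ∀ α β, M (hv α) β = if α = β then 1 else 0)
    {k : ℕ} (x : (Fin k → H) → ℂ) (α : Fin k → H) : tp M x (hv ∘ α) = x α := by
  rw [tp, Finset.sum_eq_single α]
  · simp [hM]
  · intro γ _ hγ
    obtain ⟨j, hj⟩ := Function.ne_iff.1 hγ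
    rw [Finset.prod_eq_zero (Finset.mem_univ j) (by simp [hM, hj.symm]), zero_mul]
  · simp

theorem tp_expand {M : ι → H → ℂ} {hv : H → ι} (hM : ∀ α β, M (hv α) β = if α = β then 1 else 0)
    {k : ℕ} (x : (Fin k → H) → ℂ) (h : Fin k → ι) (i : Fin k) :
    tp M x h = ∑ β, M (h i) β * tp M x (update h i (hv β)) := by
  simp only [tp, Finset.mul_sum]
  rw [Finset.sum_comm]
  refine Finset.sum_congr rfl fun γ _ => ?_
  have h1 : ∀ β, ∏ j, M (update h i (hv β) j) (γ j) =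
      (if β = γ i then 1 else 0) * ∏ j ∈ Finset.univ.erase i, M (h j) (γ j) := by
    intro β
    rw [← Finset.mul_prod_erase _ _ (Finset.mem_univ i), update_self, hM]
    congr 1
    exact Finset.prod_congr rfl fun j hj => by rw [update_of_ne (Finset.ne_of_mem_erase hj)]
  rw [← Finset.mul_prod_erase _ _ (Finset.mem_univ i)]
  simp [h1, mul_assoc]

theorem nF_nonneg {k : ℕ} (c : (Fin k → ι) → ℂ) : 0 ≤ nF c :=
  Finset.sum_nonneg fun _ _ => sq_nonneg _

theorem nF_tp_le {M : ι → H → ℂ} {c : ℝ} (hc : 0 ≤ c)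
    (hM : ∀ x : H → ℂ, ∑ a, ‖∑ β, M a β * x β‖ ^ 2 ≤ c * ∑ β, ‖x β‖ ^ 2) {k : ℕ}
    (x : (Fin k → H) → ℂ) : nF (tp M x) ≤ c ^ k * nF x := by
  induction k with
  | zero => simp [nF, tp_zero]
  | succ k ih =>
    simp only [nF] at ih ⊢
    rw [sum_cons, sum_cons, Finset.sum_comm]
    simp only [tp_cons]
    calc _ ≤ ∑ h : Fin k → ι, c * ∑ β, ‖tp M (fun α => x (Fin.cons β α)) h‖ ^ 2 :=
          Finset.sum_le_sum fun h _ => hM _
      _ = c * ∑ β, ∑ h : Fin k → ι, ‖tp M (fun α => x (Fin.cons β α)) h‖ ^ 2 := by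
          rw [← Finset.mul_sum, Finset.sum_comm]
      _ ≤ c * ∑ β, c ^ k * ∑ α : Fin k → H, ‖x (Fin.cons β α)‖ ^ 2 :=
          mul_le_mul_of_nonneg_left (Finset.sum_le_sum fun β _ => ih _) hc
      _ = _ := by rw [← Finset.mul_sum]; ring

theorem e1_succ (T : ι → ι → ℝ) {k : ℕ} (χ : (Fin (k + 1) → ι) → ℂ) :
    e1 T χ = ∑ h : Fin k → ι, qf T (fun a => χ (Fin.cons a h)) +
      ∑ a, e1 T fun h : Fin k → ι => χ (Fin.cons a h) := by
  simp only [e1, qf, Fin.sum_univ_succ, sum_cons, Fin.cons_zero, Fin.cons_succ,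
    Fin.update_cons_zero, ← Fin.cons_update]
  congr 1
  · rw [Finset.sum_comm]
  · rw [Finset.sum_comm]

theorem e1_nonneg {T : ι → ι → ℝ} (hT : ∀ ξ, 0 ≤ qf T ξ) {k : ℕ} (χ : (Fin k → ι) → ℂ) :
    0 ≤ e1 T χ := by
  induction k with
  | zero => simp [e1]
  | succ k ih =>
    rw [e1_succ]
    exact add_nonneg (Finset.sum_nonneg fun _ _ => hT _) (Finset.sum_nonneg fun _ _ => ih _)

theorem sum_add_sq_le {A : Type} [Fintype A] (u v : A → ℂ) (k : ℕ) {X Y : ℝ} (hY0 : 0 ≤ Y)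
    (hX : ∑ a, ‖u a‖ ^ 2 ≤ X) (hY : ∑ a, ‖v a‖ ^ 2 ≤ k * Y) :
    ∑ a, ‖u a + v a‖ ^ 2 ≤ (k + 1) * (X + Y) := by
  rcases Nat.eq_zero_or_pos k with rfl | hk
  · have h0 : ∀ a, v a = 0 := fun a => by
      have := (Finset.single_le_sum (f := fun a => ‖v a‖ ^ 2) (fun _ _ => sq_nonneg _)
        (Finset.mem_univ a)).trans hY
      simpa using this
    simp only [h0, add_zero]
    push_cast
    linarith
  · have hk' : (0 : ℝ) < k := by exact_mod_cast hk
    refine le_of_mul_le_mul_left ?_ hk'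
    have h1 : k * ∑ a, ‖u a + v a‖ ^ 2 ≤
        k * (k + 1) * ∑ a, ‖u a‖ ^ 2 + (k + 1) * ∑ a, ‖v a‖ ^ 2 := by
      simp only [Finset.mul_sum, ← Finset.sum_add_distrib]
      refine Finset.sum_le_sum fun a _ => ?_
      have h2 := mul_le_mul_of_nonneg_left
        (pow_le_pow_left₀ (norm_nonneg _) (norm_add_le (u a) (v a)) 2) hk'.le
      nlinarith [sq_nonneg (k * ‖u a‖ - ‖v a‖)]
    have h2 := mul_le_mul_of_nonneg_left hX (by positivity : (0 : ℝ) ≤ k * (k + 1))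
    have h3 := mul_le_mul_of_nonneg_left hY (by positivity : (0 : ℝ) ≤ k + 1)
    nlinarith

theorem defect_le {M : ι → H → ℂ} {hv : H → ι} (hinj : Injective hv) {c b : ℝ} (hc : 1 ≤ c)
    (hb : 0 ≤ b) (hM : ∀ x : H → ℂ, ∑ a, ‖∑ β, M a β * x β‖ ^ 2 ≤ c * ∑ β, ‖x β‖ ^ 2)
    {T : ι → ι → ℝ} (hT : ∀ ξ, 0 ≤ qf T ξ)
    (gap : ∀ ξ : ι → ℂ, ∑ a, ‖ξ a - ∑ β, M a β * ξ (hv β)‖ ^ 2 ≤ b * qf T ξ) {k : ℕ}
    (χ : (Fin k → ι) → ℂ) :
    ∑ h, ‖χ h - tp M (fun α => χ (hv ∘ α)) h‖ ^ 2 ≤ k * (c ^ k * b * e1 T χ) := by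
  induction k with
  | zero =>
    simp only [tp_zero, Fintype.sum_unique]
    rw [Subsingleton.elim (hv ∘ default) default]
    simp
  | succ k ih =>
    have hc0 : 0 ≤ c := zero_le_one.trans hc
    have hE0 : 0 ≤ ∑ h : Fin k → ι, qf T (fun a => χ (Fin.cons a h)) :=
      Finset.sum_nonneg fun _ _ => hT _
    have hE1 : 0 ≤ ∑ a, e1 T fun h : Fin k → ι => χ (Fin.cons a h) :=
      Finset.sum_nonneg fun _ _ => e1_nonneg hT _
    have h1 := sum_add_sq_le
      (fun q : ι × (Fin k → ι) => χ (Fin.cons q.1 q.2) - ∑ β, M q.1 β * χ (Fin.cons (hv β) q.2))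
      (fun q => ∑ β, M q.1 β *
        (χ (Fin.cons (hv β) q.2) - tp M (fun α => χ (Fin.cons (hv β) (hv ∘ α))) q.2)) k
      (X := b * ∑ h : Fin k → ι, qf T (fun a => χ (Fin.cons a h)))
      (Y := c ^ (k + 1) * b * ∑ a, e1 T fun h : Fin k → ι => χ (Fin.cons a h))
      (by positivity) (by
        rw [Fintype.sum_prod_type, Finset.sum_comm, Finset.mul_sum]
        exact Finset.sum_le_sum fun h _ => gap fun a => χ (Fin.cons a h)) (by
        rw [Fintype.sum_prod_type, Finset.sum_comm]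
        calc _ ≤ ∑ h : Fin k → ι, c * ∑ β, ‖χ (Fin.cons (hv β) h) -
              tp M (fun α => χ (Fin.cons (hv β) (hv ∘ α))) h‖ ^ 2 :=
              Finset.sum_le_sum fun h _ => hM _
          _ = c * ∑ β, ∑ h : Fin k → ι, ‖χ (Fin.cons (hv β) h) -
              tp M (fun α => χ (Fin.cons (hv β) (hv ∘ α))) h‖ ^ 2 := by
              rw [← Finset.mul_sum, Finset.sum_comm]
          _ ≤ c * ∑ β, k * (c ^ k * b * e1 T fun h : Fin k → ι => χ (Fin.cons (hv β) h)) :=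
              mul_le_mul_of_nonneg_left
                (Finset.sum_le_sum fun β _ => ih fun h => χ (Fin.cons (hv β) h)) hc0
          _ = k * (c ^ (k + 1) * b) * ∑ β, e1 T fun h : Fin k → ι => χ (Fin.cons (hv β) h) := by
              simp only [← Finset.mul_sum]
              ring
          _ ≤ k * (c ^ (k + 1) * b) * ∑ a, e1 T fun h : Fin k → ι => χ (Fin.cons a h) :=
              mul_le_mul_of_nonneg_left (sum_le_of_inj hinj
                (fun a => e1 T fun h : Fin k → ι => χ (Fin.cons a h)) fun _ => e1_nonneg hT _)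
                (by positivity)
          _ = _ := by ring)
    rw [sum_cons, e1_succ]
    rw [Fintype.sum_prod_type] at h1
    have h2 : b * ∑ h : Fin k → ι, qf T (fun a => χ (Fin.cons a h)) ≤
        c ^ (k + 1) * (b * ∑ h : Fin k → ι, qf T (fun a => χ (Fin.cons a h))) :=
      le_mul_of_one_le_left (mul_nonneg hb hE0) (one_le_pow₀ hc)
    refine le_trans (le_of_eq ?_) (h1.trans ?_)
    · refine Finset.sum_congr rfl fun a _ => Finset.sum_congr rfl fun h _ => ?_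
      simp only [tp_cons, Fin.comp_cons, mul_sub, Finset.sum_sub_distrib, sub_add_sub_cancel]
    · push_cast
      refine mul_le_mul_of_nonneg_left ?_ (by positivity)
      linarith

/-- the pair energy of a configuration -/
def pw (K : ι → ι → ℝ) {k : ℕ} (g : Fin k → ι) : ℝ := ∑ i, ∑ j, if i < j then K (g i) (g j) else 0

theorem pw_nonneg {K : ι → ι → ℝ} (hK : ∀ a b, 0 ≤ K a b) {k : ℕ} (g : Fin k → ι) : 0 ≤ pw K g :=
  Finset.sum_nonneg fun _ _ => Finset.sum_nonneg fun _ _ => by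
    split_ifs
    · exact hK _ _
    · exact le_rfl

theorem pw_le {K : ι → ι → ℝ} {τ : ℝ} (hτ : 0 ≤ τ) (hK : ∀ a b, K a b ≤ τ) {k : ℕ}
    (g : Fin k → ι) : pw K g ≤ k ^ 2 * τ := by
  refine le_trans (Finset.sum_le_sum fun i _ => Finset.sum_le_sum (g := fun _ => τ) fun j _ => ?_)
    (le_of_eq ?_)
  · split_ifs
    · exact hK _ _
    · exact hτ
  · simp
    ring

theorem le_pw {K : ι → ι → ℝ} (hK : ∀ a b, 0 ≤ K a b) (hs : ∀ a b, K a b = K b a) {k : ℕ}
    (g : Fin k → ι) {i j : Fin k} (hij : i ≠ j) : K (g i) (g j) ≤ pw K g := by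
  have key : ∀ i j : Fin k, i < j → K (g i) (g j) ≤ pw K g := by
    intro i j hij
    have h0 : ∀ i j : Fin k, 0 ≤ if i < j then K (g i) (g j) else 0 := fun i j => by
      split_ifs
      · exact hK _ _
      · exact le_rfl
    refine le_trans ?_ (Finset.single_le_sum
      (f := fun i => ∑ j, if i < j then K (g i) (g j) else 0)
      (fun i _ => Finset.sum_nonneg fun j _ => h0 i j) (Finset.mem_univ i))
    refine le_trans ?_ (Finset.single_le_sum (f := fun j => if i < j then K (g i) (g j) else 0)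
      (fun j _ => h0 i j) (Finset.mem_univ j))
    rw [if_pos hij]
  rcases lt_or_gt_of_ne hij with h | h
  · exact key i j h
  · rw [hs]
    exact key j i h

/-- comparison of weighted squared norms of two nearby vectors -/
theorem weighted_ge {A : Type} [Fintype A] (w : A → ℝ) {W s : ℝ} (hs : 0 < s)
    (h0 : ∀ a, 0 ≤ w a) (hW : ∀ a, w a ≤ W) (u v : A → ℂ) :
    ∑ a, w a * ‖v a‖ ^ 2 - s * ∑ a, ‖u a - v a‖ ^ 2 - W ^ 2 / s * ∑ a, ‖v a‖ ^ 2 ≤
      ∑ a, w a * ‖u a‖ ^ 2 := by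
  simp only [Finset.mul_sum, ← Finset.sum_sub_distrib]
  refine Finset.sum_le_sum fun a _ => ?_
  have h1 : ‖v a‖ ^ 2 - 2 * ‖v a‖ * ‖u a - v a‖ ≤ ‖u a‖ ^ 2 := by
    have h2 := abs_norm_sub_norm_le (u a) (v a)
    have h3 := abs_le.1 h2
    nlinarith [norm_nonneg (u a), norm_nonneg (v a), sq_nonneg (‖u a‖ - ‖v a‖)]
  have h2 := mul_le_mul_of_nonneg_left h1 (h0 a)
  have h3 : w a ^ 2 / s * ‖v a‖ ^ 2 ≤ W ^ 2 / s * ‖v a‖ ^ 2 :=
    mul_le_mul_of_nonneg_right
      (div_le_div_of_nonneg_right (pow_le_pow_left₀ (h0 a) (hW a) 2) hs.le) (sq_nonneg _)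
  have h4 : 0 ≤ (s * ‖u a - v a‖ - w a * ‖v a‖) ^ 2 / s := by positivity
  have h5 : (s * ‖u a - v a‖ - w a * ‖v a‖) ^ 2 / s =
      s * ‖u a - v a‖ ^ 2 - 2 * w a * ‖v a‖ * ‖u a - v a‖ + w a ^ 2 / s * ‖v a‖ ^ 2 := by
    field_simp
    ring
  nlinarith

end Crest.Agent.R338.NetLowerA
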