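import Crest.Agent.R338.NetUpperA

/-! Upper bound for `N + 1` holes in a network. -/

noncomputable section

open Function
open scoped ComplexConjugate

set_option linter.unusedSectionVars false

namespace Crest.Agent.R338

namespace NetUpper

variable {ι κ : Type} [Fintype ι] [DecidableEq ι] [Fintype κ] {N R : ℕ} (X : Net ι κ N R)

/-- logical labels of a basis tuple -/
def lab (α : Fin R) (y : Fin N → Bool) : Fin (N + 1) → Hv N R :=
  Fin.cons (Sum.inl α) fun i => Sum.inr (i, y i)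

lemma hc_lab (α : Fin R) (y : Fin N → Bool) (j : Fin (N + 1)) : hc (lab α y j) = j := by
  refine Fin.cases ?_ (fun i => ?_) j <;> simp [lab, hc]

/-- one-particle amplitude -/
def phi (p : ℝ) (a : ι) (γ : Hv N R) : ℂ := (X.sw p a : ℂ) * (X.val a γ : ℂ)

/-- the product trial state -/
def chi (p : ℝ) (x : Fin R → (Fin N → Bool) → ℂ) (h : Fin (N + 1) → ι) : ℂ :=
  ∑ α, ∑ y, x α y * ∏ j, phi X p (h j) (lab α y j)

variable {X} {T K : ι → ι → ℝ} {p b K0 kfar rep τ : ℝ}

lemma chi_supp (hX : X.OK T p b) (x : Fin R → (Fin N → Bool) → ℂ) (h : Fin (N + 1) → ι)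
    (h0 : chi X p x h ≠ 0) (j : Fin (N + 1)) : X.comp (h j) = j := by
  obtain ⟨α, -, h1⟩ := Finset.exists_ne_zero_of_sum_ne_zero h0
  obtain ⟨y, -, h2⟩ := Finset.exists_ne_zero_of_sum_ne_zero h1
  have h3 := Finset.prod_ne_zero_iff.1 (right_ne_zero_of_mul h2) j (Finset.mem_univ _)
  have h4 : X.val (h j) (lab α y j) ≠ 0 := fun h5 => h3 (by simp [phi, h5])
  rw [hX.val_comp _ _ h4, hc_lab]

/-- functions in the range of the embedding -/
def IsEmb (X : Net ι κ N R) (p : ℝ) (φ : ι → ℂ) : Prop := ∃ x', φ = X.emb p x'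

omit [Fintype ι] [Fintype κ] in
lemma IsEmb.sum {A : Type} (s : Finset A) (c : A → ℂ) (φ : A → ι → ℂ)
    (h : ∀ i, IsEmb X p (φ i)) : IsEmb X p fun a => ∑ i ∈ s, c i * φ i a := by
  choose x hx using h
  refine ⟨fun γ => ∑ i ∈ s, c i * x i γ, funext fun a => ?_⟩
  simp only [hx, Net.emb, Finset.mul_sum]
  rw [Finset.sum_comm]
  exact Finset.sum_congr rfl fun γ _ => Finset.sum_congr rfl fun i _ => by ring

omit [Fintype ι] [Fintype κ] in
lemma isEmb_phi (γ : Hv N R) : IsEmb X p fun a => phi X p a γ := by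
  refine ⟨Pi.single γ 1, funext fun a => ?_⟩
  simp [Net.emb, phi, Pi.single_apply]

omit [Fintype ι] [Fintype κ] in
lemma isEmb_chi (x : Fin R → (Fin N → Bool) → ℂ) (h : Fin (N + 1) → ι) (j : Fin (N + 1)) :
    IsEmb X p fun a => chi X p x (update h j a) := by
  have e : (fun a => chi X p x (update h j a)) = fun a => ∑ q : Fin R × (Fin N → Bool),
      (x q.1 q.2 * ∏ j' ∈ Finset.univ.erase j, phi X p (h j') (lab q.1 q.2 j')) *
        phi X p a (lab q.1 q.2 j) := by
    funext a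
    rw [chi, Fintype.sum_prod_type]
    refine Finset.sum_congr rfl fun α _ => Finset.sum_congr rfl fun y _ => ?_
    rw [← Finset.prod_erase_mul _ _ (Finset.mem_univ j), update_self, mul_assoc]
    congr 2
    exact Finset.prod_congr rfl fun j' hj' => by rw [update_of_ne (Finset.ne_of_mem_erase hj')]
  rw [e]
  exact IsEmb.sum _ _ _ fun q => isEmb_phi _

omit [Fintype ι] [Fintype κ] in
lemma isEmb_asym (x : Fin R → (Fin N → Bool) → ℂ) (h : Fin (N + 1) → ι) (j : Fin (N + 1)) :
    IsEmb X p fun a => asym (chi X p x) (update h j a) := by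
  have e : (fun a => asym (chi X p x) (update h j a)) = fun a => ∑ π : Equiv.Perm (Fin (N + 1)),
      ((Equiv.Perm.sign π : ℤ) : ℂ) * chi X p x (update (fun i => h (π i)) (π.symm j) a) := by
    funext a
    refine Finset.sum_congr rfl fun π _ => ?_
    congr 2
    exact update_comp_equiv h π j a
  rw [e]
  exact IsEmb.sum _ _ _ fun π => isEmb_chi _ _ _

lemma phi_hv (hX : X.OK T p b) (γ γ' : Hv N R) :
    phi X p (X.hv γ) γ' = if γ = γ' then 1 else 0 := by
  have : X.sw p (X.hv γ) = 1 := if_pos ⟨γ, rfl⟩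
  rw [phi, this, hX.val_hv]
  split_ifs <;> simp

lemma lab_inj {α α' : Fin R} {y y' : Fin N → Bool} (h : lab α y = lab α' y') :
    α = α' ∧ y = y' := by
  refine ⟨?_, funext fun i => ?_⟩
  · simpa [lab] using congrFun h 0
  · simpa [lab] using congrFun h i.succ

lemma chi_heavy (hX : X.OK T p b) (x : Fin R → (Fin N → Bool) → ℂ) (α : Fin R)
    (y : Fin N → Bool) : chi X p x (fun j => X.hv (lab α y j)) = x α y := by
  have key : ∀ α' y', (∏ j, phi X p (X.hv (lab α y j)) (lab α' y' j)) =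
      if α' = α ∧ y' = y then 1 else 0 := by
    intro α' y'
    simp only [phi_hv hX]
    split_ifs with h
    · obtain ⟨rfl, rfl⟩ := h; simp
    · by_contra h0
      apply h
      have h1 : lab α y = lab α' y' := funext fun j => by
        by_contra h2
        exact h0 (Finset.prod_eq_zero (Finset.mem_univ j) (if_neg h2))
      exact ⟨(lab_inj h1).1.symm, (lab_inj h1).2.symm⟩
  simp only [chi, key]
  rw [Finset.sum_eq_single α, Finset.sum_eq_single y] <;> simp +contextual

lemma sN_le (hX : X.OK T p b) (x : Fin R → (Fin N → Bool) → ℂ) : sN x ≤ nF (chi X p x) := by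
  classical
  let e : Fin R × (Fin N → Bool) → (Fin (N + 1) → ι) := fun q j => X.hv (lab q.1 q.2 j)
  have he : Injective e := by
    intro q q' h
    have h1 : lab q.1 q.2 = lab q'.1 q'.2 := funext fun j => hX.hv_inj (congrFun h j)
    exact Prod.ext (lab_inj h1).1 (lab_inj h1).2
  have h1 : sN x = ∑ g ∈ Finset.univ.image e, ‖chi X p x g‖ ^ 2 := by
    rw [Finset.sum_image fun q _ q' _ h => he h, sN, Fintype.sum_prod_type]
    simp only [e, chi_heavy hX]
  rw [h1, nF]
  exact Finset.sum_le_sum_of_subset_of_nonneg (Finset.subset_univ _) fun _ _ _ => by positivity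

lemma leaf_bound (hX : X.OK T p b) (hp : 0 < p) (i : Fin N) (v : Bool → ℂ) :
    ∑ a, ‖∑ β, phi X p a (Sum.inr (i, β)) * v β‖ ^ 2 ≤ (1 + p * b) * ∑ β, ‖v β‖ ^ 2 := by
  have hV : 0 ≤ ∑ β, ‖v β‖ ^ 2 := by positivity
  have key : ∀ a, ‖∑ β, phi X p a (Sum.inr (i, β)) * v β‖ ^ 2 ≤
      (∑ β, if a = X.hv (Sum.inr (i, β)) then ‖v β‖ ^ 2 else 0) +
        p * (∑ γ, ((X.val a γ : ℝ)) ^ 2) * ∑ β, ‖v β‖ ^ 2 := by
    intro a
    by_cases ha : ∃ γ, X.hv γ = a
    · obtain ⟨γ, rfl⟩ := ha
      refine le_add_of_le_of_nonneg (le_of_eq ?_) (by positivity)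
      simp only [phi_hv hX, hX.hv_inj.eq_iff, Fintype.sum_bool]
      by_cases h1 : γ = Sum.inr (i, true) <;> by_cases h2 : γ = Sum.inr (i, false)
      · rw [h1] at h2; simp at h2
      · simp [h1]
      · simp [h2]
      · simp [h1, h2]
    · refine le_add_of_nonneg_of_le (Finset.sum_nonneg fun β _ => by split_ifs <;> positivity) ?_
      have hs : X.sw p a = √p := if_neg ha
      have h1 : ‖∑ β, phi X p a (Sum.inr (i, β)) * v β‖ ≤
          √p * ∑ β, |(X.val a (Sum.inr (i, β)) : ℝ)| * ‖v β‖ := by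
        refine (norm_sum_le _ _).trans (le_of_eq ?_)
        rw [Finset.mul_sum]
        refine Finset.sum_congr rfl fun β _ => ?_
        rw [phi, hs, norm_mul, norm_mul, Complex.norm_real, Complex.norm_intCast, Real.norm_eq_abs,
          abs_of_nonneg (Real.sqrt_nonneg p), mul_assoc]
      have h2 := Finset.sum_mul_sq_le_sq_mul_sq Finset.univ
        (fun β => |(X.val a (Sum.inr (i, β)) : ℝ)|) (fun β => ‖v β‖)
      simp only [sq_abs] at h2
      have h3 : ∑ β, ((X.val a (Sum.inr (i, β)) : ℝ)) ^ 2 ≤ ∑ γ, ((X.val a γ : ℝ)) ^ 2 := by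
        rw [Fintype.sum_sum_type, Fintype.sum_prod_type]
        refine le_add_of_nonneg_of_le (by positivity) ?_
        exact Finset.single_le_sum (f := fun i' => ∑ β, ((X.val a (Sum.inr (i', β)) : ℝ)) ^ 2)
          (fun _ _ => by positivity) (Finset.mem_univ i)
      calc _ ≤ (√p * ∑ β, |(X.val a (Sum.inr (i, β)) : ℝ)| * ‖v β‖) ^ 2 :=
            pow_le_pow_left₀ (norm_nonneg _) h1 2
        _ = p * (∑ β, |(X.val a (Sum.inr (i, β)) : ℝ)| * ‖v β‖) ^ 2 := by
            rw [mul_pow, Real.sq_sqrt hp.le]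
        _ ≤ p * ((∑ γ, ((X.val a γ : ℝ)) ^ 2) * ∑ β, ‖v β‖ ^ 2) :=
            mul_le_mul_of_nonneg_left (h2.trans (mul_le_mul_of_nonneg_right h3 hV)) hp.le
        _ = _ := by ring
  refine (Finset.sum_le_sum fun a _ => key a).trans ?_
  rw [Finset.sum_add_distrib, Finset.sum_comm, ← Finset.sum_mul, ← Finset.mul_sum]
  simp only [Finset.sum_ite_eq', Finset.mem_univ, if_true]
  have := mul_le_mul_of_nonneg_right (mul_le_mul_of_nonneg_left hX.val_sq hp.le) hV
  linarith

lemma contact_bound (hX : X.OK T p b) (hp : 0 < p) (hb : 1 ≤ b)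
    (x : Fin R → (Fin N → Bool) → ℂ) (k : κ) :
    ∑ h : Fin (N + 1) → ι, (if h 0 = X.cc k ∧ h (X.lf k).succ = X.cl k then
      ‖chi X p x h‖ ^ 2 else 0) ≤ p ^ 2 * (1 + p * b) ^ N * ((1 / 2) * ∑ y : Fin N → Bool,
      ‖∑ α, ∑ β : Bool, ((X.val (X.cc k) (Sum.inl α) * X.val (X.cl k) (Sum.inr (X.lf k, β)) : ℤ) : ℂ)
        * x α (update y (X.lf k) β)‖ ^ 2) := by
  set w : (Fin N → Bool) → ℂ := fun y => ∑ α, ∑ β : Bool,
    ((X.val (X.cc k) (Sum.inl α) * X.val (X.cl k) (Sum.inr (X.lf k, β)) : ℤ) : ℂ)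
        * x α (update y (X.lf k) β) with hw
  let J : Fin N → ι → Bool → ℂ := fun i a β =>
    if i = X.lf k then (if a = X.cl k then 1 / 2 else 0) else phi X p a (Sum.inr (i, β))
  let c : Fin N → ℝ := fun i => (1 + p * b) * if i = X.lf k then 1 / 2 else 1
  have hpb : 0 ≤ p * b := by positivity
  have hc : ∀ i, 0 ≤ c i := fun i => by
    simp only [c]; split_ifs <;> positivity
  have hJ : ∀ i (v : Bool → ℂ), ∑ a, ‖∑ β, J i a β * v β‖ ^ 2 ≤ c i * ∑ β, ‖v β‖ ^ 2 := by
    intro i v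
    by_cases hi : i = X.lf k
    · simp only [J, c, if_pos hi]
      rw [Finset.sum_eq_single (X.cl k) (fun a _ ha => by simp [ha]) (by simp)]
      simp only [if_true, Fintype.sum_bool, ← mul_add, norm_mul]
      have h1 := norm_add_le (v true) (v false)
      have h2 : ‖(1 / 2 : ℂ)‖ = 1 / 2 := by simp
      have h3 := pow_le_pow_left₀ (norm_nonneg _) h1 2
      rw [h2, mul_pow]
      nlinarith [sq_nonneg (‖v true‖ - ‖v false‖), mul_nonneg hpb (sq_nonneg ‖v true‖),
        mul_nonneg hpb (sq_nonneg ‖v false‖)]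
    · simp only [J, c, if_neg hi, mul_one]
      exact leaf_bound hX hp i v
  have hT := tensor_bound N J c hc hJ w
  have hprod : ∏ i, c i = (1 + p * b) ^ N * (1 / 2) := by
    simp only [c, Finset.prod_mul_distrib, Finset.prod_const, Finset.card_univ, Fintype.card_fin,
      Finset.prod_ite_eq', Finset.mem_univ, if_true]
  have hs1 : X.sw p (X.cc k) = √p := if_neg fun ⟨α, h⟩ => hX.cc_light k α h
  have hs2 : X.sw p (X.cl k) = √p := if_neg fun ⟨α, h⟩ => hX.cl_light k α h
  have hpp : ((√p : ℝ) : ℂ) * ((√p : ℝ) : ℂ) = p := by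
    rw [← Complex.ofReal_mul, Real.mul_self_sqrt hp.le]
  have key : ∀ u : Fin N → ι, (if u (X.lf k) = X.cl k then
      ‖chi X p x (Fin.cons (X.cc k) u)‖ ^ 2 else 0) =
      p ^ 2 * ‖∑ y : Fin N → Bool, (∏ i, J i (u i) (y i)) * w y‖ ^ 2 := by
    intro u
    have hP : ∀ y : Fin N → Bool, ∏ i, J i (u i) (y i) =
        (if u (X.lf k) = X.cl k then 1 / 2 else 0) *
          ∏ i ∈ Finset.univ.erase (X.lf k), phi X p (u i) (Sum.inr (i, y i)) := by
      intro y
      rw [← Finset.mul_prod_erase _ _ (Finset.mem_univ (X.lf k))]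
      congr 1
      · simp [J]
      · exact Finset.prod_congr rfl fun i hi => by simp [J, Finset.ne_of_mem_erase hi]
    simp only [hP]
    split_ifs with hu
    · have h1 := sum_update (X.lf k) (fun y : Fin N → Bool =>
        (∏ i ∈ Finset.univ.erase (X.lf k), phi X p (u i) (Sum.inr (i, y i))) *
          ∑ α, ((X.val (X.cc k) (Sum.inl α) * X.val (X.cl k) (Sum.inr (X.lf k, y (X.lf k))) : ℤ) : ℂ)
            * x α y)
      have h2 : ∀ (y : Fin N → Bool) (β : Bool),
          ∏ i ∈ Finset.univ.erase (X.lf k), phi X p (u i) (Sum.inr (i, update y (X.lf k) β i)) =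
          ∏ i ∈ Finset.univ.erase (X.lf k), phi X p (u i) (Sum.inr (i, y i)) := fun y β =>
        Finset.prod_congr rfl fun i hi => by rw [update_of_ne (Finset.ne_of_mem_erase hi)]
      simp only [h2, update_self, ← Finset.mul_sum, Fintype.card_bool] at h1
      have h3 : chi X p x (Fin.cons (X.cc k) u) = (p : ℂ) * ∑ y : Fin N → Bool,
          (∏ i ∈ Finset.univ.erase (X.lf k), phi X p (u i) (Sum.inr (i, y i))) *
          ∑ α, ((X.val (X.cc k) (Sum.inl α) * X.val (X.cl k) (Sum.inr (X.lf k, y (X.lf k))) : ℤ) : ℂ)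
            * x α y := by
        rw [chi, Finset.sum_comm, Finset.mul_sum]
        refine Finset.sum_congr rfl fun y _ => ?_
        rw [Finset.mul_sum, Finset.mul_sum]
        refine Finset.sum_congr rfl fun α _ => ?_
        rw [Fin.prod_univ_succ]
        simp only [lab, Fin.cons_zero, Fin.cons_succ]
        rw [← Finset.mul_prod_erase _ _ (Finset.mem_univ (X.lf k)), hu]
        simp only [phi, hs1, hs2]
        push_cast
        rw [← hpp]
        ring
      have h4 : ∑ y : Fin N → Bool, (1 / 2 * ∏ i ∈ Finset.univ.erase (X.lf k),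
          phi X p (u i) (Sum.inr (i, y i))) * w y = ∑ y : Fin N → Bool,
          (∏ i ∈ Finset.univ.erase (X.lf k), phi X p (u i) (Sum.inr (i, y i))) *
          ∑ α, ((X.val (X.cc k) (Sum.inl α) * X.val (X.cl k) (Sum.inr (X.lf k, y (X.lf k))) : ℤ) : ℂ)
            * x α y := by
        simp only [mul_assoc (1 / 2 : ℂ), ← Finset.mul_sum, hw]
        simp only [Finset.sum_comm (γ := Fin R)]
        rw [h1, nsmul_eq_mul]
        push_cast
        ring
      rw [h3, h4, norm_mul, mul_pow, Complex.norm_real, Real.norm_eq_abs, sq_abs]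
    · simp
  rw [sum_cons, Finset.sum_eq_single (X.cc k) (fun a _ ha => by simp [ha]) (by simp)]
  simp only [Fin.cons_zero, Fin.cons_succ, true_and, key]
  rw [← Finset.mul_sum, mul_assoc]
  refine mul_le_mul_of_nonneg_left (hT.trans (le_of_eq ?_)) (by positivity)
  rw [hprod, mul_assoc]

lemma pw_le (hX : X.OK T p b) (hK : X.KOK K K0 kfar rep τ) (hK0 : 0 ≤ K0) (hk : 0 ≤ kfar)
    (h : Fin (N + 1) → ι) (hh : ∀ j, X.comp (h j) = j) :
    pw K h ≤ (N + 1) ^ 2 * kfar +
      K0 * ∑ k, if h 0 = X.cc k ∧ h (X.lf k).succ = X.cl k then 1 else 0 := by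
  have key : ∀ i j : Fin (N + 1), (if i < j then K (h i) (h j) else 0) ≤
      kfar + K0 * ∑ k, if (i = 0 ∧ j = (X.lf k).succ) then
        (if h 0 = X.cc k ∧ h (X.lf k).succ = X.cl k then 1 else 0) else 0 := by
    intro i j
    have hn : ∀ k, (0 : ℝ) ≤ if (i = 0 ∧ j = (X.lf k).succ) then
        (if h 0 = X.cc k ∧ h (X.lf k).succ = X.cl k then 1 else 0) else 0 := fun k => by
      split_ifs <;> norm_num
    have hS := Finset.sum_nonneg fun k (_ : k ∈ Finset.univ) => hn k
    split_ifs with hij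
    · by_cases h1 : ∃ k, h i = X.cc k ∧ h j = X.cl k
      · obtain ⟨k, h2, h3⟩ := h1
        have hi : i = 0 := by rw [← hh i, h2, hX.cc_comp]
        have hj : j = (X.lf k).succ := by rw [← hh j, h3, hX.cl_comp]
        have h4 := Finset.single_le_sum (fun k _ => hn k) (Finset.mem_univ k)
        rw [if_pos ⟨hi, hj⟩, if_pos ⟨hi ▸ h2, hj ▸ h3⟩] at h4
        rw [h2, h3, hK.con]
        nlinarith
      · refine le_add_of_le_of_nonneg (hK.far _ _ ?_ (fun k hk => h1 ⟨k, hk⟩) ?_) (by positivity)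
        · rw [hh, hh]; exact hij.ne
        · rintro k ⟨h2, -⟩
          have hj : j = 0 := by rw [← hh j, h2, hX.cc_comp]
          rw [hj] at hij
          exact absurd hij (Fin.not_lt_zero i)
    · positivity
  refine (Finset.sum_le_sum fun i _ => Finset.sum_le_sum fun j _ => key i j).trans (le_of_eq ?_)
  simp only [Finset.sum_add_distrib, Finset.sum_const, Finset.card_univ, Fintype.card_fin,
    nsmul_eq_mul, ← Finset.mul_sum]
  congr 1
  · push_cast; ring
  · congr 1
    rw [Finset.sum_eq_single 0 (fun i _ hi => by simp [hi]) (by simp), Finset.sum_comm]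
    refine Finset.sum_congr rfl fun k _ => ?_
    simp only [true_and, Finset.sum_ite_eq', Finset.mem_univ, if_true]

lemma e2_chi (hX : X.OK T p b) (hK : X.KOK K K0 kfar rep τ) (hp : 0 < p) (hb : 1 ≤ b)
    (hK0 : 0 ≤ K0) (hk : 0 ≤ kfar) (x : Fin R → (Fin N → Bool) → ℂ) :
    ∑ g, pw K g * ‖chi X p x g‖ ^ 2 ≤
      (N + 1) ^ 2 * kfar * nF (chi X p x) + K0 * (p ^ 2 * (1 + p * b) ^ N * X.H x) := by
  have key : ∀ g, pw K g * ‖chi X p x g‖ ^ 2 ≤ (N + 1) ^ 2 * kfar * ‖chi X p x g‖ ^ 2 +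
      K0 * ∑ k, if g 0 = X.cc k ∧ g (X.lf k).succ = X.cl k then ‖chi X p x g‖ ^ 2 else 0 := by
    intro g
    by_cases h0 : chi X p x g = 0
    · simp [h0]
    · refine (mul_le_mul_of_nonneg_right (pw_le hX hK hK0 hk g (chi_supp hX x g h0))
        (by positivity)).trans (le_of_eq ?_)
      rw [add_mul, mul_assoc K0, Finset.sum_mul]
      simp only [ite_mul, one_mul, zero_mul]
  refine (Finset.sum_le_sum fun g _ => key g).trans ?_
  rw [Finset.sum_add_distrib, ← Finset.mul_sum, ← Finset.mul_sum, Finset.sum_comm, nF]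
  refine add_le_add le_rfl (mul_le_mul_of_nonneg_left ?_ hK0)
  rw [Net.H, sH, Finset.mul_sum]
  exact Finset.sum_le_sum fun k _ => contact_bound hX hp hb x k

end NetUpper

open NetUpper in
theorem netUpper : NetUpperStmt := by
  intro ι κ _ _ _ N R X T K p b K0 kfar rep τ C lo hX hK hp hp1 hb hK0 hk hlo hpb ⟨x, hx0, hx⟩
  have hsupp := chi_supp hX x
  have hnF : nF (asym (chi X p x)) = ((N + 1).factorial : ℝ) * nF (chi X p x) := by
    simpa [nF] using sum_asym (chi X p x) X.comp hsupp (fun _ => 1) (fun _ _ => rfl)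
  have he2 : e2 K (asym (chi X p x)) =
      ((N + 1).factorial : ℝ) * ∑ g, pw K g * ‖chi X p x g‖ ^ 2 :=
    sum_asym (chi X p x) X.comp hsupp (pw K) (pw_perm K hK.symm)
  have he1 : e1 (fun a a' => C * T a a') (asym (chi X p x)) = 0 := by
    refine e1_eq_zero _ _ fun i g => ?_
    obtain ⟨x', hx'⟩ := isEmb_asym (X := X) (p := p) x g i
    have h1 := hX.ker x'
    rw [hx']
    simp only [qf, mul_assoc, ← Finset.mul_sum] at h1 ⊢
    rw [h1, mul_zero]
  have hf : (0 : ℝ) < ((N + 1).factorial : ℝ) := by exact_mod_cast Nat.factorial_pos _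
  have hs := sN_le hX x
  have hsum : ∀ F : ((Fin (N + 1) → ι) → ℂ) → ℝ, F 0 = 0 →
      ∑ s : Fin (N + 1) → Fin 2, F (if s = 0 then asym (chi X p x) else 0) =
        F (asym (chi X p x)) := by
    intro F hF
    rw [Finset.sum_eq_single 0 (fun s _ hs => by simp [hs, hF]) (by simp), if_pos rfl]
  refine ⟨fun s => if s = 0 then asym (chi X p x) else 0, fun σ s g => ?_, ?_, ?_⟩
  · have : (fun i => s (σ i)) = 0 ↔ s = 0 := by
      constructor
      · intro h; funext i; simpa using congrFun h (σ.symm i)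
      · rintro rfl; rfl
    by_cases h : s = 0
    · simp only [if_pos h, if_pos (this.2 h)]
      exact asym_perm _ _ _
    · simp only [if_neg h, if_neg (this.not.2 h)]
      simp
  · rw [hsum nF (by simp [nF]), hnF]
    exact mul_pos hf (hx0.trans_le hs)
  · rw [hsum nF (by simp [nF]), hsum (eF _ K) (by simp [eF, e1, e2]), eF, he1, he2, hnF, zero_add,
      mul_left_comm]
    refine mul_le_mul_of_nonneg_left ((e2_chi hX hK hp hb hK0 hk x).trans ?_) hf.le
    have hpb0 : 0 ≤ p * b := by positivity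
    have hN : (0 : ℝ) ≤ N := Nat.cast_nonneg N
    have h1 : (1 + p * b) ^ N ≤ 1 + 2 * (N + 1) * p * b :=
      (pow_le (p * b) hpb0 N (by nlinarith)).trans (by nlinarith)
    have h2 : X.H x ≤ lo * nF (chi X p x) := hx.trans (mul_le_mul_of_nonneg_left hs hlo)
    have h3 : 0 ≤ lo * nF (chi X p x) := mul_nonneg hlo (hx0.le.trans hs)
    have h4 : (1 + p * b) ^ N * X.H x ≤ (1 + 2 * (N + 1) * p * b) * (lo * nF (chi X p x)) :=
      (mul_le_mul_of_nonneg_left h2 (by positivity)).trans (mul_le_mul_of_nonneg_right h1 h3)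
    have h5 := mul_le_mul_of_nonneg_left h4 (by positivity : 0 ≤ K0 * p ^ 2)
    nlinarith

end Crest.Agent.R338
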