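import Crest.Agent.R338.Defs

/-! Generic finite lemmas for the upper bound on hole networks. -/

noncomputable section

open Function
open scoped ComplexConjugate

namespace Crest.Agent.R338.NetUpper

lemma sum_update {n : ℕ} {A M : Type} [Fintype A] [DecidableEq A] [AddCommMonoid M]
    (i : Fin n) (F : (Fin n → A) → M) :
    ∑ g : Fin n → A, ∑ a, F (update g i a) = Fintype.card A • ∑ g, F g := by
  let e : (Fin n → A) × A ≃ (Fin n → A) × A :=
    { toFun := fun q => (update q.1 i q.2, q.1 i)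
      invFun := fun q => (update q.1 i q.2, q.1 i)
      left_inv := fun q => by simp
      right_inv := fun q => by simp }
  have h := Equiv.sum_comp e (fun q => F q.1)
  rw [Fintype.sum_prod_type, Fintype.sum_prod_type] at h
  simp only [e, Equiv.coe_fn_mk, Finset.sum_const, Finset.card_univ] at h
  rw [h, Finset.smul_sum]

lemma sum_cons {n : ℕ} {A M : Type} [Fintype A] [AddCommMonoid M] (F : (Fin (n + 1) → A) → M) :
    ∑ h, F h = ∑ a, ∑ u : Fin n → A, F (Fin.cons a u) := by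
  rw [← Equiv.sum_comp (Fin.consEquiv fun _ => A) F, Fintype.sum_prod_type]
  rfl

/-- norm of a tensor product of maps -/
lemma tensor_bound {ι : Type} [Fintype ι] (n : ℕ) (J : Fin n → ι → Bool → ℂ) (c : Fin n → ℝ)
    (hc : ∀ i, 0 ≤ c i)
    (hJ : ∀ i (v : Bool → ℂ), ∑ a, ‖∑ β, J i a β * v β‖ ^ 2 ≤ c i * ∑ β, ‖v β‖ ^ 2)
    (v : (Fin n → Bool) → ℂ) :
    ∑ u : Fin n → ι, ‖∑ y : Fin n → Bool, (∏ i, J i (u i) (y i)) * v y‖ ^ 2 ≤
      (∏ i, c i) * ∑ y, ‖v y‖ ^ 2 := by
  induction n with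
  | zero => simp
  | succ n ih =>
    rw [sum_cons, Finset.sum_comm, Fin.prod_univ_succ]
    have h1 : ∀ u : Fin n → ι, ∑ a, ‖∑ y : Fin (n + 1) → Bool,
        (∏ i, J i ((Fin.cons a u : Fin (n + 1) → ι) i) (y i)) * v y‖ ^ 2 ≤
        c 0 * ∑ β, ‖∑ y : Fin n → Bool, (∏ i, J i.succ (u i) (y i)) * v (Fin.cons β y)‖ ^ 2 := by
      intro u
      refine le_trans (le_of_eq ?_) (hJ 0 _)
      refine Finset.sum_congr rfl fun a _ => ?_
      rw [sum_cons]
      congr 2
      refine Finset.sum_congr rfl fun β _ => ?_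
      rw [Finset.mul_sum]
      refine Finset.sum_congr rfl fun y _ => ?_
      simp only [Fin.prod_univ_succ, Fin.cons_zero, Fin.cons_succ, mul_assoc]
    refine le_trans (Finset.sum_le_sum fun u _ => h1 u) ?_
    rw [← Finset.mul_sum, Finset.sum_comm, mul_assoc]
    refine mul_le_mul_of_nonneg_left ?_ (hc 0)
    rw [sum_cons (fun y => ‖v y‖ ^ 2), Finset.mul_sum]
    exact Finset.sum_le_sum fun β _ =>
      ih (fun i => J i.succ) (fun i => c i.succ) (fun i => hc _) (fun i => hJ _) _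

lemma pow_le (t : ℝ) (ht : 0 ≤ t) (m : ℕ) (h : 2 * m * t ≤ 1) : (1 + t) ^ m ≤ 1 + 2 * m * t := by
  induction m with
  | zero => simp
  | succ m ih =>
    push_cast at h ⊢
    have h1 := ih (by nlinarith)
    have hm : (0 : ℝ) ≤ m := Nat.cast_nonneg m
    have h2 : 2 * m * t * t ≤ 1 * t := mul_le_mul_of_nonneg_right (by nlinarith) ht
    rw [pow_succ]
    nlinarith [mul_le_mul_of_nonneg_right h1 (by linarith : (0 : ℝ) ≤ 1 + t)]

variable {ι : Type} [Fintype ι] [DecidableEq ι]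

/-- the pair interaction of a configuration -/
def pw {n : ℕ} (K : ι → ι → ℝ) (g : Fin n → ι) : ℝ :=
  ∑ i, ∑ j, if i < j then K (g i) (g j) else 0

omit [Fintype ι] [DecidableEq ι] in
lemma two_pw {n : ℕ} (K : ι → ι → ℝ) (hK : ∀ a b, K a b = K b a) (g : Fin n → ι) :
    2 * pw K g = ∑ i, ∑ j, if i ≠ j then K (g i) (g j) else 0 := by
  have h : pw K g = ∑ i, ∑ j, if j < i then K (g i) (g j) else 0 := by
    rw [pw, Finset.sum_comm]
    exact Finset.sum_congr rfl fun i _ => Finset.sum_congr rfl fun j _ => by rw [hK]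
  rw [two_mul]
  nth_rewrite 1 [h]
  rw [pw, ← Finset.sum_add_distrib]
  refine Finset.sum_congr rfl fun i _ => ?_
  rw [← Finset.sum_add_distrib]
  refine Finset.sum_congr rfl fun j _ => ?_
  rcases lt_trichotomy i j with h | h | h
  · simp [h, h.ne, not_lt.2 h.le]
  · simp [h]
  · simp [h, h.ne', not_lt.2 h.le]

omit [Fintype ι] [DecidableEq ι] in
lemma pw_perm {n : ℕ} (K : ι → ι → ℝ) (hK : ∀ a b, K a b = K b a) (g : Fin n → ι)
    (π : Equiv.Perm (Fin n)) : pw K (fun i => g (π i)) = pw K g := by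
  have h1 := two_pw K hK (fun i => g (π i))
  have h2 := two_pw K hK g
  have h3 : (∑ i, ∑ j, if i ≠ j then K (g (π i)) (g (π j)) else 0) =
      ∑ i, ∑ j, if i ≠ j then K (g i) (g j) else 0 := by
    rw [← Equiv.sum_comp π (fun i => ∑ j, if i ≠ j then K (g i) (g j) else 0)]
    refine Finset.sum_congr rfl fun i _ => ?_
    rw [← Equiv.sum_comp π (fun j => if π i ≠ j then K (g (π i)) (g j) else 0)]
    simp
  linarith

/-- antisymmetrisation -/
def asym {n : ℕ} (f : (Fin n → ι) → ℂ) (g : Fin n → ι) : ℂ :=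
  ∑ π : Equiv.Perm (Fin n), ((Equiv.Perm.sign π : ℤ) : ℂ) * f (fun i => g (π i))

omit [Fintype ι] [DecidableEq ι] in
lemma asym_perm {n : ℕ} (f : (Fin n → ι) → ℂ) (g : Fin n → ι) (σ : Equiv.Perm (Fin n)) :
    asym f (fun i => g (σ i)) = ((Equiv.Perm.sign σ : ℤ) : ℂ) * asym f g := by
  rw [asym, asym, Finset.mul_sum,
    ← Equiv.sum_comp (Equiv.mulLeft σ) (fun π => ((Equiv.Perm.sign σ : ℤ) : ℂ) *
      (((Equiv.Perm.sign π : ℤ) : ℂ) * f (fun i => g (π i))))]
  refine Finset.sum_congr rfl fun π _ => ?_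
  have hs : ((Equiv.Perm.sign σ : ℤ) : ℂ) * ((Equiv.Perm.sign σ : ℤ) : ℂ) = 1 := by
    rw [← Int.cast_mul, ← Units.val_mul, Int.units_mul_self]; simp
  simp only [Equiv.coe_mulLeft, Equiv.Perm.sign_mul, Units.val_mul, Int.cast_mul,
    Equiv.Perm.coe_mul, comp_apply, ← mul_assoc, hs, one_mul]

omit [Fintype ι] [DecidableEq ι] in
lemma norm_asym {n : ℕ} (f : (Fin n → ι) → ℂ) (comp : ι → Fin n)
    (hf : ∀ g, f g ≠ 0 → ∀ j, comp (g j) = j) (g : Fin n → ι) :
    ‖asym f g‖ ^ 2 = ∑ π : Equiv.Perm (Fin n), ‖f (fun i => g (π i))‖ ^ 2 := by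
  by_cases h : ∃ π : Equiv.Perm (Fin n), f (fun i => g (π i)) ≠ 0
  · obtain ⟨π, hπ⟩ := h
    have key : ∀ π' : Equiv.Perm (Fin n), π' ≠ π → f (fun i => g (π' i)) = 0 := by
      intro π' hne
      by_contra h0
      apply hne
      refine Equiv.ext fun j => ?_
      have h1 := hf _ hπ (π.symm (π' j))
      have h2 := hf _ h0 j
      simp only [Equiv.apply_symm_apply] at h1
      have h4 := congrArg π (h1.symm.trans h2)
      simpa only [Equiv.apply_symm_apply] using h4
    rw [asym, Finset.sum_eq_single π (fun π' _ h => by rw [key π' h, mul_zero]) (by simp),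
      Finset.sum_eq_single π (fun π' _ h => by rw [key π' h]; simp) (by simp), norm_mul]
    have : ‖((Equiv.Perm.sign π : ℤ) : ℂ)‖ = 1 := by
      rcases Int.units_eq_one_or (Equiv.Perm.sign π) with h | h <;> simp [h]
    rw [this, one_mul]
  · push Not at h
    simp [asym, h]

omit [DecidableEq ι] in
lemma sum_asym {n : ℕ} (f : (Fin n → ι) → ℂ) (comp : ι → Fin n)
    (hf : ∀ g, f g ≠ 0 → ∀ j, comp (g j) = j) (W : (Fin n → ι) → ℝ)
    (hW : ∀ g (π : Equiv.Perm (Fin n)), W (fun i => g (π i)) = W g) :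
    ∑ g, W g * ‖asym f g‖ ^ 2 = (n.factorial : ℝ) * ∑ g, W g * ‖f g‖ ^ 2 := by
  simp only [norm_asym f comp hf, Finset.mul_sum]
  rw [Finset.sum_comm]
  have : ∀ π : Equiv.Perm (Fin n), ∑ g, W g * ‖f (fun i => g (π i))‖ ^ 2 =
      ∑ g, W g * ‖f g‖ ^ 2 := by
    intro π
    rw [← Equiv.sum_comp (Equiv.arrowCongr π.symm (Equiv.refl ι)) (fun g => W g * ‖f g‖ ^ 2)]
    refine Finset.sum_congr rfl fun g _ => ?_
    have e : (Equiv.arrowCongr π.symm (Equiv.refl ι)) g = fun i => g (π i) := by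
      ext i; simp [Equiv.arrowCongr_apply]
    rw [e, hW]
  simp only [this, Finset.sum_const, Finset.card_univ, Fintype.card_perm, Fintype.card_fin,
    nsmul_eq_mul, Finset.mul_sum]

lemma e1_eq_zero {n : ℕ} (A : ι → ι → ℝ) (c : (Fin (n + 1) → ι) → ℂ)
    (h : ∀ i g, qf A (fun b => c (update g i b)) = 0) : e1 A c = 0 := by
  refine Finset.sum_eq_zero fun i _ => ?_
  rcases isEmpty_or_nonempty ι with hι | hι
  · simp
  have h1 := sum_update i (fun g => ∑ b, A (g i) b * (conj (c g) * c (update g i b)).re)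
  simp only [update_self, update_idem] at h1
  have h2 : ∀ g : Fin (n + 1) → ι, ∑ a, ∑ b, A a b *
      (conj (c (update g i a)) * c (update g i b)).re = 0 := fun g => h i g
  simp only [h2, Finset.sum_const_zero, nsmul_eq_mul] at h1
  rcases mul_eq_zero.1 h1.symm with h3 | h3
  · exact absurd (Nat.cast_eq_zero.1 h3) Fintype.card_ne_zero
  · exact h3

end Crest.Agent.R338.NetUpper
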