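import Crest.Agent.R338.DefsF

/-!
# Row 338: precision of the numerical constants
-/

set_option autoImplicit false

noncomputable section

open MeasureTheory Function Set

namespace Crest.Agent.R338

namespace Num

/-! ### `π` and logarithms -/

theorem piq_cast (k : ℕ) : (piq k : ℝ) = 2 * Real.Wallis.W k := by
  unfold piq Real.Wallis.W
  push_cast
  rfl

theorem pi_part (k : ℕ) : 0 ≤ Real.pi - piq k ∧ Real.pi - piq k ≤ 2 / (k + 1) := by
  rw [piq_cast]
  have h1 := Real.Wallis.W_le k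
  have h2 := Real.Wallis.le_W k
  refine ⟨by linarith, ?_⟩
  have hk : (0 : ℝ) < k + 1 := by positivity
  have e : ((2 : ℝ) * k + 1) / (2 * k + 2) * (Real.pi / 2)
      = Real.pi / 2 - Real.pi / 4 / (k + 1) := by
    field_simp
    ring
  have h3 : Real.pi / 4 / (k + 1) ≤ 1 / (k + 1) :=
    div_le_div_of_nonneg_right (by linarith [Real.pi_le_four]) hk.le
  have h4 : (2 : ℝ) / (k + 1) = 2 * (1 / (k + 1)) := by ring
  linarith

theorem harm_bounds {m : ℝ} (hm : 0 < m) (N : ℕ) :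
    Real.log (m + N) - Real.log m ≤ ∑ j ∈ Finset.range N, 1 / (m + j) ∧
      ∑ j ∈ Finset.range N, 1 / (m + j) ≤ Real.log (m + N) - Real.log m + 1 / m - 1 / (m + N) := by
  induction N with
  | zero => simp
  | succ N ih =>
    have hx : 0 < m + N := by positivity
    have h1 : Real.log (m + N + 1) - Real.log (m + N) ≤ 1 / (m + N) := by
      rw [← Real.log_div (by positivity) hx.ne']
      refine (Real.log_le_sub_one_of_pos (by positivity)).trans (le_of_eq ?_)
      field_simp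
      ring
    have h2 : Real.log (m + N) - Real.log (m + N + 1) ≤ -(1 / (m + N + 1)) := by
      rw [← Real.log_div hx.ne' (by positivity)]
      refine (Real.log_le_sub_one_of_pos (by positivity)).trans (le_of_eq ?_)
      field_simp
      ring
    rw [Finset.sum_range_succ]
    push_cast
    rw [← add_assoc]
    constructor <;> linarith [ih.1, ih.2]

theorem log_part (b m : ℕ) (hb : 1 ≤ b) (hm : 2 ≤ m) :
    0 ≤ logq b m - Real.log b ∧ logq b m - Real.log b ≤ 2 / m := by
  have hm' : (0 : ℝ) < m := by exact_mod_cast (by omega : 0 < m)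
  have hb' : (0 : ℝ) < b := by exact_mod_cast hb
  obtain ⟨h1, h2⟩ := harm_bounds hm' (m * (b - 1))
  have e1 : (logq b m : ℝ) = ∑ j ∈ Finset.range (m * (b - 1)), 1 / ((m : ℝ) + j) := by
    unfold logq
    push_cast
    rfl
  have e2 : (m : ℝ) + (m * (b - 1) : ℕ) = m * b := by
    push_cast [Nat.cast_sub hb]
    ring
  rw [e2, Real.log_mul hm'.ne' hb'.ne'] at h1 h2
  rw [e1]
  have h3 : (0 : ℝ) ≤ 1 / (m * b) := by positivity
  have h4 : (0 : ℝ) ≤ 1 / m := by positivity
  have h5 : (2 : ℝ) / m = 2 * (1 / m) := by ring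
  constructor <;> linarith

/-! ### Riemann sums on boxes -/

theorem riemann {ι : Type} [Fintype ι] [DecidableEq ι] (a h : ι → ℝ) (hh : ∀ l, 0 < h l) (n : ℕ)
    {f : (ι → ℝ) → ℝ} (hf : IntegrableOn f (univ.pi fun l => Ico (a l) (a l + n * h l)))
    (c : (ι → Fin n) → ℝ) {δ : ℝ}
    (hc : ∀ (I : ι → Fin n) (y : ι → ℝ),
      (∀ l, a l + I l * h l ≤ y l ∧ y l < a l + (I l + 1) * h l) → |f y - c I| ≤ δ) :
    |(∫ y in univ.pi fun l => Ico (a l) (a l + n * h l), f y) - (∏ l, h l) * ∑ I, c I|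
      ≤ (n : ℝ) ^ Fintype.card ι * (∏ l, h l) * δ := by
  let C : (ι → Fin n) → Set (ι → ℝ) := fun I =>
    univ.pi fun l => Ico (a l + I l * h l) (a l + (I l + 1) * h l)
  have hU : (univ.pi fun l => Ico (a l) (a l + n * h l)) = ⋃ I, C I := by
    ext y
    simp only [C, mem_pi, mem_univ, true_imp_iff, mem_Ico, mem_iUnion]
    constructor
    · intro hy
      have h0 : ∀ l, 0 ≤ (y l - a l) / h l := fun l => div_nonneg (by linarith [(hy l).1]) (hh l).le
      refine ⟨fun l => ⟨⌊(y l - a l) / h l⌋₊, ?_⟩, fun l => ⟨?_, ?_⟩⟩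
      · rw [Nat.floor_lt (h0 l), div_lt_iff₀ (hh l)]
        linarith [(hy l).2]
      · have := Nat.floor_le (h0 l)
        rw [le_div_iff₀ (hh l)] at this
        dsimp only
        linarith
      · have := Nat.lt_floor_add_one ((y l - a l) / h l)
        rw [div_lt_iff₀ (hh l)] at this
        dsimp only
        linarith
    · rintro ⟨I, hI⟩ l
      have h1 : (0 : ℝ) ≤ I l * h l := mul_nonneg (Nat.cast_nonneg _) (hh l).le
      have h2 : ((I l : ℕ) : ℝ) + 1 ≤ n := by exact_mod_cast (I l).2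
      have h3 := mul_le_mul_of_nonneg_right h2 (hh l).le
      constructor <;> linarith [(hI l).1, (hI l).2]
  have hm : ∀ I, MeasurableSet (C I) := fun I =>
    MeasurableSet.univ_pi fun _ => measurableSet_Ico
  have hd : Pairwise (Disjoint on C) := by
    intro I J hIJ
    refine Set.disjoint_left.2 fun y hI hJ => hIJ (funext fun l => Fin.ext ?_)
    have h1 := hI l (mem_univ _)
    have h2 := hJ l (mem_univ _)
    have h3 : ((I l : ℕ) : ℝ) < J l + 1 :=
      lt_of_mul_lt_mul_right (by linarith [h1.1, h2.2]) (hh l).le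
    have h4 : ((J l : ℕ) : ℝ) < I l + 1 :=
      lt_of_mul_lt_mul_right (by linarith [h1.2, h2.1]) (hh l).le
    have h5 : (I l : ℕ) < J l + 1 := by exact_mod_cast h3
    have h6 : (J l : ℕ) < I l + 1 := by exact_mod_cast h4
    omega
  have hv : ∀ I, volume.real (C I) = ∏ l, h l := fun I => by
    rw [measureReal_def, Real.volume_pi_Ico_toReal fun l => by
      dsimp only; nlinarith [hh l]]
    exact Finset.prod_congr rfl fun l _ => by ring
  have hfin : ∀ I, volume (C I) < ⊤ := fun I => by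
    rw [Real.volume_pi_Ico]
    exact ENNReal.prod_lt_top fun _ _ => ENNReal.ofReal_lt_top
  have hi : ∀ I, IntegrableOn f (C I) := fun I => hf.mono_set (hU ▸ subset_iUnion C I)
  rw [hU, integral_iUnion_fintype hm hd hi, Finset.mul_sum, ← Finset.sum_sub_distrib]
  refine (Finset.abs_sum_le_sum_abs _ _).trans ?_
  have key : ∀ I, |(∫ y in C I, f y) - (∏ l, h l) * c I| ≤ (∏ l, h l) * δ := fun I => by
    have e : (∫ y in C I, f y) - (∏ l, h l) * c I = ∫ y in C I, (f y - c I) := by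
      rw [integral_sub (hi I) (integrableOn_const (hfin I).ne), setIntegral_const, hv,
        smul_eq_mul]
    rw [e, ← Real.norm_eq_abs, mul_comm, ← hv I]
    exact norm_setIntegral_le_of_norm_le_const (hfin I) fun y hy =>
      hc I y fun l => hy l (mem_univ _)
  refine (Finset.sum_le_sum fun I _ => key I).trans (le_of_eq ?_)
  simp [mul_assoc]

theorem sum_fin3 {n : ℕ} (F : ℕ → ℕ → ℕ → ℝ) :
    ∑ I : Fin 3 → Fin n, F (I 0) (I 1) (I 2)
      = ∑ i ∈ Finset.range n, ∑ j ∈ Finset.range n, ∑ k ∈ Finset.range n, F i j k := by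
  simp only [Finset.sum_range]
  rw [← Fintype.sum_prod_type', ← Fintype.sum_prod_type']
  refine Fintype.sum_bijective (fun I : Fin 3 → Fin n => ((I 0, I 1), I 2)) ⟨?_, ?_⟩ _ _
    fun _ => rfl
  · intro I J h
    simp only [Prod.mk.injEq] at h
    funext l
    fin_cases l
    exacts [h.1.1, h.1.2, h.2]
  · rintro ⟨⟨i, j⟩, k⟩
    exact ⟨![i, j, k], rfl⟩

/-! ### The truncated kernel -/

/-- The truncated kernel. -/
def kq (r0 r : ℝ) : ℝ := 1 / max r r0

theorem kq_lip {r0 : ℝ} (h : 0 < r0) (r s : ℝ) : |kq r0 r - kq r0 s| ≤ |r - s| / r0 ^ 2 := by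
  unfold kq
  have h1 : r0 ≤ max r r0 := le_max_right _ _
  have h2 : r0 ≤ max s r0 := le_max_right _ _
  have h3 : 0 < max r r0 := h.trans_le h1
  have h4 : 0 < max s r0 := h.trans_le h2
  rw [div_sub_div _ _ h3.ne' h4.ne', one_mul, mul_one, abs_div, abs_of_pos (mul_pos h3 h4),
    abs_sub_comm]
  refine div_le_div₀ (abs_nonneg _) (abs_max_sub_max_le_abs r s r0) (by positivity) ?_
  rw [sq]
  exact mul_le_mul h1 h2 h.le h3.le

theorem kq_cont {r0 : ℝ} (h : 0 < r0) : Continuous (kq r0) :=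
  continuous_const.div (by fun_prop) fun r => (h.trans_le (le_max_right _ _)).ne'

theorem rsq_close {n : ℕ} (hn : 1 ≤ n) {q : ℚ} (hq : 0 ≤ q) : |√(q : ℝ) - rsq n q| ≤ 1 / n := by
  have hn' : (0 : ℝ) < n := by exact_mod_cast hn
  have hq' : (0 : ℝ) ≤ q := by exact_mod_cast hq
  set s := Nat.sqrt ⌊q * n ^ 2⌋₊ with hs
  have e : (rsq n q : ℝ) = s / n := by
    unfold rsq
    push_cast
    rfl
  have h1 : ((s * s : ℕ) : ℚ) ≤ q * n ^ 2 :=
    le_trans (by exact_mod_cast Nat.sqrt_le _) (Nat.floor_le (by positivity))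
  have h2 : q * n ^ 2 < (((s + 1) * (s + 1) : ℕ) : ℚ) := by
    refine (Nat.lt_floor_add_one _).trans_le ?_
    exact_mod_cast Nat.lt_succ_sqrt _
  have h1' : (s : ℝ) * s ≤ q * n ^ 2 := by exact_mod_cast h1
  have h2' : (q : ℝ) * n ^ 2 < (s + 1) * (s + 1) := by exact_mod_cast h2
  have h3 : (s : ℝ) / n ≤ √(q : ℝ) := by
    refine Real.le_sqrt_of_sq_le ?_
    rw [div_pow, div_le_iff₀ (by positivity)]
    linarith
  have h4 : √(q : ℝ) ≤ (s + 1) / n := by
    refine Real.sqrt_le_iff.2 ⟨by positivity, ?_⟩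
    rw [div_pow, le_div_iff₀ (by positivity)]
    linarith
  rw [e, abs_of_nonneg (by linarith)]
  rw [add_div] at h4
  linarith

/-- The singular part of the kernel. -/
def dq (r0 : ℝ) : ℝ → ℝ := (Iio r0).indicator fun r => 1 / r

theorem dq_aux (r0 : ℝ) : EqOn (fun y : ℝ => y ^ (Module.finrank ℝ E3 - 1) • dq r0 y)
    ((Iio r0).indicator fun r => r) (Ioi 0) := by
  intro y hy
  have hy' : (y : ℝ) ≠ 0 := ne_of_gt hy
  by_cases h : y < r0
  · simp only [dq, finrank_euclideanSpace, Fintype.card_fin, indicator_of_mem (mem_Iio.2 h),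
      smul_eq_mul]
    field_simp
  · simp [dq, h]

theorem dq_integrable (r0 : ℝ) : Integrable fun y : E3 => dq r0 ‖y‖ := by
  rw [integrable_fun_norm_addHaar volume (f := dq r0),
    integrableOn_congr_fun (dq_aux r0) measurableSet_Ioi, IntegrableOn,
    integrable_indicator_iff measurableSet_Iio, IntegrableOn,
    Measure.restrict_restrict measurableSet_Iio, inter_comm, Ioi_inter_Iio]
  exact (continuous_id.integrableOn_Icc (a := 0) (b := r0)).mono_set Ioo_subset_Icc_self

theorem dq_integral {r0 : ℝ} (h : 0 < r0) : ∫ y : E3, dq r0 ‖y‖ = 2 * Real.pi * r0 ^ 2 := by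
  rw [integral_fun_norm_addHaar volume (dq r0),
    setIntegral_congr_fun measurableSet_Ioi (dq_aux r0), setIntegral_indicator measurableSet_Iio,
    Ioi_inter_Iio, ← integral_Ioc_eq_integral_Ioo, ← intervalIntegral.integral_of_le h.le,
    integral_id, measureReal_def, EuclideanSpace.volume_ball_fin_three]
  simp only [finrank_euclideanSpace, Fintype.card_fin, ENNReal.ofReal_one, one_pow, one_mul]
  rw [ENNReal.toReal_ofReal (by positivity)]
  simp only [nsmul_eq_mul, smul_eq_mul]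
  push_cast
  ring

theorem sub_kq_le {r0 r : ℝ} (h : 0 < r0) (hr : 0 < r) : |1 / r - kq r0 r| ≤ dq r0 r := by
  unfold kq dq
  by_cases h1 : r < r0
  · rw [max_eq_right h1.le, indicator_of_mem (mem_Iio.2 h1),
      abs_of_nonneg (sub_nonneg.2 (one_div_le_one_div_of_le hr h1.le))]
    have : 0 < 1 / r0 := by positivity
    linarith
  · rw [max_eq_left (not_lt.1 h1), indicator_of_notMem (by simpa using h1)]
    simp

theorem isCompact_box (A : ℝ) : IsCompact (box A) := by
  refine Metric.isCompact_of_isClosed_isBounded ?_ ?_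
  · have h : ∀ (j : Fin 3) (c : ℝ), IsClosed {y : E3 | |y j| ≤ c} := fun j c =>
      isClosed_le (by fun_prop) continuous_const
    exact (h 0 A).inter ((h 1 A).inter (h 2 1))
  · refine isBounded_iff_forall_norm_le.2 ⟨√(A ^ 2 + A ^ 2 + 1), fun y hy => ?_⟩
    rw [EuclideanSpace.norm_eq]
    refine Real.sqrt_le_sqrt ?_
    rw [Fin.sum_univ_three]
    simp only [Real.norm_eq_abs]
    obtain ⟨h1, h2, h3⟩ := hy
    have := pow_le_pow_left₀ (abs_nonneg _) h1 2
    have := pow_le_pow_left₀ (abs_nonneg _) h2 2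
    have := pow_le_pow_left₀ (abs_nonneg _) h3 2
    linarith

theorem trunc_err (A : ℝ) {r0 : ℝ} (h : 0 < r0) :
    |gbox A 0 - ∫ y in box A, kq r0 ‖y‖| ≤ 7 * r0 ^ 2 := by
  have hk : IntegrableOn (fun y : E3 => kq r0 ‖y‖) (box A) :=
    ((kq_cont h).comp continuous_norm).continuousOn.integrableOn_compact (isCompact_box A)
  have hae : ∀ᵐ y : E3, ‖1 / ‖y‖ - kq r0 ‖y‖‖ ≤ dq r0 ‖y‖ := by
    have : ∀ᵐ y : E3, y ≠ 0 := by simp [ae_iff]
    filter_upwards [this] with y hy
    exact sub_kq_le h (norm_pos_iff.2 hy)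
  have hd : Integrable fun y : E3 => 1 / ‖y‖ - kq r0 ‖y‖ :=
    (dq_integrable r0).mono' (Measurable.aestronglyMeasurable
      ((measurable_const.div measurable_norm).sub
        ((kq_cont h).comp continuous_norm).measurable)) hae
  have e : gbox A 0 - ∫ y in box A, kq r0 ‖y‖ = ∫ y in box A, (1 / ‖y‖ - kq r0 ‖y‖) := by
    have := integral_add hd.integrableOn hk
    simp only [sub_add_cancel] at this
    unfold gbox
    simp only [zero_sub, norm_neg]
    linarith
  rw [e, ← Real.norm_eq_abs]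
  refine (norm_integral_le_of_norm_le (dq_integrable r0).integrableOn
    (ae_restrict_of_ae hae)).trans ((setIntegral_le_integral (dq_integrable r0)
      (hae.mono fun y hy => (norm_nonneg _).trans hy)).trans ?_)
  rw [dq_integral h]
  have := Real.pi_lt_d2
  nlinarith [sq_nonneg r0]

theorem box_integral (A : ℝ) {n : ℕ} (hn : 1 ≤ n) (F : E3 → ℝ) :
    ∫ y in box A, F y = ∫ y in univ.pi fun l => Ico (![-A, -A, -1] l)
      (![-A, -A, -1] l + n * ![2 * A / n, 2 * A / n, 2 / n] l), F (WithLp.toLp 2 y) := by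
  have hn' : (n : ℝ) ≠ 0 := by positivity
  rw [← (PiLp.volume_preserving_toLp (Fin 3)).setIntegral_preimage_emb
    (MeasurableEquiv.toLp 2 (Fin 3 → ℝ)).measurableEmbedding]
  suffices h : (WithLp.toLp 2 ⁻¹' box A : Set (Fin 3 → ℝ)) = Icc ![-A, -A, -1]
      fun l => ![-A, -A, -1] l + n * ![2 * A / n, 2 * A / n, 2 / n] l by
    rw [h]
    exact setIntegral_congr_set Measure.univ_pi_Ico_ae_eq_Icc.symm
  ext y
  have e1 : -A + n * (2 * A / n) = A := by field_simp; ring
  have e2 : (-1 : ℝ) + n * (2 / n) = 1 := by field_simp; ring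
  simp only [mem_preimage, box, mem_ofPred_eq, abs_le, mem_Icc, Pi.le_def, Fin.forall_fin_succ]
  simp [e1, e2]
  tauto

theorem g_part (A n : ℕ) (r0 : ℚ) (hA : 1 ≤ A) (hn : 1 ≤ n) (hr : 0 < r0) :
    |gbox A 0 - gq A n r0| ≤ 7 * r0 ^ 2 + 48 * (A : ℝ) ^ 3 / (n * r0 ^ 2) := by
  have hA' : (1 : ℝ) ≤ A := by exact_mod_cast hA
  have hn' : (0 : ℝ) < n := by exact_mod_cast hn
  have hr' : (0 : ℝ) < r0 := by exact_mod_cast hr
  let Q : ℕ → ℕ → ℕ → ℚ := fun i j k => (A * (2 * (i : ℚ) / n - 1)) ^ 2 +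
    (A * (2 * (j : ℚ) / n - 1)) ^ 2 + (2 * (k : ℚ) / n - 1) ^ 2
  have e1 : (gq A n r0 : ℝ) = 8 * (A : ℝ) ^ 2 / (n : ℝ) ^ 3 *
      ∑ I : Fin 3 → Fin n, kq r0 (rsq n (Q (I 0) (I 1) (I 2))) := by
    rw [sum_fin3 fun i j k => kq r0 (rsq n (Q i j k))]
    unfold gq kq
    push_cast
    rfl
  have h1 := trunc_err A hr'
  have hcont : Continuous fun y : Fin 3 → ℝ => kq r0 ‖(WithLp.toLp 2 y : E3)‖ :=
    (kq_cont hr').comp (by fun_prop)
  have h2 := riemann (ι := Fin 3) ![-(A : ℝ), -A, -1] ![2 * A / n, 2 * A / n, 2 / n]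
    (fun l => by fin_cases l <;> simp <;> positivity) n
    (f := fun y => kq r0 ‖(WithLp.toLp 2 y : E3)‖)
    ((hcont.integrableOn_Icc).congr_set_ae Measure.univ_pi_Ico_ae_eq_Icc)
    (fun I => kq r0 (rsq n (Q (I 0) (I 1) (I 2)))) (δ := 6 * A / n / r0 ^ 2) (by
      intro I y hy
      refine (kq_lip hr' _ _).trans (div_le_div_of_nonneg_right ?_ (by positivity))
      let g : E3 := WithLp.toLp 2 fun l => ![-(A : ℝ), -A, -1] l +
        I l * ![2 * (A : ℝ) / n, 2 * A / n, 2 / n] l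
      have hg : ‖g‖ = √(Q (I 0) (I 1) (I 2) : ℝ) := by
        rw [EuclideanSpace.norm_eq, Fin.sum_univ_three]
        congr 1
        simp only [g, Q, Real.norm_eq_abs, sq_abs]
        push_cast
        ring
      have h3 := rsq_close hn (q := Q (I 0) (I 1) (I 2)) (by positivity)
      have h4 : ‖(WithLp.toLp 2 y : E3) - g‖ ≤ 4 * A / n := by
        rw [EuclideanSpace.norm_eq, Fin.sum_univ_three]
        refine Real.sqrt_le_iff.2 ⟨by positivity, ?_⟩
        have a0 := hy 0
        have a1 := hy 1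
        have a2 := hy 2
        simp only [g, Real.norm_eq_abs, sq_abs, PiLp.sub_apply, Matrix.cons_val_zero,
          Matrix.cons_val_one, Matrix.cons_val] at a0 a1 a2 ⊢
        have b2 : (2 : ℝ) / n ≤ 2 * A / n := div_le_div_of_nonneg_right (by linarith) hn'.le
        have c0 := pow_le_pow_left₀ (sub_nonneg.2 a0.1)
          (show _ ≤ 2 * (A : ℝ) / n by linarith [a0.2]) 2
        have c1 := pow_le_pow_left₀ (sub_nonneg.2 a1.1)
          (show _ ≤ 2 * (A : ℝ) / n by linarith [a1.2]) 2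
        have c2 := pow_le_pow_left₀ (sub_nonneg.2 a2.1)
          (show _ ≤ 2 * (A : ℝ) / n by linarith [a2.2]) 2
        have c3 : (4 * (A : ℝ) / n) ^ 2 = 4 * (2 * A / n) ^ 2 := by ring
        nlinarith [sq_nonneg (2 * (A : ℝ) / n)]
      have h5 := abs_norm_sub_norm_le (WithLp.toLp 2 y : E3) g
      rw [hg] at h5
      have h6 : (1 : ℝ) / n ≤ 2 * A / n := div_le_div_of_nonneg_right (by linarith) hn'.le
      have h7 : 6 * (A : ℝ) / n = 4 * A / n + 2 * A / n := by ring
      linarith [abs_sub_le ‖(WithLp.toLp 2 y : E3)‖ √(Q (I 0) (I 1) (I 2) : ℝ)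
        (rsq n (Q (I 0) (I 1) (I 2)))])
  rw [← box_integral A hn fun y => kq r0 ‖y‖] at h2
  have e2 : ∏ l, ![2 * (A : ℝ) / n, 2 * A / n, 2 / n] l = 8 * (A : ℝ) ^ 2 / (n : ℝ) ^ 3 := by
    rw [Fin.prod_univ_three]
    simp only [Matrix.cons_val_zero, Matrix.cons_val_one, Matrix.cons_val]
    ring
  rw [e2, ← e1, Fintype.card_fin] at h2
  have e3 : (n : ℝ) ^ 3 * (8 * (A : ℝ) ^ 2 / (n : ℝ) ^ 3) * (6 * A / n / r0 ^ 2)
      = 48 * (A : ℝ) ^ 3 / (n * r0 ^ 2) := by
    field_simp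
    ring
  rw [e3] at h2
  linarith [abs_sub_le (gbox A 0) (∫ y in box A, kq r0 ‖y‖) (gq A n r0)]

end Num

theorem num : NumStmt := ⟨Num.pi_part, Num.log_part, Num.g_part⟩

end Crest.Agent.R338
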