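import Crest.Agent.R338.DefsP

/-!
# Row 338: assembly of the one-body package
-/

noncomputable section

open MeasureTheory Function
open scoped ComplexConjugate

namespace Crest.Agent.R338

namespace OB
section fin
variable {ι ρ : Type} [Fintype ι] [DecidableEq ι] [Fintype ρ]

omit [DecidableEq ι] in
theorem n1_nonneg (c : ι → ℂ) : 0 ≤ n1 c := Finset.sum_nonneg fun _ _ => by positivity

omit [DecidableEq ι] in
theorem qf_gm (v : ρ → ι → ℝ) (c : ι → ℂ) : qf (gm v) c = ∑ r, ‖∑ a, (v r a : ℂ) * c a‖ ^ 2 := by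
  have h : ∀ r, ‖∑ a, (v r a : ℂ) * c a‖ ^ 2 = ∑ a, ∑ b, v r a * v r b * (conj (c a) * c b).re := by
    intro r
    have : (‖∑ a, (v r a : ℂ) * c a‖ ^ 2 : ℝ) =
        (conj (∑ a, (v r a : ℂ) * c a) * ∑ a, (v r a : ℂ) * c a).re := by
      rw [Complex.conj_mul']; norm_cast
    rw [this, map_sum, Finset.sum_mul_sum, Complex.re_sum]
    refine Finset.sum_congr rfl fun a _ => ?_
    rw [Complex.re_sum]
    refine Finset.sum_congr rfl fun b _ => ?_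
    rw [map_mul, Complex.conj_ofReal,
      show (v r a : ℂ) * conj (c a) * ((v r b : ℂ) * c b) = ((v r a * v r b : ℝ) : ℂ) * (conj (c a) * c b) by
        push_cast; ring, Complex.re_ofReal_mul]
  simp only [h, qf, gm, Finset.sum_mul]
  rw [Finset.sum_comm (γ := ρ)]
  refine Finset.sum_congr rfl fun a _ => ?_
  rw [Finset.sum_comm (γ := ρ)]

omit [DecidableEq ι] in
theorem qf_add (A B : ι → ι → ℝ) (c : ι → ℂ) : qf (fun a b => A a b + B a b) c = qf A c + qf B c := by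
  simp only [qf, add_mul, Finset.sum_add_distrib]

omit [DecidableEq ι] in
theorem qf_mul (C : ℝ) (A : ι → ι → ℝ) (c : ι → ℂ) : qf (fun a b => C * A a b) c = C * qf A c := by
  simp only [qf, Finset.mul_sum, mul_assoc]

theorem qf_diag (μ : ι → ℝ) (c : ι → ℂ) :
    qf (fun a b => if a = b then μ a else 0) c = ∑ a, μ a * ‖c a‖ ^ 2 := by
  simp only [qf, ite_mul, zero_mul, Finset.sum_ite_eq, Finset.mem_univ, if_true]
  refine Finset.sum_congr rfl fun a _ => ?_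
  rw [Complex.conj_mul']; norm_cast

omit [Fintype ρ] in
theorem sum_rv (L : Lay ι ρ) (ω : ι → ℝ) (r : ρ) (c : ι → ℂ) :
    ∑ a, (L.rv ω r a : ℂ) * c a = c (L.src r) * ω (L.src r) - c (L.tgt r) * ω (L.tgt r) := by
  simp only [Lay.rv, Complex.ofReal_sub, sub_mul, Finset.sum_sub_distrib, apply_ite Complex.ofReal,
    ite_mul, Complex.ofReal_zero, zero_mul, Finset.sum_ite_eq', Finset.mem_univ, if_true]
  ring

end fin
end OB

/-- Hopping matrix plus offsets. -/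
def Amat {ι ρ : Type} [Fintype ι] [DecidableEq ι] [Fintype ρ] (L : Lay ι ρ) (C : ℝ) (ω μ : ι → ℝ)
    (a a' : ι) : ℝ := C * gm (L.rv ω) a a' + if a = a' then μ a else 0

namespace OB
variable {ι ρ : Type} [Fintype ι] [DecidableEq ι] [Fintype ρ]

theorem qf_Amat (L : Lay ι ρ) (C : ℝ) (ω μ : ι → ℝ) (c : ι → ℂ) :
    qf (Amat L C ω μ) c = C * ∑ r, ‖c (L.src r) * ω (L.src r) - c (L.tgt r) * ω (L.tgt r)‖ ^ 2 +
      ∑ a, μ a * ‖c a‖ ^ 2 := by
  unfold Amat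
  rw [qf_add, qf_mul, qf_gm, qf_diag]
  simp only [sum_rv]

theorem qf_Amat_hop (L : Lay ι ρ) (P : Pl) (fr : ℝ) (μ : ι → ℝ) (c : ι → ℂ) :
    qf (Amat L (Real.exp (-(2 * fr)) / (2 * P.l ^ 2)) (fun a => Real.exp (P.F (L.dot a))) μ) c =
      L.hop P fr c + ∑ a, μ a * ‖c a‖ ^ 2 := by
  rw [qf_Amat]; rfl

omit [DecidableEq ι] in
theorem lin_c1c {φ : ι → E3 → ℝ} (h : ∀ a, C1c (φ a)) (c : ι → ℂ) : C1c (lin φ c) := by
  classical
  constructor
  · unfold lin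
    refine ContDiff.sum fun a _ => contDiff_const.mul ?_
    exact Complex.ofRealCLM.contDiff.comp (h a).1
  · have : lin φ c = ∑ a, fun x => c a * (φ a x : ℂ) := by ext x; simp [lin]
    rw [this]
    refine Finset.sum_induction _ (fun f => HasCompactSupport f) (fun f g hf hg => hf.add hg)
      HasCompactSupport.zero fun a _ => ?_
    refine HasCompactSupport.mul_left ?_
    exact (h a).2.comp_left (g := fun t : ℝ => (t : ℂ)) (by simp)

theorem coef_lin {φ θ : ι → E3 → ℝ} (hθ : ONS θ) (h : ∀ a, C1c (φ a))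
    (hb : ∀ a b, ∫ x, θ a x * φ b x = if a = b then 1 else 0) (c : ι → ℂ) : coef θ (lin φ c) = c := by
  ext a
  obtain ⟨B, hB⟩ := hθ.bdd
  have hi : ∀ b, Integrable fun x => θ a x * φ b x := fun b =>
    ((h b).1.continuous.integrable_of_hasCompactSupport (h b).2).bdd_mul (c := B)
      (hθ.meas a).aestronglyMeasurable (Filter.Eventually.of_forall fun x => hB a x)
  have : ∀ x, (θ a x : ℂ) * lin φ c x = ∑ b, c b * ((θ a x * φ b x : ℝ) : ℂ) := by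
    intro x; simp only [lin, Finset.mul_sum]; refine Finset.sum_congr rfl fun b _ => ?_
    push_cast; ring
  simp only [coef, this]
  rw [integral_finsetSum _ fun b _ => ((hi b).ofReal).const_mul _]
  simp only [integral_const_mul, integral_complex_ofReal, hb]
  simp [apply_ite Complex.ofReal]

theorem qq_nonneg (f : E3 → ℝ) (Ω : ℝ) (ψ : E3 → ℂ) : 0 ≤ qq f Ω ψ :=
  mul_nonneg (by norm_num) (Finset.sum_nonneg fun _ _ => integral_nonneg fun _ => by positivity)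

theorem nsq_nonneg (ψ : E3 → ℂ) : 0 ≤ nsq ψ := integral_nonneg fun _ => by positivity

omit [Fintype ι] [DecidableEq ι] in
theorem hop_nonneg (L : Lay ι ρ) (P : Pl) (fr : ℝ) (c : ι → ℂ) : 0 ≤ L.hop P fr c :=
  mul_nonneg (by positivity) (Finset.sum_nonneg fun _ _ => by positivity)

end OB

open OB

theorem ob (hL : LocStmt) (hFl : FluctStmt) (hLk : LeakStmt) (hHop : HopStmt) (hOff : OffStmt)
    (hTr : TrialStmt) (hTQ : TrialQStmt) {ι ρ : Type} [Fintype ι] [DecidableEq ι] [Fintype ρ]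
    (L : Lay ι ρ) (P : Pl) (fl fb fr : ℝ) (hLo : L.OK) (hP : P.OK) (hLev : L.Lev P fl fb fr)
    (μ : ι → ℝ) (M Λ v1 e0 g0 g1 sε δ Γ s τ aH e : ℝ) (V : E3 → ℝ) (K : ι → ι → ℝ)
    (hμ : ∀ a, |μ a| ≤ M) (hM : 0 ≤ M) (hMΩ : M ≤ P.Om)
    (hf1 : ∀ j x, pd j P.fl x ^ 2 ≤ P.Om) (hf2 : ∀ x, |lap P.fl x| ≤ P.Om)
    (hf3 : ∀ x, |Wf P.fl x| ≤ P.Om) (hΩ : 2500 ≤ P.Om) (he0 : 0 ≤ e0) (hδ : 0 < δ)
    (hδ' : δ ≤ 1 / 2) (hsε : 0 ≤ sε) (hg0 : 64 * g0 ≤ δ) (hsε' : 32 * sε ≤ δ)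
    (hpot : PotOK V (P.Phi (L.mu μ) Λ) v1 P.Om e0 g0 g1 sε) (htl : P.tl ≤ 1)
    (hδ1 : 2 * P.th + 7200 * P.G ^ 4 * P.kz * Real.exp (-(2 * (fr - fb))) / P.th ^ 2 ≤ δ)
    (hδ2 : (1 + P.tl) * (1 + 20 * P.th) ≤ 1 + δ)
    (haH : ∀ c, L.hop P fr c ≤ aH * n1 c) (haH0 : 0 ≤ aH) (hΓ : 0 ≤ Γ)
    (hK1 : (Γ + M) * (1000 * P.G ^ 4 * P.kz * P.l ^ 2) ≤ δ) (hΛ : Γ + M ≤ Λ)
    (hs : 32 * P.G ^ 2 * Real.exp (2 * fl) * (P.tl + Real.exp (-(2 * fb)) + P.th) ≤ s) (hs1 : s ≤ 1)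
    (hτ : 0 < τ) (htail : 128 * Real.exp (2 * fl) / (τ * P.l ^ 2) ≤ e)
    (hpair : ∀ a b, |kex (L.th P) τ a b - K a b| ≤ e)
    (he1 : e0 + 1 + 12 * g1 ^ 2 / δ + 22 * g0 * P.Om + 6 * sε * P.Om + 3 * δ * aH + (Γ + M) *
      (16 * P.th + 2 * P.G ^ 2 * Real.exp (-(2 * (fb - fl))) + 3 / (P.Om * P.h ^ 2)) ≤ e)
    (heb : 0 ≤ e0 + 6 * P.Om ^ 2 * P.h ^ 4 + 12 * g1 ^ 2 / δ + 22 * g0 * P.Om + 6 * sε * P.Om)
    (he2 : 2 * (e0 + 6 * P.Om ^ 2 * P.h ^ 4 + 12 * g1 ^ 2 / δ + 22 * g0 * P.Om + 6 * sε * P.Om) +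
      3 * δ * aH + 2 * (P.G ^ 2 * Real.exp (2 * fl) *
        (400 * Real.exp (-(2 * P.fv)) / P.l ^ 2 + 128 * P.tl / P.h ^ 2)) + M * s ≤ e) :
    OneBody V (L.phi P) (L.th P)
      (Amat L (Real.exp (-(2 * fr)) / (2 * P.l ^ 2)) (fun a => Real.exp (P.F (L.dot a))) μ) K
      (v1 - Λ + P.Om / 2) e Γ s τ := by
  obtain ⟨hons, hleak⟩ := hLk ι ρ L P fl fb fr hLo hP hLev
  obtain ⟨hc1, hsupp, hbi, hgram, htl'⟩ := hTr ι ρ L P fl fb fr hLo hP hLev htl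
  obtain ⟨hmu, hoff⟩ := hOff ι ρ L P μ M hLo hP hLev.G_eq hμ hM
  have hD : ∀ ψ, C1c ψ → n1 (coef (L.th P) ψ) ≤ nsq ψ := by
    intro ψ hψ
    have := (hOff ι ρ L P (fun _ => 0) 1 hLo hP hLev.G_eq (by simp) zero_le_one).2 ψ hψ
    have := (abs_nonneg _).trans this
    linarith
  have hh : P.h ≤ 1 / 8 := by
    have h1 := hP.Gl
    have h2 : (1 : ℝ) ≤ P.G := by exact_mod_cast hP.G_pos
    have h3 := hP.l_pos
    have h4 := hP.h_le
    nlinarith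
  have hfl := hFl P.fl (P.tab (L.mu μ)) P.zeta V Λ v1 P.Om e0 g0 g1 sε δ P.h
    ((hL.fl_smooth P).of_le (by norm_num)) (hL.fl_pd2 P) (hL.tab_smooth P _).continuous
    (hL.tab_smooth P _).continuous hf1 hf2 hf3
    (fun x => (hL.tab_abs P hP _ M hmu x).trans hMΩ) (hL.zeta_mem P hP) (by linarith) hΩ he0 hδ hsε
    hg0 hsε' hP.h_pos.le hh hpot
  have hgram' : ∀ c, nsq (lin (L.phi P) c) ≤ (1 + s) * n1 c := fun c =>
    (hgram c).trans (mul_le_mul_of_nonneg_right (by linarith) (n1_nonneg c))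
  refine ⟨hons, hc1, hbi, hgram', ?_, ?_, ?_, hpair⟩
  · intro ψ hψ
    have h1 := (hfl ψ hψ).1
    have h2 := hleak ψ hψ
    have h3 := hHop ι ρ L P fl fb fr hLo hP hLev ψ hψ
    have h4 := (abs_le.1 (hoff ψ hψ)).1
    have h5 := hD ψ hψ
    have h6 := haH (coef (L.th P) ψ)
    have h7 := hop_nonneg L P fr (coef (L.th P) ψ)
    have hq : 0 ≤ P.q ψ := qq_nonneg _ _ _
    have hn := nsq_nonneg ψ
    have hz : 0 ≤ pot (fun x => 1 - P.zeta x) ψ := integral_nonneg fun x =>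
      mul_nonneg (sub_nonneg.2 (hL.zeta_mem P hP x).2) (by positivity)
    rw [qf_Amat_hop]
    change _ + (1 - δ) * P.q ψ + _ + _ ≤ _ at h1
    set q := P.q ψ
    set n0 := nsq ψ
    set H := L.hop P fr (coef (L.th P) ψ)
    set z := pot (fun x => 1 - P.zeta x) ψ
    set s1 := 16 * P.th + 2 * P.G ^ 2 * Real.exp (-(2 * (fb - fl))) + 3 / (P.Om * P.h ^ 2)
    set K1 := 1000 * P.G ^ 4 * P.kz * P.l ^ 2
    set D := n0 - n1 (coef (L.th P) ψ) with hDdef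
    set ea := e0 + 1 + 12 * g1 ^ 2 / δ + 22 * g0 * P.Om + 6 * sε * P.Om
    have a1 : H ≤ (1 + δ) * q := h3.trans (mul_le_mul_of_nonneg_right (by linarith) hq)
    have a2 : (1 - 3 * δ) * H ≤ (1 - 2 * δ) * q := by
      by_cases h : 0 ≤ 1 - 3 * δ
      · have := mul_le_mul_of_nonneg_left a1 h
        nlinarith [mul_nonneg (mul_nonneg hδ.le hδ.le) hq]
      · nlinarith [mul_nonneg (show 0 ≤ 1 - 2 * δ by linarith) hq]
    have a3 : H ≤ aH * n0 := h6.trans (mul_le_mul_of_nonneg_left h5 haH0)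
    have a4 : (Γ + M) * D ≤ (Γ + M) * (s1 * n0 + K1 * q + z) :=
      mul_le_mul_of_nonneg_left h2 (by linarith)
    have a5 : (Γ + M) * K1 * q ≤ δ * q := mul_le_mul_of_nonneg_right hK1 hq
    have a6 : (Γ + M) * z ≤ Λ * z := mul_le_mul_of_nonneg_right hΛ hz
    have a7 : (ea + 3 * δ * aH + (Γ + M) * s1) * n0 ≤ e * n0 := mul_le_mul_of_nonneg_right he1 hn
    have a8 : δ * H ≤ δ * (aH * n0) := mul_le_mul_of_nonneg_left a3 hδ.le
    nlinarith
  · intro c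
    have hψ := lin_c1c hc1 c
    have hsup : ∀ x, lin (L.phi P) c x ≠ 0 → ‖x‖ ≤ 1 / 2 ∧ P.zeta x = 1 ∧ |x 2| ≤ 2 * P.h := by
      intro x hx
      obtain ⟨a, -, ha⟩ := Finset.exists_ne_zero_of_sum_ne_zero hx
      exact hsupp a x fun h => ha (by simp [h])
    have h1 := (hfl _ hψ).2 hsup
    have h3 := hTQ ι ρ L P fl fb fr hLo hP hLev htl c
    have h4 := (abs_le.1 (hoff _ hψ)).2
    rw [coef_lin hons hc1 hbi] at h4
    have h5 := hgram' c
    have h6 := haH c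
    have h7 := hop_nonneg L P fr c
    have hn := n1_nonneg c
    rw [qf_Amat_hop]
    change _ ≤ _ + (1 + δ) * P.q _ + _ at h1
    set q := P.q (lin (L.phi P) c)
    set n0 := nsq (lin (L.phi P) c)
    set H := L.hop P fr c
    set eb := e0 + 6 * P.Om ^ 2 * P.h ^ 4 + 12 * g1 ^ 2 / δ + 22 * g0 * P.Om + 6 * sε * P.Om
    set e3 := P.G ^ 2 * Real.exp (2 * fl) *
        (400 * Real.exp (-(2 * P.fv)) / P.l ^ 2 + 128 * P.tl / P.h ^ 2)
    have htl0 : 0 ≤ P.tl := by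
      have := hL.kz_ge P hP
      unfold Pl.tl; positivity
    have he3 : 0 ≤ e3 := by positivity
    have a1 : q ≤ (1 + δ) * H + e3 * n1 c := h3.trans (by gcongr)
    have a2 : (1 + δ) * q ≤ (1 + δ) * ((1 + δ) * H + e3 * n1 c) :=
      mul_le_mul_of_nonneg_left a1 (by linarith)
    have a3 : eb * n0 ≤ eb * ((1 + s) * n1 c) := mul_le_mul_of_nonneg_left h5 heb
    have a4 : M * (n0 - n1 c) ≤ M * (s * n1 c) := mul_le_mul_of_nonneg_left (by linarith) hM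
    have a5 : (2 * eb + 3 * δ * aH + 2 * e3 + M * s) * n1 c ≤ e * n1 c :=
      mul_le_mul_of_nonneg_right he2 hn
    have a6 : δ * H ≤ δ * (aH * n1 c) := mul_le_mul_of_nonneg_left h6 hδ.le
    have a7 : eb * (s * n1 c) ≤ eb * n1 c :=
      mul_le_mul_of_nonneg_left (by nlinarith) heb
    have a8 : δ * (δ * H) ≤ δ * H := by
      have := mul_nonneg hδ.le h7
      nlinarith
    have a9 : δ * (e3 * n1 c) ≤ e3 * n1 c := by
      have := mul_nonneg he3 hn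
      nlinarith
    nlinarith
  · intro x
    exact (htl' τ hτ x).trans (ENNReal.ofReal_le_ofReal htail)

/-- Stability of the one-body package. -/
theorem OneBody.pert {ι : Type} [Fintype ι] [DecidableEq ι] {V : E3 → ℝ} {φ θ : ι → E3 → ℝ}
    {A A' K : ι → ι → ℝ} {E1 E1' e e' Γ s τ : ℝ} (h : OneBody V φ θ A K E1 e Γ s τ)
    (hD : ∀ ψ, C1c ψ → n1 (coef θ ψ) ≤ nsq ψ) (hE : |E1 - E1'| ≤ e')
    (hA : ∀ c, |qf A c - qf A' c| ≤ e' * n1 c) (hs : s ≤ 1) :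
    OneBody V φ θ A' K E1' (e + 3 * e') Γ s τ := by
  have he' : 0 ≤ e' := (abs_nonneg _).trans hE
  obtain ⟨hE1, hE2⟩ := abs_le.1 hE
  refine ⟨h.ons, h.c1, h.bi, h.gram, ?_, ?_, ?_, ?_⟩
  · intro ψ hψ
    have h1 := h.lower ψ hψ
    have h2 := (abs_le.1 (hA (coef θ ψ))).1
    have h3 := mul_le_mul_of_nonneg_left (hD ψ hψ) he'
    have hn := nsq_nonneg ψ
    have h4 := mul_le_mul_of_nonneg_right hE1 hn
    have h5 := mul_nonneg he' hn
    nlinarith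
  · intro c
    have h1 := h.upper c
    have h2 := (abs_le.1 (hA c)).2
    have h3 := h.gram c
    have hn := n1_nonneg c
    have hn' := nsq_nonneg (lin φ c)
    have h4 := mul_le_mul_of_nonneg_right hE2 hn'
    have h5 : e' * nsq (lin φ c) ≤ e' * (2 * n1 c) :=
      mul_le_mul_of_nonneg_left (h3.trans (by nlinarith)) he'
    nlinarith
  · intro x
    exact (h.tail x).trans (ENNReal.ofReal_le_ofReal (by linarith))
  · intro a b
    exact (h.pair a b).trans (by linarith)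

end Crest.Agent.R338
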