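import Crest.Agent.R338.DefsB
import Crest.Agent.Lib.PolyTime.OfTM

/-! # Row 338: machine polynomial time implies `Poly` -/

namespace Crest.Agent.R338

theorem ofPoly : OfPolyStmt := fun _ h => Crest.Agent.Lib.PolyTime.Poly.of_polyTime h

end Crest.Agent.R338
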