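import Crest.Agent.R338.Defs

/-!
# Row 338: particle-hole duality for the finite fermionic models
-/

set_option linter.unusedSectionVars false

noncomputable section

open Function Equiv
open scoped ComplexConjugate
open Crest.MathPhysics.ElectronicCoulomb

namespace Crest.Agent.R338

namespace PH

variable {M : Type} [Fintype M] [DecidableEq M] {n k : ℕ}

/-- the sign as a complex number -/
def sg {α : Type} [Fintype α] [DecidableEq α] (σ : Perm α) : ℂ := ((Perm.sign σ : ℤ) : ℂ)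

theorem sg_mul (σ τ : Perm M) : sg (σ * τ) = sg σ * sg τ := by simp [sg]

theorem sg_cases (σ : Perm M) : sg σ = 1 ∨ sg σ = -1 := by
  rcases Int.units_eq_one_or (Perm.sign σ) with h | h <;> simp [sg, h]

theorem sg_sq (σ : Perm M) : sg σ * sg σ = 1 := by
  rcases sg_cases σ with h | h <;> simp [h]

theorem sg_swap {a b : M} (h : a ≠ b) : sg (swap a b) = -1 := by simp [sg, Perm.sign_swap h]

/-- antisymmetry -/
def ASM (c : (Fin n → M) → ℂ) : Prop := ∀ (σ : Perm (Fin n)) g, c (g ∘ σ) = sg σ * c g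

theorem ASM.zero {c : (Fin n → M) → ℂ} (hc : ASM c) {g : Fin n → M} (hg : ¬ Injective g) :
    c g = 0 := by
  obtain ⟨i, j, h, hij⟩ := not_injective_iff.1 hg
  have h1 := hc (swap i j) g
  have h2 : g ∘ swap i j = g := funext fun x => apply_swap_eq_self h x
  rw [h2, sg_swap hij] at h1
  linear_combination (1 / 2 : ℂ) * h1

/-- the particles `l` and the holes `r` fill all the modes -/
def Split (l : Fin n → M) (r : Fin k → M) : Prop :=
  ∃ G : Fin n ⊕ Fin k ≃ M, (∀ i, G (Sum.inl i) = l i) ∧ ∀ j, G (Sum.inr j) = r j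

namespace Split
variable {l : Fin n → M} {r : Fin k → M}

theorem symm (h : Split l r) : Split r l := by
  obtain ⟨G, h1, h2⟩ := h
  exact ⟨(Equiv.sumComm _ _).trans G, h2, h1⟩

theorem map (h : Split l r) (π : Perm M) : Split (π ∘ l) (π ∘ r) := by
  obtain ⟨G, h1, h2⟩ := h
  exact ⟨G.trans π, fun i => congrArg π (h1 i), fun j => congrArg π (h2 j)⟩

theorem inj (h : Split l r) : Injective l := by
  obtain ⟨G, h1, h2⟩ := h
  intro i j hij
  rw [← h1, ← h1] at hij
  exact Sum.inl_injective (G.injective hij)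

theorem ne (h : Split l r) (i : Fin n) (j : Fin k) : l i ≠ r j := by
  obtain ⟨G, h1, h2⟩ := h
  intro hij
  rw [← h1, ← h2] at hij
  exact Sum.inl_ne_inr (G.injective hij)

theorem sum (h : Split l r) (f : M → ℝ) : ∑ m, f m = ∑ i, f (l i) + ∑ j, f (r j) := by
  obtain ⟨G, h1, h2⟩ := h
  rw [← G.sum_comp, Fintype.sum_sum_type]
  simp only [h1, h2]

theorem extend (h : Split l r) (σ : Perm (Fin n)) :
    ∃ ρ : Perm M, sg ρ = sg σ ∧ ρ ∘ l = l ∘ σ ∧ ρ ∘ r = r := by
  obtain ⟨G, h1, h2⟩ := h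
  refine ⟨G.permCongr (Perm.sumCongr σ 1), by simp [sg], funext fun i => ?_, funext fun j => ?_⟩
  · simp [← h1]
  · simp [← h2]

theorem restrict (h : Split l r) {ρ : Perm M} (hρ : ρ ∘ r = r) :
    ∃ σ : Perm (Fin n), sg σ = sg ρ ∧ ρ ∘ l = l ∘ σ := by
  obtain ⟨G, h1, h2⟩ := h
  have h3 : ∀ j, G.symm.permCongr ρ (Sum.inr j) = Sum.inr j := fun j => by
    have := congrFun hρ j
    rw [comp_apply, ← h2] at this
    simp [this]
  have h4 : Set.MapsTo (G.symm.permCongr ρ) (Set.range Sum.inl) (Set.range Sum.inl) := by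
    rintro _ ⟨i, rfl⟩
    rcases hx : G.symm.permCongr ρ (Sum.inl i) with a | b
    · exact ⟨a, rfl⟩
    · exact absurd ((G.symm.permCongr ρ).injective (hx.trans (h3 b).symm)) Sum.inl_ne_inr
  obtain ⟨⟨σ, τ⟩, h5⟩ := Perm.mem_sumCongrHom_range_of_perm_mapsTo_inl h4
  rw [Perm.sumCongrHom_apply] at h5
  have h6 : τ = 1 := Equiv.ext fun j => by
    have := h3 j
    rw [← h5] at this
    simpa using this
  refine ⟨σ, ?_, funext fun i => ?_⟩
  · have := congrArg Perm.sign h5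
    simp only [h6, Perm.sign_sumCongr, Perm.sign_permCongr, Perm.sign_one, mul_one] at this
    rw [sg, sg, this]
  · have := congrArg G (Equiv.congr_fun h5 (Sum.inl i))
    simpa [h1] using this.symm

theorem swap_comp (h : Split l r) (i : Fin n) (j : Fin k) :
    swap (l i) (r j) ∘ l = update l i (r j) := funext fun x => by
  by_cases hx : x = i
  · simp [hx]
  · rw [update_of_ne hx, comp_apply, swap_apply_of_ne_of_ne (h.inj.ne hx) (h.ne x j)]

end Split

theorem exists_perm {l g : Fin n → M} (hl : Injective l) (hg : Injective g) :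
    ∃ π : Perm M, π ∘ l = g :=
  (Perm.exists_extending_pair l g hl hg).imp fun _ h => funext h

/-- counting -/
theorem count {l : Fin n → M} (hl : Injective l) : ∃ N : ℝ, 0 < N ∧ ∀ φ : (Fin n → M) → ℝ,
    (∀ g, ¬ Injective g → φ g = 0) → ∑ π : Perm M, φ (π ∘ l) = N * ∑ g, φ g := by
  refine ⟨(Finset.univ.filter fun π : Perm M => π ∘ l = l).card,
    Nat.cast_pos.2 (Finset.card_pos.2 ⟨1, by simp⟩), fun φ hφ => ?_⟩
  rw [← Finset.sum_fiberwise' Finset.univ (fun π : Perm M => π ∘ l) φ, Finset.mul_sum]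
  refine Finset.sum_congr rfl fun g _ => ?_
  by_cases hg : Injective g
  · obtain ⟨π0, rfl⟩ := exists_perm hl hg
    rw [Finset.sum_const, nsmul_eq_mul]
    congr 2
    refine Finset.card_equiv (Equiv.mulLeft π0⁻¹) fun π => ?_
    simp [funext_iff, Equiv.symm_apply_eq]
  · simp [hφ g hg]

/-- the amplitude of the holes -/
def Dual (l : Fin n → M) (r : Fin k → M) (c : (Fin n → M) → ℂ) (χ : (Fin k → M) → ℂ) : Prop :=
  ∀ π : Perm M, χ (π ∘ r) = sg π * c (π ∘ l)

theorem Dual.symm {l : Fin n → M} {r : Fin k → M} {c : (Fin n → M) → ℂ} {χ : (Fin k → M) → ℂ}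
    (h : Dual l r c χ) : Dual r l χ c := fun π => by
  rw [h π, ← mul_assoc, sg_sq, one_mul]

theorem exists_dual {l : Fin n → M} {r : Fin k → M} (h : Split l r) {c : (Fin n → M) → ℂ}
    (hc : ASM c) : ∃ χ, ASM χ ∧ Dual l r c χ := by
  classical
  have key : ∀ π π' : Perm M, π ∘ r = π' ∘ r → sg π * c (π ∘ l) = sg π' * c (π' ∘ l) := by
    intro π π' e
    obtain ⟨σ, h1, h2⟩ := h.restrict (ρ := π'⁻¹ * π) (funext fun j => by
      simpa [Equiv.symm_apply_eq] using congrFun e j)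
    have h3 : π ∘ l = (π' ∘ l) ∘ σ := funext fun i => by
      simpa [Equiv.symm_apply_eq] using congrFun h2 i
    have h4 : sg π = sg π' * sg σ := by rw [h1, ← sg_mul, mul_inv_cancel_left]
    rw [h3, hc, h4, mul_assoc, ← mul_assoc (sg σ), sg_sq, one_mul]
  let χ : (Fin k → M) → ℂ := fun g =>
    if H : ∃ π : Perm M, π ∘ r = g then sg H.choose * c (H.choose ∘ l) else 0
  have hd : Dual l r c χ := fun π => by
    have H : ∃ π' : Perm M, π' ∘ r = π ∘ r := ⟨π, rfl⟩
    exact (dif_pos H).trans (key _ _ H.choose_spec)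
  refine ⟨χ, fun τ g => ?_, hd⟩
  by_cases hg : Injective g
  · obtain ⟨π, rfl⟩ := exists_perm h.symm.inj hg
    obtain ⟨ρ, h1, h2, h3⟩ := h.symm.extend τ
    have h4 := hd (π * ρ)
    rw [Perm.coe_mul, comp_assoc, comp_assoc, h2, h3, sg_mul, h1] at h4
    rw [comp_assoc, h4, hd π]
    ring
  · have z : ∀ g, ¬ Injective g → χ g = 0 := fun g hg => dif_neg fun ⟨π, e⟩ =>
      hg (e ▸ π.injective.comp h.symm.inj)
    rw [z g hg, z _ fun H => hg ((Injective.of_comp_iff' g τ.bijective).1 H), mul_zero]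

/-- one-body energy density -/
def p1 (A : M → M → ℝ) (c : (Fin n → M) → ℂ) (g : Fin n → M) : ℝ :=
  ∑ i, ∑ b, A (g i) b * (conj (c g) * c (update g i b)).re

/-- two-body energy density -/
def p2 (K : M → M → ℝ) (g : Fin n → M) : ℝ := ∑ i, ∑ j, if i < j then K (g i) (g j) else 0

theorem eF_eq (A K : M → M → ℝ) (c : (Fin n → M) → ℂ) :
    eF A K c = ∑ g, (p1 A c g + p2 K g * ‖c g‖ ^ 2) := by
  rw [Finset.sum_add_distrib, eF, e1, Finset.sum_comm]
  rfl

theorem p1_eq (A : M → M → ℝ) {c : (Fin n → M) → ℂ} (hc : ASM c) {g : Fin n → M} {h : Fin k → M}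
    (hs : Split g h) : p1 A c g = (∑ i, A (g i) (g i)) * ‖c g‖ ^ 2
      + ∑ i, ∑ j, A (g i) (h j) * (conj (c g) * c (update g i (h j))).re := by
  rw [Finset.sum_mul, ← Finset.sum_add_distrib]
  refine Finset.sum_congr rfl fun i _ => ?_
  rw [hs.sum, Finset.sum_eq_single i (fun j _ hj => ?_) (by simp), update_eq_self,
    Complex.conj_mul', ← Complex.ofReal_pow, Complex.ofReal_re]
  rw [hc.zero (g := update g i (g j)) fun H => hj (H (by simp [hj])), mul_zero, Complex.zero_re,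
    mul_zero]

theorem p2_eq {K : M → M → ℝ} (hK : ∀ a b, K a b = K b a) (g : Fin n → M) :
    2 * p2 K g = ∑ i, ∑ j, K (g i) (g j) - ∑ i, K (g i) (g i) := by
  have h1 : p2 K g = ∑ i, ∑ j, if j < i then K (g i) (g j) else 0 := by
    rw [p2, Finset.sum_comm]
    simp only [hK (g _) (g _)]
  have h2 : ∀ i j, K (g i) (g j) = (if i < j then K (g i) (g j) else 0)
      + (if j < i then K (g i) (g j) else 0) + if i = j then K (g i) (g i) else 0 := by
    intro i j
    rcases lt_trichotomy i j with h | h | h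
    · simp [h, h.not_gt, h.ne]
    · simp [h]
    · simp [h, h.not_gt, h.ne']
  rw [Finset.sum_congr rfl fun i _ => Finset.sum_congr rfl fun j _ => h2 i j]
  simp only [Finset.sum_add_distrib, Finset.sum_ite_eq, Finset.mem_univ, if_true]
  rw [← h1, ← p2]
  ring

/-- interaction with all the other modes -/
def sK (K : M → M → ℝ) (a : M) : ℝ := ∑ m, K a m - K a a

/-- one-body matrix of the holes -/
def hB (A K : M → M → ℝ) (a b : M) : ℝ := -A b a - if a = b then sK K a else 0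

/-- energy of the filled state -/
def hC (A K : M → M → ℝ) : ℝ := ∑ a, A a a + (1 / 2) * ∑ a, sK K a

theorem pointwise (A : M → M → ℝ) {K : M → M → ℝ} (hK : ∀ a b, K a b = K b a)
    {l : Fin n → M} {r : Fin k → M} (hs : Split l r) {c : (Fin n → M) → ℂ} {χ : (Fin k → M) → ℂ}
    (hc : ASM c) (hχ : ASM χ) (hd : Dual l r c χ) (π : Perm M) :
    p1 A c (π ∘ l) + p2 K (π ∘ l) * ‖c (π ∘ l)‖ ^ 2 = hC A K * ‖χ (π ∘ r)‖ ^ 2
      + (p1 (hB A K) χ (π ∘ r) + p2 K (π ∘ r) * ‖χ (π ∘ r)‖ ^ 2) := by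
  have hs' := hs.map π
  have h0 := hd π
  have h1 : ∀ i j, χ (update (π ∘ r) j ((π ∘ l) i)) = -sg π * c (update (π ∘ l) i ((π ∘ r) j)) := by
    intro i j
    have := hd (swap ((π ∘ l) i) ((π ∘ r) j) * π)
    rw [Perm.coe_mul, comp_assoc, comp_assoc, hs'.swap_comp, swap_comm, hs'.symm.swap_comp, sg_mul,
      sg_swap (hs'.ne i j).symm, neg_one_mul] at this
    exact this
  generalize π ∘ l = g at *
  generalize π ∘ r = h at *
  have hn : ‖χ h‖ = ‖c g‖ := by rcases sg_cases π with e | e <;> simp [h0, e]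
  have h2 : ∑ j, ∑ i, hB A K (h j) (g i) * (conj (χ h) * χ (update h j (g i))).re
      = ∑ i, ∑ j, A (g i) (h j) * (conj (c g) * c (update g i (h j))).re := by
    rw [Finset.sum_comm]
    refine Finset.sum_congr rfl fun i _ => Finset.sum_congr rfl fun j _ => ?_
    rw [hB, if_neg (hs'.ne i j).symm, h1, h0]
    rcases sg_cases π with e | e <;> simp [e] <;> ring
  have h3 := p2_eq hK g
  have h4 := p2_eq hK h
  have h5 : ∑ j, ∑ i, K (h j) (g i) = ∑ i, ∑ j, K (g i) (h j) := by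
    rw [Finset.sum_comm]
    simp only [hK (h _) (g _)]
  have h6 : ∑ i, A (g i) (g i) + p2 K g = hC A K + (∑ j, hB A K (h j) (h j) + p2 K h) := by
    simp only [hC, hB, sK, if_true, hs'.sum, Finset.sum_add_distrib, Finset.sum_sub_distrib,
      Finset.sum_neg_distrib, h5]
    linarith
  rw [p1_eq A hc hs', p1_eq _ hχ hs'.symm, h2, hn]
  linear_combination ‖c g‖ ^ 2 * h6

theorem energy (A : M → M → ℝ) {K : M → M → ℝ} (hK : ∀ a b, K a b = K b a)
    {l : Fin n → M} {r : Fin k → M} (hs : Split l r) {c : (Fin n → M) → ℂ} {χ : (Fin k → M) → ℂ}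
    (hc : ASM c) (hχ : ASM χ) (hd : Dual l r c χ) : ∃ t : ℝ, 0 < t ∧ nF c = t * nF χ ∧
      eF A K c = t * (hC A K * nF χ + eF (hB A K) K χ) := by
  obtain ⟨N, hN, h1⟩ := count hs.inj
  obtain ⟨N', hN', h2⟩ := count hs.symm.inj
  have a1 := h1 (fun g => ‖c g‖ ^ 2) fun g hg => by simp [hc.zero hg]
  have a2 := h2 (fun g => ‖χ g‖ ^ 2) fun g hg => by simp [hχ.zero hg]
  have a3 := h1 (fun g => p1 A c g + p2 K g * ‖c g‖ ^ 2) fun g hg => by simp [p1, hc.zero hg]
  have a4 := h2 (fun g => p1 (hB A K) χ g + p2 K g * ‖χ g‖ ^ 2) fun g hg => by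
    simp [p1, hχ.zero hg]
  have a5 : ∑ π : Perm M, ‖c (π ∘ l)‖ ^ 2 = ∑ π : Perm M, ‖χ (π ∘ r)‖ ^ 2 :=
    Finset.sum_congr rfl fun π _ => by rcases sg_cases π with e | e <;> simp [hd π, e]
  simp only [pointwise A hK hs hc hχ hd] at a3
  rw [Finset.sum_add_distrib, ← Finset.mul_sum, a2, a4, ← eF_eq, ← eF_eq] at a3
  rw [a5, a2] at a1
  refine ⟨N⁻¹ * N', by positivity, ?_, ?_⟩
  · rw [mul_assoc, eq_inv_mul_iff_mul_eq₀ hN.ne']
    exact a1.symm
  · rw [mul_assoc, eq_inv_mul_iff_mul_eq₀ hN.ne', ← a3, nF]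
    ring

/-! ### spin -/

variable {ι : Type} [Fintype ι] [DecidableEq ι]

/-- amplitude on modes -/
def hat (c : Spin n → (Fin n → ι) → ℂ) (G : Fin n → ι × Fin 2) : ℂ :=
  c (fun i => (G i).2) fun i => (G i).1

/-- spin-diagonal matrix -/
def dg (A : ι → ι → ℝ) (m m' : ι × Fin 2) : ℝ := if m.2 = m'.2 then A m.1 m'.1 else 0

/-- spin-independent interaction -/
def fl (K : ι → ι → ℝ) (m m' : ι × Fin 2) : ℝ := K m.1 m'.1

theorem sum_hat (F : Spin n → (Fin n → ι) → ℝ) :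
    ∑ s, ∑ g, F s g = ∑ G : Fin n → ι × Fin 2, F (fun i => (G i).2) fun i => (G i).1 := by
  rw [Finset.sum_comm, ← Fintype.sum_prod_type']
  exact ((arrowProdEquivProdArrow (Fin n) (fun _ => ι) fun _ => Fin 2).sum_comp
    fun p => F p.2 p.1).symm

theorem nF_hat (c : Spin n → (Fin n → ι) → ℂ) : ∑ s, nF (c s) = nF (hat c) :=
  sum_hat fun s g => ‖c s g‖ ^ 2

theorem eF_hat (A K : ι → ι → ℝ) (c : Spin n → (Fin n → ι) → ℂ) :
    ∑ s, eF A K (c s) = eF (dg A) (fl K) (hat c) := by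
  simp only [eF_eq]
  rw [sum_hat]
  refine Finset.sum_congr rfl fun G _ => congrArg₂ _ (Finset.sum_congr rfl fun i _ => ?_) rfl
  rw [Fintype.sum_prod_type]
  refine Finset.sum_congr rfl fun b _ => ?_
  simp only [dg, ite_mul, zero_mul, Finset.sum_ite_eq, Finset.mem_univ, if_true]
  have e1 : (fun j => (update G i (b, (G i).2) j).2) = fun j => (G j).2 := funext fun j => by
    by_cases hj : j = i <;> simp [hj]
  have e2 : (fun j => (update G i (b, (G i).2) j).1) = update (fun j => (G j).1) i b :=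
    funext fun j => by by_cases hj : j = i <;> simp [hj]
  rw [hat, hat, e1, e2]

theorem exists_hat {χ : (Fin n → ι × Fin 2) → ℂ} (h : ASM χ) : ∃ c, AS c ∧ hat c = χ :=
  ⟨fun s g => χ fun i => (g i, s i), fun σ s g => h σ fun i => (g i, s i), rfl⟩

theorem sK_fl (K : ι → ι → ℝ) (m : ι × Fin 2) : sK (fl K) m = selfK K m.1 := by
  simp [sK, fl, selfK, Fintype.sum_prod_type, ← Finset.mul_sum]
  ring

theorem hB_eq (A K : ι → ι → ℝ) : hB (dg A) (fl K) = dg (holeB A K) := by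
  funext m m'
  by_cases h : m.2 = m'.2
  · simp [hB, dg, holeB, sK_fl, Prod.ext_iff, h]
  · simp [hB, dg, Prod.ext_iff, h, Ne.symm h]

theorem hC_eq (A K : ι → ι → ℝ) : hC (dg A) (fl K) = holeC A K := by
  simp [hC, holeC, dg, sK_fl, Fintype.sum_prod_type, ← Finset.mul_sum]

end PH

open PH in
/-- Particle-hole duality. -/
theorem ph : PHStmt := by
  intro ι _ _ n k A K lam hnk hK
  have G : Fin n ⊕ Fin k ≃ ι × Fin 2 := Fintype.equivOfCardEq (by simp [hnk, mul_comm])
  have hs : Split (fun i => G (Sum.inl i)) fun j => G (Sum.inr j) := ⟨G, fun _ => rfl, fun _ => rfl⟩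
  have hK' : ∀ a b, fl K a b = fl K b a := fun a b => hK _ _
  refine ⟨fun H c hc => ?_, fun ⟨χ, hχ, h0, H⟩ => ?_⟩
  · have hc' : ASM (hat c) := fun σ g => hc σ (fun i => (g i).2) fun i => (g i).1
    obtain ⟨χ', hχ', hd⟩ := exists_dual hs hc'
    obtain ⟨χ, hχ, rfl⟩ := exists_hat hχ'
    obtain ⟨t, ht, h1, h2⟩ := energy (dg A) hK' hs hc' hχ' hd
    have h3 := H χ hχ
    rw [nF_hat, eF_hat] at h3 ⊢
    rw [h1, h2, hB_eq, hC_eq]
    linarith [mul_le_mul_of_nonneg_left h3 ht.le]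
  · have hχ' : ASM (hat χ) := fun σ g => hχ σ (fun i => (g i).2) fun i => (g i).1
    obtain ⟨c', hc', hd⟩ := exists_dual hs.symm hχ'
    obtain ⟨c, hc, rfl⟩ := exists_hat hc'
    obtain ⟨t, ht, h1, h2⟩ := energy (dg A) hK' hs hc' hχ' hd.symm
    rw [nF_hat] at h0
    rw [nF_hat, eF_hat] at H
    refine ⟨c, hc, ?_, ?_⟩
    · rw [nF_hat, h1]
      exact mul_pos ht h0
    · rw [nF_hat, eF_hat, h1, h2, hB_eq, hC_eq]
      linarith [mul_le_mul_of_nonneg_left H ht.le]

end Crest.Agent.R338
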