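import Mathlib

/-!
# Row 338: a small calculus of power bounds
-/

noncomputable section

namespace Crest.Agent.R338

/-- `y` is large. -/
def Big (y : ℝ) : Prop := 10 ^ 8 ≤ y

/-- Upper bound `0 ≤ x ≤ c y ^ k`. -/
def UB (y x : ℝ) (c : ℕ) (k : ℤ) : Prop := 0 ≤ x ∧ x ≤ c * y ^ k

/-- Lower bound `0 < x`, `1 / x ≤ c y ^ k`. -/
def LB (y x : ℝ) (c : ℕ) (k : ℤ) : Prop := 0 < x ∧ x⁻¹ ≤ c * y ^ k

variable {y x x' : ℝ} {c c' : ℕ} {k k' : ℤ}

theorem Big.one_le (h : Big y) : 1 ≤ y := le_trans (by norm_num) h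

theorem Big.pos (h : Big y) : 0 < y := lt_of_lt_of_le one_pos h.one_le

theorem Big.zp (h : Big y) (k : ℤ) : 0 < y ^ k := zpow_pos h.pos k

theorem Big.mono (h : Big y) (hk : k ≤ k') : y ^ k ≤ y ^ k' := zpow_le_zpow_right₀ h.one_le hk

theorem Big.succ (h : Big y) (hc : c ≤ 10 ^ 8) (hk : k < k') : c * y ^ k ≤ y ^ k' := by
  have h1 : (c : ℝ) ≤ y := le_trans (by exact_mod_cast hc) h
  calc (c : ℝ) * y ^ k ≤ y * y ^ k := mul_le_mul_of_nonneg_right h1 (h.zp k).le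
    _ = y ^ (k + 1) := by rw [zpow_add₀ h.pos.ne', zpow_one, mul_comm]
    _ ≤ y ^ k' := h.mono hk

namespace UB

theorem add (h : Big y) (h1 : UB y x c k) (h2 : UB y x' c' k') :
    UB y (x + x') (c + c') (max k k') := by
  refine ⟨add_nonneg h1.1 h2.1, ?_⟩
  have a1 := mul_le_mul_of_nonneg_left (h.mono (le_max_left k k')) (Nat.cast_nonneg (α := ℝ) c)
  have a2 := mul_le_mul_of_nonneg_left (h.mono (le_max_right k k')) (Nat.cast_nonneg (α := ℝ) c')
  push_cast
  linarith [h1.2, h2.2]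

theorem mul (h : Big y) (h1 : UB y x c k) (h2 : UB y x' c' k') :
    UB y (x * x') (c * c') (k + k') := by
  refine ⟨mul_nonneg h1.1 h2.1, ?_⟩
  have := mul_le_mul h1.2 h2.2 h2.1 (h1.1.trans h1.2)
  rw [zpow_add₀ h.pos.ne']
  push_cast
  linarith [mul_mul_mul_comm (c : ℝ) (y ^ k) c' (y ^ k')]

theorem inv (h1 : LB y x c k) : UB y x⁻¹ c k := ⟨inv_nonneg.2 h1.1.le, h1.2⟩

theorem div (h : Big y) (h1 : UB y x c k) (h2 : LB y x' c' k') :
    UB y (x / x') (c * c') (k + k') := by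
  rw [div_eq_mul_inv]; exact h1.mul h (inv h2)

theorem pow (n : ℕ) (h1 : UB y x c k) : UB y (x ^ n) (c ^ n) (k * n) := by
  refine ⟨pow_nonneg h1.1 n, ?_⟩
  have := pow_le_pow_left₀ h1.1 h1.2 n
  rwa [mul_pow, ← zpow_natCast (y ^ k), ← zpow_mul, ← Nat.cast_pow] at this

theorem zp (h : Big y) (k : ℤ) : UB y (y ^ k) 1 k := ⟨(h.zp k).le, by simp⟩

theorem self (h : Big y) : UB y y 1 1 := ⟨h.pos.le, by simp⟩

theorem one : UB y 1 1 0 := ⟨zero_le_one, by simp⟩

theorem zero : UB y 0 0 0 := ⟨le_rfl, by simp⟩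

theorem nat (n : ℕ) [n.AtLeastTwo] : UB y (OfNat.ofNat n) n 0 :=
  ⟨Nat.cast_nonneg (α := ℝ) n, by simp only [zpow_zero, mul_one]; exact le_rfl⟩

theorem of_le (h0 : 0 ≤ x) (hle : x ≤ x') (h1 : UB y x' c k) : UB y x c k := ⟨h0, hle.trans h1.2⟩

theorem fin (h : Big y) (h1 : UB y x c k) (hc : c ≤ 10 ^ 8) (hk : k < k') : x ≤ y ^ k' :=
  h1.2.trans (h.succ hc hk)

theorem fin1 (h : Big y) (h1 : UB y x c k) (hc : c ≤ 10 ^ 8) (hk : k < 0) : x ≤ 1 := by
  simpa using fin h h1 hc hk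

theorem fin' (h : Big y) (h1 : UB y x c k) (hc : c ≤ c') (hk : k ≤ k') : x ≤ c' * y ^ k' :=
  h1.2.trans (mul_le_mul (by exact_mod_cast hc) (h.mono hk) (h.zp k).le (Nat.cast_nonneg _))

theorem weak (h : Big y) (h1 : UB y x c k) (hc : c ≤ c') (hk : k ≤ k') : UB y x c' k' :=
  ⟨h1.1, fin' h h1 hc hk⟩

theorem weak1 (h : Big y) (h1 : UB y x c k) (hc : c ≤ 10 ^ 8) (hk : k < k') : UB y x 1 k' :=
  ⟨h1.1, by simpa using fin h h1 hc hk⟩

/-- Comparison of an upper bounded and a lower bounded quantity. -/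
theorem le (h : Big y) (h1 : UB y x c k) (h2 : LB y x' c' k') (hc : c * c' ≤ 10 ^ 8)
    (hk : k + k' < 0) : x ≤ x' := by
  have := fin1 h (div h h1 h2) hc hk
  rwa [div_le_one h2.1] at this

end UB

namespace LB

theorem mul (h : Big y) (h1 : LB y x c k) (h2 : LB y x' c' k') :
    LB y (x * x') (c * c') (k + k') :=
  ⟨mul_pos h1.1 h2.1, by rw [mul_inv]; exact ((UB.inv h1).mul h (UB.inv h2)).2⟩

theorem pow (n : ℕ) (h1 : LB y x c k) : LB y (x ^ n) (c ^ n) (k * n) :=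
  ⟨pow_pos h1.1 n, by rw [← inv_pow]; exact ((UB.inv h1).pow n).2⟩

theorem zp (h : Big y) (k : ℤ) : LB y (y ^ k) 1 (-k) := ⟨h.zp k, by simp⟩

theorem self (h : Big y) : LB y y 1 (-1) := ⟨h.pos, by simp⟩

theorem one : LB y 1 1 0 := ⟨one_pos, by simp⟩

theorem nat (n : ℕ) [n.AtLeastTwo] : LB y (OfNat.ofNat n) 1 0 := by
  have : (1 : ℝ) ≤ OfNat.ofNat n := Nat.one_le_ofNat
  exact ⟨by linarith, by simpa using inv_le_one_of_one_le₀ this⟩

theorem of_le (hle : x' ≤ x) (h1 : LB y x' c k) : LB y x c k :=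
  ⟨h1.1.trans_le hle, (inv_anti₀ h1.1 hle).trans h1.2⟩

theorem div (h : Big y) (h1 : LB y x c k) (h0 : 0 < x') (h2 : UB y x' c' k') :
    LB y (x / x') (c * c') (k + k') :=
  ⟨div_pos h1.1 h0, by rw [inv_div]; simpa [mul_comm, add_comm] using (h2.div h h1).2⟩

end LB

/-- Structural search for power bounds. -/
macro "bnd" : tactic => `(tactic| repeat' first
  | with_reducible assumption
  | with_reducible exact UB.zp ‹_› _
  | with_reducible exact LB.zp ‹_› _
  | with_reducible exact UB.self ‹_›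
  | with_reducible exact LB.self ‹_›
  | with_reducible exact UB.one
  | with_reducible exact LB.one
  | with_reducible exact UB.nat _
  | with_reducible exact LB.nat _
  | with_reducible apply UB.add ‹_›
  | with_reducible apply UB.mul ‹_›
  | with_reducible apply UB.div ‹_›
  | with_reducible apply UB.inv
  | with_reducible apply UB.pow
  | with_reducible apply LB.mul ‹_›
  | with_reducible apply LB.pow)

/-- Proves `x ≤ y ^ k`. -/
macro "bfin" : tactic => `(tactic| (apply UB.fin ‹_›; (case h1 => bnd); (all_goals norm_num)))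

/-- Proves `x ≤ 1`. -/
macro "bfin1" : tactic => `(tactic| (apply UB.fin1 ‹_›; (case h1 => bnd); (all_goals norm_num)))

/-- Proves `x ≤ x'`. -/
macro "ble" : tactic =>
  `(tactic| (apply UB.le ‹_›; (case h1 => bnd); (case h2 => bnd); (all_goals norm_num)))

/-- Proves `UB y x c k`. -/
macro "bub" : tactic => `(tactic| (apply UB.weak ‹_›; (case h1 => bnd); (all_goals norm_num)))

/-- Proves `UB y x 1 k`. -/
macro "bub1" : tactic => `(tactic| (apply UB.weak1 ‹_›; (case h1 => bnd); (all_goals norm_num)))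

end Crest.Agent.R338
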