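import Crest.Agent.R338.DefsP

/-!
# Row 338: size of the design potential and its explicit gradient
-/

noncomputable section

open Filter Topology

namespace Crest.Agent.R338

namespace Prof

/-- Derivatives of order `i ≤ n` are bounded by `M * L ^ i`. -/
def DB (n : ℕ) (M L : ℝ) (f : E3 → ℝ) : Prop :=
  ContDiff ℝ n f ∧ ∀ i ≤ n, ∀ x, ‖iteratedFDeriv ℝ i f x‖ ≤ M * L ^ i

variable {n : ℕ} {M M' L : ℝ} {f g : E3 → ℝ}

theorem DB.abs_le (h : DB n M L f) (x : E3) : |f x| ≤ M := by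
  simpa using h.2 0 (Nat.zero_le n) x

theorem DB.nonneg (h : DB n M L f) : 0 ≤ M := (abs_nonneg _).trans (h.abs_le 0)

theorem DB.mono (h : DB n M L f) (hL : 0 ≤ L) (hM : M ≤ M') : DB n M' L f :=
  ⟨h.1, fun i hi x => (h.2 i hi x).trans (by gcongr)⟩

theorem DB.of_le {m : ℕ} (h : DB n M L f) (hm : m ≤ n) : DB m M L f :=
  ⟨h.1.of_le (by exact_mod_cast hm), fun i hi => h.2 i (hi.trans hm)⟩

theorem DB.const (n : ℕ) (c : ℝ) (hL : 0 ≤ L) : DB n |c| L fun _ => c := by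
  refine ⟨contDiff_const, fun i _ x => ?_⟩
  cases i with
  | zero => simp
  | succ i =>
    rw [iteratedFDeriv_succ_const, Pi.zero_apply, norm_zero]
    positivity

theorem DB.add (h : DB n M L f) (h' : DB n M' L g) : DB n (M + M') L fun x => f x + g x := by
  refine ⟨h.1.add h'.1, fun i hi x => ?_⟩
  rw [fun_iteratedFDeriv_add_apply (h.of_le hi).1.contDiffAt (h'.of_le hi).1.contDiffAt, add_mul]
  exact (norm_add_le _ _).trans (add_le_add (h.2 i hi x) (h'.2 i hi x))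

theorem DB.cmul (h : DB n M L f) (c : ℝ) : DB n (|c| * M) L fun x => c * f x := by
  refine ⟨contDiff_const.mul h.1, fun i hi x => ?_⟩
  have e := iteratedFDeriv_const_smul_apply' (a := c) (x := x) (h.of_le hi).1.contDiffAt
  simp only [smul_eq_mul] at e
  rw [e, norm_smul, mul_assoc]
  exact mul_le_mul_of_nonneg_left (h.2 i hi x) (abs_nonneg c)

theorem DB.sub (h : DB n M L f) (h' : DB n M' L g) : DB n (M + M') L fun x => f x - g x := by
  simpa [sub_eq_add_neg] using h.add (h'.cmul (-1))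

theorem DB.mul (h : DB n M L f) (h' : DB n M' L g) (hL : 0 ≤ L) :
    DB n (2 ^ n * (M * M')) L fun x => f x * g x := by
  refine ⟨h.1.mul h'.1, fun i hi x => ?_⟩
  have h0 := h.nonneg
  have h0' := h'.nonneg
  refine (norm_iteratedFDeriv_mul_le h.1 h'.1 x (by exact_mod_cast hi)).trans ?_
  calc _ ≤ ∑ j ∈ Finset.range (i + 1), (i.choose j : ℝ) * (M * M' * L ^ i) := by
        refine Finset.sum_le_sum fun j hj => ?_
        have hj' : j ≤ i := Nat.lt_succ_iff.1 (Finset.mem_range.1 hj)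
        calc _ ≤ (i.choose j : ℝ) * (M * L ^ j) * (M' * L ^ (i - j)) := by
              gcongr
              exacts [h.2 j (hj'.trans hi) x, h'.2 _ ((Nat.sub_le i j).trans hi) x]
          _ = (i.choose j : ℝ) * (M * M' * (L ^ j * L ^ (i - j))) := by ring
          _ = _ := by rw [← pow_add, Nat.add_sub_cancel' hj']
    _ = 2 ^ i * (M * M' * L ^ i) := by
        rw [← Finset.sum_mul, ← Nat.cast_sum, Nat.sum_range_choose]
        norm_num
    _ ≤ 2 ^ n * (M * M' * L ^ i) := by gcongr; norm_num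
    _ = _ := by ring

theorem DB.sum {ι : Type} (s : Finset ι) {f : ι → E3 → ℝ} (hL : 0 ≤ L)
    (h : ∀ i ∈ s, DB n M L (f i)) : DB n (s.card * M) L fun x => ∑ i ∈ s, f i x := by
  classical
  induction s using Finset.induction_on with
  | empty => simpa using DB.const n 0 hL
  | insert a s ha ih =>
    have := (h a (Finset.mem_insert_self _ _)).add
      (ih fun i hi => h i (Finset.mem_insert_of_mem hi))
    simp only [Finset.sum_insert ha, Finset.card_insert_of_notMem ha]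
    convert this using 1
    push_cast
    ring

theorem DB.pd (h : DB (n + 1) M L f) (j : Fin 3) : DB n (M * L) L (pd j f) := by
  have h1 : ContDiff ℝ n (fderiv ℝ f) := h.1.fderiv_right (by push_cast; exact le_rfl)
  refine ⟨h1.clm_apply contDiff_const, fun i hi x => ?_⟩
  refine (norm_iteratedFDeriv_clm_apply_const h1.contDiffAt (by exact_mod_cast hi)).trans ?_
  rw [norm_iteratedFDeriv_fderiv, PiLp.norm_single, norm_one, one_mul, mul_assoc,
    ← pow_succ']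
  exact h.2 _ (Nat.succ_le_succ hi) x

theorem exists_S0 (hL : LocStmt) : ∃ C : ℝ, 1 ≤ C ∧ ∀ i ≤ 7, ∀ t : ℝ,
    ‖iteratedFDeriv ℝ i (S0 : ℝ → ℝ) t‖ ≤ C := by
  have hc : HasCompactSupport (fderiv ℝ (S0 : ℝ → ℝ)) := by
    refine HasCompactSupport.intro (isCompact_Icc (a := 0) (b := 1)) fun t ht => ?_
    rcases not_and_or.1 ht with h | h
    · have : (S0 : ℝ → ℝ) =ᶠ[𝓝 t] fun _ => 0 := by
        filter_upwards [Iio_mem_nhds (not_le.1 h)] with s hs using hL.S_zero s (le_of_lt hs)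
      rw [this.fderiv_eq, fderiv_fun_const, Pi.zero_apply]
    · have : (S0 : ℝ → ℝ) =ᶠ[𝓝 t] fun _ => 1 := by
        filter_upwards [Ioi_mem_nhds (not_le.1 h)] with s hs using hL.S_one s (le_of_lt hs)
      rw [this.fderiv_eq, fderiv_fun_const, Pi.zero_apply]
  have h6 : ContDiff ℝ (6 : ℕ) (fderiv ℝ (S0 : ℝ → ℝ)) := hL.S_smooth.fderiv_right (by norm_num)
  have hb : ∀ j : Fin 7, ∃ C, ∀ t, ‖iteratedFDeriv ℝ j (fderiv ℝ (S0 : ℝ → ℝ)) t‖ ≤ C := fun j =>
    (hc.iteratedFDeriv j).exists_bound_of_continuous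
      (h6.continuous_iteratedFDeriv (by exact_mod_cast Nat.lt_succ_iff.1 j.2))
  choose C hC using hb
  have h0 : ∀ j, 0 ≤ C j := fun j => (norm_nonneg _).trans (hC j 0)
  have hs : 0 ≤ ∑ j, C j := Finset.sum_nonneg fun j _ => h0 j
  refine ⟨1 + ∑ j, C j, by linarith, fun i hi t => ?_⟩
  cases i with
  | zero =>
    have h1 : S0 t ≤ 1 := (hL.S_mono (le_max_left t 1)).trans_eq (hL.S_one _ (le_max_right _ _))
    have h2 : 0 ≤ S0 t := (hL.S_zero _ (min_le_right _ _)).symm.trans_le (hL.S_mono (min_le_left t 0))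
    rw [norm_iteratedFDeriv_zero, Real.norm_of_nonneg h2]
    linarith
  | succ i =>
    have h1 := hC ⟨i, hi⟩ t
    have h2 : C ⟨i, hi⟩ ≤ ∑ j, C j := Finset.single_le_sum (fun j _ => h0 j) (Finset.mem_univ _)
    rw [← norm_iteratedFDeriv_fderiv]
    linarith

theorem db_step (hL : LocStmt) {C : ℝ}
    (hC : ∀ i ≤ 7, ∀ t : ℝ, ‖iteratedFDeriv ℝ i (S0 : ℝ → ℝ) t‖ ≤ C) {c : ℝ} (hc : |c| ≤ L)
    (d : ℝ) (j : Fin 3) : DB 7 C L fun x => S0 (c * x j + d) := by
  have h1 : ContDiff ℝ (7 : ℕ) fun t : ℝ => S0 (t + d) :=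
    hL.S_smooth.comp (contDiff_id.add contDiff_const)
  let A : E3 →L[ℝ] ℝ := c • EuclideanSpace.proj j
  have hA : ‖A‖ ≤ L := by
    refine (ContinuousLinearMap.opNorm_le_bound _ (abs_nonneg c) fun x => ?_).trans hc
    change ‖c * x j‖ ≤ _
    rw [norm_mul]
    exact mul_le_mul_of_nonneg_left (PiLp.norm_apply_le x j) (abs_nonneg c)
  refine ⟨h1.comp A.contDiff, fun i hi x => ?_⟩
  have e := A.iteratedFDeriv_comp_right h1 x (i := i) (by exact_mod_cast hi)
  change ‖iteratedFDeriv ℝ i ((fun t : ℝ => S0 (t + d)) ∘ A) x‖ ≤ _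
  rw [e]
  refine (ContinuousMultilinearMap.norm_compContinuousLinearMap_le _ _).trans ?_
  rw [iteratedFDeriv_comp_add_right, Finset.prod_const, Finset.card_univ, Fintype.card_fin]
  have := (norm_nonneg _).trans (hC 0 (by norm_num) 0)
  gcongr
  exact hC i hi _

theorem db_tab (hL : LocStmt) {C : ℝ}
    (hC : ∀ i ≤ 7, ∀ t : ℝ, ‖iteratedFDeriv ℝ i (S0 : ℝ → ℝ) t‖ ≤ C) {P : Pl} (hP : P.OK)
    {a : ℤ × ℤ → ℝ} (ha : ∀ c, |a c| ≤ M) :
    DB 7 (2 ^ 9 * C ^ 2 * (P.G ^ 2 * M)) (1 / (P.th * P.l)) (P.tab a) := by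
  have h0 : 0 < 1 / (P.th * P.l) := one_div_pos.2 (mul_pos hP.th_pos hP.l_pos)
  have hB : ∀ (i : ℕ) (j : Fin 3), DB 7 (C + C) (1 / (P.th * P.l))
      fun x => Bd 0 P.th (x j / P.l - i) := by
    intro i j
    have := (db_step hL hC (abs_of_pos h0).le (-(i / P.th)) j).sub
      (db_step hL hC (abs_of_pos h0).le (-((i + 1) / P.th)) j)
    convert this using 2 with x
    simp only [Bd, Sd, if_true, pow_zero, div_one]
    congr 2 <;> ring
  have := DB.sum (Finset.range P.G) h0.le fun i _ => DB.sum (Finset.range P.G) h0.le fun j _ =>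
    ((((hB i 0).mul (hB j 1) h0.le).cmul (a ((i : ℤ), (j : ℤ)))).mono h0.le
      (mul_le_mul_of_nonneg_right (ha _) ((hB i 0).mul (hB j 1) h0.le).nonneg))
  convert this using 1
  · simp only [Finset.card_range]
    ring
  · ext x
    simp [Pl.tab, tabD]

theorem pd_zero {x : E3} {c : ℝ} (h : f =ᶠ[𝓝 x] fun _ => c) (j : Fin 3) :
    pd j f =ᶠ[𝓝 x] fun _ => 0 :=
  (h.fderiv (𝕜 := ℝ)).mono fun y hy => by rw [pd, hy]; simp

theorem tab_zero (hL : LocStmt) {P : Pl} (hP : P.OK) (a : ℤ × ℤ → ℝ) {x : E3}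
    (hx : (P.G + 1) * P.l < |x 0| ∨ (P.G + 1) * P.l < |x 1|) : P.tab a x = 0 := by
  have hB : ∀ i ∈ Finset.range P.G, ∀ t : ℝ, (P.G + 1) * P.l < |t| →
      Bd 0 P.th (t / P.l - i) = 0 := by
    intro i hi t ht
    have hi' : (i : ℝ) + 1 ≤ P.G := by exact_mod_cast Finset.mem_range.1 hi
    have hi0 : (0 : ℝ) ≤ i := Nat.cast_nonneg i
    have h1 := hP.th_pos
    have h2 := hP.th_le
    simp only [Bd, Sd, if_true, pow_zero, div_one]
    rcases lt_abs.1 ht with h | h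
    · have := (lt_div_iff₀ hP.l_pos).2 h
      rw [hL.S_one _ ((one_le_div h1).2 (by linarith)),
        hL.S_one _ ((one_le_div h1).2 (by linarith)), sub_self]
    · have : t / P.l ≤ 0 := div_nonpos_of_nonpos_of_nonneg
        (by nlinarith [hP.l_pos]) hP.l_pos.le
      rw [hL.S_zero _ (div_nonpos_of_nonpos_of_nonneg (by linarith) h1.le),
        hL.S_zero _ (div_nonpos_of_nonpos_of_nonneg (by linarith) h1.le), sub_self]
  rw [Pl.tab, tabD, Finset.sum_eq_zero, zero_div]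
  refine fun i hi => Finset.sum_eq_zero fun j hj => ?_
  rcases hx with h | h
  · rw [hB i hi _ h, zero_mul, mul_zero]
  · rw [hB j hj _ h, mul_zero, mul_zero]

theorem phi_supp (hL : LocStmt) {P : Pl} (hP : P.OK) (mu : ℤ × ℤ → ℝ) (Λ : ℝ) (x : E3)
    (hx : P.Phi mu Λ x ≠ 0) :
    |x 0| ≤ (P.G + 1) * P.l ∧ |x 1| ≤ (P.G + 1) * P.l ∧ |x 2| ≤ 1 / 2 := by
  obtain ⟨h1, h2⟩ := mul_ne_zero_iff.1 hx
  rw [← and_assoc]
  refine ⟨by_contra fun hn => h1 ?_, by_contra fun hn => h2 ?_⟩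
  · have hn' : (P.G + 1) * P.l < |x 0| ∨ (P.G + 1) * P.l < |x 1| := by
      simpa only [not_and_or, not_le] using hn
    have hO : ∀ j : Fin 3, IsOpen {y : E3 | (P.G + 1) * P.l < |y j|} := fun j =>
      isOpen_lt continuous_const (by fun_prop)
    have hU : ∀ᶠ y : E3 in 𝓝 x, (P.G + 1) * P.l < |y 0| ∨ (P.G + 1) * P.l < |y 1| :=
      ((hO 0).union (hO 1)).mem_nhds hn'
    have hf : P.fl =ᶠ[𝓝 x] fun _ => P.fv :=
      hU.mono fun y hy => by rw [Pl.fl, tab_zero hL hP _ hy, add_zero]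
    have h3 : ∀ j, pd j P.fl x = 0 := fun j => (pd_zero hf j).self_of_nhds
    have h4 : ∀ j, pd j (pd j P.fl) x = 0 := fun j => (pd_zero (pd_zero hf j) j).self_of_nhds
    simp [Wf, lap, h3, h4, Pl.zeta, tab_zero hL hP _ hn']
  · rcases lt_abs.1 (not_le.1 hn) with h | h
    · rw [eta, hL.S_one _ (by linarith), hL.S_one _ (by linarith), sub_self]
    · rw [eta, hL.S_zero _ (by linarith), hL.S_zero _ (by linarith), sub_self]

/-! ### The explicit gradient -/

theorem hasDerivAt_Sd (hL : LocStmt) {k : ℕ} (hk : k ≤ 2) (t : ℝ) :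
    HasDerivAt (Sd k) (Sd (k + 1) t) t := by
  obtain ⟨h0, h1, h2⟩ := hL.S_deriv t
  interval_cases k
  exacts [h0, h1, h2]

theorem hasDerivAt_Bd (hL : LocStmt) {k : ℕ} (hk : k ≤ 2) (θ l c t : ℝ) :
    HasDerivAt (fun t => Bd k θ (t / l - c)) (Bd (k + 1) θ (t / l - c) / l) t := by
  have h0 := ((hasDerivAt_id t).div_const l).sub_const c
  have h := ((((hasDerivAt_Sd hL hk _).comp t (h0.div_const θ)).sub
    ((hasDerivAt_Sd hL hk _).comp t ((h0.sub_const 1).div_const θ))).div_const (θ ^ k))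
  refine HasDerivAt.congr_deriv h ?_
  simp only [Bd, id]
  ring

/-- `tabD` as a function on `E3`. -/
def T (P : Pl) (a : ℤ × ℤ → ℝ) (k0 k1 : ℕ) (x : E3) : ℝ := tabD P.G P.th P.l a k0 k1 (x 0) (x 1)

/-- The covector with given coordinates. -/
def cov (u v w : ℝ) : E3 →L[ℝ] ℝ :=
  u • EuclideanSpace.proj 0 + v • EuclideanSpace.proj 1 + w • EuclideanSpace.proj 2

theorem cov_apply (u v w : ℝ) (y : E3) : cov u v w y = u * y 0 + v * y 1 + w * y 2 := rfl

theorem hasFDerivAt_T (hL : LocStmt) (P : Pl) (a : ℤ × ℤ → ℝ) {k0 k1 : ℕ} (h0 : k0 ≤ 2)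
    (h1 : k1 ≤ 2) (x : E3) :
    HasFDerivAt (T P a k0 k1) (cov (T P a (k0 + 1) k1 x) (T P a k0 (k1 + 1) x) 0) x := by
  have hB : ∀ {k : ℕ}, k ≤ 2 → ∀ (c : ℝ) (j : Fin 3), HasFDerivAt
      (fun x : E3 => Bd k P.th (x j / P.l - c))
      ((Bd (k + 1) P.th (x j / P.l - c) / P.l) • (EuclideanSpace.proj j : E3 →L[ℝ] ℝ)) x :=
    fun hk c j => by
      have := (hasDerivAt_Bd hL hk P.th P.l c (x j)).comp_hasFDerivAt x
        (f := (EuclideanSpace.proj j : E3 →L[ℝ] ℝ)) (EuclideanSpace.proj j : E3 →L[ℝ] ℝ).hasFDerivAt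
      exact this
  have h := (HasFDerivAt.fun_sum (u := Finset.range P.G) fun i _ =>
    HasFDerivAt.fun_sum (u := Finset.range P.G) fun j _ =>
      ((hB h0 i 0).fun_mul (hB h1 j 1)).const_mul (a ((i : ℤ), (j : ℤ)))).mul_const
        (P.l ^ (k0 + k1))⁻¹
  refine HasFDerivAt.congr_fderiv (h.congr_of_eventuallyEq (.of_forall fun y => ?_)) ?_
  · rw [T, tabD, div_eq_mul_inv]
  · ext y
    simp only [cov_apply, T, tabD, smul_apply, sum_apply, add_apply, smul_eq_mul,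
      Finset.sum_div, Finset.sum_mul, Finset.mul_sum, zero_mul, add_zero, ← Finset.sum_add_distrib]
    refine Finset.sum_congr rfl fun i _ => Finset.sum_congr rfl fun j _ => ?_
    change _ * (_ * (_ * (_ * y 1) + _ * (_ * y 0))) = _
    ring

theorem pd_of (j : Fin 3) {x : E3} {u v w : ℝ} (h : HasFDerivAt f (cov u v w) x) :
    pd j f x = if (j : ℕ) = 0 then u else if (j : ℕ) = 1 then v else w := by
  rw [pd, h.fderiv, cov_apply]
  fin_cases j <;> simp

theorem Wf_fl (hL : LocStmt) (P : Pl) : Wf P.fl = fun x =>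
    (T P (fun c => P.F c - P.fv) 1 0 x ^ 2 + T P (fun c => P.F c - P.fv) 0 1 x ^ 2) / 2 -
      (T P (fun c => P.F c - P.fv) 2 0 x + T P (fun c => P.F c - P.fv) 0 2 x) / 2 := by
  have h := fun x => (hasFDerivAt_T hL P (fun c => P.F c - P.fv) (k0 := 0) (k1 := 0)
    (by norm_num) (by norm_num) x).const_add P.fv
  have h0 : pd 0 P.fl = T P (fun c => P.F c - P.fv) 1 0 := funext fun x => pd_of 0 (h x)
  have h1 : pd 1 P.fl = T P (fun c => P.F c - P.fv) 0 1 := funext fun x => pd_of 1 (h x)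
  have h2 : pd 2 P.fl = fun _ => 0 := funext fun x => pd_of 2 (h x)
  ext x
  have e0 := pd_of 0 (hasFDerivAt_T hL P (fun c => P.F c - P.fv) (k0 := 1) (k1 := 0)
    (by norm_num) (by norm_num) x)
  have e1 := pd_of 1 (hasFDerivAt_T hL P (fun c => P.F c - P.fv) (k0 := 0) (k1 := 1)
    (by norm_num) (by norm_num) x)
  have e2 : pd 2 (fun _ : E3 => (0 : ℝ)) x = 0 := by simp [pd]
  rw [Wf, lap, Fin.sum_univ_three, Fin.sum_univ_three, h0, h1, h2, e0, e1, e2]
  simp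
  ring

theorem tab_sub (P : Pl) (mu : ℤ × ℤ → ℝ) (Λ : ℝ) (x : E3) :
    P.tab mu x - Λ * P.zeta x = T P (fun c => mu c - Λ) 0 0 x := by
  simp only [Pl.zeta, Pl.tab, T, tabD, Finset.sum_div, Finset.mul_sum, ← Finset.sum_sub_distrib]
  refine Finset.sum_congr rfl fun i _ => Finset.sum_congr rfl fun j _ => ?_
  ring

theorem hasDerivAt_eta (hL : LocStmt) (z : ℝ) : HasDerivAt eta (eta1 z) z := by
  have h0 := (hasDerivAt_id z).const_mul 4
  have h := ((hL.S_deriv _).1.comp z (h0.add_const 2)).sub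
    ((hL.S_deriv _).1.comp z (h0.sub_const 1))
  refine HasDerivAt.congr_deriv h ?_
  simp only [eta1, id]
  ring

theorem cast_Sd (k : ℕ) (t : ℚ) : ((Sd k t : ℚ) : ℝ) = Sd k (t : ℝ) := by
  unfold Sd
  split_ifs <;> simp [S0, S1, S2, S3, Qs, pp]

theorem cast_tabD (G : ℕ) (θ l : ℚ) (a : ℤ × ℤ → ℚ) (k0 k1 : ℕ) (x0 x1 : ℚ) :
    ((tabD G θ l a k0 k1 x0 x1 : ℚ) : ℝ) =
      tabD G (θ : ℝ) (l : ℝ) (fun c => (a c : ℝ)) k0 k1 x0 x1 := by
  simp [tabD, Bd, cast_Sd]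

theorem cast_eta (z : ℚ) : ((eta z : ℚ) : ℝ) = eta (z : ℝ) := by
  simp [eta, S0, Qs, pp]

theorem cast_eta1 (z : ℚ) : ((eta1 z : ℚ) : ℝ) = eta1 (z : ℝ) := by
  simp [eta1, S1, pp]

end Prof

open Prof

theorem prof (hL : LocStmt) : ProfStmt := by
  obtain ⟨C, hC1, hC⟩ := exists_S0 hL
  set D := 1 + 2 ^ 9 * C ^ 2 with hD
  have hD1 : 1 ≤ D := by rw [hD]; nlinarith
  have hDD : D ≤ D ^ 2 := by nlinarith
  refine ⟨2 ^ 5 * (50 * D ^ 2) * (C + C), by nlinarith, fun P hP hfv mu Λ M hmu hΛ => ?_⟩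
  have hG : (1 : ℝ) ≤ P.G := by exact_mod_cast hP.G_pos
  have hG2 : (1 : ℝ) ≤ P.G ^ 2 := one_le_pow₀ hG
  have hM : 0 ≤ M := (abs_nonneg _).trans (hmu 0)
  set L := 1 / (P.th * P.l) with hLdef
  have hL4 : 4 ≤ L := by
    have := hP.th_pos
    have := hP.l_pos
    have := hP.th_le
    have := hP.Gl
    rw [hLdef, le_div_iff₀ (by positivity)]
    nlinarith
  have hL0 : 0 ≤ L := by linarith
  have hA : P.G ^ 2 * P.fv / (P.th * P.l) = P.G ^ 2 * P.fv * L := by rw [hLdef]; ring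
  rw [hA]
  set B := P.G ^ 2 * P.fv with hB
  have hB1 : 1 ≤ B := one_le_mul_of_one_le_of_one_le hG2 hfv
  have hfl : DB 7 (D * B) L P.fl := by
    refine ((DB.const 7 P.fv hL0).add (db_tab hL hC hP (M := P.fv) fun c => ?_)).mono hL0 ?_
    · have := hP.F_nonneg c
      have := hP.F_le c
      rw [abs_le]
      constructor <;> linarith
    · rw [abs_of_nonneg (by linarith), hD]
      nlinarith
  have hBL : L ≤ B * L := le_mul_of_one_le_left hL0 hB1
  have hX : 0 ≤ (B * L) ^ 2 := sq_nonneg _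
  have h1 : ∀ j, DB 6 (D * (B * L)) L (pd j P.fl) := fun j => by
    simpa only [mul_assoc] using DB.pd (n := 6) hfl j
  have h2 : DB 5 (3 * (D * (B * L) ^ 2)) L (lap P.fl) := by
    have := DB.sum Finset.univ hL0 fun (j : Fin 3) _ => (DB.pd (n := 5) (h1 j) j).mono hL0
      (M' := D * (B * L) ^ 2) (by rw [sq, ← mul_assoc D (B * L)]; gcongr)
    rw [Finset.card_univ, Fintype.card_fin, Nat.cast_ofNat] at this
    exact this
  have h3 : DB 5 (50 * D ^ 2 * (B * L) ^ 2) L (Wf P.fl) := by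
    have := ((DB.sum Finset.univ hL0 fun (j : Fin 3) _ =>
      ((h1 j).of_le (m := 5) (by norm_num)).mul ((h1 j).of_le (by norm_num)) hL0).cmul
        (1 / 2)).sub (h2.cmul (1 / 2))
    simp only [← sq] at this
    refine this.mono hL0 ?_
    rw [Finset.card_univ, Fintype.card_fin, abs_of_pos (by norm_num), mul_pow]
    push_cast
    nlinarith [mul_le_mul_of_nonneg_right hDD hX]
  have h4 : DB 7 (C + C) L fun x => eta (x 2) := by
    have h4' : |(4 : ℝ)| ≤ L := by rwa [abs_of_pos (by norm_num)]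
    simpa only [← sub_eq_add_neg, eta] using (db_step hL hC h4' 2 2).sub (db_step hL hC h4' (-1) 2)
  have h5 : DB 5 (2 ^ 5 * (50 * D ^ 2) * (C + C) * ((B * L) ^ 2 + P.G ^ 2 * (M + Λ))) L
      (P.Phi mu Λ) := by
    refine (((h3.add ((db_tab hL hC hP hmu).of_le (by norm_num))).sub
      (((db_tab hL hC hP (a := fun _ => 1) (M := 1) fun _ => by simp).of_le
        (by norm_num)).cmul Λ)).mul (h4.of_le (by norm_num)) hL0).mono hL0 ?_
    have h6 : 2 ^ 9 * C ^ 2 ≤ 50 * D ^ 2 := by nlinarith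
    have h7 : 0 ≤ P.G ^ 2 * (M + Λ) := by positivity
    rw [abs_of_nonneg hΛ]
    calc _ = 2 ^ 5 * (C + C) * (50 * D ^ 2 * (B * L) ^ 2 + 2 ^ 9 * C ^ 2 * (P.G ^ 2 * (M + Λ))) := by
          ring
      _ ≤ 2 ^ 5 * (C + C) * (50 * D ^ 2 * (B * L) ^ 2 + 50 * D ^ 2 * (P.G ^ 2 * (M + Λ))) := by
          gcongr
      _ = _ := by ring
  have h8 : 50 * D ^ 2 ≤ 2 ^ 5 * (50 * D ^ 2) * (C + C) := by nlinarith
  refine ⟨h5.1, phi_supp hL hP mu Λ, h5.2, fun j x => ((h1 j).abs_le x).trans ?_,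
    fun x => (h2.abs_le x).trans ?_, fun x => (h3.abs_le x).trans ?_⟩
  · exact mul_le_mul_of_nonneg_right (by nlinarith) (hL0.trans hBL)
  · rw [← mul_assoc]
    exact mul_le_mul_of_nonneg_right (by nlinarith) hX
  · exact mul_le_mul_of_nonneg_right h8 hX

theorem grad (hL : LocStmt) : GradStmt := by
  refine ⟨fun P mu Λ x j => ?_, fun G θ l a mu x0 x1 z j => ?_⟩
  · have hT := fun (a : ℤ × ℤ → ℝ) (k0 k1 : ℕ) (h0 : k0 ≤ 2) (h1 : k1 ≤ 2) =>
      hasFDerivAt_T hL P a h0 h1 x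
    have he := (hasDerivAt_eta hL (x 2)).comp_hasFDerivAt x
      (f := (EuclideanSpace.proj 2 : E3 →L[ℝ] ℝ)) (EuclideanSpace.proj 2 : E3 →L[ℝ] ℝ).hasFDerivAt
    set a : ℤ × ℤ → ℝ := fun c => P.F c - P.fv
    set b : ℤ × ℤ → ℝ := fun c => mu c - Λ
    have h := ((((((hT a 1 0 (by norm_num) (by norm_num)).pow 2).add
      ((hT a 0 1 (by norm_num) (by norm_num)).pow 2)).mul_const (2 : ℝ)⁻¹).sub
        (((hT a 2 0 (by norm_num) (by norm_num)).add
          (hT a 0 2 (by norm_num) (by norm_num))).mul_const (2 : ℝ)⁻¹)).add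
            (hT b 0 0 (by norm_num) (by norm_num))).mul he
    have e : P.Phi mu Λ = fun y => ((T P a 1 0 y ^ 2 + T P a 0 1 y ^ 2) * (2 : ℝ)⁻¹ -
        (T P a 2 0 y + T P a 0 2 y) * (2 : ℝ)⁻¹ + T P b 0 0 y) * eta (y 2) := by
      ext y
      rw [Pl.Phi, add_sub_assoc, tab_sub, Wf_fl hL]
      simp only [div_eq_mul_inv]
      rfl
    rw [pd, e]
    refine (congrArg (fun A : E3 →L[ℝ] ℝ => A (EuclideanSpace.single j 1)) h.fderiv).trans ?_
    fin_cases j <;> simp [cov_apply, gradK, T]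
    · ring
    · ring
    · left
      ring
  · unfold gradK
    split_ifs <;> simp [cast_tabD, cast_eta, cast_eta1]

end Crest.Agent.R338
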