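import Crest.Agent.R338.DefsF

/-!
# Row 338: radial integrals in `ℝ³` and volumes of boxes
-/

noncomputable section

open MeasureTheory Set

namespace Crest.Agent.R338.Radial

/-- Integration in polar coordinates. -/
theorem radial (f : ℝ → ℝ) (y0 : E3) :
    (IntegrableOn (fun t => t ^ 2 * f t) (Ioi 0) → Integrable fun y : E3 => f ‖y - y0‖) ∧
      ∫ y : E3, f ‖y - y0‖ = 4 * Real.pi * ∫ t in Ioi (0 : ℝ), t ^ 2 * f t := by
  refine ⟨fun h => Integrable.comp_sub_right (f := fun y : E3 => f ‖y‖) ?_ y0, ?_⟩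
  · rw [integrable_fun_norm_addHaar]
    simpa using h
  · rw [integral_sub_right_eq_self (fun y : E3 => f ‖y‖) y0, integral_fun_norm_addHaar,
      Measure.real, EuclideanSpace.volume_ball_fin_three]
    have h : 0 ≤ Real.pi * 4 / 3 := by positivity
    simp [h]
    ring

/-- The spherical shell `a < ‖y - y0‖ ≤ b`; for `a = 0` a punctured ball. -/
def shell (y0 : E3) (a b : ℝ) : Set E3 := {y | ‖y - y0‖ ∈ Ioc a b}

theorem measurableSet_shell (y0 : E3) (a b : ℝ) : MeasurableSet (shell y0 a b) :=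
  (by fun_prop : Measurable fun y : E3 => ‖y - y0‖) measurableSet_Ioc

theorem shell_ae_closedBall (y0 : E3) (b : ℝ) : shell y0 0 b =ᵐ[volume] Metric.closedBall y0 b := by
  filter_upwards [compl_mem_ae_iff.2 (measure_singleton y0)] with y hy
  have h : 0 < ‖y - y0‖ := norm_pos_iff.2 (sub_ne_zero.2 hy)
  exact propext ⟨fun h1 => mem_closedBall_iff_norm.2 h1.2,
    fun h1 => ⟨h, mem_closedBall_iff_norm.1 h1⟩⟩

/-- Integration over a shell. -/
theorem integral_shell (f : ℝ → ℝ) (y0 : E3) {a b : ℝ} (ha : 0 ≤ a) (hab : a ≤ b)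
    (hf : IntervalIntegrable (fun t => t ^ 2 * f t) volume a b) :
    IntegrableOn (fun y => f ‖y - y0‖) (shell y0 a b) ∧
      ∫ y in shell y0 a b, f ‖y - y0‖ = 4 * Real.pi * ∫ t in a..b, t ^ 2 * f t := by
  have h := radial ((Ioc a b).indicator f) y0
  have h1 : (fun y : E3 => (Ioc a b).indicator f ‖y - y0‖) =
      (shell y0 a b).indicator fun y => f ‖y - y0‖ := rfl
  have h2 : (fun t : ℝ => t ^ 2 * (Ioc a b).indicator f t) =
      (Ioc a b).indicator fun t => t ^ 2 * f t :=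
    funext fun t => (indicator_mul_right (Ioc a b) (fun t : ℝ => t ^ 2) f).symm
  have h3 : Ioi 0 ∩ Ioc a b = Ioc a b := inter_eq_right.2 fun t ht => ha.trans_lt ht.1
  rw [h1, h2, integrable_indicator_iff (measurableSet_shell y0 a b),
    integral_indicator (measurableSet_shell y0 a b), setIntegral_indicator measurableSet_Ioc, h3,
    ← intervalIntegral.integral_of_le hab] at h
  exact ⟨h.1 ((integrable_indicator_iff measurableSet_Ioc).2 hf.1).integrableOn, h.2⟩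

/-- Powers of the distance on a shell. -/
theorem integral_shell_zpow (k : ℤ) (y0 : E3) {a b : ℝ} (ha : 0 ≤ a) (hab : a ≤ b)
    (hk : 0 ≤ k + 2 ∨ 0 < a) :
    IntegrableOn (fun y => ‖y - y0‖ ^ k) (shell y0 a b) ∧
      ∫ y in shell y0 a b, ‖y - y0‖ ^ k = 4 * Real.pi * ∫ t in a..b, t ^ (k + 2) := by
  have h1 : ∀ t ∈ Ioc a b, t ^ (k + 2) = t ^ 2 * t ^ k := fun t ht => by
    rw [zpow_add₀ (ha.trans_lt ht.1).ne', mul_comm]; rfl
  have h2 : IntervalIntegrable (fun t : ℝ => t ^ (k + 2)) volume a b :=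
    intervalIntegral.intervalIntegrable_zpow
      (hk.imp_right fun h => notMem_uIcc_of_lt h (h.trans_le hab))
  have h3 := integral_shell (fun t => t ^ k) y0 ha hab
    (h2.congr fun t ht => h1 t (by rwa [uIoc_of_le hab] at ht))
  refine ⟨h3.1, h3.2.trans ?_⟩
  rw [intervalIntegral.integral_of_le hab, intervalIntegral.integral_of_le hab,
    setIntegral_congr_fun measurableSet_Ioc h1]

/-- `∫_{‖y - y0‖ ≤ ρ} 1 / r = 2 π ρ²` -/
theorem ball_inv (y0 : E3) {ρ : ℝ} (hρ : 0 ≤ ρ) :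
    IntegrableOn (fun y => ‖y - y0‖⁻¹) (Metric.closedBall y0 ρ) ∧
      ∫ y in Metric.closedBall y0 ρ, ‖y - y0‖⁻¹ = 2 * Real.pi * ρ ^ 2 := by
  have h := integral_shell_zpow (-1) y0 le_rfl hρ (Or.inl (by norm_num))
  simp only [zpow_neg_one] at h
  refine ⟨h.1.congr_set_ae (shell_ae_closedBall y0 ρ).symm, ?_⟩
  rw [← setIntegral_congr_set (shell_ae_closedBall y0 ρ), h.2]
  norm_num
  ring

/-- `∫_{‖y - y0‖ ≤ ρ} 1 / r² = 4 π ρ` -/
theorem ball_inv_sq (y0 : E3) {ρ : ℝ} (hρ : 0 ≤ ρ) :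
    IntegrableOn (fun y => (‖y - y0‖ ^ 2)⁻¹) (Metric.closedBall y0 ρ) ∧
      ∫ y in Metric.closedBall y0 ρ, (‖y - y0‖ ^ 2)⁻¹ = 4 * Real.pi * ρ := by
  have h := integral_shell_zpow (-2) y0 le_rfl hρ (Or.inl (by norm_num))
  simp only [zpow_neg, zpow_ofNat] at h
  refine ⟨h.1.congr_set_ae (shell_ae_closedBall y0 ρ).symm, ?_⟩
  rw [← setIntegral_congr_set (shell_ae_closedBall y0 ρ), h.2]
  norm_num

/-- `∫_{a < r ≤ b} 1 / r³ = 4 π log (b / a)` -/
theorem shell_inv_cube (y0 : E3) {a b : ℝ} (ha : 0 < a) (hab : a ≤ b) :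
    IntegrableOn (fun y => (‖y - y0‖ ^ 3)⁻¹) (shell y0 a b) ∧
      ∫ y in shell y0 a b, (‖y - y0‖ ^ 3)⁻¹ = 4 * Real.pi * Real.log (b / a) := by
  have h := integral_shell_zpow (-3) y0 ha.le hab (Or.inr ha)
  simp only [zpow_neg, zpow_ofNat] at h
  refine ⟨h.1, ?_⟩
  rw [h.2, ← integral_inv_of_pos ha (ha.trans_le hab)]
  norm_num

/-- `∫_{a < r ≤ b} 1 / r⁴ = 4 π (1 / a - 1 / b)` -/
theorem shell_inv_four (y0 : E3) {a b : ℝ} (ha : 0 < a) (hab : a ≤ b) :
    IntegrableOn (fun y => (‖y - y0‖ ^ 4)⁻¹) (shell y0 a b) ∧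
      ∫ y in shell y0 a b, (‖y - y0‖ ^ 4)⁻¹ = 4 * Real.pi * (a⁻¹ - b⁻¹) := by
  have h := integral_shell_zpow (-4) y0 ha.le hab (Or.inr ha)
  simp only [zpow_neg, zpow_ofNat] at h
  refine ⟨h.1, ?_⟩
  rw [h.2, integral_zpow (Or.inr ⟨by norm_num, notMem_uIcc_of_lt ha (ha.trans_le hab)⟩)]
  norm_num
  ring

/-- Box with centre `c` and half-sides `a j`. -/
def pbox (c : E3) (a : Fin 3 → ℝ) : Set E3 := {y | ∀ j, |y j - c j| ≤ a j}

theorem pbox_eq (c : E3) (a : Fin 3 → ℝ) :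
    pbox c a = WithLp.ofLp ⁻¹' Icc (fun j => c j - a j) fun j => c j + a j := by
  ext y
  simp only [pbox, mem_preimage, mem_Icc, Pi.le_def, ← forall_and, abs_le]
  exact forall_congr' fun j => ⟨fun h => ⟨by linarith [h.1], by linarith [h.2]⟩,
    fun h => ⟨by linarith [h.1], by linarith [h.2]⟩⟩

theorem isCompact_pbox (c : E3) (a : Fin 3 → ℝ) : IsCompact (pbox c a) := by
  rw [pbox_eq]
  exact (PiLp.homeomorph 2 fun _ : Fin 3 => ℝ).isCompact_preimage.2 isCompact_Icc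

theorem volume_pbox (c : E3) {a : Fin 3 → ℝ} (ha : ∀ j, 0 ≤ a j) :
    volume.real (pbox c a) = 8 * (a 0 * a 1 * a 2) := by
  rw [pbox_eq, Measure.real, (PiLp.volume_preserving_ofLp (Fin 3)).measure_preimage
    measurableSet_Icc.nullMeasurableSet,
    Real.volume_Icc_pi_toReal fun j => by have := ha j; simp only; linarith, Fin.prod_univ_three]
  ring

theorem isCompact_cube (d : ℝ) (c : E3) : IsCompact (cube d c) := isCompact_pbox c fun _ => d / 2

theorem volume_cube {d : ℝ} (hd : 0 ≤ d) (c : E3) : volume.real (cube d c) = d ^ 3 :=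
  (volume_pbox c (a := fun _ => d / 2) fun _ => by positivity).trans (by ring)

/-- The box `[-a,a]² × [-b,b]`. -/
def bx (a b : ℝ) : Set E3 := {y | |y 0| ≤ a ∧ |y 1| ≤ a ∧ |y 2| ≤ b}

theorem bx_eq (a b : ℝ) : bx a b = pbox 0 ![a, a, b] := by
  ext y
  simp [bx, pbox, Fin.forall_fin_succ]

theorem isCompact_bx (a b : ℝ) : IsCompact (bx a b) := bx_eq a b ▸ isCompact_pbox _ _

theorem volume_bx {a b : ℝ} (ha : 0 ≤ a) (hb : 0 ≤ b) : volume.real (bx a b) = 8 * a ^ 2 * b := by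
  rw [bx_eq, volume_pbox _ fun j => by fin_cases j <;> assumption]
  simp
  ring

theorem isCompact_box (A : ℝ) : IsCompact (box A) := isCompact_bx A 1

theorem volume_box {A : ℝ} (hA : 0 ≤ A) : volume.real (box A) = 8 * A ^ 2 :=
  (volume_bx hA zero_le_one).trans (mul_one _)

theorem norm_sub_le_of_mem_cube {d : ℝ} {c y : E3} (hy : y ∈ cube d c) : ‖y - c‖ ≤ d := by
  have hd : 0 ≤ d := by linarith [(abs_nonneg _).trans (hy 0)]
  have h : ∀ j, ‖(y - c) j‖ ^ 2 ≤ (d / 2) ^ 2 := fun j =>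
    pow_le_pow_left₀ (norm_nonneg _) (hy j) 2
  rw [EuclideanSpace.norm_eq, Real.sqrt_le_iff, Fin.sum_univ_three]
  exact ⟨hd, by nlinarith [h 0, h 1, h 2, sq_nonneg d]⟩

end Crest.Agent.R338.Radial
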