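import Crest.Agent.R338.DefsB
import Crest.Agent.R338.OB

/-!
# Row 338: the concrete planar parameters
-/

noncomputable section

open Function

namespace Crest.Agent.R338

namespace Bld
variable (St : Star) (b : ℕ)

/-- The planar parameters of the reduction. -/
def pl : Pl where
  G := St.GG (Dh b)
  l := l b
  th := th b
  h := 1 / (ti b : ℝ) ^ 12
  Om := √(4 * Real.pi * (N1 b : ℝ) ^ 3)
  fv := fv b
  F c := Fq St b c

/-- Nominal one-body matrix. -/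
def Ar : St.Site → St.Site → ℝ :=
  Amat (St.lay (Dh b)) (Cq b) (fun a => om St b a.1) fun a => mu St b a.1

/-- Nominal interaction. -/
def Kr (a a' : St.Site) : ℝ := Kk St b a.1 a'.1

variable {St b}

theorem dot_inj (h : (St.lay (Dh b)).OK) {a a' : Cd} (ha : a ∈ St.sites) (ha' : a' ∈ St.sites)
    (e : St.dot (Dh b) a = St.dot (Dh b) a') : a = a' := by
  have := h.sep ⟨a, ha⟩ ⟨a', ha'⟩ _ _ (h.dot_mem ⟨a, ha⟩) (h.dot_mem ⟨a', ha'⟩)
    (by simp [Star.lay, e]) (by simp [Star.lay, e])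
  exact congrArg Subtype.val this

theorem lev_dot (h : (St.lay (Dh b)).OK) (a : St.Site) :
    lev St b (St.dot (Dh b) a.1) = if St.heavy a.1 then 0 else 4 := by
  unfold lev
  rw [if_pos ⟨a.1, a.2, rfl⟩]
  by_cases hh : St.heavy a.1
  · rw [if_pos ⟨a.1, a.2, hh, rfl⟩, if_pos hh]
  · rw [if_neg hh, if_neg]
    rintro ⟨a', ha', hh', e⟩
    exact hh (dot_inj h ha' a.2 e ▸ hh')

theorem lev_bus (h : (St.lay (Dh b)).OK) (a : St.Site) (c : ℤ × ℤ) (hc : St.cel (Dh b) a.1 c)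
    (hne : c ≠ St.dot (Dh b) a.1) : lev St b c = 195 := by
  unfold lev
  rw [if_neg, if_pos ⟨a.1, a.2, hc⟩]
  rintro ⟨a', ha', e⟩
  have := h.sep a ⟨a', ha'⟩ c c hc (e ▸ h.dot_mem ⟨a', ha'⟩) (by simp) (by simp)
  exact hne (by rw [this]; exact e.symm)

theorem lev_res (h : (St.lay (Dh b)).OK) (r : St.Res) : lev St b (St.pos (Dh b) r.1) = 9943 := by
  unfold lev
  rw [if_neg, if_neg, if_pos ⟨r.1, r.2, rfl⟩]
  · rintro ⟨a, ha, hc⟩
    exact h.pos_not r ⟨a, ha⟩ hc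
  · rintro ⟨a, ha, e⟩
    exact h.pos_not r ⟨a, ha⟩ (by have := h.dot_mem ⟨a, ha⟩; simpa [Star.lay, e] using this)

theorem lev_void (h : (St.lay (Dh b)).OK) (c : ℤ × ℤ) (h1 : ∀ a : St.Site, ¬ St.cel (Dh b) a.1 c)
    (h2 : ∀ r : St.Res, St.pos (Dh b) r.1 ≠ c) : lev St b c = 10050 := by
  unfold lev
  rw [if_neg, if_neg, if_neg]
  · rintro ⟨r, hr, e⟩; exact h2 ⟨r, hr⟩ e
  · rintro ⟨a, ha, hc⟩; exact h1 ⟨a, ha⟩ hc
  · rintro ⟨a, ha, e⟩
    exact h1 ⟨a, ha⟩ (by have := h.dot_mem ⟨a, ha⟩; simpa [Star.lay, e] using this)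

theorem lev_le (c : ℤ × ℤ) : lev St b c ≤ 10050 := by
  unfold lev; split_ifs <;> omega

theorem pl_F (c : ℤ × ℤ) : (pl St b).F c = lev St b c * (Lq b : ℝ) / 2 := by
  simp [pl, Fq]

theorem pl_fv : (pl St b).fv = 10050 * (Lq b : ℝ) / 2 := by simp [pl, fv]

theorem lev_ok (h : (St.lay (Dh b)).OK) (hL : 0 ≤ (Lq b : ℝ)) :
    (St.lay (Dh b)).Lev (pl St b) (4 * (Lq b : ℝ) / 2) (195 * (Lq b : ℝ) / 2)
      (9943 * (Lq b : ℝ) / 2) := by
  refine ⟨rfl, fun a => ?_, fun a c hc hne => ?_, fun r => ?_, fun c h1 h2 => ?_, ?_⟩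
  · rw [pl_F]
    change (lev St b (St.dot (Dh b) a.1) : ℝ) * _ / 2 ≤ _
    rw [lev_dot h]; split_ifs <;> push_cast <;> linarith
  · rw [pl_F, lev_bus h a c hc hne]; norm_num
  · rw [pl_F]
    change (lev St b (St.pos (Dh b) r.1) : ℝ) * _ / 2 = _
    rw [lev_res h]; norm_num
  · rw [pl_F, pl_fv, lev_void h c h1 h2]; norm_num
  · rw [pl_fv]; refine ⟨?_, ?_, ?_, ?_⟩ <;> linarith

theorem F_out (h : (St.lay (Dh b)).OK) (c : ℤ × ℤ) (hc : ¬ inG (pl St b).G c) :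
    (pl St b).F c = (pl St b).fv := by
  have hG : ((St.lay (Dh b)).G : ℤ) = (pl St b).G := rfl
  rw [pl_F, pl_fv, lev_void h c]
  · norm_num
  · intro a ha
    have := h.bd a c ha
    exact hc ⟨by omega, by omega, by omega, by omega⟩
  · intro r e
    have e' : (St.lay (Dh b)).pos r = c := e
    apply hc
    rcases h.ends r with ⟨h1, h2⟩ | ⟨h1, h2⟩ <;>
    · have k1 := h.bd _ _ h1
      have k2 := h.bd _ _ h2
      rw [e'] at k1 k2
      unfold un at k1 k2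
      split_ifs at k1 k2 <;> simp only [Prod.fst_sub, Prod.snd_sub, Prod.fst_add, Prod.snd_add] at k1 k2 <;>
        exact ⟨by omega, by omega, by omega, by omega⟩

theorem F_mem (hL : 0 ≤ (Lq b : ℝ)) (c : ℤ × ℤ) :
    0 ≤ (pl St b).F c ∧ (pl St b).F c ≤ (pl St b).fv := by
  rw [pl_F, pl_fv]
  have : (lev St b c : ℝ) ≤ 10050 := by exact_mod_cast lev_le c
  exact ⟨by positivity, by gcongr⟩

theorem mu_tab (c : ℤ × ℤ) :
    (St.lay (Dh b)).mu (fun a => (mu St b a.1 : ℝ)) c = (Mu St b c : ℝ) := by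
  unfold Lay.mu Mu
  rw [Rat.cast_sum, ← Finset.sum_coe_sort St.sites]
  refine Finset.sum_congr rfl fun a _ => ?_
  change (if St.dot (Dh b) a.1 = c then _ else _) = _
  split_ifs <;> simp

theorem selfK_Kr (a : St.Site) : selfK (Kr St b) a = sK St b a.1 := by
  unfold selfK sK Kr
  push_cast
  congr 2
  rw [Finset.sum_erase_eq_sub (Finset.mem_univ a), Finset.sum_erase_eq_sub a.2,
    ← Finset.sum_coe_sort St.sites]

end Bld

end Crest.Agent.R338
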