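import Crest.Agent.R338.Red1

/-!
# Row 338: the nuclei of the instance are the displaced lattice
-/

noncomputable section

open Function
open Crest.MathPhysics.CoulombProblem Crest.MathPhysics.ElectronicCoulomb

namespace Crest.Agent.R338

namespace Bld
variable (St : Star) (b : ℕ)

/-- The design potential of the reduction. -/
def PhiR : E3 → ℝ := (pl St b).Phi ((St.lay (Dh b)).mu fun a => (mu St b a.1 : ℝ)) (Lam b)

/-- The displacement field of the reduction. -/
def uR : E3 → E3 := disp (1 / (4 * (pq b : ℝ) * (N1 b : ℝ) ^ 3)) (PhiR St b)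

/-- Real positions of the nuclei. -/
def RR (α : Fin (nuclei St b).length) : E3 := realPos ((nuclei St b).get α)

variable {St b}

theorem realPos_nuc (hG : GradStmt) (α : LatIdx (N1 b) (NA b)) :
    realPos (fun c : Fin 3 => nuc St b α.1 α.2.1 α.2.2 c) =
      lat (N1 b) (NA b) α + uR St b (lat (N1 b) (NA b) α) := by
  have h0 : lat (N1 b) (NA b) α 0 = (crd b α.1 (NA b) : ℝ) := by simp [lat, crd]
  have h1 : lat (N1 b) (NA b) α 1 = (crd b α.2.1 (NA b) : ℝ) := by simp [lat, crd]
  have h2 : lat (N1 b) (NA b) α 2 = (crd b α.2.2 (N1 b) : ℝ) := by simp [lat, crd]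
  have hmu : (fun c => (St.lay (Dh b)).mu (fun a => (mu St b a.1 : ℝ)) c - (Lam b : ℝ)) =
      fun c => ((Mu St b c - Lam b : ℚ) : ℝ) := by
    ext c; rw [mu_tab]; push_cast; rfl
  have hF : (fun c => (pl St b).F c - (pl St b).fv) = fun c => ((Fq St b c - fv b : ℚ) : ℝ) := by
    ext c; push_cast; rfl
  ext c
  have key : pd c (PhiR St b) (lat (N1 b) (NA b) α) =
      ((gradK (St.GG (Dh b)) (th b) (l b) (fun c => Fq St b c - fv b) (fun c => Mu St b c - Lam b)
        (crd b α.1 (NA b)) (crd b α.2.1 (NA b)) (crd b α.2.2 (N1 b)) c : ℚ) : ℝ) := by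
    rw [hG.2, PhiR, hG.1, h0, h1, h2, hmu, hF]; rfl
  simp only [realPos, uR, disp, PiLp.add_apply, key, nuc]
  push_cast
  congr 1
  fin_cases c
  · simpa using h0.symm
  · simpa using h1.symm
  · simpa using h2.symm

theorem sum_nuclei (g : (Fin 3 → ℚ) → ℝ) :
    ∑ α : Fin (nuclei St b).length, g ((nuclei St b).get α) =
      ∑ α : LatIdx (N1 b) (NA b), g fun c : Fin 3 => nuc St b α.1 α.2.1 α.2.2 c := by
  have h1 : ∑ α : Fin (nuclei St b).length, g ((nuclei St b).get α) = ((nuclei St b).map g).sum := by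
    rw [← List.sum_ofFn]; congr 1
    conv_rhs => rw [← List.ofFn_get (nuclei St b)]
    rw [List.map_ofFn]; rfl
  have h2 : ∀ (n : ℕ) (f : ℕ → ℝ), ((List.range n).map f).sum = ∑ i : Fin n, f i := fun n f => by
    rw [← Finset.sum_range, Finset.sum_eq_multiset_sum]; rfl
  have h3 : ∀ (n : ℕ) (f : ℕ → List ℝ), ((List.range n).flatMap f).sum = ∑ i : Fin n, (f i).sum :=
    fun n f => by rw [List.flatMap, List.sum_flatten, List.map_map, h2]; rfl
  rw [h1, Fintype.sum_prod_type]
  simp only [nuclei, List.map_flatMap, List.map_map, h3, Fintype.sum_prod_type, h2, comp]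

theorem nucV_RR (hG : GradStmt) : nucV (RR St b) = latV (N1 b) (NA b) (uR St b) := by
  ext x
  unfold nucV latV RR
  rw [sum_nuclei (fun q => -(1 / ‖x - realPos q‖))]
  simp only [realPos_nuc hG]

theorem nuclei_nodup (hG : GradStmt) (hinj : Injective fun α : LatIdx (N1 b) (NA b) =>
    lat (N1 b) (NA b) α + uR St b (lat (N1 b) (NA b) α)) : (nuclei St b).Nodup := by
  have key : ∀ i j k i' j' k', i < 2 * NA b → j < 2 * NA b → k < 2 * N1 b → i' < 2 * NA b →
      j' < 2 * NA b → k' < 2 * N1 b →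
      (fun c : Fin 3 => nuc St b i j k c) = (fun c : Fin 3 => nuc St b i' j' k' c) →
      i = i' ∧ j = j' ∧ k = k' := by
    intro i j k i' j' k' hi hj hk hi' hj' hk' e
    have := hinj (a₁ := (⟨i, hi⟩, ⟨j, hj⟩, ⟨k, hk⟩)) (a₂ := (⟨i', hi'⟩, ⟨j', hj'⟩, ⟨k', hk'⟩)) (by
      simp only [← realPos_nuc hG]; rw [e])
    simpa using this
  unfold nuclei
  rw [List.nodup_flatMap]
  refine ⟨fun i hi => ?_, ?_⟩
  · rw [List.nodup_flatMap]
    refine ⟨fun j hj => ?_, ?_⟩
    · refine List.Nodup.map_on (fun k hk k' hk' e => ?_) List.nodup_range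
      simp only [List.mem_range] at *
      exact (key _ _ _ _ _ _ hi hj hk hi hj hk' e).2.2
    · refine List.Pairwise.imp_of_mem (fun {j j'} hj hj' hne => ?_) List.nodup_range
      simp only [onFun, List.disjoint_left, List.mem_map, List.mem_range] at *
      rintro _ ⟨k, hk, rfl⟩ ⟨k', hk', e⟩
      exact hne (key _ _ _ _ _ _ hi hj' hk' hi hj hk e).2.1.symm
  · refine List.Pairwise.imp_of_mem (fun {i i'} hi hi' hne => ?_) List.nodup_range
    simp only [onFun, List.disjoint_left, List.mem_map, List.mem_flatMap, List.mem_range] at *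
    rintro _ ⟨j, hj, k, hk, rfl⟩ ⟨j', hj', k', hk', e⟩
    exact hne (key _ _ _ _ _ _ hi' hj' hk' hi hj hk e).1.symm

theorem nuclei_ne_nil (hb : 1 ≤ b) : nuclei St b ≠ [] := by
  have h1 : 0 < 2 * NA b := by unfold NA ti; positivity
  have h2 : 0 < 2 * N1 b := by unfold N1 ti; positivity
  intro h
  have : (fun c : Fin 3 => nuc St b 0 0 0 c) ∈ nuclei St b := by
    simp only [nuclei, List.mem_flatMap, List.mem_map, List.mem_range]
    exact ⟨0, h1, 0, h1, 0, h2, rfl⟩
  simp [h] at this

theorem potential_eq : (inst St b).potential = unitNucleiPotential (n := nel St) (RR St b) := rfl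

end Bld

end Crest.Agent.R338
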