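import Crest.Agent.R338.Red2

/-!
# Row 338: the finite model of the reduction
-/

noncomputable section

open Function
open scoped ComplexConjugate

namespace Crest.Agent.R338

section gen
variable {ι ρ : Type} [Fintype ι] [DecidableEq ι] [Fintype ρ]

omit [Fintype ι] [Fintype ρ] in
theorem rv_eq (L : Lay ι ρ) (ω : ι → ℝ) (r : ρ) (a : ι) :
    L.rv ω r a = L.rv (fun _ => 1) r a * ω a := by
  unfold Lay.rv; split_ifs <;> ring

omit [Fintype ι] [Fintype ρ] in
theorem rv_one_abs (L : Lay ι ρ) (r : ρ) (a : ι) : |L.rv (fun _ => 1) r a| ≤ 1 := by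
  unfold Lay.rv; split_ifs <;> norm_num

theorem Amat_entry (L : Lay ι ρ) (C C' η : ℝ) (ω ω' μ : ι → ℝ)
    (h : ∀ a b, |C * ω a * ω b - C' * ω' a * ω' b| ≤ η) (a b : ι) :
    |Amat L C ω μ a b - Amat L C' ω' μ a b| ≤ Fintype.card ρ * η := by
  have : Amat L C ω μ a b - Amat L C' ω' μ a b = ∑ r, L.rv (fun _ => 1) r a * L.rv (fun _ => 1) r b *
      (C * ω a * ω b - C' * ω' a * ω' b) := by
    simp only [Amat, gm, add_sub_add_right_eq_sub, Finset.mul_sum, ← Finset.sum_sub_distrib]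
    refine Finset.sum_congr rfl fun r _ => ?_
    rw [rv_eq L ω r a, rv_eq L ω r b, rv_eq L ω' r a, rv_eq L ω' r b]; ring
  rw [this]
  refine (Finset.abs_sum_le_sum_abs _ _).trans ?_
  rw [← nsmul_eq_mul, ← Finset.card_univ]
  refine Finset.sum_le_card_nsmul _ _ _ fun r _ => ?_
  rw [abs_mul, abs_mul]
  have h1 := rv_one_abs L r a
  have h2 := rv_one_abs L r b
  have h3 : |L.rv (fun _ => 1) r a| * |L.rv (fun _ => 1) r b| ≤ 1 :=
    mul_le_one₀ h1 (abs_nonneg _) h2
  exact (mul_le_of_le_one_left (abs_nonneg _) h3).trans (h a b)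

omit [DecidableEq ι] in
theorem qf_diff (A A' : ι → ι → ℝ) (η : ℝ) (h : ∀ a b, |A a b - A' a b| ≤ η) (c : ι → ℂ) :
    |qf A c - qf A' c| ≤ Fintype.card ι * η * n1 c := by
  have e : qf A c - qf A' c = ∑ a, ∑ b, (A a b - A' a b) * (conj (c a) * c b).re := by
    simp only [qf, ← Finset.sum_sub_distrib, sub_mul]
  have k : ∀ a b, |(A a b - A' a b) * (conj (c a) * c b).re| ≤ η * (‖c a‖ ^ 2 / 2 + ‖c b‖ ^ 2 / 2) := by
    intro a b
    rw [abs_mul]
    refine mul_le_mul (h a b) ((Complex.abs_re_le_norm _).trans ?_) (abs_nonneg _)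
      ((abs_nonneg _).trans (h a b))
    rw [norm_mul, Complex.norm_conj]
    nlinarith [sq_nonneg (‖c a‖ - ‖c b‖)]
  rw [e]
  refine (Finset.abs_sum_le_sum_abs _ _).trans ?_
  refine (Finset.sum_le_sum fun a _ => (Finset.abs_sum_le_sum_abs _ _).trans
    (Finset.sum_le_sum fun b _ => k a b)).trans (le_of_eq ?_)
  simp only [← Finset.mul_sum, Finset.sum_add_distrib, Finset.sum_const, Finset.card_univ,
    nsmul_eq_mul, n1, ← Finset.sum_div]
  ring

theorem Amat_symm (L : Lay ι ρ) (C : ℝ) (ω μ : ι → ℝ) (a b : ι) :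
    Amat L C ω μ a b = Amat L C ω μ b a := by
  unfold Amat gm
  congr 1
  · simp only [mul_comm]
  · by_cases h : a = b
    · subst h; rfl
    · rw [if_neg h, if_neg (Ne.symm h)]

theorem Amat_row (L : Lay ι ρ) (C η M : ℝ) (ω μ : ι → ℝ) (h : ∀ a b, |C * ω a * ω b| ≤ η)
    (hμ : ∀ a, |μ a| ≤ M) (a : ι) :
    ∑ b, |Amat L C ω μ a b| ≤ Fintype.card ι * (Fintype.card ρ * η) + M := by
  have k : ∀ b, |Amat L C ω μ a b| ≤ Fintype.card ρ * η + if a = b then M else 0 := by
    intro b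
    have h1 := Amat_entry L C 0 η ω ω μ (by simpa using h) a b
    have h2 : |Amat L 0 ω μ a b| ≤ if a = b then M else 0 := by
      simp only [Amat, zero_mul, zero_add]
      split_ifs
      · exact hμ a
      · simp
    have := abs_add_le (Amat L C ω μ a b - Amat L 0 ω μ a b) (Amat L 0 ω μ a b)
    rw [sub_add_cancel] at this
    linarith
  refine (Finset.sum_le_sum fun b _ => k b).trans (le_of_eq ?_)
  simp [Finset.sum_add_distrib]

theorem hop_le (L : Lay ι ρ) (P : Pl) (fr η : ℝ)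
    (h : ∀ a b, |Real.exp (-(2 * fr)) / (2 * P.l ^ 2) * Real.exp (P.F (L.dot a)) *
      Real.exp (P.F (L.dot b))| ≤ η) (c : ι → ℂ) :
    L.hop P fr c ≤ Fintype.card ι * (Fintype.card ρ * η) * n1 c := by
  have h1 := qf_diff _ _ _ (Amat_entry L (Real.exp (-(2 * fr)) / (2 * P.l ^ 2)) 0 η
    (fun a => Real.exp (P.F (L.dot a))) (fun _ => 0) (fun _ => 0) (by simpa using h)) c
  rw [OB.qf_Amat_hop, OB.qf_Amat] at h1
  simpa using (le_abs_self _).trans h1

end gen

namespace Bld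
variable {St : Star} {b : ℕ}

theorem sw_om (hb : 1 ≤ b) (hh : ∀ a : St.Site, St.heavy a.1 ↔ ∃ α, St.net.hv α = a) (a : St.Site) :
    1 / St.net.sw (1 / (b : ℝ) ^ 4) a = om St b a.1 := by
  have hb' : (0 : ℝ) < b := by exact_mod_cast hb
  unfold Net.sw om
  by_cases h : St.heavy a.1
  · rw [if_pos ((hh a).1 h), if_pos h]; simp
  · rw [if_neg (fun h' => h ((hh a).2 h')), if_neg h]
    rw [show 1 / (b : ℝ) ^ 4 = (1 / (b : ℝ) ^ 2) ^ 2 by ring, Real.sqrt_sq (by positivity)]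
    simp

theorem holeB_eq (hid : ∀ (ω : St.Site → ℝ) (a a' : St.Site), gm (St.cvec ω) a a' =
      (if a = a' then St.dg a.1 * ω a ^ 2 else 0) - gm ((St.lay (Dh b)).rv ω) a a') :
    holeB (Ar St b) (Kr St b) = fun a a' => (Cq b : ℝ) * gm (St.cvec fun a => om St b a.1) a a' := by
  ext a a'
  unfold holeB Ar
  rw [Amat_symm, hid, Amat, selfK_Kr]
  by_cases h : a = a'
  · simp only [if_pos h, mu]; push_cast; ring
  · simp only [if_neg h]; ring

theorem gm_cvec_diag (ω : St.Site → ℝ) (a : St.Site) :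
    gm (St.cvec ω) a a = ω a ^ 2 * cn St a.1 := by
  unfold gm cn Star.cvec
  push_cast
  rw [Finset.mul_sum, ← Finset.sum_coe_sort St.cons]
  refine Finset.sum_congr rfl fun q _ => ?_
  have : (∑ j ∈ Finset.range (St.ar q.1), if vtx q.1 j = a.1 then ω a else 0) =
      ω a * ∑ j ∈ Finset.range (St.ar q.1), if vtx q.1 j = a.1 then (1 : ℝ) else 0 := by
    rw [Finset.mul_sum]; refine Finset.sum_congr rfl fun j _ => ?_
    split_ifs <;> simp
  rw [this]; ring

theorem holeC_eq (hid : ∀ (ω : St.Site → ℝ) (a a' : St.Site), gm (St.cvec ω) a a' =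
      (if a = a' then St.dg a.1 * ω a ^ 2 else 0) - gm ((St.lay (Dh b)).rv ω) a a') :
    holeC (Ar St b) (Kr St b) = c0 St b := by
  have h : ∀ a, Ar St b a a = -((Cq b : ℝ) * ((om St b a.1 : ℝ) ^ 2 * cn St a.1)) - sK St b a.1 := by
    intro a
    have := congrFun (congrFun (holeB_eq hid) a) a
    simp only [holeB, if_true, gm_cvec_diag, selfK_Kr] at this
    linarith
  unfold holeC c0
  simp only [h, selfK_Kr]
  push_cast
  rw [← Finset.sum_coe_sort St.sites, ← Finset.sum_coe_sort St.sites]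
  simp only [Finset.sum_sub_distrib, Finset.sum_neg_distrib, ← Finset.mul_sum]
  ring

end Bld

end Crest.Agent.R338
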