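import Crest.Agent.R338.Red3
import Crest.Agent.R338.Pow

/-!
# Row 338: the one-body package with the numerical parameters
-/

noncomputable section

open Function MeasureTheory

namespace Crest.Agent.R338

theorem PotOK.mono {V Φ : E3 → ℝ} {v1 Ω e g0 g1 sε e' g0' g1' sε' : ℝ}
    (h : PotOK V Φ v1 Ω e g0 g1 sε) (h1 : e ≤ e') (h2 : g0 ≤ g0') (h3 : g1 ≤ g1') (h4 : sε ≤ sε') :
    PotOK V Φ v1 Ω e' g0' g1' sε' := by
  obtain ⟨U, G, S, a1, a2, a3, a4, a5, a6, a7, a8⟩ := h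
  refine ⟨U, G, S, a1, a2, a3, fun x => (a4 x).trans h2, fun j x => (a5 j x).trans h3,
    fun ψ hψ => ⟨(a6 ψ hψ).1, (a6 ψ hψ).2.trans ?_⟩, fun x => by linarith [a7 x],
    fun x hx => by linarith [a8 x hx]⟩
  exact mul_le_mul_of_nonneg_right h4
    (Finset.sum_nonneg fun _ _ => integral_nonneg fun _ => by positivity)

/-- Sizes of the planar parameters. -/
structure Par (y : ℝ) (P : Pl) : Prop where
  l : P.l = y ^ (-10000 : ℤ)
  th : P.th = y ^ (-195 : ℤ)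
  h : P.h = y ^ (-12000 : ℤ)
  Om : UB y P.Om 4 27000
  Om' : LB y P.Om 1 (-27000)
  G : UB y P.G 1 15
  G1 : 1 ≤ P.G
  fv : UB y P.fv 1 2
  fv1 : 1 ≤ P.fv

theorem Par.ok {y : ℝ} {P : Pl} (hy : Big y) (h : Par y P) (h1 : ∀ c, ¬ inG P.G c → P.F c = P.fv)
    (h2 : ∀ c, 0 ≤ P.F c ∧ P.F c ≤ P.fv) : P.OK := by
  have hG := h.G
  have hOm := h.Om'
  have h8 : LB y (1 / 8) 8 0 := ⟨by norm_num, by norm_num⟩
  have h10 : LB y (1 / 10) 10 0 := ⟨by norm_num, by norm_num⟩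
  refine ⟨h.G1, ?_, ?_, ?_, ?_, ?_, ?_, hOm.1, ?_, ?_, h1, fun c => (h2 c).1, fun c => (h2 c).2⟩ <;>
    simp only [h.l, h.th, h.h]
  · exact hy.zp _
  · ble
  · exact hy.zp _
  · ble
  · exact hy.zp _
  · exact hy.mono (by norm_num)
  · ble
  · ble

theorem Par.kz {y : ℝ} {P : Pl} (hL : LocStmt) (hy : Big y) (h : Par y P) (hP : P.OK) :
    UB y P.kz 4 1500 := by
  have h1 : UB y (√P.Om) 2 13500 := by
    refine ⟨Real.sqrt_nonneg _, ?_⟩
    rw [Real.sqrt_le_left (by have := hy.zp 13500; positivity), mul_pow, ← zpow_natCast (y ^ _),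
      ← zpow_mul]
    have := h.Om.2
    norm_num at this ⊢
    exact this
  refine UB.of_le (by linarith [hL.kz_ge P hP]) (hL.kz_le P hP) ?_
  rw [h.h]; bub

theorem Par.tl {y : ℝ} {P : Pl} (hL : LocStmt) (hy : Big y) (h : Par y P) (hP : P.OK) :
    UB y P.tl 1 (-28000) := by
  have hkz := h.kz hL hy hP
  have hOm := h.Om'
  have h1 : LB y (P.Om * P.h ^ 2 / 2) 2 (-3000) := by
    have : LB y (P.Om * P.h ^ 2) (1 * 1 ^ 2) (-27000 + - -12000 * (2 : ℕ)) := by rw [h.h]; bnd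
    have := this.div hy two_pos (UB.nat 2)
    norm_num at this ⊢
    exact this
  have h2 : UB y (Real.exp (-(P.Om * P.h ^ 2 / 2))) 1 (-28990 - 1000) := by
    set x := P.Om * P.h ^ 2 / 2
    have h3 : Real.exp (-x) ≤ 3628800 / x ^ 10 := by
      have := Real.pow_div_factorial_le_exp x h1.1.le 10
      have hx := h1.1
      rw [Real.exp_neg, ← one_div, div_le_div_iff₀ (Real.exp_pos _) (by positivity)]
      norm_num [Nat.factorial] at this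
      linarith
    refine UB.of_le (Real.exp_pos _).le h3 ?_
    have : UB y (1 / x ^ 10) 1 (-29999) := by bub1
    rw [show 3628800 / x ^ 10 = 3628800 * (1 / x ^ 10) by ring]
    bub1
  unfold Pl.tl
  bub1

theorem ob2 (hL : LocStmt) (hFl : FluctStmt) (hLk : LeakStmt) (hHop : HopStmt) (hOff : OffStmt)
    (hTr : TrialStmt) (hTQ : TrialQStmt) {ι ρ : Type} [Fintype ι] [DecidableEq ι] [Fintype ρ]
    (L : Lay ι ρ) (P : Pl) (fl fb fr : ℝ) (hLo : L.OK) (hP : P.OK) (hLev : L.Lev P fl fb fr)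
    (μ : ι → ℝ) (v1 C y : ℝ) (V : E3 → ℝ) (K : ι → ι → ℝ) (hy : Big y) (h : Par y P)
    (hC : UB y C 1 1)
    (x1 : UB y (Real.exp (2 * fl)) 2 4) (x2 : UB y (Real.exp (-(2 * fb))) 1 (-195))
    (x3 : UB y (Real.exp (-(2 * (fr - fb)))) 1 (-9748))
    (x4 : UB y (Real.exp (-(2 * (fb - fl)))) 1 (-191))
    (x5 : UB y (Real.exp (-(2 * P.fv))) 1 (-10050))
    (hμ : ∀ a, |μ a| ≤ y ^ (10063 : ℤ))
    (hf1 : ∀ j x, |pd j P.fl x| ≤ C * (P.G ^ 2 * P.fv / (P.th * P.l)))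
    (hf2 : ∀ x, |lap P.fl x| ≤ C * (P.G ^ 2 * P.fv / (P.th * P.l)) ^ 2)
    (hf3 : ∀ x, |Wf P.fl x| ≤ C * (P.G ^ 2 * P.fv / (P.th * P.l)) ^ 2)
    (hpot : PotOK V (P.Phi (L.mu μ) (y ^ (10145 : ℤ))) v1 P.Om (y ^ (9002 : ℤ)) (y ^ (-17990 : ℤ))
      (y ^ (3 : ℤ)) (y ^ (-55999 : ℤ)))
    (haH : ∀ c, L.hop P fr c ≤ y ^ (10064 : ℤ) * n1 c)
    (hpair : ∀ a b, |kex (L.th P) (y ^ (10019 : ℤ)) a b - K a b| ≤ y ^ (9986 : ℤ)) :
    OneBody V (L.phi P) (L.th P)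
      (Amat L (Real.exp (-(2 * fr)) / (2 * P.l ^ 2)) (fun a => Real.exp (P.F (L.dot a))) μ) K
      (v1 - y ^ (10145 : ℤ) + P.Om / 2) (y ^ (9986 : ℤ)) (y ^ (10143 : ℤ)) (y ^ (-160 : ℤ))
      (y ^ (10019 : ℤ)) := by
  have hkz := h.kz hL hy hP
  have htl := h.tl hL hy hP
  have hG := h.G
  have hOm := h.Om
  have hOm' := h.Om'
  have hfv := h.fv
  have hl : UB y P.l 1 (-10000) := h.l ▸ UB.zp hy _
  have hl' : LB y P.l 1 10000 := h.l ▸ LB.zp hy _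
  have hth : UB y P.th 1 (-195) := h.th ▸ UB.zp hy _
  have hth' : LB y P.th 1 195 := h.th ▸ LB.zp hy _
  have hh : UB y P.h 1 (-12000) := h.h ▸ UB.zp hy _
  have hh' : LB y P.h 1 12000 := h.h ▸ LB.zp hy _
  have h2 : LB y (1 / 2) 2 0 := ⟨by norm_num, by norm_num⟩
  refine ob hL hFl hLk hHop hOff hTr hTQ L P fl fb fr hLo hP hLev μ (y ^ (10063 : ℤ)) _ v1 _ _ _ _
    (y ^ (-80 : ℤ)) _ _ _ (y ^ (10064 : ℤ)) _ V K hμ (hy.zp _).le (by ble) (fun j x => ?_)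
    (fun x => (hf2 x).trans (by ble)) (fun x => (hf3 x).trans (by ble)) (by ble) (hy.zp _).le
    (hy.zp _) (by ble) (hy.zp _).le (by bfin) (by bfin) hpot (by bfin1) (by bfin) ?_ haH
    (hy.zp _).le (hy.zp _).le (by bfin) (by bfin) (by bfin) (by bfin1) (hy.zp _) (by bfin) hpair
    (by bfin) ?_ (by bfin)
  · rw [← sq_abs]
    exact (pow_le_pow_left₀ (abs_nonneg _) (hf1 j x) 2).trans (by ble)
  · have : P.tl + 20 * P.th + P.tl * (20 * P.th) ≤ y ^ (-80 : ℤ) := by bfin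
    linarith
  · have := hOm.1
    have := hy.pos
    positivity

end Crest.Agent.R338
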