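import Crest.Agent.R338.Red4

/-!
# Row 338: sizes of the concrete parameters
-/

noncomputable section

open Function MeasureTheory

namespace Crest.Agent.R338

namespace Bld
variable {St : Star} {b : ℕ}

theorem ti_eq : (ti b : ℝ) = (b : ℝ) ^ (1000 : ℤ) := by
  rw [ti, zpow_ofNat]; push_cast; rfl

theorem ti_pow (n : ℕ) : (ti b : ℝ) ^ n = (b : ℝ) ^ (1000 * n : ℤ) := by
  rw [ti_eq, zpow_mul, zpow_natCast]

theorem l_eq : (l b : ℝ) = (b : ℝ) ^ (-10000 : ℤ) := by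
  rw [l]; push_cast; rw [ti_pow, one_div, ← zpow_neg]; norm_num

theorem th_eq : (th b : ℝ) = (b : ℝ) ^ (-195 : ℤ) := by
  rw [th]; push_cast; rw [one_div, zpow_neg, zpow_ofNat]

theorem N1_eq : (N1 b : ℝ) = (b : ℝ) ^ (18000 : ℤ) := by
  rw [N1]; push_cast; rw [ti_pow]; norm_num

theorem NA_eq : (NA b : ℝ) = (b : ℝ) ^ (63000 : ℤ) := by
  rw [NA]; push_cast; rw [ti_pow]; norm_num

theorem Cq_eq : (Cq b : ℝ) = (b : ℝ) ^ (10057 : ℤ) / 2 := by
  rw [Cq]; push_cast; rw [zpow_ofNat]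

theorem div_l (x : ℝ) : x / (l b : ℝ) = x * (b : ℝ) ^ (10000 : ℤ) := by
  rw [l_eq, zpow_neg, div_inv_eq_mul]

theorem Lam_eq (hy : Big (b : ℝ)) : (Lam b : ℝ) = (b : ℝ) ^ (10145 : ℤ) := by
  rw [Lam]; push_cast; rw [div_l, ← zpow_ofNat, ← zpow_add₀ hy.pos.ne']; norm_num

theorem eps_eq (hy : Big (b : ℝ)) : (eps b : ℝ) = (b : ℝ) ^ (9990 : ℤ) := by
  rw [eps]; push_cast; rw [l_eq, ← zpow_ofNat, ← zpow_add₀ hy.pos.ne', one_div, ← zpow_neg]; norm_num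

theorem big_nat (hy : Big (b : ℝ)) : 10 ^ 8 ≤ b := by
  unfold Big at hy; exact_mod_cast hy

theorem Lq_mem (hN : NumStmt) (hy : Big (b : ℝ)) :
    ∃ η : ℝ, (Lq b : ℝ) = Real.log b + η ∧ UB b η 2 (-80) := by
  have hb := big_nat hy
  have h2 : 2 ≤ b ^ 80 := le_trans (by omega) (Nat.le_self_pow (by norm_num) b)
  obtain ⟨h1, h2⟩ := hN.2.1 b (b ^ 80) (by omega) h2
  refine ⟨Lq b - Real.log b, by ring, h1, h2.trans (le_of_eq ?_)⟩
  push_cast; rw [zpow_neg, zpow_ofNat]; rfl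

theorem exp_L (hy : Big (b : ℝ)) {η : ℝ} (h : (Lq b : ℝ) = Real.log b + η) (k : ℤ) :
    Real.exp (k * (Lq b : ℝ)) = (b : ℝ) ^ k * Real.exp (k * η) := by
  rw [h, mul_add, Real.exp_add, ← Real.log_zpow, Real.exp_log (hy.zp k)]

theorem exp_neg_L (hN : NumStmt) (hy : Big (b : ℝ)) (k : ℤ) (hk : k ≤ 0) {x : ℝ}
    (hx : x = k * (Lq b : ℝ)) : UB b (Real.exp x) 1 k := by
  obtain ⟨η, h, h1⟩ := Lq_mem hN hy
  refine ⟨(Real.exp_pos _).le, ?_⟩
  rw [hx, exp_L hy h, Nat.cast_one, one_mul]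
  refine mul_le_of_le_one_right (hy.zp k).le (Real.exp_le_one_iff.2 ?_)
  exact mul_nonpos_of_nonpos_of_nonneg (by exact_mod_cast hk) h1.1

theorem exp_pos_L (hN : NumStmt) (hy : Big (b : ℝ)) (k : ℤ) (hk : k ≤ 4) {x : ℝ}
    (hx : x = k * (Lq b : ℝ)) : UB b (Real.exp x) 2 k := by
  obtain ⟨η, h, h1⟩ := Lq_mem hN hy
  refine ⟨(Real.exp_pos _).le, ?_⟩
  rw [hx, exp_L hy h, mul_comm]
  refine mul_le_mul_of_nonneg_right ?_ (hy.zp k).le
  have h2 : LB (b : ℝ) (1 / 2) 2 0 := ⟨by norm_num, by norm_num⟩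
  have h3 : 4 * η ≤ 1 / 2 := by ble
  have h4 : (k : ℝ) * η ≤ 4 * η := mul_le_mul_of_nonneg_right (by exact_mod_cast hk) h1.1
  have h5 := Real.exp_bound_div_one_sub_of_interval (x := 1 / 2) (by norm_num) (by norm_num)
  have h6 := Real.exp_le_exp.2 (h4.trans h3)
  norm_num at h5
  exact h6.trans (by exact_mod_cast h5)

theorem exp_rel_L (hN : NumStmt) (hy : Big (b : ℝ)) (k : ℤ) (hk : k ≤ 0) (hk' : -10000 ≤ k) :
    |Real.exp (k * (Lq b : ℝ)) - (b : ℝ) ^ k| ≤ (b : ℝ) ^ (k + -79) := by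
  obtain ⟨η, h, h1⟩ := Lq_mem hN hy
  have h3 : 10000 * η ≤ (b : ℝ) ^ (-79 : ℤ) := by bfin
  have h4 : (k : ℝ) * η ≤ 0 := mul_nonpos_of_nonpos_of_nonneg (by exact_mod_cast hk) h1.1
  have h5 : -10000 * η ≤ (k : ℝ) * η := mul_le_mul_of_nonneg_right (by exact_mod_cast hk') h1.1
  have h6 := Real.add_one_le_exp (k * η)
  have h7 := Real.exp_le_one_iff.2 h4
  rw [exp_L hy h, zpow_add₀ hy.pos.ne', ← mul_sub_one, abs_mul, abs_of_pos (hy.zp k)]
  refine mul_le_mul_of_nonneg_left (abs_le.2 ⟨by linarith, ?_⟩) (hy.zp k).le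
  linarith [hy.zp (-79)]

theorem log_ub {y : ℝ} (hy : Big y) : UB y (Real.log y) 1 1 :=
  ⟨Real.log_nonneg hy.one_le, by simpa using (Real.log_le_sub_one_of_pos hy.pos).trans (by linarith)⟩

theorem Lq_ge (hN : NumStmt) (hy : Big (b : ℝ)) : 1 ≤ (Lq b : ℝ) := by
  obtain ⟨η, h, h1⟩ := Lq_mem hN hy
  have : 1 ≤ Real.log b := by
    rw [Real.le_log_iff_exp_le hy.pos]
    exact (Real.exp_one_lt_d9.le.trans (by norm_num)).trans hy
  linarith [h1.1]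

theorem nat_ub {n : ℕ} (h : n ≤ b) : UB (b : ℝ) n 1 1 :=
  ⟨Nat.cast_nonneg _, by simpa using h⟩

theorem size_pow (hsz : St.size ^ 12 ≤ b) {k : ℕ} (hk : k ≤ 11) : 10 * St.size ^ k ≤ b := by
  have h : 10 ≤ St.size := by unfold Star.size; omega
  calc 10 * St.size ^ k ≤ St.size * St.size ^ k := Nat.mul_le_mul_right _ h
    _ = St.size ^ (k + 1) := by ring
    _ ≤ St.size ^ 12 := Nat.pow_le_pow_right (by omega) (by omega)
    _ ≤ b := hsz

theorem Dh_ge (hy : Big (b : ℝ)) : 20 ≤ Dh b :=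
  le_trans (le_trans (by norm_num) (big_nat hy)) (Nat.le_self_pow (by norm_num) b)

theorem Om_sq : (pl St b).Om ^ 2 = 4 * Real.pi * (N1 b : ℝ) ^ 3 :=
  Real.sq_sqrt (by positivity)

theorem par (hN : NumStmt) (hy : Big (b : ℝ)) (hsz : St.size ^ 12 ≤ b) : Par b (pl St b) := by
  have hN3 : (N1 b : ℝ) ^ 3 = ((b : ℝ) ^ (27000 : ℤ)) ^ 2 := by
    rw [N1_eq, ← zpow_natCast, ← zpow_natCast, ← zpow_mul, ← zpow_mul]; norm_num
  have hp := hy.zp 27000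
  have hO : (b : ℝ) ^ (27000 : ℤ) ≤ (pl St b).Om := by
    refine Real.le_sqrt_of_sq_le ?_
    rw [hN3]; nlinarith [Real.pi_gt_three]
  refine ⟨l_eq, th_eq, ?_, ⟨Real.sqrt_nonneg _, ?_⟩, (LB.zp hy _).of_le hO, ?_, ?_, ?_, ?_⟩
  · change 1 / (ti b : ℝ) ^ 12 = _
    rw [ti_pow, one_div, ← zpow_neg]; norm_num
  · refine (Real.sqrt_le_left (by positivity)).2 ?_
    rw [hN3]; push_cast; nlinarith [Real.pi_le_four]
  · have h1 : St.NC + 3 ≤ b := by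
      have := size_pow hsz (k := 2) (by norm_num)
      have h2 : St.NC ≤ St.size ^ 2 := by
        unfold Star.NC Star.size; rw [sq]; exact Nat.mul_le_mul (by omega) (by omega)
      have := big_nat hy
      omega
    have h2 : St.R ≤ b := by
      have := size_pow hsz (k := 1) (by norm_num)
      rw [pow_one] at this
      unfold Star.size at this; omega
    have h1' := nat_ub h1
    have h2' := nat_ub h2
    have : ((pl St b).G : ℝ) = 2 * (b : ℝ) ^ 13 * ((St.NC + 3 : ℕ) : ℝ) + 8 * (2 * St.R) + 40 := by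
      simp [pl, Star.GG, Dh, Star.R2]
    rw [this]; bub1
  · change 1 ≤ St.GG (Dh b)
    unfold Star.GG; omega
  · obtain ⟨η, h, h1⟩ := Lq_mem hN hy
    have := log_ub hy
    rw [pl_fv, h]; bub1
  · rw [pl_fv]; linarith [Lq_ge hN hy]

end Bld

end Crest.Agent.R338
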