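import Crest.Agent.R338.Red5

/-!
# Row 338: the one-body package of the reduction
-/

noncomputable section

open Function MeasureTheory

namespace Crest.Agent.R338

namespace Bld
variable {St : Star} {b : ℕ}

theorem th_pos (hy : Big (b : ℝ)) : 0 < th b := by
  have := big_nat hy
  have : (0 : ℚ) < b := by exact_mod_cast (by omega : 0 < b)
  unfold th; positivity

theorem th_le (hy : Big (b : ℝ)) : th b ≤ 1 / 10 := by
  have h10 : LB (b : ℝ) (1 / 10) 10 0 := ⟨by norm_num, by norm_num⟩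
  have : (th b : ℝ) ≤ 1 / 10 := by rw [th_eq]; ble
  exact_mod_cast (show (th b : ℝ) ≤ ((1 / 10 : ℚ) : ℝ) by simpa using this)

theorem kq_spec (hK : KqStmt) (hy : Big (b : ℝ)) :
    (∀ Δ, KD b (-Δ) = KD b Δ) ∧ (∀ Δ, UB (b : ℝ) (KD b Δ) 1 10019) ∧
    (∀ (Δ : ℤ × ℤ) (D : ℕ), 3 ≤ D → ((D : ℤ) ≤ |Δ.1| ∨ (D : ℤ) ≤ |Δ.2|) →
      (KD b Δ : ℝ) ≤ 1 / (D - 2) * (b : ℝ) ^ (10000 : ℤ)) ∧
    (∀ (Δ : ℤ × ℤ) (D : ℕ), |Δ.1| ≤ D → |Δ.2| ≤ D →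
      1 / (2 * D + 2) * (b : ℝ) ^ (10000 : ℤ) ≤ KD b Δ) ∧
    ((pl St b).OK → ∀ a a', |kex ((St.lay (Dh b)).th (pl St b)) ((b : ℝ) ^ (10019 : ℤ)) a a' -
      Kr St b a a'| ≤ (b : ℝ) ^ (9986 : ℤ)) := by
  have hb := big_nat hy
  have h2 : 2 ≤ b ^ 53 := le_trans (by omega) (Nat.le_self_pow (by norm_num) b)
  have h3 : (1 : ℚ) ≤ (b : ℚ) ^ 19 := one_le_pow₀ (by exact_mod_cast (by omega : 1 ≤ b))
  obtain ⟨k1, k2, k3, k4, k5⟩ := hK (b ^ 53) (th b) ((b : ℚ) ^ 19) h2 (th_pos hy) (th_le hy) h3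
  have e : ∀ Δ, (KD b Δ : ℝ) = Kq (b ^ 53) (th b) ((b : ℚ) ^ 19) Δ * (b : ℝ) ^ (10000 : ℤ) := by
    intro Δ; rw [KD]; push_cast; rw [div_l]
  have hp := (hy.zp 10000).le
  refine ⟨fun Δ => by rw [KD, KD, k1], fun Δ => ?_, fun Δ D h1 h2 => ?_, fun Δ D h1 h2 => ?_,
    fun hP a a' => ?_⟩
  · have : UB (b : ℝ) (Kq (b ^ 53) (th b) ((b : ℚ) ^ 19) Δ) 1 19 :=
      ⟨by exact_mod_cast (k2 Δ).1, by
        rw [Nat.cast_one, one_mul, zpow_ofNat]; exact_mod_cast (k2 Δ).2⟩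
    rw [e]; bub
  · rw [e]
    refine mul_le_mul_of_nonneg_right ?_ hp
    exact_mod_cast (Rat.cast_le (K := ℝ)).2 (k3 Δ D h1 h2)
  · rw [e]
    refine mul_le_mul_of_nonneg_right ?_ hp
    have := (Rat.cast_le (K := ℝ)).2 (k4 Δ D h1 h2)
    push_cast at this
    exact this
  · have := k5 (pl St b) hP rfl (St.dot (Dh b) a.1) (St.dot (Dh b) a'.1)
    have e1 : (((b : ℚ) ^ 19 : ℚ) : ℝ) / (pl St b).l = (b : ℝ) ^ (10019 : ℤ) := by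
      change _ / (l b : ℝ) = _
      push_cast; rw [div_l, ← zpow_ofNat, ← zpow_add₀ hy.pos.ne']; norm_num
    rw [e1] at this
    have e2 : Kr St b a a' = (Kq (b ^ 53) (th b) ((b : ℚ) ^ 19)
        (St.dot (Dh b) a.1 - St.dot (Dh b) a'.1) : ℝ) / (pl St b).l := by
      change ((KD b _ : ℚ) : ℝ) = _ / (l b : ℝ)
      rw [KD]; push_cast; rfl
    rw [e2]
    refine this.trans ?_
    have e3 : (pl St b).l = (b : ℝ) ^ (-10000 : ℤ) := l_eq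
    have e4 : (pl St b).h = (b : ℝ) ^ (-12000 : ℤ) := by
      change 1 / (ti b : ℝ) ^ 12 = _
      rw [ti_pow, one_div, ← zpow_neg]; norm_num
    rw [e3, e4]; push_cast; bfin

theorem om_ub (hy : Big (b : ℝ)) (a : Cd) : UB (b : ℝ) (om St b a) 1 2 := by
  unfold om; split_ifs <;> push_cast <;> bub

theorem Cq_ub (hy : Big (b : ℝ)) : UB (b : ℝ) (Cq b) 1 10057 := by rw [Cq_eq]; bub

theorem sK_ub (hK : KqStmt) (hy : Big (b : ℝ)) (hc : St.sites.card ≤ b) (a : Cd) :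
    UB (b : ℝ) (sK St b a) 3 10020 := by
  have k := (kq_spec (St := St) hK hy).2.1
  have h1 : UB (b : ℝ) (Kk St b a a) 1 10019 := k _
  have h2 : UB (b : ℝ) (∑ a' ∈ St.sites.erase a, (Kk St b a a' : ℝ)) 1 10020 := by
    refine UB.of_le (Finset.sum_nonneg fun a' _ => (k _).1)
      (Finset.sum_le_card_nsmul _ _ ((b : ℝ) ^ (10019 : ℤ)) fun a' _ => by simpa [Kk] using (k _).2) ?_
    have := nat_ub ((Finset.card_erase_le (s := St.sites) (a := a)).trans hc)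
    rw [nsmul_eq_mul]; bub
  unfold sK; push_cast; bub

theorem mu_le (hK : KqStmt) (hy : Big (b : ℝ)) (hc : St.sites.card ≤ b) (hd : ∀ a, St.dg a ≤ b)
    (a : Cd) : |(mu St b a : ℝ)| ≤ (b : ℝ) ^ (10063 : ℤ) := by
  have h1 := sK_ub hK hy hc a
  have h2 := om_ub (St := St) hy a
  have h3 := Cq_ub hy
  have h4 := nat_ub (hd a)
  have : UB (b : ℝ) ((Cq b : ℝ) * St.dg a * (om St b a : ℝ) ^ 2 + sK St b a) 1 10063 := by bub1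
  unfold mu; push_cast
  rw [← neg_add', abs_neg, abs_of_nonneg this.1]
  simpa using this.2

theorem pq_mem (hN : NumStmt) (hy : Big (b : ℝ)) : UB (b : ℝ) (Real.pi - pq b) 2 (-30000) := by
  obtain ⟨h1, h2⟩ := hN.1 (ti b ^ 30)
  refine UB.of_le h1 h2 ?_
  have : LB (b : ℝ) (((ti b ^ 30 : ℕ) : ℝ) + 1) 1 (-30000) := by
    refine LB.of_le (le_add_of_nonneg_right zero_le_one) ?_
    push_cast; rw [ti_pow]; exact LB.zp hy _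
  bub

/-- The displaced lattice. -/
theorem pot_ok (hN : NumStmt) (hy : Big (b : ℝ)) {C C' : ℝ} (hC : UB b C 1 1) (hC' : UB b C' 1 1)
    (hpar : Par b (pl St b))
    (h1 : ContDiff ℝ 5 (PhiR St b))
    (h2 : ∀ x, PhiR St b x ≠ 0 → |x 0| ≤ ((pl St b).G + 1) * (pl St b).l ∧
      |x 1| ≤ ((pl St b).G + 1) * (pl St b).l ∧ |x 2| ≤ 1 / 2)
    (h3 : ∀ i ≤ 5, ∀ x, ‖iteratedFDeriv ℝ i (PhiR St b) x‖ ≤
      C * (((pl St b).G ^ 2 * (pl St b).fv / ((pl St b).th * (pl St b).l)) ^ 2 +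
        (pl St b).G ^ 2 * ((b : ℝ) ^ (10063 : ℤ) + Lam b)) * (1 / ((pl St b).th * (pl St b).l)) ^ i)
    (hLat : ∀ (N1 NA : ℕ) (πq P lam Rr ε : ℝ) (Φ : E3 → ℝ),
      8 ≤ N1 → 2 * N1 ≤ NA → 3 ≤ πq → πq ≤ 4 → ContDiff ℝ 5 Φ →
      (∀ y, Φ y ≠ 0 → |y 0| ≤ Rr ∧ |y 1| ≤ Rr ∧ |y 2| ≤ 1 / 2) → 1 / (N1 : ℝ) ≤ Rr → Rr ≤ 1 / 4 →
      1 ≤ lam → (∀ i ≤ 5, ∀ x, ‖iteratedFDeriv ℝ i Φ x‖ ≤ P * lam ^ i) →
      P * lam ^ 2 ≤ (N1 : ℝ) ^ 3 → P * lam ^ 5 ≤ (N1 : ℝ) ^ 6 → 0 < ε → ε ≤ 1 / 2 →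
      Injective (fun α : LatIdx N1 NA =>
        lat N1 NA α + disp (1 / (4 * πq * (N1 : ℝ) ^ 3)) Φ (lat N1 NA α)) ∧
      PotOK (latV N1 NA (disp (1 / (4 * πq * (N1 : ℝ) ^ 3)) Φ)) Φ
        (-((N1 : ℝ) ^ 3 * gbox (NA / N1) 0) - Real.pi * N1 / 6) (√(4 * Real.pi * (N1 : ℝ) ^ 3))
        (C' * ((P * lam) ^ 2 / (N1 : ℝ) ^ 3 * (1 + Real.log (1 / ε)) + |πq - Real.pi| * P +
          ε * P * lam + ε * N1 * (NA : ℝ) ^ 2 + (N1 : ℝ) ^ 4 / NA))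
        (C' * (1 + Real.log NA + P * lam ^ 5 * Rr ^ 2 / (N1 : ℝ) ^ 3) / N1)
        (C' * (1 + P * lam ^ 5 / (N1 : ℝ) ^ 4)) (64 * ε * N1 * (NA : ℝ) ^ 2)) :
    Injective (fun α : LatIdx (N1 b) (NA b) =>
      lat (N1 b) (NA b) α + uR St b (lat (N1 b) (NA b) α)) ∧
    PotOK (latV (N1 b) (NA b) (uR St b)) (PhiR St b)
      (-((N1 b : ℝ) ^ 3 * gbox (NA b / N1 b) 0) - Real.pi * N1 b / 6) (pl St b).Om
      ((b : ℝ) ^ (9002 : ℤ)) ((b : ℝ) ^ (-17990 : ℤ)) ((b : ℝ) ^ (3 : ℤ)) ((b : ℝ) ^ (-55999 : ℤ)) := by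
  have hG := hpar.G
  have hfv := hpar.fv
  have hpi := pq_mem hN hy
  have hN1 : UB (b : ℝ) (N1 b) 1 18000 := N1_eq (b := b) ▸ UB.zp hy _
  have hN1' : LB (b : ℝ) (N1 b) 1 (-18000) := N1_eq (b := b) ▸ LB.zp hy _
  have hNA : UB (b : ℝ) (NA b) 1 63000 := NA_eq (b := b) ▸ UB.zp hy _
  have hNA' : LB (b : ℝ) (NA b) 1 (-63000) := NA_eq (b := b) ▸ LB.zp hy _
  have q2 : LB (b : ℝ) (1 / 2) 2 0 := ⟨by norm_num, by norm_num⟩
  have q4 : LB (b : ℝ) (1 / 4) 4 0 := ⟨by norm_num, by norm_num⟩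
  have q10 : LB (b : ℝ) (1 / 10) 10 0 := ⟨by norm_num, by norm_num⟩
  have hlog := log_ub hy
  have e1 : 1 / ((pl St b).th * (pl St b).l) = (b : ℝ) ^ (10195 : ℤ) := by
    rw [hpar.th, hpar.l, ← zpow_add₀ hy.pos.ne', one_div, ← zpow_neg]; norm_num
  have hp1 : Real.pi - pq b ≤ 1 / 10 := by ble
  obtain ⟨k1, k2⟩ := hLat (N1 b) (NA b) (pq b) ((b : ℝ) ^ (20456 : ℤ)) ((b : ℝ) ^ (10195 : ℤ))
    ((b : ℝ) ^ (-9984 : ℤ)) ((b : ℝ) ^ (-200000 : ℤ)) (PhiR St b)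
    (by have : (8 : ℝ) ≤ N1 b := by ble
        exact_mod_cast this)
    (by have : (2 : ℝ) * N1 b ≤ NA b := by ble
        exact_mod_cast this)
    (by linarith [Real.pi_gt_d2]) (by linarith [Real.pi_le_four, hpi.1]) h1
    (fun x hx => by
      have : ((pl St b).G + 1) * (pl St b).l ≤ (b : ℝ) ^ (-9984 : ℤ) := by rw [hpar.l]; bfin
      exact ⟨(h2 x hx).1.trans this, (h2 x hx).2.1.trans this, (h2 x hx).2.2⟩)
    (by bfin) (by ble) (by ble)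
    (fun i hi x => by
      refine (h3 i hi x).trans ?_
      rw [e1]
      refine mul_le_mul_of_nonneg_right ?_ (pow_nonneg (hy.zp _).le _)
      rw [hpar.th, hpar.l, Lam_eq hy]; bfin)
    (by ble) (by ble) (hy.zp _) (by ble)
  refine ⟨k1, k2.mono ?_ ?_ (by bfin) (by bfin)⟩
  · have a1 : UB (b : ℝ) |(pq b : ℝ) - Real.pi| 2 (-30000) := by
      rw [abs_sub_comm, abs_of_nonneg hpi.1]; exact hpi
    have a2 : Real.log (1 / (b : ℝ) ^ (-200000 : ℤ)) = 200000 * Real.log b := by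
      rw [one_div, ← zpow_neg, Real.log_zpow]; norm_num
    rw [a2]; bfin
  · have a2 : Real.log (NA b : ℝ) = 63000 * Real.log b := by
      rw [NA_eq, Real.log_zpow]; norm_num
    rw [a2]; bfin

/-- Precision of the one-body level. -/
theorem E1_close (hN : NumStmt) (hy : Big (b : ℝ)) (hpar : Par b (pl St b)) :
    |(-((N1 b : ℝ) ^ 3 * gbox (NA b / N1 b) 0) - Real.pi * N1 b / 6 - (b : ℝ) ^ (10145 : ℤ) +
      (pl St b).Om / 2) - E1 b| ≤ (b : ℝ) ^ (9986 : ℤ) := by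
  have hb := big_nat hy
  have hti : 1 ≤ ti b := by unfold ti; exact Nat.one_le_pow 1000 b (by omega)
  have hpi := pq_mem hN hy
  have hN1 : UB (b : ℝ) (N1 b) 1 18000 := N1_eq (b := b) ▸ UB.zp hy _
  have hOm := hpar.Om'
  have e0 : (NA b : ℝ) / N1 b = ((ti b ^ 45 : ℕ) : ℝ) := by
    push_cast; rw [NA_eq, N1_eq, ti_pow, ← zpow_sub₀ hy.pos.ne']; norm_num
  have g := hN.2.2 (ti b ^ 45) (ti b ^ 230) (1 / (ti b : ℚ) ^ 23) (Nat.one_le_pow _ _ hti)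
    (Nat.one_le_pow _ _ hti) (by have : (0 : ℚ) < ti b := by exact_mod_cast hti
                                 positivity)
  have e1 : (((1 / (ti b : ℚ) ^ 23 : ℚ)) : ℝ) = (b : ℝ) ^ (-23000 : ℤ) := by
    push_cast; rw [ti_pow, one_div, ← zpow_neg]; norm_num
  have e2 : ((ti b ^ 45 : ℕ) : ℝ) = (b : ℝ) ^ (45000 : ℤ) := by push_cast; rw [ti_pow]; norm_num
  have e3 : ((ti b ^ 230 : ℕ) : ℝ) = (b : ℝ) ^ (230000 : ℤ) := by push_cast; rw [ti_pow]; norm_num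
  set gg : ℝ := gbox ((ti b ^ 45 : ℕ) : ℝ) 0 - gq (ti b ^ 45) (ti b ^ 230) (1 / (ti b : ℚ) ^ 23) with hgg
  have g' : UB (b : ℝ) |gg| 55 (-46000) := by
    refine UB.of_le (abs_nonneg _) g ?_
    rw [e1, e2, e3]; bub
  set s : ℕ := Nat.sqrt ⌊4 * pq b * (N1 b : ℚ) ^ 3⌋₊ with hs
  have hq : (0 : ℚ) ≤ 4 * pq b * (N1 b : ℚ) ^ 3 := by
    have q10 : LB (b : ℝ) (1 / 10) 10 0 := ⟨by norm_num, by norm_num⟩
    have hp1 : Real.pi - pq b ≤ 1 / 10 := by ble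
    have : (0 : ℝ) ≤ pq b := by linarith [Real.pi_gt_three]
    have : 0 ≤ pq b := by exact_mod_cast this
    positivity
  have s1 : (s : ℝ) ^ 2 ≤ 4 * pq b * (N1 b : ℝ) ^ 3 := by
    have h1 : ((s ^ 2 : ℕ) : ℚ) ≤ 4 * pq b * (N1 b : ℚ) ^ 3 :=
      le_trans (by exact_mod_cast Nat.sqrt_le' _) (Nat.floor_le hq)
    exact_mod_cast h1
  have s2 : 4 * pq b * (N1 b : ℝ) ^ 3 ≤ ((s : ℝ) + 1) ^ 2 := by
    have h1 : 4 * pq b * (N1 b : ℚ) ^ 3 ≤ (((s + 1) ^ 2 : ℕ) : ℚ) :=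
      le_trans (Nat.lt_floor_add_one _).le (by exact_mod_cast Nat.lt_succ_sqrt' _)
    exact_mod_cast h1
  have o := Om_sq (St := St) (b := b)
  have hN3 : 0 ≤ (N1 b : ℝ) ^ 3 := by positivity
  have s3 : (s : ℝ) ≤ (pl St b).Om :=
    abs_le_of_sq_le_sq' (by nlinarith [mul_nonneg hpi.1 hN3]) hOm.1.le |>.2
  have s4 : 4 * (Real.pi - pq b) * (N1 b : ℝ) ^ 3 ≤ (pl St b).Om := by ble
  have s5 : (pl St b).Om ≤ s + 2 := by
    by_contra hcon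
    have h0 : (0 : ℝ) ≤ s := Nat.cast_nonneg _
    nlinarith
  have s6 : UB (b : ℝ) ((pl St b).Om - s) 2 0 := ⟨by linarith, by norm_num; linarith⟩
  have e4 : (-((N1 b : ℝ) ^ 3 * gbox (NA b / N1 b) 0) - Real.pi * N1 b / 6 - (b : ℝ) ^ (10145 : ℤ) +
      (pl St b).Om / 2) - E1 b =
      -((N1 b : ℝ) ^ 3 * gg) - (Real.pi - pq b) * N1 b / 6 + ((pl St b).Om - s) / 2 := by
    rw [e0, hgg, E1, ← hs, ← Lam_eq hy]; push_cast; ring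
  have e5 : (N1 b : ℝ) ^ 3 * |gg| + (Real.pi - pq b) * N1 b / 6 + ((pl St b).Om - s) / 2 ≤
      (b : ℝ) ^ (9986 : ℤ) := by bfin
  have e6 := mul_le_mul_of_nonneg_left (le_abs_self gg) hN3
  have e7 := mul_le_mul_of_nonneg_left (neg_abs_le gg) hN3
  have e8 := mul_nonneg hpi.1 hN1.1
  rw [e4, abs_le]
  constructor <;> nlinarith [s6.1]

end Bld

end Crest.Agent.R338
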