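import Crest.Agent.R338.Red6

/-!
# Row 338: correctness of the reduction
-/

noncomputable section

open Function MeasureTheory
open Crest.MathPhysics.CoulombProblem Crest.MathPhysics.ElectronicCoulomb

namespace Crest.Agent.R338

namespace Bld
variable {St : Star} {b : ℕ}

/-- Weight exponent of a site. -/
def wx (St : Star) (a : Cd) : ℤ := if St.heavy a then 0 else 2

theorem om_eq (a : Cd) : (om St b a : ℝ) = (b : ℝ) ^ wx St a := by
  unfold om wx; split_ifs <;> simp [zpow_ofNat]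

theorem F_dot (h : (St.lay (Dh b)).OK) (a : St.Site) :
    (pl St b).F ((St.lay (Dh b)).dot a) = wx St a.1 * (Lq b : ℝ) := by
  rw [pl_F]
  change (lev St b (St.dot (Dh b) a.1) : ℝ) * _ / 2 = _
  rw [lev_dot h]; unfold wx; split_ifs <;> push_cast <;> ring

theorem wx_mem (a : Cd) : 0 ≤ wx St a ∧ wx St a ≤ 2 := by unfold wx; split_ifs <;> omega

theorem true_entry (h : (St.lay (Dh b)).OK) (a a' : St.Site) :
    Real.exp (-(2 * (9943 * (Lq b : ℝ) / 2))) / (2 * (pl St b).l ^ 2) *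
      Real.exp ((pl St b).F ((St.lay (Dh b)).dot a)) *
      Real.exp ((pl St b).F ((St.lay (Dh b)).dot a')) =
    Real.exp (((-9943 + wx St a.1 + wx St a'.1 : ℤ) : ℝ) * (Lq b : ℝ)) * (b : ℝ) ^ (20000 : ℤ) / 2 := by
  have e3 : (pl St b).l ^ 2 = ((b : ℝ) ^ (20000 : ℤ))⁻¹ := by
    change (l b : ℝ) ^ 2 = _
    rw [l_eq, ← zpow_natCast, ← zpow_mul, ← zpow_neg]; norm_num
  rw [F_dot h, F_dot h, e3]
  push_cast
  rw [add_mul, add_mul, Real.exp_add, Real.exp_add,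
    show -(2 * (9943 * (Lq b : ℝ) / 2)) = -9943 * (Lq b : ℝ) by ring]
  field_simp

theorem entry_close (hN : NumStmt) (hy : Big (b : ℝ)) (h : (St.lay (Dh b)).OK) (a a' : St.Site) :
    |Real.exp (-(2 * (9943 * (Lq b : ℝ) / 2))) / (2 * (pl St b).l ^ 2) *
      Real.exp ((pl St b).F ((St.lay (Dh b)).dot a)) *
      Real.exp ((pl St b).F ((St.lay (Dh b)).dot a')) -
      (Cq b : ℝ) * om St b a.1 * om St b a'.1| ≤ (b : ℝ) ^ (9983 : ℤ) := by
  have w1 := wx_mem (St := St) a.1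
  have w2 := wx_mem (St := St) a'.1
  have k := exp_rel_L hN hy (-9943 + wx St a.1 + wx St a'.1) (by omega) (by omega)
  have e : (Cq b : ℝ) * om St b a.1 * om St b a'.1 =
      (b : ℝ) ^ (-9943 + wx St a.1 + wx St a'.1 : ℤ) * (b : ℝ) ^ (20000 : ℤ) / 2 := by
    rw [Cq_eq, om_eq, om_eq, div_mul_eq_mul_div, div_mul_eq_mul_div, ← zpow_add₀ hy.pos.ne',
      ← zpow_add₀ hy.pos.ne', ← zpow_add₀ hy.pos.ne']
    congr 2; ring
  rw [true_entry h, e, ← sub_div, ← sub_mul, abs_div, abs_mul, abs_of_pos (hy.zp 20000),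
    abs_two]
  have k' : UB (b : ℝ) |Real.exp (((-9943 + wx St a.1 + wx St a'.1 : ℤ) : ℝ) * (Lq b : ℝ)) -
      (b : ℝ) ^ (-9943 + wx St a.1 + wx St a'.1 : ℤ)| 1 (-10018) :=
    ⟨abs_nonneg _, by simpa using k.trans (hy.mono (k' := -10018) (by omega))⟩
  bfin

theorem entry_le (hN : NumStmt) (hy : Big (b : ℝ)) (h : (St.lay (Dh b)).OK) (a a' : St.Site) :
    |Real.exp (-(2 * (9943 * (Lq b : ℝ) / 2))) / (2 * (pl St b).l ^ 2) *
      Real.exp ((pl St b).F ((St.lay (Dh b)).dot a)) *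
      Real.exp ((pl St b).F ((St.lay (Dh b)).dot a'))| ≤ (b : ℝ) ^ (10061 : ℤ) := by
  have w1 := wx_mem (St := St) a.1
  have w2 := wx_mem (St := St) a'.1
  have k := (exp_neg_L hN hy (-9943 + wx St a.1 + wx St a'.1) (by omega) rfl).weak hy le_rfl
    (k' := -9939) (by omega)
  have : UB (b : ℝ) (Real.exp (((-9943 + wx St a.1 + wx St a'.1 : ℤ) : ℝ) * (Lq b : ℝ)) *
      (b : ℝ) ^ (20000 : ℤ) / 2) 1 10061 := by bub
  rw [true_entry h, abs_of_nonneg this.1]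
  simpa using this.2

/-- The one-body package of the reduction. -/
theorem oneBody (hL : LocStmt) (hFl : FluctStmt) (hLk : LeakStmt) (hHop : HopStmt) (hOff : OffStmt)
    (hTr : TrialStmt) (hTQ : TrialQStmt) (hK : KqStmt) (hN : NumStmt) (hPr : ProfStmt)
    (hLat : LatStmt) : ∃ b0 : ℕ, ∀ (St : Star) (b : ℕ), b0 ≤ b → St.size ^ 12 ≤ b →
    (St.lay (Dh b)).OK → St.sites.card ≤ b → St.ress.card ≤ b → (∀ a, St.dg a ≤ b) →
    Big (b : ℝ) ∧ Injective (fun α : LatIdx (N1 b) (NA b) =>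
      lat (N1 b) (NA b) α + uR St b (lat (N1 b) (NA b) α)) ∧
    OneBody (latV (N1 b) (NA b) (uR St b)) ((St.lay (Dh b)).phi (pl St b))
      ((St.lay (Dh b)).th (pl St b)) (Ar St b) (Kr St b) (E1 b) (4 * (b : ℝ) ^ (9986 : ℤ))
      ((b : ℝ) ^ (10143 : ℤ)) ((b : ℝ) ^ (-160 : ℤ)) ((b : ℝ) ^ (10019 : ℤ)) := by
  obtain ⟨C, hC1, hPr⟩ := hPr
  obtain ⟨C', hC1', hLat⟩ := hLat
  refine ⟨10 ^ 8 + ⌈C⌉₊ + ⌈C'⌉₊, fun St b hb hsz hLo hc hr hd => ?_⟩
  have hy : Big (b : ℝ) := by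
    unfold Big; exact_mod_cast (by omega : 10 ^ 8 ≤ b)
  have hC : UB (b : ℝ) C 1 1 :=
    UB.of_le (by linarith) (Nat.le_ceil C) (nat_ub (by omega))
  have hC' : UB (b : ℝ) C' 1 1 :=
    UB.of_le (by linarith) (Nat.le_ceil C') (nat_ub (by omega))
  have hpar := par hN hy hsz
  have hL0 : 0 ≤ (Lq b : ℝ) := by linarith [Lq_ge hN hy]
  have hP : (pl St b).OK := hpar.ok hy (F_out hLo) (F_mem hL0)
  have hLev := lev_ok hLo hL0
  have hμ : ∀ a : St.Site, |(mu St b a.1 : ℝ)| ≤ (b : ℝ) ^ (10063 : ℤ) := fun a => mu_le hK hy hc hd _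
  have hmu := (hOff _ _ (St.lay (Dh b)) (pl St b) _ _ hLo hP rfl hμ (hy.zp _).le).1
  obtain ⟨p1, p2, p3, p4, p5, p6⟩ := hPr (pl St b) hP hpar.fv1 _ (Lam b) _ hmu
    (by rw [Lam_eq hy]; exact (hy.zp _).le)
  obtain ⟨hinj, hpot⟩ := pot_ok hN hy hC hC' hpar p1 p2 p3 hLat
  have hcι : UB (b : ℝ) (Fintype.card St.Site) 1 1 := nat_ub (by simpa using hc)
  have hcρ : UB (b : ℝ) (Fintype.card St.Res) 1 1 := nat_ub (by simpa using hr)
  refine ⟨hy, hinj, ?_⟩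
  unfold PhiR at hpot
  rw [Lam_eq hy] at hpot
  have h1 := ob2 hL hFl hLk hHop hOff hTr hTQ (St.lay (Dh b)) (pl St b) _ _ _ hLo hP hLev _ _ C b _
    (Kr St b) hy hpar hC (exp_pos_L hN hy 4 le_rfl (by push_cast; ring))
    (exp_neg_L hN hy (-195) (by norm_num) (by push_cast; ring))
    (exp_neg_L hN hy (-9748) (by norm_num) (by push_cast; ring))
    (exp_neg_L hN hy (-191) (by norm_num) (by push_cast; ring))
    (exp_neg_L hN hy (-10050) (by norm_num) (by rw [pl_fv]; push_cast; ring)) hμ p4 p5 p6 hpot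
    (fun c => (hop_le _ _ _ _ (entry_le hN hy hLo) c).trans
      (mul_le_mul_of_nonneg_right (by bfin) (OB.n1_nonneg c)))
    ((kq_spec hK hy).2.2.2.2 hP)
  have h2 := h1.pert (A' := Ar St b) (E1' := E1 b) (e' := (b : ℝ) ^ (9986 : ℤ))
    (fun ψ hψ => by
      have := (hOff _ _ (St.lay (Dh b)) (pl St b) (fun _ => 0) 1 hLo hP rfl (by simp)
        zero_le_one).2 ψ hψ
      have := (abs_nonneg _).trans this
      linarith)
    (E1_close hN hy hpar)
    (fun c => (qf_diff _ _ _ (Amat_entry _ _ _ _ _ _ _ (entry_close hN hy hLo)) c).trans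
      (mul_le_mul_of_nonneg_right (by bfin) (OB.n1_nonneg c)))
    (by bfin1)
  convert h2 using 1
  ring

end Bld

end Crest.Agent.R338
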