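import Crest.Agent.R338.Red7

/-!
# Row 338: correctness of the reduction
-/

noncomputable section

open Function MeasureTheory
open Crest.MathPhysics.CoulombProblem Crest.MathPhysics.ElectronicCoulomb

namespace Crest.Agent.R338

theorem infGE_mono {n : ℕ} {W : Config n → ℝ} {a a' : ℝ} (h : InfEnergyGE W a) (h' : a' ≤ a) :
    InfEnergyGE W a' := fun Ψ h1 h2 => h'.trans (h Ψ h1 h2)

theorem infLE_mono {n : ℕ} {W : Config n → ℝ} {a a' : ℝ} (h : InfEnergyLE W a) (h' : a ≤ a') :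
    InfEnergyLE W a' := fun ε hε => by
  obtain ⟨Ψ, h1, h2, h3⟩ := h ε hε
  exact ⟨Ψ, h1, h2, h3.trans (by linarith)⟩

namespace Bld
variable {St : Star} {b : ℕ}

theorem kok (hK : KqStmt) (hD : DotStmt) (hy : Big (b : ℝ)) (hN1 : 1 ≤ St.N) :
    St.net.KOK (Kr St b) (KD b (0, -12)) (1 / ((Dh b : ℝ) - 2) * (b : ℝ) ^ (10000 : ℤ))
      (1 / (2 * ((16 * St.R + 4 : ℕ) : ℝ) + 2) * (b : ℝ) ^ (10000 : ℤ)) ((b : ℝ) ^ (10019 : ℤ)) := by
  obtain ⟨k1, k2, k3, k4, -⟩ := kq_spec (St := St) hK hy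
  obtain ⟨d1, d2, d3, -⟩ := hD St (Dh b) hN1 (Dh_ge hy)
  refine ⟨fun a a' => ?_, fun a a' => (k2 _).1, fun a a' => by simpa [Kr, Kk] using (k2 _).2,
    fun k => ?_, fun a a' h1 h2 h3 => ?_, fun α β h => ?_⟩
  · unfold Kr Kk; rw [← k1, neg_sub]
  · unfold Kr Kk; rw [d1]
  · exact k3 _ (Dh b) (le_trans (by norm_num) (Dh_ge hy)) (d2 a a' h1 h2 h3)
  · exact k4 _ _ (d3 α β h).1 (d3 α β h).2

theorem c0_ub (hK : KqStmt) (hy : Big (b : ℝ)) (hc : St.sites.card ≤ b)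
    (h : holeC (Ar St b) (Kr St b) = c0 St b)
    (hrow : ∀ a, ∑ a', |Ar St b a a'| ≤ (b : ℝ) ^ (10064 : ℤ)) :
    UB (b : ℝ) |(c0 St b : ℝ)| 3 10065 := by
  have hcι : UB (b : ℝ) (Fintype.card St.Site) 1 1 := nat_ub (by simpa using hc)
  have h1 : |∑ a, Ar St b a a| ≤ Fintype.card St.Site * (b : ℝ) ^ (10064 : ℤ) := by
    refine (Finset.abs_sum_le_sum_abs _ _).trans ?_
    rw [← nsmul_eq_mul, ← Finset.card_univ]
    refine Finset.sum_le_card_nsmul _ _ _ fun a _ => le_trans ?_ (hrow a)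
    exact Finset.single_le_sum (f := fun a' => |Ar St b a a'|) (fun _ _ => abs_nonneg _)
      (Finset.mem_univ a)
  have h2 : |∑ a, selfK (Kr St b) a| ≤ Fintype.card St.Site * (b : ℝ) ^ (10021 : ℤ) := by
    refine (Finset.abs_sum_le_sum_abs _ _).trans ?_
    rw [← nsmul_eq_mul, ← Finset.card_univ]
    refine Finset.sum_le_card_nsmul _ _ _ fun a _ => ?_
    have := sK_ub hK hy hc a.1
    rw [selfK_Kr, abs_of_nonneg this.1]; bfin
  refine UB.of_le (x' := 2 * (Fintype.card St.Site * (b : ℝ) ^ (10064 : ℤ)) +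
    Fintype.card St.Site * (b : ℝ) ^ (10021 : ℤ)) (abs_nonneg _) ?_ (by bub)
  rw [← h, holeC]
  refine (abs_add_le _ _).trans ?_
  rw [abs_mul, abs_two]
  linarith

end Bld

open Bld

theorem red (hL : LocStmt) (hFl : FluctStmt) (hLk : LeakStmt) (hHop : HopStmt) (hOff : OffStmt)
    (hTr : TrialStmt) (hTQ : TrialQStmt) (hK : KqStmt) (hN : NumStmt) (hPr : ProfStmt)
    (hGr : GradStmt) (hLat : LatStmt) (hLay : LayStmt) (hD : DotStmt) (hNet : NetStmt)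
    (hPH : PHStmt) (hNL : NetLowerStmt) (hNU : NetUpperStmt) (hML : MBLowerStmt)
    (hMU : MBUpperStmt) : RedStmt := by
  obtain ⟨b0, hb0⟩ := oneBody hL hFl hLk hHop hOff hTr hTQ hK hN hPr hLat
  refine ⟨b0 + 10 ^ 8, fun St b hb hsz hN1 hlo hhi hgap => ?_⟩
  have hy : Big (b : ℝ) := by
    unfold Big; exact_mod_cast (by omega : 10 ^ 8 ≤ b)
  have hb1 : 1 ≤ b := by omega
  have hLo := hLay St (Dh b) hN1 (Dh_ge hy)
  obtain ⟨-, -, -, d4, d5, d6, d7, d8⟩ := hD St (Dh b) hN1 (Dh_ge hy)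
  have z1 := size_pow hsz (k := 1) (by norm_num)
  have z5 := size_pow hsz (k := 5) (by norm_num)
  have z6 := size_pow hsz (k := 6) (by norm_num)
  rw [pow_one] at z1
  have z1' : 10 * (St.N + St.R + St.S + 10) ≤ b := z1
  have hc : St.sites.card ≤ b := by omega
  have hr : St.ress.card ≤ b := by omega
  have hd : ∀ a, St.dg a ≤ b := fun a => by have := d7 a; omega
  obtain ⟨-, hinj, hob⟩ := hb0 St b (by omega) hsz hLo hc hr hd
  rw [← nucV_RR hGr] at hob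
  have hkok := kok hK hD hy hN1
  obtain ⟨-, k2, k3, k4, -⟩ := kq_spec (St := St) hK hy
  have hp : UB (b : ℝ) (1 / (b : ℝ) ^ 4) 1 (-4) := by bub
  have hp0 : 0 < 1 / (b : ℝ) ^ 4 := by have := hy.pos; positivity
  obtain ⟨hnet, hH, hid⟩ := hNet St (Dh b) (1 / (b : ℝ) ^ 4) b hN1 hp0 (by bfin1)
    (by exact_mod_cast hsz)
  simp only [sw_om hb1 d4] at hnet
  have hB := holeB_eq hid
  have hCc := holeC_eq hid
  have hcι : UB (b : ℝ) (Fintype.card St.Site) 1 1 := nat_ub (by simpa using hc)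
  have hcρ : UB (b : ℝ) (Fintype.card St.Res) 1 1 := nat_ub (by simpa using hr)
  have hCq := Cq_ub hy
  have hCq' : LB (b : ℝ) (Cq b) 2 (-10057) := by
    have := (LB.zp hy 10057).div hy two_pos (UB.nat 2)
    rw [Cq_eq]; simpa using this
  have hrow : ∀ a, ∑ a', |Ar St b a a'| ≤ (b : ℝ) ^ (10064 : ℤ) := fun a => by
    have k := Amat_row (St.lay (Dh b)) (Cq b) ((b : ℝ) ^ (10061 : ℤ)) _ (fun a => om St b a.1)
      (fun a => mu St b a.1) (fun a a' => by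
        have h1 := om_ub (St := St) hy a.1
        have h2 := om_ub (St := St) hy a'.1
        have : UB (b : ℝ) ((Cq b : ℝ) * om St b a.1 * om St b a'.1) 1 10061 := by bub
        rw [abs_of_nonneg this.1]; simpa using this.2) (fun a => mu_le hK hy hc hd a.1) a
    unfold Ar
    exact k.trans (by bfin)
  have hc0 := c0_ub hK hy hc hCc hrow
  have hn : UB (b : ℝ) (nel St) 1 1 := nat_ub (by unfold nel; omega)
  have hk : UB (b : ℝ) ((St.N : ℝ) + 1) 1 1 := by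
    have := nat_ub (b := b) (n := St.N + 1) (by omega)
    simpa using this
  have hcard : nel St + (St.N + 1) = 2 * Fintype.card St.Site := by
    simp only [Fintype.card_coe, nel]; omega
  set K0 : ℝ := ((KD b (0, -12) : ℚ) : ℝ) with hK0
  have hK0u : K0 ≤ 1 / 10 * (b : ℝ) ^ (10000 : ℤ) := by
    have := k3 (0, -12) 12 (by norm_num) (by simp)
    norm_num at this ⊢; exact this
  have hK0l : 1 / 26 * (b : ℝ) ^ (10000 : ℤ) ≤ K0 := by
    have := k4 (0, -12) 12 (by simp) (by simp)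
    norm_num at this ⊢; exact this
  have hK0' : UB (b : ℝ) K0 1 10000 := UB.of_le (k2 _).1 hK0u (by bub)
  have hgc : (gc b : ℝ) = (1 / (b : ℝ) ^ 4) ^ 2 * K0 := by
    rw [gc, hK0]; push_cast; ring
  have hgap' : (1 : ℝ) ≤ b * (St.hi - St.lo) := by exact_mod_cast hgap
  have hlo' : (0 : ℝ) ≤ St.lo := by exact_mod_cast hlo
  have hhi' : (St.hi : ℝ) ≤ 2 := by exact_mod_cast hhi
  have hlh : (St.lo : ℝ) ≤ St.hi := by
    by_contra hcon
    nlinarith [hy.pos]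
  have hlo2 : UB (b : ℝ) (St.lo : ℝ) 2 0 := ⟨hlo', by norm_num; linarith⟩
  have hhi2 : UB (b : ℝ) (St.hi : ℝ) 2 0 := ⟨by linarith, by norm_num; linarith⟩
  have hkp : 2 * ((St.N : ℝ) + 1) * (1 / (b : ℝ) ^ 4) * b ≤ 1 := by bfin1
  have hk10 : 10 * ((St.N : ℝ) + 1) ≤ b := by exact_mod_cast (by omega : 10 * (St.N + 1) ≤ b)
  have e9 : (1 / (b : ℝ) ^ 4) ^ 3 * (b : ℝ) ^ (10000 : ℤ) * b * b = (b : ℝ) ^ (9990 : ℤ) := by
    have := hy.pos.ne'
    rw [show (10000 : ℤ) = 9990 + 10 by norm_num, zpow_add₀ this, zpow_ofNat _ 10]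
    field_simp
  have hmain : ∀ t : ℝ, 0 ≤ t → t ≤ 2 → (1 / (b : ℝ) ^ 4) ^ 2 * K0 * t *
      (2 * ((St.N : ℝ) + 1) * (1 / (b : ℝ) ^ 4) * b) ≤ (b : ℝ) ^ (9990 : ℤ) / 2 := by
    intro t h0 h2
    have := hK0'.1
    have := hy.pos
    have := hy.zp 10000
    calc _ ≤ (1 / (b : ℝ) ^ 4) ^ 2 * (1 / 10 * (b : ℝ) ^ (10000 : ℤ)) * 2 *
          (2 * b * (1 / (b : ℝ) ^ 4) * b) := by gcongr; linarith
      _ = 2 / 5 * ((1 / (b : ℝ) ^ 4) ^ 3 * (b : ℝ) ^ (10000 : ℤ) * b * b) := by ring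
      _ ≤ _ := by rw [e9]; linarith [hy.zp 9990]
  have hhalf : LB (b : ℝ) ((b : ℝ) ^ (9990 : ℤ) / 2) 2 (-9990) := by
    simpa using (LB.zp hy 9990).div hy two_pos (UB.nat 2)
  have hsym := fun a a' => Amat_symm (St.lay (Dh b)) (Cq b) (fun a => om St b a.1)
    (fun a => mu St b a.1) a a'
  refine ⟨⟨nuclei_ne_nil hb1, nuclei_nodup hGr hinj, by change 0 < nel St; unfold nel; omega, ?_⟩,
    fun hyes => ?_, fun hno => ?_⟩
  · change lower St b + 1 ≤ upper St b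
    have h1 : LB (b : ℝ) ((gc b : ℝ) * (St.hi - St.lo)) 26 (-9991) := by
      have a1 : LB (b : ℝ) (1 / 26) 26 0 := ⟨by norm_num, by norm_num⟩
      have a2 : LB (b : ℝ) K0 (26 * 1) (0 + -10000) := LB.of_le hK0l (by bnd)
      have a3 : LB (b : ℝ) (1 / (b : ℝ) ^ 4) (1 * 1 ^ 4) (0 + 1 * (4 : ℕ)) :=
        LB.div hy LB.one (pow_pos hy.pos 4) (by bnd)
      have a4 : LB (b : ℝ) (1 / (b : ℝ)) (1 * 1) (0 + 1) := LB.div hy LB.one hy.pos (by bnd)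
      have a5 : LB (b : ℝ) ((St.hi : ℝ) - St.lo) (1 * 1) (0 + 1) :=
        LB.of_le (by rw [div_le_iff₀ hy.pos]; linarith) a4
      have := ((a3.pow 2).mul hy a2).mul hy a5
      rw [hgc]
      norm_num at this ⊢
      exact this
    have h2 : 2 * (b : ℝ) ^ (9990 : ℤ) + 1 ≤ (gc b : ℝ) * (St.hi - St.lo) := by ble
    have : ((lower St b + 1 : ℚ) : ℝ) ≤ (upper St b : ℝ) := by
      unfold lower upper; push_cast; rw [eps_eq hy]; linarith
    exact_mod_cast this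
  · have hkf : UB (b : ℝ) (1 / ((Dh b : ℝ) - 2) * (b : ℝ) ^ (10000 : ℤ)) 2 9987 := by
      have a1 : LB (b : ℝ) ((b : ℝ) ^ 13 / 2) (1 ^ 13 * 2) (-1 * (13 : ℕ) + 0) :=
        LB.div hy (by bnd) two_pos (UB.nat 2)
      have a2 : (20 : ℝ) ≤ Dh b := by exact_mod_cast Dh_ge hy
      have a3 : (Dh b : ℝ) = (b : ℝ) ^ 13 := by simp [Dh]
      have a4 := LB.of_le (x := (Dh b : ℝ) - 2) (by linarith) a1
      bub
    have h1 := hNU _ _ _ _ St.net _ _ _ _ _ _ _ _ (Cq b) St.lo hnet hkok hp0 (by bfin1) hy.one_le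
      hK0'.1 hkf.1 hlo' hkp (by simp only [hH]; exact hyes)
    rw [← hB] at h1
    have h2 := (hPH _ _ _ _ _ _ hcard hkok.symm).2 h1
    have h3 := hMU _ _ _ _ _ _ _ _ _ _ _ _ _ _ _ hob (by have := hy.zp 9986; positivity)
      (hy.zp _).le (hy.zp _).le (hy.zp _).le hsym hrow (by bfin1) h2
    rw [potential_eq]
    refine infLE_mono h3 ?_
    rw [hCc]
    set lam := (1 / (b : ℝ) ^ 4) ^ 2 * K0 * St.lo *
      (1 + 2 * ((St.N : ℝ) + 1) * (1 / (b : ℝ) ^ 4) * b) +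
      ((St.N : ℝ) + 1) ^ 2 * (1 / ((Dh b : ℝ) - 2) * (b : ℝ) ^ (10000 : ℤ)) with hlam
    have a1 : UB (b : ℝ) lam 1 10000 := by rw [hlam]; bub1
    have a2 : UB (b : ℝ) |(c0 St b : ℝ) + lam| 4 10065 :=
      UB.of_le (x' := |(c0 St b : ℝ)| + lam) (abs_nonneg _)
        ((abs_add_le _ _).trans (by rw [abs_of_nonneg a1.1])) (by bub)
    have a3 : UB (b : ℝ) (√(2 * (nel St : ℝ) * (b : ℝ) ^ (-160 : ℤ))) 1 (-79) := by
      refine ⟨Real.sqrt_nonneg _, ?_⟩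
      rw [Nat.cast_one, one_mul, Real.sqrt_le_left (hy.zp _).le, ← zpow_natCast, ← zpow_mul]
      bfin
    have a4 : ((St.N : ℝ) + 1) ^ 2 * (1 / ((Dh b : ℝ) - 2) * (b : ℝ) ^ (10000 : ℤ)) +
        ((nel St : ℝ) + 2 * (nel St : ℝ) ^ 2) * (4 * (b : ℝ) ^ (9986 : ℤ)) +
        (2 * ((nel St : ℝ) * (b : ℝ) ^ (10064 : ℤ) + (nel St : ℝ) ^ 2 * (b : ℝ) ^ (10019 : ℤ)) +
          |(c0 St b : ℝ) + lam|) * √(2 * (nel St : ℝ) * (b : ℝ) ^ (-160 : ℤ)) ≤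
        (b : ℝ) ^ (9990 : ℤ) / 2 := by ble
    have a5 := hmain St.lo hlo' (by linarith)
    unfold lower; push_cast; rw [eps_eq hy, hgc]
    linarith
  · have hrep : LB (b : ℝ) (1 / (2 * ((16 * St.R + 4 : ℕ) : ℝ) + 2) * (b : ℝ) ^ (10000 : ℤ))
        (1 * 42 * 1) (0 + 1 + -10000) := by
      have a1 := nat_ub (b := b) (n := St.R) (by omega)
      have a2 : UB (b : ℝ) (2 * (16 * (St.R : ℝ) + 4) + 2) 42 1 := by bub
      exact LB.mul hy (LB.div hy LB.one (by positivity) (by push_cast; exact a2)) (LB.zp hy _)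
    have h1 := hNL _ _ _ _ St.net _ _ _ _ _ _ _ _ (Cq b) St.hi hnet hkok hp0 (by bfin1) hy.one_le
      hCq'.1 hK0'.1 hhi2.1 hkp (by ble) (by bfin) (by simp only [hH]; exact hno)
    rw [← hB] at h1
    have h2 := (hPH _ _ _ _ _ _ hcard hkok.symm).1 h1
    have b1 : UB (b : ℝ) (25 * ((St.N : ℝ) + 1) ^ 5 * ((b : ℝ) ^ (10019 : ℤ)) ^ 2 * b / (Cq b : ℝ))
      50 9987 := by bub
    have hG2 : LB (b : ℝ) ((b : ℝ) ^ (10143 : ℤ) / 2) 2 (-10143) := by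
      simpa using (LB.zp hy 10143).div hy two_pos (UB.nat 2)
    have h3 := hML _ _ _ _ _ _ _ _ _ _ _ _ _ _ _ hob (by have := hy.zp 9986; positivity)
      (hy.zp _) (hy.zp _).le (hy.zp _).le hsym hrow (by
        have a1 : |(c0 St b : ℝ)| + (1 / (b : ℝ) ^ 4) ^ 2 * K0 * St.hi ≤
          (b : ℝ) ^ (10143 : ℤ) / 2 := by ble
        have a2 : UB (b : ℝ) ((1 / (b : ℝ) ^ 4) ^ 2 * K0 * St.hi *
          (2 * ((St.N : ℝ) + 1) * (1 / (b : ℝ) ^ 4) * b)) 4 9990 := by bub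
        rw [hCc]
        linarith [le_abs_self (c0 St b : ℝ), b1.1, a2.1]) h2
    rw [potential_eq]
    refine infGE_mono h3 ?_
    rw [hCc]
    have a4 : 25 * ((St.N : ℝ) + 1) ^ 5 * ((b : ℝ) ^ (10019 : ℤ)) ^ 2 * b / (Cq b : ℝ) +
        ((nel St : ℝ) + (nel St : ℝ) ^ 2) * (4 * (b : ℝ) ^ (9986 : ℤ)) +
        2 * ((nel St : ℝ) * (b : ℝ) ^ (10064 : ℤ) + (nel St : ℝ) ^ 2 * (b : ℝ) ^ (10019 : ℤ)) ^ 2 /
          (b : ℝ) ^ (10143 : ℤ) ≤ (b : ℝ) ^ (9990 : ℤ) / 2 := by ble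
    have a5 := hmain St.hi hhi2.1 hhi'
    unfold upper; push_cast; rw [eps_eq hy, hgc]
    linarith

end Crest.Agent.R338
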