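import Crest.Agent.R338.ShapeAux

/-!
# Row 338: the planar shape functions (`ShapeStmt`)
-/

set_option linter.unusedSectionVars false

noncomputable section

open MeasureTheory Function

namespace Crest.Agent.R338

namespace Shape

variable {ι ρ : Type} [Fintype ι] [DecidableEq ι] [Fintype ρ] {L : Lay ι ρ} {P : Pl}

theorem touch_bd (hL : L.OK) {a : ι} {v : ℤ × ℤ} (h : L.touch a v) :
    1 ≤ v.1 ∧ v.1 + 1 ≤ L.G ∧ 1 ≤ v.2 ∧ v.2 + 1 ≤ L.G := by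
  obtain ⟨c, hc, h1, h2⟩ := h
  have := hL.bd a c hc
  omega

theorem touch_uniq (hL : L.OK) {a b : ι} {v : ℤ × ℤ} (ha : L.touch a v) (hb : L.touch b v) :
    a = b := by
  obtain ⟨c, hc, h1, h2⟩ := ha
  obtain ⟨c', hc', h1', h2'⟩ := hb
  exact hL.sep a b c c' hc hc' (abs_le.2 (by omega)) (abs_le.2 (by omega))

theorem touch_inG (hL : L.OK) (hG : P.G = L.G) (a : ι) (v : ℤ × ℤ) (h : L.touch a v) :
    inG P.G v := by
  have := touch_bd hL h
  rw [hG, inG]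
  omega

theorem ind_nonneg (p : Prop) : 0 ≤ ind p := by
  unfold ind
  split_ifs <;> norm_num

theorem ind_touch (hL : L.OK) {b : ι} {v : ℤ × ℤ} (hb : L.touch b v) (a : ι) :
    ind (L.touch a v) = if a = b then 1 else 0 := by
  unfold ind
  split_ifs with h1 h2 h2
  · rfl
  · exact absurd (touch_uniq hL h1 hb) h2
  · exact absurd (h2 ▸ hb) h1
  · rfl

theorem sum_ind_le (hL : L.OK) (v : ℤ × ℤ) : ∑ a, ind (L.touch a v) ≤ 1 := by
  by_cases h : ∃ b, L.touch b v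
  · obtain ⟨b, hb⟩ := h
    simp [ind_touch hL hb]
  · rw [Finset.sum_eq_zero fun a _ => by rw [ind, if_neg fun h' => h ⟨a, h'⟩]]
    norm_num

/-- the value at a vertex -/
def val (L : Lay ι ρ) (u : ι → ℂ) (v : ℤ × ℤ) : ℂ := ∑ a, u a * (ind (L.touch a v) : ℝ)

theorem val_eq (hL : L.OK) (u : ι → ℂ) {b : ι} {c v : ℤ × ℤ} (hc : L.cel b c)
    (h1 : c.1 = v.1 ∨ c.1 + 1 = v.1) (h2 : c.2 = v.2 ∨ c.2 + 1 = v.2) : val L u v = u b := by
  simp [val, ind_touch hL ⟨c, hc, h1, h2⟩, apply_ite]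

theorem val4 (hL : L.OK) (u : ι → ℂ) {b : ι} {p q : ℤ} (hc : L.cel b (p, q)) :
    val L u (p, q) = u b ∧ val L u (p + 1, q) = u b ∧ val L u (p, q + 1) = u b ∧
      val L u (p + 1, q + 1) = u b :=
  ⟨val_eq hL u hc (.inl rfl) (.inl rfl), val_eq hL u hc (.inr rfl) (.inl rfl),
    val_eq hL u hc (.inl rfl) (.inr rfl), val_eq hL u hc (.inr rfl) (.inr rfl)⟩

theorem norm_val (hL : L.OK) {u : ι → ℂ} {M : ℝ} (hM : ∀ a, ‖u a‖ ≤ M) (v : ℤ × ℤ) :
    ‖val L u v‖ ≤ M := by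
  by_cases h : ∃ b, L.touch b v
  · obtain ⟨b, c, hc, h1, h2⟩ := h
    rw [val_eq hL u hc h1 h2]
    exact hM b
  · obtain ⟨a⟩ := hL.ne
    rw [val, Finset.sum_eq_zero fun a _ => by
      rw [ind, if_neg fun h' => h ⟨a, h'⟩, Complex.ofReal_zero, mul_zero], norm_zero]
    exact (norm_nonneg _).trans (hM a)

open Classical in
omit [Fintype ι] [DecidableEq ι] [Fintype ρ] in
theorem pd_U (L : Lay ι ρ) (P : Pl) (a : ι) (j : Fin 3) (x : E3) :
    pd j (L.U P a) x = ∑ m ∈ Finset.range P.G, ∑ n ∈ Finset.range P.G,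
      if L.touch a ((m : ℤ), (n : ℤ)) then
        hat P.th (x 0 / P.l - m) * (hat1 P.th (x 1 / P.l - n) / P.l * if 1 = j then 1 else 0) +
        hat P.th (x 1 / P.l - n) * (hat1 P.th (x 0 / P.l - m) / P.l * if 0 = j then 1 else 0)
      else 0 := by
  have h : HasFDerivAt (L.U P a) (∑ m ∈ Finset.range P.G, ∑ n ∈ Finset.range P.G,
      if L.touch a ((m : ℤ), (n : ℤ)) then
        hat P.th (x 0 / P.l - m) • ((hat1 P.th (x 1 / P.l - n) / P.l) •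
          (EuclideanSpace.proj 1 : E3 →L[ℝ] ℝ)) +
        hat P.th (x 1 / P.l - n) • ((hat1 P.th (x 0 / P.l - m) / P.l) •
          (EuclideanSpace.proj 0 : E3 →L[ℝ] ℝ))
      else 0) x := by
    refine HasFDerivAt.fun_sum fun m _ => HasFDerivAt.fun_sum fun n _ => ?_
    split_ifs
    · exact (hasFDerivAt_coord _ _ _ 0 x).mul (hasFDerivAt_coord _ _ _ 1 x)
    · exact hasFDerivAt_const _ _
  rw [pd, h.fderiv]
  simp only [sum_apply]
  refine Finset.sum_congr rfl fun m _ => Finset.sum_congr rfl fun n _ => ?_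
  by_cases ht : L.touch a ((m : ℤ), (n : ℤ))
  · simp only [if_pos ht]
    simp
  · simp [if_neg ht]

omit [Fintype ι] [DecidableEq ι] [Fintype ρ] in
theorem contDiff_U (L : Lay ι ρ) (P : Pl) (a : ι) : ContDiff ℝ 1 (L.U P a) := by
  have h : ∀ (c : Fin 3) (m : ℝ), ContDiff ℝ 1 fun y : E3 => hat P.th (y c / P.l - m) :=
    fun c m => (contDiff_hat P.th).comp
      (((EuclideanSpace.proj c : E3 →L[ℝ] ℝ).contDiff.div_const P.l).sub contDiff_const)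
  refine ContDiff.sum fun m _ => ContDiff.sum fun n _ => ?_
  split_ifs
  · exact (h 0 _).mul (h 1 _)
  · exact contDiff_const

section loc
variable (hL : L.OK) (hP : P.OK) (hG : P.G = L.G) {x : E3} {i k : ℤ}
  (hi : (i : ℝ) ≤ x 0 / P.l) (hi' : x 0 / P.l ≤ i + 1)
  (hk : (k : ℝ) ≤ x 1 / P.l) (hk' : x 1 / P.l ≤ k + 1)
include hL hP hG hi hi' hk hk'

theorem U_loc (a : ι) : L.U P a x =
    ind (L.touch a (i, k)) * ((1 - R P.th (x 0 / P.l - i)) * (1 - R P.th (x 1 / P.l - k))) +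
    ind (L.touch a (i, k + 1)) * ((1 - R P.th (x 0 / P.l - i)) * R P.th (x 1 / P.l - k)) +
    (ind (L.touch a (i + 1, k)) * (R P.th (x 0 / P.l - i) * (1 - R P.th (x 1 / P.l - k))) +
    ind (L.touch a (i + 1, k + 1)) * (R P.th (x 0 / P.l - i) * R P.th (x 1 / P.l - k))) := by
  obtain ⟨a1, a2, a3⟩ := hat_loc hP.th_pos hP.th_le hi hi'
  obtain ⟨b1, b2, b3⟩ := hat_loc hP.th_pos hP.th_le hk hk'
  have := sum_four P.G (L.touch a) (touch_inG hL hG a) (fun m => hat P.th (x 0 / P.l - m))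
    (fun n => hat P.th (x 1 / P.l - n)) i k a3 b3
  simp only [a1, a2, b1, b2, Int.cast_natCast] at this
  exact this

theorem pd0_loc (u : ι → ℂ) : ∑ a, u a * ((pd 0 (L.U P a) x : ℝ) : ℂ) =
    ((R1 P.th (x 0 / P.l - i) / P.l : ℝ) : ℂ) *
      ((val L u (i + 1, k) - val L u (i, k)) * (1 - (R P.th (x 1 / P.l - k) : ℝ)) +
        (val L u (i + 1, k + 1) - val L u (i, k + 1)) * (R P.th (x 1 / P.l - k) : ℝ)) := by
  obtain ⟨a1, a2, a3⟩ := hat1_loc hP.th_pos hP.th_le hi hi'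
  obtain ⟨b1, b2, b3⟩ := hat_loc hP.th_pos hP.th_le hk hk'
  simp only [val, ← Finset.sum_sub_distrib, Finset.sum_mul, ← Finset.sum_add_distrib,
    Finset.mul_sum]
  refine Finset.sum_congr rfl fun a _ => ?_
  have := sum_four P.G (L.touch a) (touch_inG hL hG a) (fun m => hat1 P.th (x 0 / P.l - m) / P.l)
    (fun n => hat P.th (x 1 / P.l - n)) i k (fun m h h' => by rw [a3 m h h', zero_div]) b3
  simp only [a1, a2, b1, b2, Int.cast_natCast] at this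
  rw [pd_U]
  simp only [one_ne_zero, if_false, if_true, mul_zero, zero_add, mul_one,
    mul_comm (hat P.th (x 1 / P.l - _))]
  rw [this]
  push_cast
  ring

theorem pd1_loc (u : ι → ℂ) : ∑ a, u a * ((pd 1 (L.U P a) x : ℝ) : ℂ) =
    ((R1 P.th (x 1 / P.l - k) / P.l : ℝ) : ℂ) *
      ((val L u (i, k + 1) - val L u (i, k)) * (1 - (R P.th (x 0 / P.l - i) : ℝ)) +
        (val L u (i + 1, k + 1) - val L u (i + 1, k)) * (R P.th (x 0 / P.l - i) : ℝ)) := by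
  obtain ⟨a1, a2, a3⟩ := hat_loc hP.th_pos hP.th_le hi hi'
  obtain ⟨b1, b2, b3⟩ := hat1_loc hP.th_pos hP.th_le hk hk'
  simp only [val, ← Finset.sum_sub_distrib, Finset.sum_mul, ← Finset.sum_add_distrib,
    Finset.mul_sum]
  refine Finset.sum_congr rfl fun a _ => ?_
  have := sum_four P.G (L.touch a) (touch_inG hL hG a) (fun m => hat P.th (x 0 / P.l - m))
    (fun n => hat1 P.th (x 1 / P.l - n) / P.l) i k a3 (fun m h h' => by rw [b3 m h h', zero_div])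
  simp only [a1, a2, b1, b2, Int.cast_natCast] at this
  rw [pd_U]
  simp only [zero_ne_one, if_false, if_true, mul_zero, add_zero, mul_one]
  rw [this]
  push_cast
  ring

end loc

theorem fin1 {θ l c E : ℝ} (hl : 0 < l) (hc : 0 ≤ c ∧ c * (1 - θ) ^ 2 ≤ 1) (hE : 0 ≤ E) (D : ℂ) :
    E * ‖((c / l : ℝ) : ℂ) * D‖ ^ 2 * ((1 - θ) ^ 4 * l ^ 2) ≤ E * ‖D‖ ^ 2 := by
  have h1 : (c * (1 - θ) ^ 2) ^ 2 ≤ 1 :=
    pow_le_one₀ (mul_nonneg hc.1 (sq_nonneg _)) hc.2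
  have e : E * ‖((c / l : ℝ) : ℂ) * D‖ ^ 2 * ((1 - θ) ^ 4 * l ^ 2) =
      (c * (1 - θ) ^ 2) ^ 2 * (E * ‖D‖ ^ 2) := by
    rw [norm_mul, Complex.norm_real, mul_pow, Real.norm_eq_abs, sq_abs]
    field_simp
  rw [e]
  exact mul_le_of_le_one_left (by positivity) h1

theorem fin2 {ρ : Type} (s : Finset ρ) (box : ρ → Set E3) (dd : ρ → ℝ) (hdd : ∀ r, 0 ≤ dd r)
    {A B X : ℝ} (hA : 0 ≤ A) (hB : 0 ≤ B) (x : E3)
    (h : X ≤ A ∨ ∃ r ∈ s, x ∈ box r ∧ X ≤ B * dd r) :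
    X ≤ A + B * ∑ r ∈ s, (box r).indicator (fun _ => dd r) x := by
  have h0 : ∀ r ∈ s, 0 ≤ (box r).indicator (fun _ => dd r) x := fun r _ =>
    Set.indicator_nonneg (fun _ _ => hdd r) x
  rcases h with h | ⟨r, hr, hx, h⟩
  · exact h.trans (le_add_of_nonneg_right (mul_nonneg hB (Finset.sum_nonneg h0)))
  · have := Finset.single_le_sum h0 hr
    rw [Set.indicator_of_mem hx] at this
    exact h.trans ((mul_le_mul_of_nonneg_left this hB).trans (le_add_of_nonneg_left hA))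

theorem S_mem (hS : LocStmt) (t : ℝ) : 0 ≤ S0 t ∧ S0 t ≤ 1 :=
  ⟨(hS.S_zero _ (min_le_right t 0)).symm.trans_le (hS.S_mono (min_le_left t 0)),
    (hS.S_mono (le_max_left t 1)).trans_eq (hS.S_one _ (le_max_right t 1))⟩

section grad
variable (hS : LocStmt) {fl fb fr : ℝ} (hL : L.OK) (hP : P.OK) (hV : L.Lev P fl fb fr)
  {u : ι → ℂ} {M : ℝ} (hM : ∀ a, ‖u a‖ ≤ M) (x : E3)
include hS hL hP hV hM

theorem grad0 : Real.exp (-(2 * P.fl x)) * ‖∑ a, u a * ((pd 0 (L.U P a) x : ℝ) : ℂ)‖ ^ 2 *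
      ((1 - P.th) ^ 4 * P.l ^ 2) ≤ 4 * Real.exp (-(2 * P.fv)) * M ^ 2 ∨
    ∃ r, L.ver r = false ∧ (((L.pos r).1 + P.th) * P.l ≤ x 0 ∧ x 0 ≤ ((L.pos r).1 + 1) * P.l ∧
      (L.pos r).2 * P.l ≤ x 1 ∧ x 1 ≤ ((L.pos r).2 + 1 + P.th) * P.l) ∧
      Real.exp (-(2 * P.fl x)) * ‖∑ a, u a * ((pd 0 (L.U P a) x : ℝ) : ℂ)‖ ^ 2 *
        ((1 - P.th) ^ 4 * P.l ^ 2) ≤ Real.exp (-(2 * fr)) * ‖u (L.src r) - u (L.tgt r)‖ ^ 2 := by
  obtain ⟨i, hi, hi'⟩ : ∃ i : ℤ, (i : ℝ) ≤ x 0 / P.l ∧ x 0 / P.l ≤ i + 1 :=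
    ⟨_, Int.floor_le _, (Int.lt_floor_add_one _).le⟩
  obtain ⟨k, hk, hk'⟩ : ∃ i : ℤ, (i : ℝ) ≤ x 1 / P.l ∧ x 1 / P.l ≤ i + 1 :=
    ⟨_, Int.floor_le _, (Int.lt_floor_add_one _).le⟩
  have h0 := hP.th_pos
  have h1 := hP.th_le
  have hl := hP.l_pos
  rw [pd0_loc hL hP hV.G_eq hi hi' hk hk']
  by_cases hz : x 0 / P.l - i ≤ P.th
  · left
    rw [R1_zero h0 h1 (Or.inl hz)]
    simp only [zero_div, Complex.ofReal_zero, zero_mul, norm_zero, ne_eq, OfNat.ofNat_ne_zero,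
      not_false_eq_true, zero_pow, mul_zero]
    positivity
  have hf := hS.fl_loc P hP (i, k) x ((le_div_iff₀ hl).1 (by dsimp only; linarith))
    ((div_le_iff₀ hl).1 hi') ((le_div_iff₀ hl).1 (by dsimp only; linarith))
    ((div_le_iff₀ hl).1 hk')
  dsimp only at hf
  rw [hS.S_one ((x 0 / P.l - i) / P.th) ((one_le_div h0).2 (not_le.1 hz).le)] at hf
  have hc := core (fun p q => ∃ a, L.cel a (p, q)) (fun r p q => L.pos r = (p, q))
    (fun r => L.ver r = false) (fun p q => P.F (p, q)) (fun p q => val L u (p, q))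
    (fun r => ‖u (L.src r) - u (L.tgt r)‖ ^ 2) M fr P.fv (fun p q => norm_val hL hM _)
    (fun p q ⟨a, ha⟩ => by
      obtain ⟨e1, e2, e3, e4⟩ := val4 hL u ha
      exact ⟨e2.trans e1.symm, e4.trans e3.symm⟩)
    (fun r p q h hp => by
      have := hL.ends r
      rw [h, Bool.eq_true_of_not_eq_false hp] at this
      simp only [un, if_true, Prod.mk_sub_mk, Prod.mk_add_mk, sub_zero, add_zero] at this
      rcases this with h | h <;> exact ⟨⟨_, h.1⟩, ⟨_, h.2⟩⟩)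
    (fun r p q h hp => by
      have := hL.ends r
      rw [h, hp] at this
      simp only [un, Bool.false_eq_true, if_false, Prod.mk_sub_mk, Prod.mk_add_mk, sub_zero,
        add_zero] at this
      rcases this with h | h
      all_goals
        obtain ⟨-, e1, -, e2⟩ := val4 hL u h.1
        obtain ⟨e3, -, e4, -⟩ := val4 hL u h.2
        rw [sub_add_cancel] at e1 e2
        rw [e1, e2, e3, e4]
      · exact ⟨_, by rw [norm_sub_rev], rfl, rfl⟩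
      · exact ⟨_, rfl, rfl, rfl⟩)
    (fun r p q h => h ▸ hV.res r) (fun p q h h' => hV.void _ (fun a ha => h ⟨a, ha⟩) h')
    hV.ord.2.2.2 i k (R P.th (x 1 / P.l - k)) (S0 ((x 1 / P.l - k) / P.th)) (P.fl x)
    (x 1 / P.l - k ≤ P.th) (R_mem h0 h1 _) (S_mem hS _) (R_zero h0 h1)
    (fun h => hS.S_one _ ((one_le_div h0).2 (not_le.1 h).le)) (by rw [hf, bil]; ring) _ rfl
  have hb := fun D => fin1 hl (R1_mem h0 h1 (x 0 / P.l - i)) (Real.exp_pos (-(2 * P.fl x))).le D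
  rcases hc with hc | ⟨r, hp, hr, hc⟩
  · exact Or.inl ((hb _).trans hc)
  refine Or.inr ⟨r, hp, ?_, (hb _).trans hc⟩
  simp only [← le_div_iff₀ hl, ← div_le_iff₀ hl]
  rcases hr with hr | ⟨hr, hlow⟩ <;> rw [hr] <;> push_cast <;>
    refine ⟨?_, ?_, ?_, ?_⟩ <;> linarith

theorem grad1 : Real.exp (-(2 * P.fl x)) * ‖∑ a, u a * ((pd 1 (L.U P a) x : ℝ) : ℂ)‖ ^ 2 *
      ((1 - P.th) ^ 4 * P.l ^ 2) ≤ 4 * Real.exp (-(2 * P.fv)) * M ^ 2 ∨
    ∃ r, L.ver r = true ∧ ((L.pos r).1 * P.l ≤ x 0 ∧ x 0 ≤ ((L.pos r).1 + 1 + P.th) * P.l ∧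
      ((L.pos r).2 + P.th) * P.l ≤ x 1 ∧ x 1 ≤ ((L.pos r).2 + 1) * P.l) ∧
      Real.exp (-(2 * P.fl x)) * ‖∑ a, u a * ((pd 1 (L.U P a) x : ℝ) : ℂ)‖ ^ 2 *
        ((1 - P.th) ^ 4 * P.l ^ 2) ≤ Real.exp (-(2 * fr)) * ‖u (L.src r) - u (L.tgt r)‖ ^ 2 := by
  obtain ⟨i, hi, hi'⟩ : ∃ i : ℤ, (i : ℝ) ≤ x 0 / P.l ∧ x 0 / P.l ≤ i + 1 :=
    ⟨_, Int.floor_le _, (Int.lt_floor_add_one _).le⟩
  obtain ⟨k, hk, hk'⟩ : ∃ i : ℤ, (i : ℝ) ≤ x 1 / P.l ∧ x 1 / P.l ≤ i + 1 :=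
    ⟨_, Int.floor_le _, (Int.lt_floor_add_one _).le⟩
  have h0 := hP.th_pos
  have h1 := hP.th_le
  have hl := hP.l_pos
  rw [pd1_loc hL hP hV.G_eq hi hi' hk hk']
  by_cases hz : x 1 / P.l - k ≤ P.th
  · left
    rw [R1_zero h0 h1 (Or.inl hz)]
    simp only [zero_div, Complex.ofReal_zero, zero_mul, norm_zero, ne_eq, OfNat.ofNat_ne_zero,
      not_false_eq_true, zero_pow, mul_zero]
    positivity
  have hf := hS.fl_loc P hP (i, k) x ((le_div_iff₀ hl).1 (by dsimp only; linarith))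
    ((div_le_iff₀ hl).1 hi') ((le_div_iff₀ hl).1 (by dsimp only; linarith))
    ((div_le_iff₀ hl).1 hk')
  dsimp only at hf
  rw [hS.S_one ((x 1 / P.l - k) / P.th) ((one_le_div h0).2 (not_le.1 hz).le)] at hf
  have hc := core (fun p q => ∃ a, L.cel a (q, p)) (fun r p q => L.pos r = (q, p))
    (fun r => L.ver r = true) (fun p q => P.F (q, p)) (fun p q => val L u (q, p))
    (fun r => ‖u (L.src r) - u (L.tgt r)‖ ^ 2) M fr P.fv (fun p q => norm_val hL hM _)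
    (fun p q ⟨a, ha⟩ => by
      obtain ⟨e1, e2, e3, e4⟩ := val4 hL u ha
      exact ⟨e3.trans e1.symm, e4.trans e2.symm⟩)
    (fun r p q h hp => by
      have := hL.ends r
      rw [h, Bool.eq_false_of_not_eq_true hp] at this
      simp only [un, Bool.false_eq_true, if_false, Prod.mk_sub_mk, Prod.mk_add_mk, sub_zero,
        add_zero] at this
      rcases this with h | h <;> exact ⟨⟨_, h.1⟩, ⟨_, h.2⟩⟩)
    (fun r p q h hp => by
      have := hL.ends r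
      rw [h, hp] at this
      simp only [un, if_true, Prod.mk_sub_mk, Prod.mk_add_mk, sub_zero, add_zero] at this
      rcases this with h | h
      all_goals
        obtain ⟨-, -, e1, e2⟩ := val4 hL u h.1
        obtain ⟨e3, e4, -, -⟩ := val4 hL u h.2
        rw [sub_add_cancel] at e1 e2
        rw [e1, e2, e3, e4]
      · exact ⟨_, by rw [norm_sub_rev], rfl, rfl⟩
      · exact ⟨_, rfl, rfl, rfl⟩)
    (fun r p q h => h ▸ hV.res r) (fun p q h h' => hV.void _ (fun a ha => h ⟨a, ha⟩) h')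
    hV.ord.2.2.2 k i (R P.th (x 0 / P.l - i)) (S0 ((x 0 / P.l - i) / P.th)) (P.fl x)
    (x 0 / P.l - i ≤ P.th) (R_mem h0 h1 _) (S_mem hS _) (R_zero h0 h1)
    (fun h => hS.S_one _ ((one_le_div h0).2 (not_le.1 h).le)) (by rw [hf, bil]; ring) _ rfl
  have hb := fun D => fin1 hl (R1_mem h0 h1 (x 1 / P.l - k)) (Real.exp_pos (-(2 * P.fl x))).le D
  rcases hc with hc | ⟨r, hp, hr, hc⟩
  · exact Or.inl ((hb _).trans hc)
  refine Or.inr ⟨r, hp, ?_, (hb _).trans hc⟩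
  simp only [← le_div_iff₀ hl, ← div_le_iff₀ hl]
  rcases hr with hr | ⟨hr, hlow⟩ <;> rw [hr] <;> push_cast <;>
    refine ⟨?_, ?_, ?_, ?_⟩ <;> linarith

end grad

end Shape

open Shape in
theorem shape (hL : LocStmt) : ShapeStmt := by
  intro ι ρ _ _ _ L P fl fb fr hO hP hV
  have h0 := hP.th_pos
  have h1 := hP.th_le
  have hl := hP.l_pos
  have hfl : ∀ t : ℝ, ∃ i : ℤ, (i : ℝ) ≤ t ∧ t ≤ i + 1 := fun t =>
    ⟨_, Int.floor_le _, (Int.lt_floor_add_one _).le⟩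
  refine ⟨contDiff_U L P, fun a x => ?_, fun a x => ?_, fun x => ?_, fun a x h => ?_,
    fun a b x hx => ?_, fun u M hM x j hj => ?_⟩
  · rw [pd_U]
    simp
  · obtain ⟨i, hi, hi'⟩ := hfl (x 0 / P.l)
    obtain ⟨k, hk, hk'⟩ := hfl (x 1 / P.l)
    obtain ⟨a1, a2⟩ := R_mem h0 h1 (x 0 / P.l - i)
    obtain ⟨b1, b2⟩ := R_mem h0 h1 (x 1 / P.l - k)
    have a3 := sub_nonneg.2 a2
    have b3 := sub_nonneg.2 b2
    have := ind_nonneg
    rw [U_loc hO hP hV.G_eq hi hi' hk hk']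
    exact add_nonneg (add_nonneg (mul_nonneg (this _) (mul_nonneg a3 b3))
      (mul_nonneg (this _) (mul_nonneg a3 b1))) (add_nonneg (mul_nonneg (this _) (mul_nonneg a1 b3))
      (mul_nonneg (this _) (mul_nonneg a1 b1)))
  · obtain ⟨i, hi, hi'⟩ := hfl (x 0 / P.l)
    obtain ⟨k, hk, hk'⟩ := hfl (x 1 / P.l)
    obtain ⟨a1, a2⟩ := R_mem h0 h1 (x 0 / P.l - i)
    obtain ⟨b1, b2⟩ := R_mem h0 h1 (x 1 / P.l - k)
    have a3 := sub_nonneg.2 a2
    have b3 := sub_nonneg.2 b2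
    simp only [U_loc hO hP hV.G_eq hi hi' hk hk', Finset.sum_add_distrib, ← Finset.sum_mul]
    have c1 := mul_le_of_le_one_left (mul_nonneg a3 b3) (sum_ind_le hO (i, k))
    have c2 := mul_le_of_le_one_left (mul_nonneg a3 b1) (sum_ind_le hO (i, k + 1))
    have c3 := mul_le_of_le_one_left (mul_nonneg a1 b3) (sum_ind_le hO (i + 1, k))
    have c4 := mul_le_of_le_one_left (mul_nonneg a1 b1) (sum_ind_le hO (i + 1, k + 1))
    linarith
  · obtain ⟨m, -, h⟩ := Finset.exists_ne_zero_of_sum_ne_zero h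
    obtain ⟨n, -, h⟩ := Finset.exists_ne_zero_of_sum_ne_zero h
    have ht : L.touch a ((m : ℤ), (n : ℤ)) := by_contra fun h' => h (if_neg h')
    rw [if_pos ht] at h
    obtain ⟨a1, a2⟩ := hat_supp h0 h1 (left_ne_zero_of_mul h)
    obtain ⟨b1, b2⟩ := hat_supp h0 h1 (right_ne_zero_of_mul h)
    obtain ⟨c1, c2, c3, c4⟩ := touch_bd hO ht
    rw [← hV.G_eq] at c2 c4
    dsimp only at c1 c2 c3 c4
    have d1 : (1 : ℝ) ≤ m := by exact_mod_cast c1
    have d2 : (m : ℝ) + 1 ≤ P.G := by exact_mod_cast c2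
    have d3 : (1 : ℝ) ≤ n := by exact_mod_cast c3
    have d4 : (n : ℝ) + 1 ≤ P.G := by exact_mod_cast c4
    simp only [← le_div_iff₀ hl, ← div_le_iff₀ hl]
    refine ⟨?_, ?_, ?_, ?_⟩ <;> linarith
  · obtain ⟨a1, a2, a3, a4, -⟩ := hx
    rw [← le_div_iff₀ hl] at a1 a3
    rw [← div_le_iff₀ hl] at a2 a4
    have hb := hO.dot_mem b
    rw [U_loc hO hP hV.G_eq (i := (L.dot b).1) (k := (L.dot b).2) (by linarith) a2 (by linarith) a4,
      ind_touch hO (v := ((L.dot b).1, (L.dot b).2)) ⟨_, hb, .inl rfl, .inl rfl⟩,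
      ind_touch hO (v := ((L.dot b).1, (L.dot b).2 + 1)) ⟨_, hb, .inl rfl, .inr rfl⟩,
      ind_touch hO (v := ((L.dot b).1 + 1, (L.dot b).2)) ⟨_, hb, .inr rfl, .inl rfl⟩,
      ind_touch hO (v := ((L.dot b).1 + 1, (L.dot b).2 + 1)) ⟨_, hb, .inr rfl, .inr rfl⟩]
    ring
  · refine fin2 _ _ _ (fun _ => sq_nonneg _) (by positivity) (Real.exp_pos _).le x ?_
    obtain rfl | rfl : j = 0 ∨ j = 1 := by
      revert hj
      revert j
      decide
    · refine (grad0 hL hO hP hV hM x).imp_right fun ⟨r, hr, hx, h⟩ => ⟨r, by simp [hr], ?_, h⟩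
      simpa using hx
    · refine (grad1 hL hO hP hV hM x).imp_right fun ⟨r, hr, hx, h⟩ => ⟨r, by simp [hr], ?_, h⟩
      simpa using hx

end Crest.Agent.R338
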