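import Crest.Agent.R338.DefsP

/-!
# Row 338: the planar shape functions, auxiliary lemmas
-/

noncomputable section

open MeasureTheory Function

namespace Crest.Agent.R338

namespace Shape

/-! ### The ramp and the hat function -/

theorem hasDerivAt_ppsq (t : ℝ) : HasDerivAt (fun s : ℝ => pp s ^ 2) (2 * pp t) t := by
  rcases lt_trichotomy t 0 with h | rfl | h
  · have e : (fun s : ℝ => pp s ^ 2) =ᶠ[nhds t] fun _ => 0 := by
      filter_upwards [Iio_mem_nhds h] with s hs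
      rw [pp, max_eq_right (le_of_lt hs)]
      simp
    rw [pp, max_eq_right h.le, mul_zero]
    exact (hasDerivAt_const t (0 : ℝ)).congr_of_eventuallyEq e
  · rw [hasDerivAt_iff_isLittleO_nhds_zero]
    simp only [pp, max_self, zero_add, mul_zero, smul_zero, sub_zero, ne_eq, OfNat.ofNat_ne_zero,
      not_false_eq_true, zero_pow]
    refine Asymptotics.IsBigO.trans_isLittleO (g := fun s : ℝ => s ^ 2) ?_
      (Asymptotics.isLittleO_pow_id (by norm_num))
    refine Asymptotics.IsBigO.of_bound' (Filter.Eventually.of_forall fun s => ?_)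
    rw [Real.norm_of_nonneg (sq_nonneg _), Real.norm_of_nonneg (sq_nonneg _)]
    rcases le_total s 0 with hs | hs
    · rw [max_eq_right hs]
      nlinarith [sq_nonneg s]
    · rw [max_eq_left hs]
  · have e : (fun s : ℝ => pp s ^ 2) =ᶠ[nhds t] fun s => s ^ 2 := by
      filter_upwards [Ioi_mem_nhds h] with s hs
      rw [pp, max_eq_left (le_of_lt hs)]
    rw [pp, max_eq_left h.le]
    exact (by simpa using hasDerivAt_pow 2 t : HasDerivAt (fun s : ℝ => s ^ 2) (2 * t) t)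
      |>.congr_of_eventuallyEq e

/-- derivative of the ramp -/
def ramp1 (θ t : ℝ) : ℝ := (pp t - pp (t - θ) - pp (t - 1 + θ) + pp (t - 1)) / (θ * (1 - θ))

theorem hasDerivAt_ramp (θ t : ℝ) : HasDerivAt (ramp θ) (ramp1 θ t) t := by
  have h1 := hasDerivAt_ppsq t
  have h2 := (hasDerivAt_ppsq (t - θ)).comp_sub_const t θ
  have h3 : HasDerivAt (fun s : ℝ => pp (s - 1 + θ) ^ 2) (2 * pp (t - 1 + θ)) t := by
    exact ((hasDerivAt_ppsq (t - 1 + θ)).comp t
      (((hasDerivAt_id t).sub_const 1).add_const θ)).congr_deriv (mul_one _)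
  have h4 := (hasDerivAt_ppsq (t - 1)).comp_sub_const t 1
  refine (((h1.sub h2).sub h3).add h4).div_const (2 * θ * (1 - θ)) |>.congr_deriv ?_
  rw [ramp1, mul_assoc, ← div_div]
  congr 1
  ring

theorem continuous_ramp1 (θ : ℝ) : Continuous (ramp1 θ) := by
  unfold ramp1 pp
  fun_prop

/-- the rescaled ramp -/
def R (θ t : ℝ) : ℝ := ramp θ ((t - θ) / (1 - θ))

/-- its derivative -/
def R1 (θ t : ℝ) : ℝ := ramp1 θ ((t - θ) / (1 - θ)) / (1 - θ)

/-- derivative of the hat function -/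
def hat1 (θ t : ℝ) : ℝ := R1 θ (t + 1) - R1 θ t

theorem hat_eq (θ t : ℝ) : hat θ t = R θ (t + 1) - R θ t := rfl

theorem hasDerivAt_R (θ t : ℝ) : HasDerivAt (R θ) (R1 θ t) t := by
  have := (hasDerivAt_ramp θ ((t - θ) / (1 - θ))).comp t
    (((hasDerivAt_id t).sub_const θ).div_const (1 - θ))
  refine HasDerivAt.congr_deriv this ?_
  rw [R1, mul_one_div]

theorem hasDerivAt_hat (θ t : ℝ) : HasDerivAt (hat θ) (hat1 θ t) t :=
  ((hasDerivAt_R θ (t + 1)).comp_add_const t 1).sub (hasDerivAt_R θ t)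

theorem contDiff_hat (θ : ℝ) : ContDiff ℝ 1 (hat θ) := by
  rw [contDiff_one_iff_deriv]
  refine ⟨fun t => (hasDerivAt_hat θ t).differentiableAt, ?_⟩
  have e : deriv (hat θ) = hat1 θ := funext fun t => (hasDerivAt_hat θ t).deriv
  have := continuous_ramp1 θ
  rw [e]
  unfold hat1 R1
  fun_prop

section theta
variable {θ : ℝ} (h0 : 0 < θ) (h1 : θ ≤ 1 / 10)
include h0 h1

theorem R_zero {t : ℝ} (ht : t ≤ θ) : R θ t = 0 := by
  have hs : (t - θ) / (1 - θ) ≤ 0 := div_nonpos_of_nonpos_of_nonneg (by linarith) (by linarith)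
  rw [R, ramp]
  simp only [pp]
  rw [max_eq_right hs, max_eq_right (by linarith), max_eq_right (by linarith),
    max_eq_right (by linarith)]
  simp

theorem R_one {t : ℝ} (ht : 1 ≤ t) : R θ t = 1 := by
  have hs : 1 ≤ (t - θ) / (1 - θ) := (one_le_div (by linarith)).2 (by linarith)
  rw [R, ramp]
  simp only [pp]
  rw [max_eq_left (by linarith), max_eq_left (by linarith), max_eq_left (by linarith),
    max_eq_left (by linarith), div_eq_one_iff_eq (by have : 0 < 1 - θ := by linarith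
                                                     positivity)]
  ring

theorem R1_zero {t : ℝ} (ht : t ≤ θ ∨ 1 ≤ t) : R1 θ t = 0 := by
  rw [R1, ramp1]
  simp only [pp]
  rcases ht with ht | ht
  · have hs : (t - θ) / (1 - θ) ≤ 0 := div_nonpos_of_nonpos_of_nonneg (by linarith) (by linarith)
    rw [max_eq_right hs, max_eq_right (by linarith), max_eq_right (by linarith),
      max_eq_right (by linarith)]
    simp
  · have hs : 1 ≤ (t - θ) / (1 - θ) := (one_le_div (by linarith)).2 (by linarith)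
    rw [max_eq_left (by linarith), max_eq_left (by linarith), max_eq_left (by linarith),
      max_eq_left (by linarith)]
    ring

theorem R1_mem (t : ℝ) : 0 ≤ R1 θ t ∧ R1 θ t * (1 - θ) ^ 2 ≤ 1 := by
  have hθ : 0 < 1 - θ := by linarith
  have key : ∀ s : ℝ, 0 ≤ pp s - pp (s - θ) - pp (s - 1 + θ) + pp (s - 1) ∧
      pp s - pp (s - θ) - pp (s - 1 + θ) + pp (s - 1) ≤ θ := by
    intro s
    simp only [pp, max_def]
    split_ifs <;> constructor <;> linarith
  obtain ⟨k0, k1⟩ := key ((t - θ) / (1 - θ))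
  rw [R1, ramp1]
  refine ⟨by positivity, ?_⟩
  rw [div_div, div_mul_eq_mul_div, div_le_one (by positivity)]
  nlinarith [mul_le_mul_of_nonneg_right k1 (sq_nonneg (1 - θ))]

theorem R_mono : Monotone (R θ) :=
  monotone_of_deriv_nonneg (fun t => (hasDerivAt_R θ t).differentiableAt) fun t => by
    rw [(hasDerivAt_R θ t).deriv]
    exact (R1_mem h0 h1 t).1

theorem R_mem (t : ℝ) : 0 ≤ R θ t ∧ R θ t ≤ 1 :=
  ⟨(R_zero h0 h1 (min_le_right t θ)).symm.trans_le (R_mono h0 h1 (min_le_left t θ)),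
    (R_mono h0 h1 (le_max_left t 1)).trans_eq (R_one h0 h1 (le_max_right t 1))⟩

theorem hat_supp {t : ℝ} (h : hat θ t ≠ 0) : θ - 1 ≤ t ∧ t ≤ 1 := by
  constructor
  · by_contra hc
    exact h (by rw [hat_eq, R_zero h0 h1 (by linarith), R_zero h0 h1 (by linarith), sub_zero])
  · by_contra hc
    exact h (by rw [hat_eq, R_one h0 h1 (by linarith), R_one h0 h1 (by linarith), sub_self])

theorem hat_loc {t : ℝ} {i : ℤ} (hi : (i : ℝ) ≤ t) (hi' : t ≤ i + 1) :
    hat θ (t - i) = 1 - R θ (t - i) ∧ hat θ (t - ((i + 1 : ℤ) : ℝ)) = R θ (t - i) ∧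
      ∀ m : ℤ, m ≠ i → m ≠ i + 1 → hat θ (t - m) = 0 := by
  refine ⟨?_, ?_, fun m hm hm' => ?_⟩
  · rw [hat_eq, R_one h0 h1 (by linarith)]
  · push_cast
    rw [hat_eq, R_zero h0 h1 (t := t - (i + 1)) (by linarith), sub_zero]
    congr 1
    ring
  · rcases (by omega : m + 1 ≤ i ∨ i + 2 ≤ m) with h | h
    · have : (m : ℝ) + 1 ≤ i := by exact_mod_cast h
      rw [hat_eq, R_one h0 h1 (by linarith), R_one h0 h1 (by linarith), sub_self]
    · have : (i : ℝ) + 2 ≤ m := by exact_mod_cast h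
      rw [hat_eq, R_zero h0 h1 (by linarith), R_zero h0 h1 (by linarith), sub_zero]

theorem hat1_loc {t : ℝ} {i : ℤ} (hi : (i : ℝ) ≤ t) (hi' : t ≤ i + 1) :
    hat1 θ (t - i) = -R1 θ (t - i) ∧ hat1 θ (t - ((i + 1 : ℤ) : ℝ)) = R1 θ (t - i) ∧
      ∀ m : ℤ, m ≠ i → m ≠ i + 1 → hat1 θ (t - m) = 0 := by
  refine ⟨?_, ?_, fun m hm hm' => ?_⟩
  · rw [hat1, R1_zero h0 h1 (Or.inr (by linarith)), zero_sub]
  · push_cast
    rw [hat1, R1_zero h0 h1 (t := t - (i + 1)) (Or.inl (by linarith)), sub_zero]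
    congr 1
    ring
  · rcases (by omega : m + 1 ≤ i ∨ i + 2 ≤ m) with h | h
    · have : (m : ℝ) + 1 ≤ i := by exact_mod_cast h
      rw [hat1, R1_zero h0 h1 (Or.inr (by linarith)), R1_zero h0 h1 (Or.inr (by linarith)),
        sub_self]
    · have : (i : ℝ) + 2 ≤ m := by exact_mod_cast h
      rw [hat1, R1_zero h0 h1 (Or.inl (by linarith)), R1_zero h0 h1 (Or.inl (by linarith)),
        sub_zero]

end theta

/-! ### Sums over the grid -/

theorem sum_two (G : ℕ) (φ : ℤ → ℝ) (i : ℤ) (h1 : ∀ m, m ≠ i → m ≠ i + 1 → φ m = 0)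
    (h2 : ∀ m : ℤ, ¬ (0 ≤ m ∧ m < G) → φ m = 0) :
    ∑ m ∈ Finset.range G, φ m = φ i + φ (i + 1) := by
  rw [← Finset.sum_pair (f := φ) (by omega : i ≠ i + 1),
    ← Finset.sum_image (s := Finset.range G) (g := fun m : ℕ => (m : ℤ)) (f := φ)
      fun _ _ _ _ h => Nat.cast_injective h]
  refine Finset.sum_congr_of_eq_on_inter (fun m _ hm => ?_) (fun m _ hm => h2 m fun h => hm ?_)
    fun _ _ _ => rfl
  · simp only [Finset.mem_insert, Finset.mem_singleton, not_or] at hm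
    exact h1 m hm.1 hm.2
  · exact Finset.mem_image.2 ⟨m.toNat, Finset.mem_range.2 (by omega), by omega⟩

open Classical in
/-- indicator of a proposition -/
def ind (p : Prop) : ℝ := if p then 1 else 0

open Classical in
theorem sum_four (G : ℕ) (w : ℤ × ℤ → Prop) (hw : ∀ v, w v → inG G v) (g h : ℤ → ℝ) (i k : ℤ)
    (hg : ∀ m, m ≠ i → m ≠ i + 1 → g m = 0) (hh : ∀ n, n ≠ k → n ≠ k + 1 → h n = 0) :
    (∑ m ∈ Finset.range G, ∑ n ∈ Finset.range G,
      if w ((m : ℤ), (n : ℤ)) then g m * h n else 0) =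
      ind (w (i, k)) * (g i * h k) + ind (w (i, k + 1)) * (g i * h (k + 1)) +
      (ind (w (i + 1, k)) * (g (i + 1) * h k) + ind (w (i + 1, k + 1)) * (g (i + 1) * h (k + 1))) := by
  have e : ∀ m : ℤ, (∑ n ∈ Finset.range G, if w (m, (n : ℤ)) then g m * h n else 0) =
      ind (w (m, k)) * (g m * h k) + ind (w (m, k + 1)) * (g m * h (k + 1)) := by
    intro m
    rw [sum_two G (fun n => if w (m, n) then g m * h n else 0) k
      (fun n h1 h2 => by simp [hh n h1 h2]) fun n hn => if_neg fun h => hn (hw _ h).2.2]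
    simp [ind]
  simp only [e]
  refine sum_two G (fun m => ind (w (m, k)) * (g m * h k) + ind (w (m, k + 1)) * (g m * h (k + 1)))
    i (fun m h1 h2 => by simp [hg m h1 h2]) fun m hm => ?_
  have : ∀ n, ¬ w (m, n) := fun n h => hm ⟨(hw _ h).1, (hw _ h).2.1⟩
  simp [ind, this]

theorem hasFDerivAt_coord (θ l m : ℝ) (c : Fin 3) (x : E3) :
    HasFDerivAt (fun y : E3 => hat θ (y c / l - m))
      ((hat1 θ (x c / l - m) / l) • (EuclideanSpace.proj c : E3 →L[ℝ] ℝ)) x := by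
  have h : HasDerivAt (fun t : ℝ => hat θ (t / l - m)) (hat1 θ (x c / l - m) / l) (x c) := by
    have := (hasDerivAt_hat θ (x c / l - m)).comp (x c)
      (((hasDerivAt_id (x c)).div_const l).sub_const m)
    exact this.congr_deriv (mul_one_div _ _)
  exact h.comp_hasFDerivAt x (EuclideanSpace.proj c : E3 →L[ℝ] ℝ).hasFDerivAt

/-! ### The case analysis for the gradient -/

theorem core {ρ : Type} (site : ℤ → ℤ → Prop) (res : ρ → ℤ → ℤ → Prop) (par : ρ → Prop)
    (F : ℤ → ℤ → ℝ) (val : ℤ → ℤ → ℂ) (dd : ρ → ℝ) (M fr fv : ℝ) (hM : ∀ p q, ‖val p q‖ ≤ M)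
    (hsite : ∀ p q, site p q → val (p + 1) q = val p q ∧ val (p + 1) (q + 1) = val p (q + 1))
    (hperp : ∀ r p q, res r p q → ¬ par r → site p (q - 1) ∧ site p (q + 1))
    (hpar : ∀ r p q, res r p q → par r → ∃ d : ℂ, ‖d‖ ^ 2 = dd r ∧ val (p + 1) q - val p q = d ∧
      val (p + 1) (q + 1) - val p (q + 1) = d)
    (hFr : ∀ r p q, res r p q → F p q = fr)
    (hFv : ∀ p q, ¬ site p q → (∀ r, ¬ res r p q) → F p q = fv) (hrv : fr ≤ fv)
    (p q : ℤ) (s τ f : ℝ) (low : Prop) (hs : 0 ≤ s ∧ s ≤ 1) (hτ : 0 ≤ τ ∧ τ ≤ 1)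
    (hlow : low → s = 0) (hhigh : ¬ low → τ = 1) (hf : f = F p (q - 1) * (1 - τ) + F p q * τ)
    (D : ℂ) (hD : D = (val (p + 1) q - val p q) * (1 - s) + (val (p + 1) (q + 1) - val p (q + 1)) * s) :
    Real.exp (-(2 * f)) * ‖D‖ ^ 2 ≤ 4 * Real.exp (-(2 * fv)) * M ^ 2 ∨
      ∃ r, par r ∧ (res r p q ∨ (res r p (q - 1) ∧ low)) ∧
        Real.exp (-(2 * f)) * ‖D‖ ^ 2 ≤ Real.exp (-(2 * fr)) * dd r := by
  have hz : D = 0 → Real.exp (-(2 * f)) * ‖D‖ ^ 2 ≤ 4 * Real.exp (-(2 * fv)) * M ^ 2 := by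
    rintro rfl
    simp only [norm_zero, ne_eq, OfNat.ofNat_ne_zero, not_false_eq_true, zero_pow, mul_zero]
    positivity
  have hv : f = fv → Real.exp (-(2 * f)) * ‖D‖ ^ 2 ≤ 4 * Real.exp (-(2 * fv)) * M ^ 2 := by
    rintro rfl
    have hd : ∀ n, ‖val (p + 1) n - val p n‖ ≤ 2 * M := fun n =>
      (norm_sub_le _ _).trans (by linarith [hM (p + 1) n, hM p n])
    have h1 : ‖D‖ ≤ 2 * M := by
      have e1 : ‖(1 - s : ℂ)‖ = 1 - s := by
        rw [← Complex.ofReal_one, ← Complex.ofReal_sub, Complex.norm_real,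
          Real.norm_of_nonneg (by linarith)]
      have e2 : ‖(s : ℂ)‖ = s := by rw [Complex.norm_real, Real.norm_of_nonneg hs.1]
      rw [hD]
      refine (norm_add_le _ _).trans ?_
      rw [norm_mul, norm_mul, e1, e2]
      nlinarith [mul_le_mul_of_nonneg_right (hd q) (sub_nonneg.2 hs.2),
        mul_le_mul_of_nonneg_right (hd (q + 1)) hs.1]
    have h2 : ‖D‖ ^ 2 ≤ (2 * M) ^ 2 := pow_le_pow_left₀ (norm_nonneg _) h1 2
    nlinarith [mul_le_mul_of_nonneg_left h2 (Real.exp_pos (-(2 * f))).le]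
  have hr : ∀ r, fr ≤ f → ‖D‖ ^ 2 = dd r →
      Real.exp (-(2 * f)) * ‖D‖ ^ 2 ≤ Real.exp (-(2 * fr)) * dd r := by
    intro r h e
    rw [← e]
    exact mul_le_mul_of_nonneg_right (Real.exp_le_exp.2 (by linarith)) (sq_nonneg _)
  have hge : ∀ n, ¬ site p n → fr ≤ F p n := by
    intro n hn
    by_cases h : ∃ r, res r p n
    · obtain ⟨r, h⟩ := h
      exact (hFr r p n h).ge
    · exact hrv.trans (hFv p n hn fun r h' => h ⟨r, h'⟩).ge
  by_cases c1 : site p q
  · refine Or.inl (hz ?_)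
    rw [hD, (hsite p q c1).1, (hsite p q c1).2]
    ring
  by_cases hl : low
  · have hD' : D = val (p + 1) q - val p q := by
      rw [hD, hlow hl]
      simp
    by_cases c2 : site p (q - 1)
    · have := (hsite p _ c2).2
      rw [sub_add_cancel] at this
      exact Or.inl (hz (by rw [hD', this, sub_self]))
    have hf' : fr ≤ f := by
      rw [hf]
      nlinarith [mul_le_mul_of_nonneg_right (hge _ c2) (sub_nonneg.2 hτ.2),
        mul_le_mul_of_nonneg_right (hge _ c1) hτ.1]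
    by_cases c3 : ∃ r, res r p q
    · obtain ⟨r, h⟩ := c3
      have hp : par r := by_contra fun hp => c2 (hperp r p q h hp).1
      obtain ⟨d, e0, e1, -⟩ := hpar r p q h hp
      exact Or.inr ⟨r, hp, Or.inl h, hr r hf' (by rw [hD', e1, e0])⟩
    by_cases c4 : ∃ r, res r p (q - 1)
    · obtain ⟨r, h⟩ := c4
      have hp : par r := by_contra fun hp => c1 (by simpa using (hperp r p _ h hp).2)
      obtain ⟨d, e0, -, e1⟩ := hpar r p _ h hp
      rw [sub_add_cancel] at e1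
      exact Or.inr ⟨r, hp, Or.inr ⟨h, hl⟩, hr r hf' (by rw [hD', e1, e0])⟩
    refine Or.inl (hv ?_)
    rw [hf, hFv p q c1 fun r h => c3 ⟨r, h⟩, hFv p _ c2 fun r h => c4 ⟨r, h⟩]
    ring
  · have hf' : f = F p q := by
      rw [hf, hhigh hl]
      ring
    by_cases c3 : ∃ r, res r p q
    · obtain ⟨r, h⟩ := c3
      by_cases hp : par r
      · obtain ⟨d, e0, e1, e2⟩ := hpar r p q h hp
        refine Or.inr ⟨r, hp, Or.inl h, hr r (hf'.trans (hFr r p q h)).ge ?_⟩
        rw [hD, e1, e2, ← e0]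
        congr 2
        ring
      · obtain ⟨a1, a2⟩ := hperp r p q h hp
        have := (hsite p _ a1).2
        rw [sub_add_cancel] at this
        refine Or.inl (hz ?_)
        rw [hD, this, (hsite p _ a2).1]
        ring
    · exact Or.inl (hv (hf'.trans (hFv p q c1 fun r h => c3 ⟨r, h⟩)))

end Shape

end Crest.Agent.R338
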