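import Crest.Agent.R338.DefsF

/-!
# Row 338: the potential of the slab

We write `1 / r = (2 / √π) ∫₀^∞ exp (-r² s²) ds`; the Gaussian factorises over the box.
-/

noncomputable section

open MeasureTheory Function Set Filter Topology Real

namespace Crest.Agent.R338

namespace Slab

/-- the Gaussian -/
def g (s u : ℝ) : ℝ := exp (-s ^ 2 * u ^ 2)

/-- its integral over an interval of half length `L` centred at `a` -/
def P (L s a : ℝ) : ℝ := ∫ t in (-L)..L, g s (a - t)

theorem g_cont' (s : ℝ) : Continuous (g s) := by unfold g; fun_prop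

theorem g_pos (s u : ℝ) : 0 < g s u := exp_pos _

theorem g_anti (s : ℝ) {u v : ℝ} (h : u ^ 2 ≤ v ^ 2) : g s v ≤ g s u :=
  exp_le_exp.2 (by nlinarith [sq_nonneg s])

theorem g_le_one (s u : ℝ) : g s u ≤ 1 := exp_le_one_iff.2 (by nlinarith [sq_nonneg (s * u)])

theorem g_sub_le (s : ℝ) (u v : ℝ) : g s u - g s v ≤ s ^ 2 * (v ^ 2 - u ^ 2) * g s u := by
  have h1 : g s v = g s u * exp (-(s ^ 2 * (v ^ 2 - u ^ 2))) := by
    rw [g, g, ← exp_add]; congr 1; ring
  have h2 := mul_le_mul_of_nonneg_left (add_one_le_exp (-(s ^ 2 * (v ^ 2 - u ^ 2)))) (g_pos s u).le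
  linarith

theorem P_cont (L a : ℝ) : Continuous fun s => P L s a := by
  unfold P g
  exact intervalIntegral.continuous_parametric_intervalIntegral_of_continuous' (by fun_prop) _ _

theorem P_abs (L s a : ℝ) : P L s |a| = P L s a := by
  rcases abs_choice a with h | h <;> rw [h]
  have := intervalIntegral.integral_comp_neg (a := -L) (b := L) fun t => g s (a - t)
  rw [neg_neg] at this
  rw [P, P, ← this]
  congr 1
  funext t
  unfold g
  congr 1
  ring

theorem P_sub (L s a b : ℝ) : P L s b - P L s a = ∫ u in b..a, (g s (u - L) - g s (u + L)) := by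
  have h := fun x y => (g_cont' s).intervalIntegrable (μ := volume) x y
  rw [P, P, intervalIntegral.integral_comp_sub_left, intervalIntegral.integral_comp_sub_left,
    intervalIntegral.integral_interval_sub_interval_comm (h _ _) (h _ _) (h _ _),
    intervalIntegral.integral_sub (Continuous.intervalIntegrable (by unfold g; fun_prop) _ _)
      (Continuous.intervalIntegrable (by unfold g; fun_prop) _ _),
    intervalIntegral.integral_comp_sub_right, intervalIntegral.integral_comp_add_right,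
    sub_neg_eq_add, sub_neg_eq_add]

theorem P_anti {L a b : ℝ} (s : ℝ) (hL : 0 ≤ L) (h : |b| ≤ |a|) : P L s a ≤ P L s b := by
  rw [← P_abs L s a, ← P_abs L s b, ← sub_nonneg, P_sub]
  refine intervalIntegral.integral_nonneg h fun u hu => sub_nonneg.2 (g_anti s ?_)
  nlinarith [mul_nonneg hL ((abs_nonneg b).trans hu.1)]

theorem P_nonneg {L : ℝ} (hL : 0 ≤ L) (s a : ℝ) : 0 ≤ P L s a :=
  intervalIntegral.integral_nonneg (by linarith) fun _ _ => (g_pos _ _).le

theorem P_le {L : ℝ} (hL : 0 ≤ L) (s a : ℝ) : P L s a ≤ 2 * L := by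
  have := intervalIntegral.norm_integral_le_of_norm_le_const (a := -L) (b := L) (C := 1)
    (f := fun t => g s (a - t)) fun t _ => by
      rw [norm_of_nonneg (g_pos _ _).le]; exact g_le_one _ _
  rw [abs_of_nonneg (by linarith)] at this
  linarith [le_abs_self (P L s a), show |P L s a| ≤ 1 * (L - -L) from this]

theorem int_g {s : ℝ} (hs : 0 < s) : Integrable (g s) ∧ ∫ u, g s u = √π / s := by
  refine ⟨integrable_exp_neg_mul_sq (by positivity), ?_⟩
  unfold g
  rw [integral_gaussian, sqrt_div' _ (sq_nonneg s), sqrt_sq hs.le]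

theorem P_zero {L : ℝ} (hL : 0 ≤ L) (s : ℝ) : P L s 0 = ∫ u in Ioc (-L) L, g s u := by
  rw [P, intervalIntegral.integral_comp_sub_left, zero_sub, zero_sub, neg_neg,
    intervalIntegral.integral_of_le (by linarith)]

theorem P_le' {L s : ℝ} (hL : 0 ≤ L) (hs : 0 < s) (a : ℝ) : P L s a ≤ √π / s := by
  refine (P_anti (b := 0) s hL (by simp)).trans ?_
  rw [P_zero hL, ← (int_g hs).2]
  exact setIntegral_le_integral (int_g hs).1 (Eventually.of_forall fun _ => (g_pos _ _).le)

theorem P_ge {L s : ℝ} (hL : 0 ≤ L) (hs : 0 < s) :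
    √π / s - P L s 0 ≤ 2 * (√π / s) * g s (L / 2) := by
  have h2 : 0 < s / 2 := by positivity
  have h3 : 2 * (√π / s) * g s (L / 2) = ∫ u, g s (L / 2) * g (s / 2) u := by
    rw [integral_const_mul, (int_g h2).2]
    field_simp
  rw [h3, P_zero hL, ← (int_g hs).2, ← setIntegral_compl measurableSet_Ioc (int_g hs).1]
  refine le_trans ?_ (setIntegral_le_integral (s := (Ioc (-L) L)ᶜ) ((int_g h2).1.const_mul _)
    (Eventually.of_forall fun _ => (mul_pos (g_pos _ _) (g_pos _ _)).le))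
  refine setIntegral_mono_on (int_g hs).1.integrableOn ((int_g h2).1.const_mul _).integrableOn
    measurableSet_Ioc.compl fun u hu => ?_
  have h4 : L ^ 2 ≤ u ^ 2 := by
    rw [mem_compl_iff, mem_Ioc, not_and_or, not_lt, not_le] at hu
    rcases hu with hu | hu <;> nlinarith
  rw [g, g, g, ← exp_add, exp_le_exp]
  nlinarith [mul_le_mul_of_nonneg_left h4 (sq_nonneg s), sq_nonneg (s * u)]

theorem D_le {L a : ℝ} (s : ℝ) (hL : 1 ≤ L) (ha : |a| ≤ 1) :
    P L s 0 - P L s a ≤ 4 * L * s ^ 2 * g s (L - 1) := by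
  rw [← P_abs L s a, P_sub]
  have h0 : 0 ≤ 4 * L * s ^ 2 * g s (L - 1) := by have := g_pos s (L - 1); positivity
  have := intervalIntegral.norm_integral_le_of_norm_le_const (a := 0) (b := |a|)
    (C := 4 * L * s ^ 2 * g s (L - 1)) (f := fun u => g s (u - L) - g s (u + L)) fun u hu => by
      rw [uIoc_of_le (abs_nonneg a)] at hu
      have h1 := hu.1
      have h2 := hu.2.trans ha
      rw [norm_of_nonneg (sub_nonneg.2 (g_anti s (by nlinarith)))]
      refine (g_sub_le s _ _).trans ?_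
      refine mul_le_mul ?_ (g_anti s (by nlinarith)) (g_pos _ _).le (by positivity)
      nlinarith [mul_nonneg (sq_nonneg s) (mul_nonneg (by linarith : 0 ≤ L) (sub_nonneg.2 h2))]
  rw [sub_zero, abs_abs] at this
  exact (le_abs_self _).trans (this.trans (mul_le_of_le_one_right h0 ha))

theorem h_bd {a b s : ℝ} (hs : 0 < s) (h : a ^ 2 ≤ b ^ 2) (hb : b ^ 2 ≤ 4) :
    ‖(g s a - g s b) / s ^ 2‖ ≤ 5 * (1 + s ^ 2)⁻¹ := by
  have h1 := g_anti s h
  have h2 := g_sub_le s a b
  have h3 := g_le_one s a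
  have h4 := g_pos s b
  have h5 : s ^ 2 * (b ^ 2 - a ^ 2) * g s a ≤ s ^ 2 * 4 * 1 :=
    mul_le_mul (mul_le_mul_of_nonneg_left (by nlinarith) (sq_nonneg s)) h3 (g_pos _ _).le
      (by positivity)
  rw [norm_of_nonneg (div_nonneg (sub_nonneg.2 h1) (sq_nonneg s)), ← div_eq_mul_inv,
    div_le_div_iff₀ (by positivity) (by positivity)]
  nlinarith [sq_nonneg s]

theorem int_sq {a : ℝ} (ha : 0 ≤ a) : IntegrableOn (fun s => 2 * a ^ 2 * g s a) (Ioi 0) ∧
    ∫ s in Ioi (0 : ℝ), 2 * a ^ 2 * g s a = √π * a := by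
  rcases ha.eq_or_lt with rfl | ha
  · simp
  have h1 : ∀ s, g s a = exp (-a ^ 2 * s ^ 2) := fun s => by rw [g]; congr 1; ring
  simp only [h1]
  refine ⟨((integrable_exp_neg_mul_sq (by positivity)).const_mul _).integrableOn, ?_⟩
  rw [integral_const_mul, integral_gaussian_Ioi, sqrt_div' _ (sq_nonneg a), sqrt_sq ha.le]
  field_simp

theorem int_h {a b : ℝ} (ha : 0 ≤ a) (h : a ≤ b) (hb : b ≤ 2) :
    ∫ s in Ioi (0 : ℝ), (g s a - g s b) / s ^ 2 = √π * (b - a) := by
  have hab : a ^ 2 ≤ b ^ 2 := by nlinarith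
  have hb4 : b ^ 2 ≤ 4 := by nlinarith
  have h0 : IntegrableOn (fun s => (g s a - g s b) / s ^ 2) (Ioi 0) :=
    (integrable_inv_one_add_sq.const_mul 5).integrableOn.mono'
      (by unfold g; fun_prop : Measurable fun s => (g s a - g s b) / s ^ 2).aestronglyMeasurable
      ((ae_restrict_iff' measurableSet_Ioi).2 (Eventually.of_forall fun s hs => h_bd hs hab hb4))
  obtain ⟨h1, h2⟩ := int_sq ha
  obtain ⟨h3, h4⟩ := int_sq (ha.trans h)
  have h5 : IntegrableOn (fun s => 2 * a ^ 2 * g s a - 2 * b ^ 2 * g s b) (Ioi 0) := h1.sub h3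
  have hb : ∀ s, 0 < s → ‖-(g s a - g s b) / s‖ ≤ 5 * (s * (1 + s ^ 2)⁻¹) := fun s hs => by
    have h6 : -(g s a - g s b) / s = -s * ((g s a - g s b) / s ^ 2) := by field_simp
    rw [h6, norm_mul, norm_neg, norm_of_nonneg hs.le, mul_left_comm]
    exact mul_le_mul_of_nonneg_left (h_bd hs hab hb4) hs.le
  have key := integral_Ioi_of_hasDerivAt_of_tendsto (a := 0) (m := 0)
    (f := fun s => -(g s a - g s b) / s)
    (f' := fun s => (g s a - g s b) / s ^ 2 + (2 * a ^ 2 * g s a - 2 * b ^ 2 * g s b)) ?_ ?_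
    (h0.add h5) ?_
  · rw [integral_add h0 h5, integral_sub h1 h3, h2, h4, div_zero] at key
    linarith
  · rw [← continuousWithinAt_Ioi_iff_Ici, ContinuousWithinAt, div_zero]
    refine squeeze_zero_norm' (eventually_nhdsWithin_of_forall hb) ?_
    have : Continuous fun s : ℝ => 5 * (s * (1 + s ^ 2)⁻¹) :=
      continuous_const.mul (continuous_id.mul (Continuous.inv₀ (by fun_prop) fun s => by positivity))
    simpa using (this.tendsto 0).mono_left nhdsWithin_le_nhds
  · intro s (hs : 0 < s)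
    have h7 : ∀ c, HasDerivAt (fun s => g s c) (g s c * (-(2 * s) * c ^ 2)) s := fun c => by
      simpa [g] using ((hasDerivAt_pow 2 s).neg.mul_const (c ^ 2)).exp
    refine (((h7 a).sub (h7 b)).neg.div (hasDerivAt_id s) hs.ne').congr_deriv ?_
    simp only [Pi.neg_apply, Pi.sub_apply, id]
    field_simp
    ring
  · refine squeeze_zero_norm' (a := fun s => 5 * s⁻¹) ?_
      (by simpa using tendsto_inv_atTop_zero.const_mul (5 : ℝ))
    filter_upwards [eventually_gt_atTop 0] with s hs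
    refine (hb s hs).trans (mul_le_mul_of_nonneg_left ?_ (by norm_num))
    rw [← div_eq_mul_inv, inv_eq_one_div, div_le_div_iff₀ (by positivity) hs]
    nlinarith

theorem int_D {z : ℝ} (hz : |z| ≤ 1) :
    IntegrableOn (fun s => (P 1 s 0 - P 1 s z) / s ^ 2) (Ioi 0) ∧
      ∫ s in Ioi (0 : ℝ), (P 1 s 0 - P 1 s z) / s ^ 2 = √π * z ^ 2 := by
  have h1 : ∀ s, (P 1 s 0 - P 1 s z) / s ^ 2 =
      ∫ u in Ioc 0 |z|, (g s (1 - u) - g s (1 + u)) / s ^ 2 := fun s => by
    rw [← P_abs 1 s z, P_sub, integral_div, intervalIntegral.integral_of_le (abs_nonneg z)]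
    congr 2
    funext u
    unfold g
    congr 2 <;> ring
  have h2 : Integrable (uncurry fun s u => (g s (1 - u) - g s (1 + u)) / s ^ 2)
      ((volume.restrict (Ioi 0)).prod (volume.restrict (Ioc 0 |z|))) := by
    refine ((integrable_inv_one_add_sq.const_mul 5).integrableOn.comp_fst _).mono'
      (Measurable.aestronglyMeasurable (by unfold g uncurry; fun_prop)) ?_
    rw [Measure.prod_restrict, ae_restrict_iff' (measurableSet_Ioi.prod measurableSet_Ioc)]
    refine Eventually.of_forall fun p hp => ?_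
    have h3 := hp.2.1
    have h4 := hp.2.2.trans hz
    exact h_bd hp.1 (by nlinarith) (by nlinarith)
  simp only [h1]
  refine ⟨h2.integral_prod_left, ?_⟩
  rw [integral_integral_swap h2, setIntegral_congr_fun measurableSet_Ioc
    (g := fun u => √π * (2 * u)) fun u hu => ?_, ← intervalIntegral.integral_of_le (abs_nonneg z)]
  · rw [intervalIntegral.integral_const_mul, intervalIntegral.integral_const_mul, integral_id,
      sq_abs]
    ring
  · have h3 := hu.1
    have h4 := hu.2.trans hz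
    simp only
    rw [int_h (by linarith) (by linarith) (by linarith)]
    ring

/-- the Gaussian integrated over the box -/
def Q (A : ℝ) (x : E3) (s : ℝ) : ℝ := P A s (x 0) * P A s (x 1) * P 1 s (x 2)

theorem measurableSet_box (A : ℝ) : MeasurableSet (box A) := by
  have h : ∀ (i : Fin 3) (c : ℝ), MeasurableSet {y : E3 | |y i| ≤ c} := fun i c =>
    measurableSet_le (by fun_prop) measurable_const
  exact (h 0 A).inter ((h 1 A).inter (h 2 1))

theorem box_int {A : ℝ} (hA : 0 ≤ A) (x : E3) (s : ℝ) :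
    ∫ y in box A, exp (-‖x - y‖ ^ 2 * s ^ 2) = Q A x s := by
  have h1 : ∀ L, 0 ≤ L → ∀ a, P L s a = ∫ t, (Icc (-L) L).indicator (fun t => g s (a - t)) t :=
    fun L hL a => by
      rw [integral_indicator measurableSet_Icc, integral_Icc_eq_integral_Ioc, P,
        intervalIntegral.integral_of_le (by linarith)]
  have h2 := integral_fintype_prod_volume_eq_prod (ι := Fin 3) (E := fun _ => ℝ) fun i t =>
    (Icc (-(![A, A, 1] i)) (![A, A, 1] i)).indicator (fun t => g s (x i - t)) t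
  simp only [Fin.prod_univ_three, Matrix.cons_val_zero, Matrix.cons_val_one, Matrix.cons_val] at h2
  rw [Q, h1 A hA, h1 A hA, h1 1 zero_le_one, ← h2, ← integral_indicator (measurableSet_box A),
    ← (PiLp.volume_preserving_toLp (Fin 3)).integral_comp
      (MeasurableEquiv.toLp 2 _).measurableEmbedding]
  congr 1
  funext y
  simp only [indicator, box, mem_ofPred_eq, ← abs_le, mem_Icc]
  by_cases a0 : |y 0| ≤ A <;> by_cases a1 : |y 1| ≤ A <;> by_cases a2 : |y 2| ≤ 1 <;>
    simp only [a0, a1, a2, and_self, and_true, and_false, if_true, if_false, mul_zero,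
      zero_mul]
  rw [g, g, g, ← exp_add, ← exp_add, EuclideanSpace.real_norm_sq_eq, Fin.sum_univ_three]
  simp only [PiLp.sub_apply]
  congr 1
  ring

theorem sqrt_pi_sq (s : ℝ) : √π / s * (√π / s) = π / s ^ 2 := by
  rw [div_mul_div_comm, mul_self_sqrt pi_pos.le, sq]

theorem Q_nonneg {A : ℝ} (hA : 0 ≤ A) (x : E3) (s : ℝ) : 0 ≤ Q A x s :=
  mul_nonneg (mul_nonneg (P_nonneg hA _ _) (P_nonneg hA _ _)) (P_nonneg zero_le_one _ _)

theorem int_Q {A : ℝ} (hA : 0 ≤ A) (x : E3) : IntegrableOn (Q A x) (Ioi 0) := by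
  refine (integrable_inv_one_add_sq.const_mul (8 * A ^ 2 + 2 * π)).integrableOn.mono'
    (((P_cont _ _).mul (P_cont _ _)).mul (P_cont _ _)).aestronglyMeasurable
    ((ae_restrict_iff' measurableSet_Ioi).2 (Eventually.of_forall fun s (hs : 0 < s) => ?_))
  have h1 : Q A x s ≤ 2 * A * (2 * A) * (2 * 1) :=
    mul_le_mul (mul_le_mul (P_le hA _ _) (P_le hA _ _) (P_nonneg hA _ _) (by positivity))
      (P_le zero_le_one _ _) (P_nonneg zero_le_one _ _) (by positivity)
  have h2 : Q A x s ≤ √π / s * (√π / s) * (2 * 1) :=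
    mul_le_mul (mul_le_mul (P_le' hA hs _) (P_le' hA hs _) (P_nonneg hA _ _) (by positivity))
      (P_le zero_le_one _ _) (P_nonneg zero_le_one _ _) (by positivity)
  rw [sqrt_pi_sq, div_mul_eq_mul_div, le_div_iff₀ (by positivity)] at h2
  rw [norm_of_nonneg (Q_nonneg hA x s), ← div_eq_mul_inv, le_div_iff₀ (by positivity)]
  linarith

theorem gbox_eq {A : ℝ} (hA : 0 ≤ A) (x : E3) :
    gbox A x = 2 / √π * ∫ s in Ioi (0 : ℝ), Q A x s := by
  have h1 : ∀ y : E3, 1 / ‖x - y‖ = 2 / √π * ∫ s in Ioi (0 : ℝ), exp (-‖x - y‖ ^ 2 * s ^ 2) :=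
    fun y => by
      have := sqrt_pos.2 pi_pos
      rw [integral_gaussian_Ioi, sqrt_div' _ (sq_nonneg _), sqrt_sq (norm_nonneg _)]
      field_simp
  have h2 : volume (box A) < ⊤ := by
    refine (measure_mono fun y hy => ?_).trans_lt
      (measure_closedBall_lt_top (x := (0 : E3)) (r := 2 * A + 1))
    rw [mem_closedBall_zero_iff, ← sq_le_sq₀ (norm_nonneg _) (by positivity),
      EuclideanSpace.real_norm_sq_eq, Fin.sum_univ_three, ← sq_abs (y 0), ← sq_abs (y 1),
      ← sq_abs (y 2)]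
    nlinarith [hy.1, hy.2.1, hy.2.2, abs_nonneg (y 0), abs_nonneg (y 1), abs_nonneg (y 2)]
  have h3 : Integrable (uncurry fun (y : E3) (s : ℝ) => exp (-‖x - y‖ ^ 2 * s ^ 2))
      ((volume.restrict (box A)).prod (volume.restrict (Ioi 0))) := by
    rw [integrable_prod_iff' (Continuous.aestronglyMeasurable (by fun_prop))]
    refine ⟨Eventually.of_forall fun s => Measure.integrableOn_of_bounded (M := 1) h2.ne
      (Continuous.aestronglyMeasurable (by fun_prop)) (Eventually.of_forall fun y => ?_), ?_⟩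
    · rw [uncurry_apply_pair, norm_of_nonneg (exp_pos _).le, exp_le_one_iff]
      nlinarith [sq_nonneg (‖x - y‖ * s)]
    · simp only [uncurry_apply_pair, norm_of_nonneg (exp_pos _).le, box_int hA]
      exact int_Q hA x
  simp only [gbox, h1]
  rw [integral_const_mul, integral_integral_swap h3]
  simp only [box_int hA]

theorem int_err {A : ℝ} (hA : 0 < A) :
    IntegrableOn (fun s => g s (A / 4)) (Ioi 0) ∧ ∫ s in Ioi (0 : ℝ), g s (A / 4) = 2 * √π / A := by
  have h1 : ∀ s, g s (A / 4) = exp (-(A / 4) ^ 2 * s ^ 2) := fun s => by rw [g]; congr 1; ring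
  simp only [h1]
  refine ⟨(integrable_exp_neg_mul_sq (by positivity)).integrableOn, ?_⟩
  rw [integral_gaussian_Ioi, sqrt_div' _ (sq_nonneg _), sqrt_sq (by positivity)]
  field_simp
  norm_num

theorem upper_pt {A z s : ℝ} (hA : 2 ≤ A) (x : E3) (hz : |z| ≤ 1) (hx : |z| ≤ |x 2|) (hs : 0 < s) :
    Q A x s ≤ Q A 0 s - π * ((P 1 s 0 - P 1 s z) / s ^ 2) + 64 * g s (A / 4) := by
  have hA0 : 0 ≤ A := by linarith
  have h1 : Q A x s ≤ P A s 0 * P A s 0 * P 1 s z :=
    mul_le_mul (mul_le_mul (P_anti s hA0 (by simp)) (P_anti s hA0 (by simp)) (P_nonneg hA0 _ _)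
      (P_nonneg hA0 _ _)) (P_anti s zero_le_one hx) (P_nonneg zero_le_one _ _)
      (mul_self_nonneg _)
  have h2 : Q A 0 s = P A s 0 * P A s 0 * P 1 s 0 := rfl
  have h3 : 0 ≤ P 1 s 0 - P 1 s z := sub_nonneg.2 (P_anti s zero_le_one (by simp))
  have h4 : P 1 s 0 - P 1 s z ≤ 4 * s ^ 2 := by
    have := D_le s le_rfl hz
    rw [sub_self, g] at this
    simpa using this
  have h5 := (P_ge hA0 hs).trans (mul_le_mul_of_nonneg_left
    (g_anti s (by nlinarith : (A / 4) ^ 2 ≤ (A / 2) ^ 2)) (by positivity))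
  have h6 := P_le' hA0 hs 0
  have h7 := P_nonneg hA0 s 0
  have h8 := g_pos s (A / 4)
  have h9 : π / s ^ 2 - P A s 0 * P A s 0 ≤ 4 * (π / s ^ 2) * g s (A / 4) := by
    rw [← sqrt_pi_sq]
    nlinarith [mul_le_mul h5 (add_le_add_right h6 (√π / s)) (by positivity) (by positivity)]
  have h10 := (mul_le_mul_of_nonneg_right h9 h3).trans
    (mul_le_mul_of_nonneg_left h4 (by positivity))
  have h11 : 4 * (π / s ^ 2) * g s (A / 4) * (4 * s ^ 2) = 16 * π * g s (A / 4) := by
    field_simp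
    norm_num
  have h12 : π * ((P 1 s 0 - P 1 s z) / s ^ 2) = π / s ^ 2 * (P 1 s 0 - P 1 s z) := by ring
  nlinarith [mul_le_mul_of_nonneg_right pi_le_four h8.le]

theorem lower_pt {A s : ℝ} (hA : 2 ≤ A) (x : E3) (hx : ∀ i, |x i| ≤ 1) (hs : 0 < s) :
    Q A 0 s - π * ((P 1 s 0 - P 1 s (x 2)) / s ^ 2) - 128 * g s (A / 4) ≤ Q A x s := by
  have hA0 : 0 ≤ A := by linarith
  have h2 : Q A 0 s = P A s 0 * P A s 0 * P 1 s 0 := rfl
  have h3 : 0 ≤ P 1 s 0 - P 1 s (x 2) := sub_nonneg.2 (P_anti s zero_le_one (by simp))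
  have h6 := P_le' hA0 hs 0
  have h7 := P_nonneg hA0 s 0
  have h8 := g_pos s (A / 4)
  have h9 : P A s 0 * P A s 0 ≤ π / s ^ 2 := by
    rw [← sqrt_pi_sq]
    exact mul_self_le_mul_self h7 h6
  have h10 : A * s * g s (A - 1) ≤ 4 * g s (A / 4) := by
    have e1 : g s (A / 4) = g s (A / 2) * exp (3 * (A * s / 4) ^ 2) := by
      rw [g, g, ← exp_add]; congr 1; ring
    have e2 : A * s ≤ 4 * exp (3 * (A * s / 4) ^ 2) := by
      nlinarith [add_one_le_exp (3 * (A * s / 4) ^ 2), sq_nonneg (A * s / 4 - 1 / 2),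
        sq_nonneg (A * s)]
    have e3 := mul_le_mul e2 (g_anti s (by nlinarith : (A / 2) ^ 2 ≤ (A - 1) ^ 2)) (g_pos _ _).le
      (by positivity)
    rw [e1]
    linarith
  have h11 : √π ≤ 2 := sqrt_le_iff.2 ⟨by norm_num, by linarith [pi_le_four]⟩
  have h12 : ∀ i, √π / s * (P A s 0 - P A s (x i)) ≤ 32 * g s (A / 4) := fun i => by
    refine (mul_le_mul_of_nonneg_left (D_le s (by linarith) (hx i)) (by positivity)).trans ?_
    have e1 : √π / s * (4 * A * s ^ 2 * g s (A - 1)) = 4 * √π * (A * s * g s (A - 1)) := by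
      field_simp
    rw [e1]
    nlinarith [mul_le_mul h11 h10 (by have := g_pos s (A - 1); positivity) zero_le_two]
  have h13 : ∀ i, 0 ≤ P A s 0 - P A s (x i) := fun i => sub_nonneg.2 (P_anti s hA0 (by simp))
  have h14 : P A s 0 * P A s 0 - P A s (x 0) * P A s (x 1) ≤ 64 * g s (A / 4) := by
    nlinarith [h12 0, h12 1, mul_le_mul_of_nonneg_right h6 (h13 0),
      mul_le_mul_of_nonneg_right (P_le' hA0 hs (x 0)) (h13 1)]
  have h15 := (mul_le_mul_of_nonneg_right h14 (P_nonneg zero_le_one s (x 2))).trans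
    (mul_le_mul_of_nonneg_left (P_le zero_le_one s (x 2)) (by positivity))
  have h16 := mul_le_mul_of_nonneg_right h9 h3
  have h17 : π * ((P 1 s 0 - P 1 s (x 2)) / s ^ 2) = π / s ^ 2 * (P 1 s 0 - P 1 s (x 2)) := by ring
  rw [h2, h17, Q]
  linarith

theorem int_main {A z : ℝ} (hA : 2 ≤ A) (hz : |z| ≤ 1) (K : ℝ) :
    IntegrableOn (fun s => Q A 0 s - π * ((P 1 s 0 - P 1 s z) / s ^ 2) + K * g s (A / 4)) (Ioi 0) ∧
    2 / √π * ∫ s in Ioi (0 : ℝ), (Q A 0 s - π * ((P 1 s 0 - P 1 s z) / s ^ 2) + K * g s (A / 4)) =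
      gbox A 0 - 2 * π * z ^ 2 + 4 * K / A := by
  have hA0 : 0 ≤ A := by linarith
  obtain ⟨h1, h2⟩ := int_D hz
  obtain ⟨h3, h4⟩ := int_err (by linarith : 0 < A)
  have h5 : IntegrableOn (fun s => Q A 0 s - π * ((P 1 s 0 - P 1 s z) / s ^ 2)) (Ioi 0) :=
    (int_Q hA0 0).sub (h1.const_mul π)
  refine ⟨h5.add (h3.const_mul K), ?_⟩
  have := sqrt_pos.2 pi_pos
  rw [integral_add h5 (h3.const_mul K), integral_sub (int_Q hA0 0) (h1.const_mul π),
    integral_const_mul, integral_const_mul, h2, h4, gbox_eq hA0]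
  field_simp
  ring

end Slab

open Slab in
theorem slab : SlabStmt := by
  refine ⟨512, by norm_num, fun A hA => ⟨fun x => ?_, fun x hx => ?_⟩⟩
  · have hA0 : 0 ≤ A := by linarith
    have h0 : 0 ≤ min |x 2| 1 := le_min (abs_nonneg _) zero_le_one
    have h1 : |min |x 2| 1| ≤ 1 := by rw [abs_of_nonneg h0]; exact min_le_right _ _
    have h2 : |min |x 2| 1| ≤ |x 2| := by rw [abs_of_nonneg h0]; exact min_le_left _ _
    have h3 : min |x 2| 1 ^ 2 = min (x 2 ^ 2) 1 := by
      rcases le_total |x 2| 1 with h | h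
      · rw [min_eq_left h, sq_abs, min_eq_left (sq_le_one_iff_abs_le_one _ |>.2 h)]
      · rw [min_eq_right h, one_pow, min_eq_right (one_le_sq_iff_one_le_abs _ |>.2 h)]
    obtain ⟨h4, h5⟩ := int_main hA h1 128
    rw [← h3, show (512 : ℝ) = 4 * 128 by norm_num, ← h5, gbox_eq hA0]
    refine mul_le_mul_of_nonneg_left (setIntegral_mono_on (int_Q hA0 x) h4 measurableSet_Ioi
      fun s hs => (upper_pt hA x h1 h2 hs).trans ?_) (by positivity)
    linarith [g_pos s (A / 4)]
  · have hA0 : 0 ≤ A := by linarith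
    have h1 : ∀ i, |x i| ≤ 1 := fun i => (PiLp.norm_apply_le x i).trans hx
    obtain ⟨h4, h5⟩ := int_main hA (h1 2) (-128)
    rw [show gbox A 0 - 2 * π * x 2 ^ 2 - 512 / A = gbox A 0 - 2 * π * x 2 ^ 2 + 4 * -128 / A by ring,
      ← h5, gbox_eq hA0]
    refine mul_le_mul_of_nonneg_left (setIntegral_mono_on h4 (int_Q hA0 x) measurableSet_Ioi
      fun s hs => le_trans ?_ (lower_pt hA x h1 hs)) (by positivity)
    linarith

end Crest.Agent.R338
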