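import Crest.Agent.R338.Defs

/-!
# Row 338: slicing of configuration space
-/

noncomputable section

open MeasureTheory Function
open Crest.MathPhysics.ElectronicCoulomb

namespace Crest.Agent.R338

namespace Slice

variable {n : ℕ}

theorem cont_elPos (i : Fin n) : Continuous (elPos i : Config n → E3) := by
  unfold elPos; fun_prop

theorem norm_elPos_le (i : Fin n) (x : Config n) : ‖elPos i x‖ ≤ ‖x‖ := by
  rw [EuclideanSpace.norm_eq, EuclideanSpace.norm_eq]
  refine Real.sqrt_le_sqrt ?_
  rw [Fintype.sum_prod_type]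
  exact Finset.single_le_sum (f := fun j => ∑ c, ‖x (j, c)‖ ^ 2)
    (fun _ _ => Finset.sum_nonneg fun _ _ => sq_nonneg _) (Finset.mem_univ i)

/-- A configuration from the positions. -/
def unc : (Fin n → E3) ≃ᵐ Config n where
  toFun w := WithLp.toLp 2 fun ic => w ic.1 ic.2
  invFun x i := elPos i x
  left_inv _ := rfl
  right_inv _ := rfl
  measurable_toFun := Continuous.measurable (by
    show Continuous fun w : Fin n → E3 => WithLp.toLp 2 fun ic : Fin n × Fin 3 => w ic.1 ic.2
    fun_prop)
  measurable_invFun := measurable_pi_lambda _ fun i => (cont_elPos i).measurable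

theorem mp_uncurry : MeasurePreserving
    (fun (w : Fin n → Fin 3 → ℝ) (ic : Fin n × Fin 3) => w ic.1 ic.2) volume volume := by
  have hm : Measurable fun (w : Fin n → Fin 3 → ℝ) (ic : Fin n × Fin 3) => w ic.1 ic.2 := by
    fun_prop
  refine ⟨hm, (Measure.pi_eq fun s hs => ?_).symm⟩
  rw [Measure.map_apply hm (MeasurableSet.univ_pi hs)]
  have : (fun (w : Fin n → Fin 3 → ℝ) (ic : Fin n × Fin 3) => w ic.1 ic.2) ⁻¹' Set.pi Set.univ s =
      Set.pi Set.univ fun i => Set.pi Set.univ fun c => s (i, c) := by
    ext w; simp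
  rw [this, volume_pi_pi, Fintype.prod_prod_type]
  exact Finset.prod_congr rfl fun i _ => volume_pi_pi _

theorem mp_unc : MeasurePreserving (unc (n := n)) volume volume :=
  (PiLp.volume_preserving_toLp _).comp
    (mp_uncurry.comp (volume_preserving_pi fun _ => PiLp.volume_preserving_ofLp _))

/-- Insertion of one position. -/
def put (i : Fin n) (p : Rest n i × E3) (j : Fin n) : E3 := if h : j = i then p.2 else p.1 ⟨j, h⟩

theorem meas_put (i : Fin n) : Measurable (put i) := by
  refine measurable_pi_lambda _ fun j => ?_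
  unfold put
  split_ifs <;> fun_prop

theorem mp_put (i : Fin n) :
    MeasurePreserving (put i) ((volume : Measure (Rest n i)).prod volume) volume := by
  refine ⟨meas_put i, (Measure.pi_eq fun s hs => ?_).symm⟩
  rw [Measure.map_apply (meas_put i) (MeasurableSet.univ_pi hs)]
  have : put i ⁻¹' Set.pi Set.univ s =
      (Set.pi Set.univ fun j : {j : Fin n // j ≠ i} => s j) ×ˢ s i := by
    ext p
    simp only [Set.mem_preimage, Set.mem_pi, Set.mem_univ, true_imp_iff, Set.mem_prod]
    constructor
    · intro h
      refine ⟨fun j => ?_, ?_⟩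
      · have := h j
        rwa [put, dif_neg j.2] at this
      · have := h i
        rwa [put, dif_pos rfl] at this
    · rintro ⟨h1, h2⟩ j
      by_cases hj : j = i
      · rw [put, dif_pos hj, hj]; exact h2
      · rw [put, dif_neg hj]; exact h1 ⟨j, hj⟩
  rw [this, Measure.prod_prod, volume_pi_pi, Fintype.prod_eq_mul_prod_subtype_ne _ i, mul_comm]

theorem ins_eq (i : Fin n) (p : Rest n i × E3) : ins i p.1 p.2 = unc (put i p) := by
  ext ⟨j, c⟩
  show (if h : j = i then p.2 c else p.1 ⟨j, h⟩ c) = put i p j c
  unfold put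
  split_ifs <;> rfl

theorem elPos_ins (i : Fin n) (z : Rest n i) (y : E3) : elPos i (ins i z y) = y := by
  ext c; simp [elPos, ins]

theorem elPos_ins_ne {i j : Fin n} (h : j ≠ i) (z : Rest n i) (y : E3) :
    elPos j (ins i z y) = z ⟨j, h⟩ := by
  ext c; simp [elPos, ins, h]

theorem mp_ins (i : Fin n) : MeasurePreserving (fun p : Rest n i × E3 => ins i p.1 p.2)
    ((volume : Measure (Rest n i)).prod volume) volume := by
  simp only [ins_eq]
  exact mp_unc.comp (mp_put i)

/-- Insertion as a measurable equivalence. -/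
def insE (i : Fin n) : Rest n i × E3 ≃ᵐ Config n where
  toFun p := ins i p.1 p.2
  invFun x := (fun j : {j : Fin n // j ≠ i} => elPos j.1 x, elPos i x)
  left_inv p := Prod.ext (funext fun j => elPos_ins_ne j.2 _ _) (elPos_ins _ _ _)
  right_inv x := by
    ext ⟨j, c⟩
    by_cases h : j = i <;> simp [ins, elPos, h]
  measurable_toFun := (mp_ins i).measurable
  measurable_invFun := (measurable_pi_lambda _ fun j : {j : Fin n // j ≠ i} =>
    (cont_elPos j.1).measurable).prodMk (cont_elPos i).measurable

/-- The linear part of a slice. -/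
def lin0 (i : Fin n) : E3 →L[ℝ] Config n := LinearMap.toContinuousLinearMap
  { toFun := fun y => ins i 0 y
    map_add' := fun y y' => by
      ext ⟨j, c⟩
      by_cases h : j = i <;> simp [ins, h]
    map_smul' := fun a y => by
      ext ⟨j, c⟩
      by_cases h : j = i <;> simp [ins, h] }

theorem ins_lin (i : Fin n) (z : Rest n i) :
    (fun y => ins i z y) = fun y => ins i z 0 + lin0 i y := by
  funext y
  ext ⟨j, c⟩
  by_cases h : j = i <;> simp [ins, lin0, h]

theorem lin0_single (i : Fin n) (c : Fin 3) :
    lin0 i (EuclideanSpace.single c (1 : ℝ)) = EuclideanSpace.single (i, c) (1 : ℝ) := by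
  ext ⟨j, c'⟩
  by_cases h : j = i <;> simp [ins, lin0, h]

theorem slice_c1 (i : Fin n) (z : Rest n i) (Ψ : Config n → ℂ) (h : C1c Ψ) :
    C1c (fun y => Ψ (ins i z y)) ∧
      ∀ c y, pd c (fun y => Ψ (ins i z y)) y = pd (i, c) Ψ (ins i z y) := by
  have hc : ContDiff ℝ 1 fun y => ins i z y := by
    rw [ins_lin]; exact contDiff_const.add (lin0 i).contDiff
  refine ⟨⟨h.1.comp hc, h.2.comp_isClosedEmbedding (g := fun y => ins i z y) ?_⟩, fun c y => ?_⟩
  · exact LeftInverse.isClosedEmbedding (f := elPos i) (elPos_ins i z) (cont_elPos i) hc.continuous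
  · have h1 : HasFDerivAt (fun y => ins i z y) (lin0 i) y := by
      rw [ins_lin]; exact (lin0 i).hasFDerivAt.const_add _
    have h2 := ((h.1.differentiable one_ne_zero) (ins i z y)).hasFDerivAt.comp y h1
    unfold pd
    rw [← lin0_single]
    exact congrArg (fun L : E3 →L[ℝ] ℂ => L (EuclideanSpace.single c (1 : ℝ))) h2.fderiv

theorem int_ball (r : ℝ) :
    Integrable ((Metric.closedBall (0 : E3) r).indicator fun y => 1 / ‖y‖) := by
  have h : LocallyIntegrable (fun y : E3 => 1 / ‖y‖) volume := by
    refine locallyIntegrable_of_norm_le_rpow (C := 1) (α := 1) (by simp) (by simp)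
      (Filter.Eventually.of_forall fun y => ?_) (Measurable.aestronglyMeasurable (by fun_prop))
    simp [Real.rpow_neg_one]
  exact (integrable_indicator_iff Metric.isClosed_closedBall.measurableSet).2
    (h.integrableOn_isCompact (isCompact_closedBall _ _))

theorem int_coul (i : Fin n) {a : Rest n i → E3} (ha : Measurable a) {r ρ : ℝ}
    (haρ : ∀ z, (∀ j, ‖z j‖ ≤ r) → ‖a z‖ ≤ ρ) {g f : Config n → ℝ} (hg : Measurable g)
    (hga : ∀ z y, g (ins i z y) = 1 / ‖y - a z‖) (hf : Measurable f) {B : ℝ} (hB : ∀ x, |f x| ≤ B)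
    (hr : ∀ x, f x ≠ 0 → ‖x‖ ≤ r) : Integrable fun x => g x * f x := by
  set h : E3 → ℝ := (Metric.closedBall (0 : E3) (r + ρ)).indicator fun y => 1 / ‖y‖ with hh
  have hi : Integrable h := int_ball _
  have hm : Measurable h :=
    Measurable.indicator (by fun_prop) Metric.isClosed_closedBall.measurableSet
  set k : Rest n i → ℝ := (Metric.closedBall (0 : Rest n i) r).indicator fun _ => B with hk
  have hki : Integrable k := (integrable_indicator_iff Metric.isClosed_closedBall.measurableSet).2
    (integrableOn_const (isCompact_closedBall _ _).measure_lt_top.ne)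
  have hkm : Measurable k := measurable_const.indicator Metric.isClosed_closedBall.measurableSet
  have hF : Integrable (fun p : Rest n i × E3 => k p.1 * h (p.2 - a p.1))
      ((volume : Measure (Rest n i)).prod volume) := by
    rw [integrable_prod_iff (Measurable.aestronglyMeasurable (by fun_prop))]
    refine ⟨Filter.Eventually.of_forall fun z => (hi.comp_sub_right (a z)).const_mul (k z), ?_⟩
    have : (fun z : Rest n i => ∫ y, ‖k z * h (y - a z)‖) = fun z => ‖k z‖ * ∫ y, ‖h y‖ := by
      funext z
      simp only [norm_mul]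
      rw [integral_const_mul, integral_sub_right_eq_self (fun y => ‖h y‖)]
    rw [this]
    exact hki.norm.mul_const _
  rw [← (mp_ins i).integrable_comp_emb (insE i).measurableEmbedding]
  refine hF.mono' ((hg.mul hf).comp (mp_ins i).measurable).aestronglyMeasurable
    (Filter.Eventually.of_forall fun p => ?_)
  have hB0 : 0 ≤ B := (abs_nonneg _).trans (hB 0)
  simp only [comp]
  by_cases h0 : f (ins i p.1 p.2) = 0
  · rw [h0, mul_zero, norm_zero]
    exact mul_nonneg (Set.indicator_nonneg (fun _ _ => hB0) _)
      (Set.indicator_nonneg (fun _ _ => by positivity) _)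
  · have h1 := hr _ h0
    have h2 : ∀ j, ‖p.1 j‖ ≤ r := fun j => by
      rw [← elPos_ins_ne j.2 p.1 p.2]; exact (norm_elPos_le _ _).trans h1
    have h3 : ‖p.2‖ ≤ r := by rw [← elPos_ins i p.1 p.2]; exact (norm_elPos_le _ _).trans h1
    have h4 : p.1 ∈ Metric.closedBall (0 : Rest n i) r := by
      rw [mem_closedBall_zero_iff, pi_norm_le_iff_of_nonneg ((norm_nonneg _).trans h1)]
      exact h2
    have h5 : p.2 - a p.1 ∈ Metric.closedBall (0 : E3) (r + ρ) := by
      rw [mem_closedBall_zero_iff]
      exact (norm_sub_le _ _).trans (add_le_add h3 (haρ _ h2))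
    rw [hk, hh, Set.indicator_of_mem h4, Set.indicator_of_mem h5, hga, norm_mul, mul_comm,
      Real.norm_of_nonneg (by positivity : 0 ≤ 1 / ‖p.2 - a p.1‖)]
    exact mul_le_mul_of_nonneg_right (hB _) (by positivity)

end Slice

open Slice in
theorem slice : SliceStmt := by
  intro n
  refine ⟨fun i => ⟨mp_ins i, (insE i).measurableEmbedding⟩, fun f => ?_, fun f hf => ?_,
    fun σ => ?_, slice_c1, ?_⟩
  · rw [← mp_unc.integral_comp' (tens f), ← integral_fintype_prod_volume_eq_prod]
    rfl
  · rw [← mp_unc.integrable_comp_emb unc.measurableEmbedding]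
    exact Integrable.fintype_prod hf
  · let e := LinearIsometryEquiv.piLpCongrLeft 2 ℝ ℝ (σ.prodCongr (Equiv.refl (Fin 3))).symm
    have he : (permConfig σ : Config n → Config n) = e := by
      funext x
      ext ⟨j, c⟩
      rfl
    rw [he]
    exact ⟨e.measurePreserving, e.toHomeomorph.measurableEmbedding⟩
  · rintro K R τ f hf ⟨B, hB⟩ ⟨r, hr⟩
    have hm := fun i : Fin n => (cont_elPos i).measurable
    refine ⟨fun i => ?_, fun i j => ?_, fun i j => ?_⟩
    · simp only [nucV, Finset.sum_mul, neg_mul]
      refine integrable_finsetSum _ fun α _ => Integrable.neg ?_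
      exact int_coul i (a := fun _ => R α) measurable_const (ρ := ‖R α‖) (fun _ _ => le_rfl)
        (by have := hm i; fun_prop) (fun z y => by rw [elPos_ins]) hf hB hr
    · by_cases h : j = i
      · simp [h]
      · exact int_coul i (a := fun z => z ⟨j, h⟩) (by fun_prop) (ρ := r) (fun z hz => hz _)
          (by have := hm i; have := hm j; fun_prop)
          (fun z y => by rw [elPos_ins, elPos_ins_ne h]) hf hB hr
    · have hi : Integrable f := by
        refine IntegrableOn.integrable_of_forall_notMem_eq_zero
          (s := Metric.closedBall 0 r) ?_ fun x hx => ?_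
        · exact Measure.integrableOn_of_bounded (M := B) (isCompact_closedBall _ _).measure_lt_top.ne
            hf.aestronglyMeasurable (Filter.Eventually.of_forall hB)
        · by_contra h
          exact hx (mem_closedBall_zero_iff.2 (hr x h))
      refine hi.bdd_mul (c := |τ|) (Measurable.aestronglyMeasurable ?_)
        (Filter.Eventually.of_forall fun x => ?_)
      · have := hm i; have := hm j
        unfold wt; fun_prop
      · have h0 : 0 ≤ 1 / ‖elPos i x - elPos j x‖ := by positivity
        rw [Real.norm_eq_abs, wt, abs_le]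
        have h1 := neg_abs_le τ
        have h2 := abs_nonneg τ
        exact ⟨le_min (by linarith) h1, (min_le_right _ _).trans (le_abs_self τ)⟩

end Crest.Agent.R338
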