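import Crest.Agent.R338.TrialA

/-!
# Row 338: the trial functions
-/

noncomputable section

open MeasureTheory Function Set
open scoped ENNReal

namespace Crest.Agent.R338

namespace Trial

variable {ι ρ : Type} [Fintype ι] [DecidableEq ι] [Fintype ρ] {L : Lay ι ρ} {P : Pl}
  {fl fb fr : ℝ}

theorem m0_ge (hL : LocStmt) (hP : P.OK) : 81 / 100 * (P.l ^ 2 * P.Z) ≤ P.m0 := by
  have h1 := hP.th_le
  have h2 := hP.th_pos
  have h3 : 81 / 100 ≤ (1 - P.th) ^ 2 := by nlinarith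
  have h4 : 0 ≤ P.l ^ 2 * P.Z := mul_nonneg (sq_nonneg _) (hL.Z_pos P hP).le
  unfold Pl.m0
  nlinarith [mul_le_mul_of_nonneg_right h3 h4]

theorem lZ_pos (hL : LocStmt) (hP : P.OK) : 0 < P.l ^ 2 * P.Z :=
  mul_pos (pow_pos hP.l_pos 2) (hL.Z_pos P hP)

theorem m0_pos (hL : LocStmt) (hP : P.OK) : 0 < P.m0 :=
  lt_of_lt_of_le (by have := lZ_pos hL hP; positivity) (m0_ge hL hP)

omit [Fintype ι] [Fintype ρ] in
theorem phi_Q (hL : LocStmt) (hP : P.OK)
    (hU : ∀ a b, ∀ x ∈ P.Q (L.dot b), L.U P a x = if a = b then 1 else 0) (a b : ι) {x : E3}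
    (hx : x ∈ P.Q (L.dot b)) :
    L.phi P a x = if a = b then chi P.Om (x 2) / √P.m0 else 0 := by
  rw [Lay.phi, hU a b x hx, Pl.psi0, hL.fl_Q P hP _ x hx, cut_one hL hP.h_pos hx.2.2.2.2]
  split_ifs with h
  · subst h
    rw [Real.exp_neg]
    field_simp
  · simp

omit [DecidableEq ι] in
/-- Outside the enlarged boxes of the dots the level is at least `fb`. -/
theorem fl_ge (hL : LocStmt) (hP : P.OK) (hv : L.Lev P fl fb fr) {x : E3}
    (hx : ∀ a, ¬ (((L.dot a).1 * P.l ≤ x 0 ∧ x 0 ≤ ((L.dot a).1 + 1 + P.th) * P.l) ∧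
      ((L.dot a).2 * P.l ≤ x 1 ∧ x 1 ≤ ((L.dot a).2 + 1 + P.th) * P.l))) : fb ≤ P.fl x := by
  have hl := hP.l_pos
  have hθ := hP.th_pos
  have hθ' := hP.th_le
  have hF : ∀ c : ℤ × ℤ, (c.1 * P.l ≤ x 0 ∧ x 0 ≤ (c.1 + 1 + P.th) * P.l) →
      (c.2 * P.l ≤ x 1 ∧ x 1 ≤ (c.2 + 1 + P.th) * P.l) → fb ≤ P.F c := by
    intro c h1 h2
    by_cases h3 : ∃ a, L.cel a c
    · obtain ⟨a, ha⟩ := h3
      exact (hv.bus a c ha fun e => hx a (e ▸ ⟨h1, h2⟩)).ge
    by_cases h4 : ∃ r, L.pos r = c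
    · obtain ⟨r, rfl⟩ := h4
      rw [hv.res]
      exact hv.ord.2.2.1
    · rw [hv.void c (not_exists.1 h3) (not_exists.1 h4)]
      exact hv.ord.2.2.1.trans hv.ord.2.2.2
  have key : ∀ t : ℝ, (⌊t / P.l⌋ * P.l ≤ t ∧ t ≤ (⌊t / P.l⌋ + 1) * P.l) ∧
      (S0 ((t / P.l - ⌊t / P.l⌋) / P.th) ≠ 1 → t ≤ (⌊t / P.l⌋ + P.th) * P.l) := by
    intro t
    refine ⟨⟨?_, ?_⟩, fun h => ?_⟩
    · rw [← le_div_iff₀ hl]; exact Int.floor_le _
    · rw [← div_le_iff₀ hl]; exact (Int.lt_floor_add_one _).le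
    · by_contra h'
      refine h (hL.S_one _ ?_)
      rw [not_le, ← lt_div_iff₀ hl] at h'
      rw [le_div_iff₀ hθ]
      linarith
  obtain ⟨⟨a1, a2⟩, a3⟩ := key (x 0)
  obtain ⟨⟨b1, b2⟩, b3⟩ := key (x 1)
  have hθl := mul_pos hθ hl
  have hθl' := mul_le_mul_of_nonneg_right hθ' hl.le
  rw [hL.fl_loc P hP (⌊x 0 / P.l⌋, ⌊x 1 / P.l⌋) x (by dsimp only; linarith) a2
    (by dsimp only; linarith) b2]
  refine bil_ge (S_mem hL _) (S_mem hL _) (fun h1 h2 => hF _ ?_ ?_) (fun h2 => hF _ ?_ ?_)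
    (fun h1 => hF _ ?_ ?_) (hF _ ?_ ?_)
  all_goals
    dsimp only
    push_cast
    constructor
    · linarith
    · first | linarith | linarith [a3 h1] | linarith [b3 h2]

/-- Core box of a cell times the squared profile. -/
def core (P : Pl) (c : ℤ × ℤ) : E3 → ℝ :=
  box3 (I ((c.1 + P.th) * P.l) ((c.1 + 1) * P.l)) (I ((c.2 + P.th) * P.l) ((c.2 + 1) * P.l))
    (kk P.Om P.h)

/-- Enlarged box of a cell times the squared profile. -/
def big (P : Pl) (c : ℤ × ℤ) : E3 → ℝ :=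
  box3 (I (c.1 * P.l) ((c.1 + 1 + P.th) * P.l)) (I (c.2 * P.l) ((c.2 + 1 + P.th) * P.l))
    (kk P.Om P.h)

/-- The whole grid times the squared profile on `[-r, r]`. -/
def sq (P : Pl) (r : ℝ) : E3 → ℝ := box3 (I 0 (P.G * P.l)) (I 0 (P.G * P.l)) (kk P.Om r)

theorem core_nonneg (P : Pl) (c : ℤ × ℤ) (x : E3) : 0 ≤ core P c x :=
  mul_nonneg (mul_nonneg (I_nonneg _ _ _) (I_nonneg _ _ _)) (kk_nonneg _ _ _)

theorem sq_nonneg' (P : Pl) (r : ℝ) (x : E3) : 0 ≤ sq P r x :=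
  mul_nonneg (mul_nonneg (I_nonneg _ _ _) (I_nonneg _ _ _)) (kk_nonneg _ _ _)

theorem core_le_big (hP : P.OK) (c : ℤ × ℤ) (x : E3) : core P c x ≤ big P c x := by
  have := mul_pos hP.th_pos hP.l_pos
  exact mul_le_mul_of_nonneg_right (mul_le_mul (I_mono (by linarith) (by linarith) _)
    (I_mono (by linarith) (by linarith) _) (I_nonneg _ _ _) (I_nonneg _ _ _)) (kk_nonneg _ _ _)

theorem sq_le (hP : P.OK) (x : E3) : sq P P.h x ≤ sq P (2 * P.h) x :=
  mul_le_mul_of_nonneg_left (kk_mono _ (by linarith [hP.h_pos]) _)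
    (mul_nonneg (I_nonneg _ _ _) (I_nonneg _ _ _))

theorem core_of_mem {c : ℤ × ℤ} {x : E3} (hx : x ∈ P.Q c) : core P c x = chi P.Om (x 2) ^ 2 := by
  obtain ⟨h1, h2, h3, h4, h5⟩ := hx
  rw [core, box3, I_of_mem h1 h2, I_of_mem h3 h4, kk_of_le h5, one_mul, one_mul]

theorem core_of_not {c : ℤ × ℤ} {x : E3} (hx : x ∉ P.Q c) : core P c x = 0 := by
  rw [core, box3]
  by_cases h1 : (c.1 + P.th) * P.l ≤ x 0 ∧ x 0 ≤ (c.1 + 1) * P.l
  · by_cases h2 : (c.2 + P.th) * P.l ≤ x 1 ∧ x 1 ≤ (c.2 + 1) * P.l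
    · rw [kk_of_not fun h3 => hx ⟨h1.1, h1.2, h2.1, h2.2, h3⟩, mul_zero]
    · rw [I_of_not h2, mul_zero, zero_mul]
  · rw [I_of_not h1, zero_mul, zero_mul]

theorem integral_core (hP : P.OK) (c : ℤ × ℤ) : ∫ x, core P c x = P.m0 := by
  have h1 := mul_le_mul_of_nonneg_right hP.th_le hP.l_pos.le
  have h2 := hP.l_pos
  rw [core, integral_box3, integral_I (by linarith), integral_I (by linarith),
    integral_kk _ hP.h_pos.le, Pl.m0, Pl.Z]
  ring

theorem integral_big (hP : P.OK) (c : ℤ × ℤ) :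
    ∫ x, big P c x = P.m0 + 4 * P.th * (P.l ^ 2 * P.Z) := by
  have h1 := mul_pos hP.th_pos hP.l_pos
  have h2 := hP.l_pos
  rw [big, integral_box3, integral_I (by linarith), integral_I (by linarith),
    integral_kk _ hP.h_pos.le, Pl.m0, Pl.Z]
  ring

theorem integral_sq (hP : P.OK) {r : ℝ} (hr : 0 ≤ r) :
    ∫ x, sq P r x = P.G ^ 2 * P.l ^ 2 * ∫ z in (-r)..r, chi P.Om z ^ 2 := by
  have h1 : 0 ≤ P.G * P.l := mul_nonneg (Nat.cast_nonneg _) hP.l_pos.le
  rw [sq, integral_box3, integral_I h1, integral_kk _ hr]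
  ring

/-- The pointwise majorant. -/
theorem lin_le (hL : LocStmt) (hP : P.OK) (hv : L.Lev P fl fb fr) (hU0 : ∀ a x, 0 ≤ L.U P a x)
    (hU1 : ∀ x, ∑ a, L.U P a x ≤ 1)
    (hUs : ∀ a (x : E3), L.U P a x ≠ 0 →
      P.th * P.l ≤ x 0 ∧ x 0 ≤ P.G * P.l ∧ P.th * P.l ≤ x 1 ∧ x 1 ≤ P.G * P.l)
    (hU : ∀ a b, ∀ x ∈ P.Q (L.dot b), L.U P a x = if a = b then 1 else 0) (c : ι → ℂ) (x : E3) :
    ‖lin (L.phi P) c x‖ ^ 2 ≤ ∑ a, ‖c a‖ ^ 2 / P.m0 * core P (L.dot a) x +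
      Real.exp (2 * fl) * n1 c / P.m0 * ((sq P (2 * P.h) x - sq P P.h x) +
        Real.exp (-(2 * fb)) * sq P P.h x + ∑ a, (big P (L.dot a) x - core P (L.dot a) x)) := by
  have hm := m0_pos hL hP
  have hN : 0 ≤ n1 c := Finset.sum_nonneg fun a _ => sq_nonneg _
  have t1 : ∀ a, 0 ≤ ‖c a‖ ^ 2 / P.m0 * core P (L.dot a) x := fun a =>
    mul_nonneg (by positivity) (core_nonneg _ _ _)
  have t1' : 0 ≤ ∑ a, ‖c a‖ ^ 2 / P.m0 * core P (L.dot a) x := Finset.sum_nonneg fun a _ => t1 a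
  have t2 := sub_nonneg.2 (sq_le hP x)
  have t3 : 0 ≤ Real.exp (-(2 * fb)) * sq P P.h x :=
    mul_nonneg (Real.exp_pos _).le (sq_nonneg' _ _ _)
  have t4 : ∀ a, 0 ≤ big P (L.dot a) x - core P (L.dot a) x := fun a =>
    sub_nonneg.2 (core_le_big hP _ x)
  have t4' : 0 ≤ ∑ a, (big P (L.dot a) x - core P (L.dot a) x) := Finset.sum_nonneg fun a _ => t4 a
  have hK : 0 ≤ Real.exp (2 * fl) * n1 c / P.m0 := by positivity
  by_cases hQ : ∃ b, x ∈ P.Q (L.dot b)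
  · obtain ⟨b, hb⟩ := hQ
    have e : ‖lin (L.phi P) c x‖ ^ 2 = ‖c b‖ ^ 2 / P.m0 * core P (L.dot b) x := by
      rw [lin, Finset.sum_eq_single b, phi_Q hL hP hU b b hb, if_pos rfl, core_of_mem hb, norm_mul,
        Complex.norm_real, mul_pow, Real.norm_eq_abs, sq_abs, div_pow, Real.sq_sqrt hm.le]
      · ring
      · intro a _ ha
        rw [phi_Q hL hP hU a b hb, if_neg ha]
        simp
      · simp
    rw [e]
    exact le_add_of_le_of_nonneg (Finset.single_le_sum (fun a _ => t1 a) (Finset.mem_univ b))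
      (mul_nonneg hK (by linarith))
  refine le_add_of_nonneg_of_le t1' ?_
  by_cases hz : ∀ a, L.U P a x = 0
  · have : lin (L.phi P) c x = 0 := by simp [lin, Lay.phi, hz]
    rw [this, norm_zero, zero_pow two_ne_zero]
    exact mul_nonneg hK (by linarith)
  obtain ⟨a0, ha0⟩ := not_forall.1 hz
  obtain ⟨s1, s2, s3, s4⟩ := hUs a0 x ha0
  have hθl := mul_pos hP.th_pos hP.l_pos
  have hsq : ∀ r, sq P r x = kk P.Om r (x 2) := fun r => by
    rw [sq, box3, I_of_mem (by linarith) s2, I_of_mem (by linarith) s4, one_mul, one_mul]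
  have hw : 0 ≤ chi P.Om (x 2) * cut P.h (x 2) :=
    mul_nonneg (hL.chi_pos _ _).le (cut_mem hL _ _).1
  have h1 : ‖lin (L.phi P) c x‖ ≤ Real.exp (-P.fl x) * (chi P.Om (x 2) * cut P.h (x 2)) *
      (Real.exp fl * √(n1 c) / √P.m0) := by
    refine (norm_sum_le _ _).trans ?_
    refine le_trans ?_ (mul_le_of_le_one_right (by positivity) (hU1 x))
    rw [Finset.mul_sum]
    refine Finset.sum_le_sum fun a _ => ?_
    have h2 : ‖c a‖ ≤ √(n1 c) := Real.le_sqrt_of_sq_le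
      (Finset.single_le_sum (f := fun a => ‖c a‖ ^ 2) (fun a _ => sq_nonneg _) (Finset.mem_univ a))
    have h3 : Real.exp (P.F (L.dot a)) ≤ Real.exp fl := Real.exp_le_exp.2 (hv.dot a)
    have h4 := hU0 a x
    have e : L.phi P a x = Real.exp (-P.fl x) * (chi P.Om (x 2) * cut P.h (x 2)) * L.U P a x *
        Real.exp (P.F (L.dot a)) / √P.m0 := by
      rw [Lay.phi, Pl.psi0]; ring
    rw [norm_mul, Complex.norm_real, e, Real.norm_of_nonneg (by positivity)]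
    calc _ ≤ √(n1 c) * (Real.exp (-P.fl x) * (chi P.Om (x 2) * cut P.h (x 2)) * L.U P a x *
        Real.exp fl / √P.m0) := by gcongr
      _ = _ := by ring
  have h2 : ‖lin (L.phi P) c x‖ ^ 2 ≤ Real.exp (2 * fl) * n1 c / P.m0 *
      (Real.exp (-(2 * P.fl x)) * kk P.Om (2 * P.h) (x 2)) := by
    refine (pow_le_pow_left₀ (norm_nonneg _) h1 2).trans ?_
    have e1 : Real.exp (-P.fl x) ^ 2 = Real.exp (-(2 * P.fl x)) := by
      rw [← Real.exp_nat_mul]; congr 1; push_cast; ring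
    have e2 : Real.exp fl ^ 2 = Real.exp (2 * fl) := by
      rw [← Real.exp_nat_mul]; congr 1
    rw [mul_pow, mul_pow, div_pow, mul_pow (Real.exp fl), Real.sq_sqrt hN, Real.sq_sqrt hm.le, e1,
      e2, mul_comm]
    gcongr
    exact cut_sq_le hL hP.h_pos _ _
  refine h2.trans (mul_le_mul_of_nonneg_left ?_ hK)
  have h3 : Real.exp (-(2 * P.fl x)) ≤ 1 :=
    Real.exp_le_one_iff.2 (by linarith [(hL.fl_mem P hP x).1])
  have h4 := kk_nonneg P.Om (2 * P.h) (x 2)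
  have h5 := mul_le_of_le_one_left h4 h3
  rw [hsq, hsq] at *
  by_cases hh : |x 2| ≤ P.h
  · have e : kk P.Om (2 * P.h) (x 2) = kk P.Om P.h (x 2) := by
      rw [kk_of_le hh, kk_of_le (by linarith [hP.h_pos])]
    by_cases hb : ∃ a, ((L.dot a).1 * P.l ≤ x 0 ∧ x 0 ≤ ((L.dot a).1 + 1 + P.th) * P.l) ∧
      ((L.dot a).2 * P.l ≤ x 1 ∧ x 1 ≤ ((L.dot a).2 + 1 + P.th) * P.l)
    · obtain ⟨a, b1, b2⟩ := hb
      have h6 := Finset.single_le_sum (fun a _ => t4 a) (Finset.mem_univ a)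
      rw [core_of_not fun h => hQ ⟨a, h⟩, big, box3, I_of_mem b1.1 b1.2, I_of_mem b2.1 b2.2] at h6
      linarith
    · have h6 := fl_ge hL hP hv (not_exists.1 hb)
      have h7 : Real.exp (-(2 * P.fl x)) ≤ Real.exp (-(2 * fb)) := Real.exp_le_exp.2 (by linarith)
      have h8 := mul_le_mul_of_nonneg_right h7 h4
      rw [e] at h8 ⊢
      linarith
  · rw [kk_of_not hh] at *
    linarith

theorem gram (hL : LocStmt) (hO : L.OK) (hP : P.OK) (hv : L.Lev P fl fb fr)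
    (hU0 : ∀ a x, 0 ≤ L.U P a x) (hU1 : ∀ x, ∑ a, L.U P a x ≤ 1)
    (hUs : ∀ a (x : E3), L.U P a x ≠ 0 →
      P.th * P.l ≤ x 0 ∧ x 0 ≤ P.G * P.l ∧ P.th * P.l ≤ x 1 ∧ x 1 ≤ P.G * P.l)
    (hU : ∀ a b, ∀ x ∈ P.Q (L.dot b), L.U P a x = if a = b then 1 else 0) (c : ι → ℂ) :
    nsq (lin (L.phi P) c) ≤
      (1 + 32 * P.G ^ 2 * Real.exp (2 * fl) * (P.tl + Real.exp (-(2 * fb)) + P.th)) * n1 c := by
  have hm := m0_pos hL hP
  have hN : 0 ≤ n1 c := Finset.sum_nonneg fun a _ => sq_nonneg _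
  have ic : ∀ c, Integrable (core P c) := fun c =>
    integrable_box3 (I_int _ _) (I_int _ _) (kk_int hL _ _)
  have ib : ∀ c, Integrable (big P c) := fun c =>
    integrable_box3 (I_int _ _) (I_int _ _) (kk_int hL _ _)
  have is : ∀ r, Integrable (sq P r) := fun r =>
    integrable_box3 (I_int _ _) (I_int _ _) (kk_int hL _ _)
  have i1 : Integrable fun x => ∑ a, ‖c a‖ ^ 2 / P.m0 * core P (L.dot a) x :=
    integrable_finsetSum _ fun a _ => (ic _).const_mul _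
  have i2 : Integrable fun x => sq P (2 * P.h) x - sq P P.h x := (is _).sub (is _)
  have i3 : Integrable fun x => Real.exp (-(2 * fb)) * sq P P.h x := (is _).const_mul _
  have i4 : Integrable fun x => ∑ a, (big P (L.dot a) x - core P (L.dot a) x) :=
    integrable_finsetSum _ fun a _ => (ib _).sub (ic _)
  have i5 : Integrable fun x => sq P (2 * P.h) x - sq P P.h x +
      Real.exp (-(2 * fb)) * sq P P.h x := i2.add i3
  have i6 : Integrable fun x => sq P (2 * P.h) x - sq P P.h x +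
      Real.exp (-(2 * fb)) * sq P P.h x + ∑ a, (big P (L.dot a) x - core P (L.dot a) x) :=
    i5.add i4
  refine (integral_mono_of_nonneg (Filter.Eventually.of_forall fun x => sq_nonneg _)
    (i1.add (i6.const_mul _))
    (Filter.Eventually.of_forall (lin_le hL hP hv hU0 hU1 hUs hU c))).trans ?_
  simp only [Pi.add_apply]
  rw [integral_add i1 (i6.const_mul _), integral_const_mul,
    integral_add i5 i4, integral_add i2 i3, integral_sub (is _) (is _),
    integral_const_mul, integral_finsetSum _ fun a _ => (ic _).const_mul _,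
    integral_finsetSum (f := fun a x => big P (L.dot a) x - core P (L.dot a) x) _
      fun a _ => (ib _).sub (ic _)]
  simp only [integral_const_mul, integral_sub (ib _) (ic _), integral_core hP, integral_big hP,
    div_mul_cancel₀ _ hm.ne', add_sub_cancel_left, Finset.sum_const, Finset.card_univ,
    nsmul_eq_mul]
  rw [integral_sq hP hP.h_pos.le, integral_sq hP (by linarith [hP.h_pos])]
  have h1 := hL.tail P hP
  have h2 : (Fintype.card ι : ℝ) ≤ P.G ^ 2 := by rw [hv.G_eq]; exact_mod_cast hO.card_ι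
  have h3 := lZ_pos hL hP
  have h4 := m0_ge hL hP
  have h5 := hP.th_pos
  have h6 : 0 ≤ P.tl := by
    have := hL.kz_ge P hP
    unfold Pl.tl
    exact mul_nonneg (by linarith) (Real.exp_pos _).le
  change n1 c + Real.exp (2 * fl) * n1 c / P.m0 * (_ - P.G ^ 2 * P.l ^ 2 * P.Z +
    _ * (P.G ^ 2 * P.l ^ 2 * P.Z) + _) ≤ _
  rw [add_mul, one_mul]
  gcongr n1 c + ?_
  calc _ ≤ Real.exp (2 * fl) * n1 c / P.m0 * (P.G ^ 2 * P.l ^ 2 * ((1 + P.tl) * P.Z) -
        P.G ^ 2 * P.l ^ 2 * P.Z + Real.exp (-(2 * fb)) * (P.G ^ 2 * P.l ^ 2 * P.Z) +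
        P.G ^ 2 * (4 * P.th * (P.l ^ 2 * P.Z))) := by gcongr
    _ = Real.exp (2 * fl) * n1 c * P.G ^ 2 * ((P.tl + Real.exp (-(2 * fb)) + 4 * P.th) *
        (P.l ^ 2 * P.Z / P.m0)) := by ring
    _ ≤ Real.exp (2 * fl) * n1 c * P.G ^ 2 * ((4 * (P.tl + Real.exp (-(2 * fb)) + P.th)) * 8) := by
        gcongr
        · linarith [Real.exp_pos (-(2 * fb))]
        · rw [div_le_iff₀ hm]; linarith
    _ = _ := by ring

omit [DecidableEq ι] [Fintype ρ] in
theorem sum_sq_le (hL : LocStmt) (hP : P.OK) (hv : L.Lev P fl fb fr) (hU0 : ∀ a x, 0 ≤ L.U P a x)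
    (hU1 : ∀ x, ∑ a, L.U P a x ≤ 1) (y : E3) :
    ∑ a, L.phi P a y ^ 2 ≤ Real.exp (2 * fl) / P.m0 * kk P.Om (2 * P.h) (y 2) := by
  have hm := m0_pos hL hP
  have h0 := kk_nonneg P.Om (2 * P.h) (y 2)
  refine le_trans ?_ (mul_le_of_le_one_right (by positivity) (hU1 y))
  rw [Finset.mul_sum]
  refine Finset.sum_le_sum fun a _ => ?_
  have h1 : L.U P a y ≤ 1 :=
    (Finset.single_le_sum (fun a _ => hU0 a y) (Finset.mem_univ a)).trans (hU1 y)
  have h2 : L.U P a y ^ 2 ≤ L.U P a y := by nlinarith [hU0 a y]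
  have h3 : Real.exp (-P.fl y) ^ 2 ≤ 1 := pow_le_one₀ (Real.exp_pos _).le
    (Real.exp_le_one_iff.2 (by linarith [(hL.fl_mem P hP y).1]))
  have h4 : Real.exp (P.F (L.dot a)) ^ 2 ≤ Real.exp (2 * fl) := by
    rw [← Real.exp_nat_mul]
    exact Real.exp_le_exp.2 (by push_cast; linarith [hv.dot a])
  have h5 := cut_sq_le hL hP.h_pos P.Om (y 2)
  have h6 := hU0 a y
  calc L.phi P a y ^ 2 = Real.exp (P.F (L.dot a)) ^ 2 / P.m0 *
        (chi P.Om (y 2) * cut P.h (y 2)) ^ 2 * L.U P a y ^ 2 * Real.exp (-P.fl y) ^ 2 := by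
        rw [Lay.phi, Pl.psi0, mul_pow, div_pow, Real.sq_sqrt hm.le]; ring
    _ ≤ Real.exp (2 * fl) / P.m0 * kk P.Om (2 * P.h) (y 2) * L.U P a y * 1 := by gcongr
    _ = _ := mul_one _

omit [DecidableEq ι] [Fintype ρ] in
theorem tail (hL : LocStmt) (hP : P.OK) (hv : L.Lev P fl fb fr) (htl : P.tl ≤ 1)
    (hU0 : ∀ a x, 0 ≤ L.U P a x) (hU1 : ∀ x, ∑ a, L.U P a x ≤ 1) {τ : ℝ} (hτ : 0 < τ) (x : E3) :
    ∫⁻ y, ENNReal.ofReal ((1 / ‖x - y‖ - wt τ (x - y)) * ∑ a, L.phi P a y ^ 2) ≤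
      ENNReal.ofReal (128 * Real.exp (2 * fl) / (τ * P.l ^ 2)) := by
  have hm := m0_pos hL hP
  have hr : 0 ≤ 1 / τ := by positivity
  have i1 : Integrable fun y => Real.exp (2 * fl) / P.m0 *
      box3 (gg (1 / τ) (x 0)) (gg (1 / τ) (x 1)) (kk P.Om (2 * P.h)) y :=
    (integrable_box3 (gg_int hr _) (gg_int hr _) (kk_int hL _ _)).const_mul _
  calc _ ≤ ∫⁻ y, ENNReal.ofReal (Real.exp (2 * fl) / P.m0 *
        box3 (gg (1 / τ) (x 0)) (gg (1 / τ) (x 1)) (kk P.Om (2 * P.h)) y) := by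
        refine lintegral_mono_ae ?_
        filter_upwards [ae_ne x 0, ae_ne x 1] with y h0 h1
        refine ENNReal.ofReal_le_ofReal ?_
        rw [box3, mul_left_comm]
        exact mul_le_mul (coul_le hτ h0 h1) (sum_sq_le hL hP hv hU0 hU1 y)
          (Finset.sum_nonneg fun a _ => sq_nonneg _)
          (mul_nonneg (gg_nonneg _ _ _) (gg_nonneg _ _ _))
    _ = ENNReal.ofReal (∫ y, Real.exp (2 * fl) / P.m0 *
        box3 (gg (1 / τ) (x 0)) (gg (1 / τ) (x 1)) (kk P.Om (2 * P.h)) y) := by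
        refine (ofReal_integral_eq_lintegral_ofReal i1 (Filter.Eventually.of_forall fun y => ?_)).symm
        exact mul_nonneg (by positivity) (mul_nonneg (mul_nonneg (gg_nonneg _ _ _)
          (gg_nonneg _ _ _)) (kk_nonneg _ _ _))
    _ ≤ _ := by
        refine ENNReal.ofReal_le_ofReal ?_
        rw [integral_const_mul, integral_box3, integral_gg hr, integral_gg hr,
          integral_kk _ (by linarith [hP.h_pos])]
        have h1 := hL.tail P hP
        have h2 := hL.Z_pos P hP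
        have h3 := m0_ge hL hP
        have h4 := hP.l_pos
        have e : 4 * √(1 / τ) * (4 * √(1 / τ)) = 16 / τ := by
          rw [mul_mul_mul_comm, Real.mul_self_sqrt hr]; ring
        rw [e]
        calc _ ≤ Real.exp (2 * fl) / P.m0 * (16 / τ * ((1 + 1) * P.Z)) := by
              gcongr
              exact h1.trans (by gcongr)
          _ = 32 * Real.exp (2 * fl) / (τ * P.l ^ 2) * (P.l ^ 2 * P.Z / P.m0) := by
              field_simp; ring
          _ ≤ 32 * Real.exp (2 * fl) / (τ * P.l ^ 2) * 4 := by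
              gcongr
              rw [div_le_iff₀ hm]
              nlinarith [lZ_pos hL hP]
          _ = _ := by ring

end Trial

open Trial

theorem trial (hL : LocStmt) (hS : ShapeStmt) : TrialStmt := by
  intro ι ρ _ _ _ L P fl fb fr hO hP hv htl
  obtain ⟨hUc, -, hU0, hU1, hUs, hU, -⟩ := hS ι ρ L P fl fb fr hO hP hv
  have hsupp : ∀ a x, L.phi P a x ≠ 0 → ‖x‖ ≤ 1 / 2 ∧ P.zeta x = 1 ∧ |x 2| ≤ 2 * P.h := by
    intro a x hx
    have h1 : L.U P a x ≠ 0 := fun h => hx (by simp [Lay.phi, h])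
    have h2 : |x 2| ≤ 2 * P.h := by
      by_contra h
      exact hx (by simp [Lay.phi, cut_zero hL hP.h_pos h])
    obtain ⟨s1, s2, s3, s4⟩ := hUs a x h1
    refine ⟨?_, hL.zeta_one P hP x s1 s2 s3 s4, h2⟩
    have h3 := mul_pos hP.th_pos hP.l_pos
    have h4 := hP.Gl
    have h5 := hP.l_pos
    have h6 := hP.h_le
    have h7 : 1 * P.l ≤ P.G * P.l := by gcongr; exact_mod_cast hP.G_pos
    have h8 : x 2 ^ 2 ≤ (1 / 8) ^ 2 := sq_le_sq' (by linarith [(abs_le.1 h2).1])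
      (by linarith [(abs_le.1 h2).2])
    have h9 : x 0 ^ 2 ≤ (1 / 8) ^ 2 := sq_le_sq' (by linarith) (by linarith)
    have h10 : x 1 ^ 2 ≤ (1 / 8) ^ 2 := sq_le_sq' (by linarith) (by linarith)
    rw [EuclideanSpace.norm_eq]
    refine Real.sqrt_le_iff.2 ⟨by norm_num, ?_⟩
    simp only [Fin.sum_univ_three, Real.norm_eq_abs, sq_abs]
    linarith
  refine ⟨fun a => ⟨?_, ?_⟩, hsupp, fun a b => ?_, gram hL hO hP hv hU0 hU1 hUs hU,
    fun τ hτ x => tail hL hP hv htl hU0 hU1 hτ x⟩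
  · have h2 : ContDiff ℝ 1 fun x : E3 => x 2 := by fun_prop
    have hS0 : ContDiff ℝ 1 (S0 : ℝ → ℝ) := hL.S_smooth.of_le (by norm_num)
    have hc : ContDiff ℝ 1 (cut P.h) :=
      (hS0.comp (by fun_prop : ContDiff ℝ 1 fun z : ℝ => z / P.h + 2)).sub
        (hS0.comp (by fun_prop : ContDiff ℝ 1 fun z : ℝ => z / P.h - 1))
    exact (((((hL.fl_smooth P).of_le (by norm_num)).neg.exp.mul
      (((hL.chi_c2 _).of_le (by norm_num)).comp h2)).mul (hUc a)).mul (hc.comp h2)).mul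
      contDiff_const
  · refine HasCompactSupport.intro (isCompact_closedBall (0 : E3) (1 / 2)) fun x hx => ?_
    by_contra h
    exact hx (mem_closedBall_zero_iff.2 (hsupp a x h).1)
  · have hm := m0_pos hL hP
    have e : (fun x => L.th P a x * L.phi P b x) =
        fun x => (if a = b then 1 else 0) / P.m0 * core P (L.dot a) x := by
      funext x
      by_cases hx : x ∈ P.Q (L.dot a)
      · rw [Lay.th, Pl.th0, indicator_of_mem hx, phi_Q hL hP hU b a hx, core_of_mem hx]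
        by_cases hab : a = b
        · rw [if_pos hab, if_pos hab.symm, div_mul_div_comm, Real.mul_self_sqrt hm.le]
          ring
        · rw [if_neg hab, if_neg (Ne.symm hab)]
          simp
      · rw [Lay.th, Pl.th0, indicator_of_notMem hx, core_of_not hx]
        simp
    rw [e, integral_const_mul, integral_core hP, div_mul_cancel₀ _ hm.ne']

end Crest.Agent.R338
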