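import Crest.Agent.R338.DefsP

/-!
# Row 338: auxiliary lemmas for the trial functions (product integrals, cut-off, Coulomb majorant)
-/

noncomputable section

open MeasureTheory Function Set
open scoped ENNReal

namespace Crest.Agent.R338.Trial

/-- Product of three functions of the coordinates. -/
def box3 (f g k : ℝ → ℝ) (x : E3) : ℝ := f (x 0) * g (x 1) * k (x 2)

theorem box3_toLp (f g k : ℝ → ℝ) :
    (fun w : Fin 3 → ℝ => box3 f g k (WithLp.toLp 2 w)) = fun w => ∏ i, ![f, g, k] i (w i) := by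
  funext w
  simp [box3, Fin.prod_univ_three]

theorem integrable_box3 {f g k : ℝ → ℝ} (hf : Integrable f) (hg : Integrable g)
    (hk : Integrable k) : Integrable (box3 f g k) := by
  rw [← (PiLp.volume_preserving_toLp (Fin 3)).integrable_comp_emb
    (MeasurableEquiv.toLp 2 _).measurableEmbedding]
  change Integrable fun w : Fin 3 → ℝ => box3 f g k (WithLp.toLp 2 w)
  rw [box3_toLp]
  refine Integrable.fintype_prod (f := ![f, g, k]) fun i => ?_
  fin_cases i <;> assumption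

theorem integral_box3 (f g k : ℝ → ℝ) :
    ∫ x, box3 f g k x = (∫ t, f t) * (∫ t, g t) * ∫ t, k t := by
  rw [← (PiLp.volume_preserving_toLp (Fin 3)).integral_comp
    (MeasurableEquiv.toLp 2 _).measurableEmbedding, box3_toLp,
    integral_fintype_prod_volume_eq_prod (fun i => ![f, g, k] i)]
  simp [Fin.prod_univ_three]

/-- Indicator of an interval. -/
def I (a b : ℝ) : ℝ → ℝ := (Icc a b).indicator 1

theorem I_int (a b : ℝ) : Integrable (I a b) :=
  (integrable_indicator_iff measurableSet_Icc).2 (integrableOn_const (by simp))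

theorem integral_I {a b : ℝ} (h : a ≤ b) : ∫ t, I a b t = b - a := by
  rw [I, integral_indicator_one measurableSet_Icc]
  simp [h]

theorem I_nonneg (a b t : ℝ) : 0 ≤ I a b t := indicator_nonneg (fun _ _ => zero_le_one) t

theorem I_of_mem {a b t : ℝ} (h1 : a ≤ t) (h2 : t ≤ b) : I a b t = 1 :=
  indicator_of_mem (s := Icc a b) ⟨h1, h2⟩ _

theorem I_of_not {a b t : ℝ} (h : ¬ (a ≤ t ∧ t ≤ b)) : I a b t = 0 :=
  indicator_of_notMem (s := Icc a b) h _

theorem I_mono {a b a' b' : ℝ} (h1 : a' ≤ a) (h2 : b ≤ b') (t : ℝ) : I a b t ≤ I a' b' t :=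
  indicator_le_indicator_of_subset (Icc_subset_Icc h1 h2) (fun _ => zero_le_one) t

/-- The squared profile restricted to `[-r, r]`. -/
def kk (Ω r : ℝ) : ℝ → ℝ := (Icc (-r) r).indicator fun z => chi Ω z ^ 2

theorem kk_int (hL : LocStmt) (Ω r : ℝ) : Integrable (kk Ω r) :=
  (integrable_indicator_iff measurableSet_Icc).2
    (((hL.chi_c2 Ω).continuous.pow 2).integrableOn_Icc)

theorem integral_kk (Ω : ℝ) {r : ℝ} (h : 0 ≤ r) :
    ∫ z, kk Ω r z = ∫ z in (-r)..r, chi Ω z ^ 2 := by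
  rw [kk, integral_indicator measurableSet_Icc, intervalIntegral.integral_of_le (by linarith),
    integral_Icc_eq_integral_Ioc]

theorem kk_nonneg (Ω r z : ℝ) : 0 ≤ kk Ω r z := indicator_nonneg (fun _ _ => sq_nonneg _) z

theorem kk_of_le {Ω r z : ℝ} (h : |z| ≤ r) : kk Ω r z = chi Ω z ^ 2 :=
  indicator_of_mem (s := Icc (-r) r) (abs_le.1 h) _

theorem kk_of_not {Ω r z : ℝ} (h : ¬ |z| ≤ r) : kk Ω r z = 0 :=
  indicator_of_notMem (s := Icc (-r) r) (fun h' => h (abs_le.2 h')) _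

theorem kk_mono (Ω : ℝ) {r r' : ℝ} (h : r ≤ r') (z : ℝ) : kk Ω r z ≤ kk Ω r' z :=
  indicator_le_indicator_of_subset (Icc_subset_Icc (by linarith) h) (fun _ => sq_nonneg _) z

theorem S_mem (hL : LocStmt) (t : ℝ) : 0 ≤ S0 t ∧ S0 t ≤ 1 :=
  ⟨(hL.S_zero _ (min_le_right t 0)).symm.le.trans (hL.S_mono (min_le_left t 0)),
    (hL.S_mono (le_max_left t 1)).trans (hL.S_one _ (le_max_right t 1)).le⟩

theorem cut_mem (hL : LocStmt) (h z : ℝ) : 0 ≤ cut h z ∧ cut h z ≤ 1 := by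
  have h1 := hL.S_mono (show z / h - 1 ≤ z / h + 2 by linarith)
  have h2 := S_mem hL (z / h + 2)
  have h3 := S_mem hL (z / h - 1)
  unfold cut
  constructor <;> linarith

theorem cut_one (hL : LocStmt) {h z : ℝ} (hh : 0 < h) (hz : |z| ≤ h) : cut h z = 1 := by
  obtain ⟨h1, h2⟩ := abs_le.1 hz
  have h3 : -1 ≤ z / h := by rw [le_div_iff₀ hh]; linarith
  have h4 : z / h ≤ 1 := by rw [div_le_iff₀ hh]; linarith
  rw [cut, hL.S_one _ (by linarith), hL.S_zero _ (by linarith), sub_zero]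

theorem cut_zero (hL : LocStmt) {h z : ℝ} (hh : 0 < h) (hz : ¬ |z| ≤ 2 * h) : cut h z = 0 := by
  rcases lt_abs.1 (not_le.1 hz) with h1 | h1
  · have h3 : 2 ≤ z / h := by rw [le_div_iff₀ hh]; linarith
    rw [cut, hL.S_one _ (by linarith), hL.S_one _ (by linarith), sub_self]
  · have h3 : z / h ≤ -2 := by rw [div_le_iff₀ hh]; linarith
    rw [cut, hL.S_zero _ (by linarith), hL.S_zero _ (by linarith), sub_self]

theorem cut_sq_le (hL : LocStmt) {h : ℝ} (hh : 0 < h) (Ω z : ℝ) :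
    (chi Ω z * cut h z) ^ 2 ≤ kk Ω (2 * h) z := by
  by_cases hz : |z| ≤ 2 * h
  · rw [kk_of_le hz, mul_pow]
    exact mul_le_of_le_one_right (sq_nonneg _) (pow_le_one₀ (cut_mem hL h z).1 (cut_mem hL h z).2)
  · rw [cut_zero hL hh hz, kk_of_not hz]
    simp

theorem bil_ge {a00 a10 a01 a11 s t f : ℝ} (hs : 0 ≤ s ∧ s ≤ 1) (ht : 0 ≤ t ∧ t ≤ 1)
    (h00 : s ≠ 1 → t ≠ 1 → f ≤ a00) (h10 : t ≠ 1 → f ≤ a10) (h01 : s ≠ 1 → f ≤ a01)
    (h11 : f ≤ a11) : f ≤ bil a00 a10 a01 a11 s t := by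
  have e : bil a00 a10 a01 a11 s t - f = (1 - s) * (1 - t) * (a00 - f) + s * ((1 - t) * (a10 - f)) +
      t * ((1 - s) * (a01 - f)) + s * t * (a11 - f) := by unfold bil; ring
  have h1 : 0 ≤ (1 - s) * (1 - t) * (a00 - f) := by
    by_cases h1 : s = 1
    · simp [h1]
    by_cases h2 : t = 1
    · simp [h2]
    exact mul_nonneg (mul_nonneg (by linarith [hs.2]) (by linarith [ht.2])) (by linarith [h00 h1 h2])
  have h2 : 0 ≤ (1 - t) * (a10 - f) := by
    by_cases h2 : t = 1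
    · simp [h2]
    exact mul_nonneg (by linarith [ht.2]) (by linarith [h10 h2])
  have h3 : 0 ≤ (1 - s) * (a01 - f) := by
    by_cases h2 : s = 1
    · simp [h2]
    exact mul_nonneg (by linarith [hs.2]) (by linarith [h01 h2])
  have h4 := mul_nonneg (mul_nonneg hs.1 ht.1) (sub_nonneg.2 h11)
  have h5 := mul_nonneg hs.1 h2
  have h6 := mul_nonneg ht.1 h3
  linarith

/-! ## The majorant of the Coulomb singularity -/

/-- One-sided inverse square root. -/
def gp (r : ℝ) : ℝ → ℝ := (Ioc 0 r).indicator fun t => t ^ (-1 / 2 : ℝ)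

/-- Two-sided inverse square root centred at `a`. -/
def gg (r a t : ℝ) : ℝ := gp r (a - t) + gp r (t - a)

theorem gp_nonneg (r t : ℝ) : 0 ≤ gp r t :=
  indicator_nonneg (fun _ ht => Real.rpow_nonneg ht.1.le _) t

theorem gp_int {r : ℝ} (hr : 0 ≤ r) : Integrable (gp r) :=
  (integrable_indicator_iff measurableSet_Ioc).2
    ((intervalIntegrable_iff_integrableOn_Ioc_of_le hr).1
      (intervalIntegral.intervalIntegrable_rpow' (by norm_num)))

theorem integral_gp {r : ℝ} (hr : 0 ≤ r) : ∫ t, gp r t = 2 * √r := by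
  rw [gp, integral_indicator measurableSet_Ioc, ← intervalIntegral.integral_of_le hr,
    integral_rpow (Or.inl (by norm_num)), Real.sqrt_eq_rpow]
  norm_num
  ring

theorem gg_nonneg (r a t : ℝ) : 0 ≤ gg r a t := add_nonneg (gp_nonneg _ _) (gp_nonneg _ _)

theorem gg_int {r : ℝ} (hr : 0 ≤ r) (a : ℝ) : Integrable (gg r a) :=
  ((gp_int hr).comp_sub_left a).add ((gp_int hr).comp_sub_right a)

theorem integral_gg {r : ℝ} (hr : 0 ≤ r) (a : ℝ) : ∫ t, gg r a t = 4 * √r := by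
  unfold gg
  rw [integral_add ((gp_int hr).comp_sub_left a) ((gp_int hr).comp_sub_right a),
    integral_sub_left_eq_self, integral_sub_right_eq_self, integral_gp hr]
  ring

theorem le_gg {r a t N : ℝ} (hne : t ≠ a) (h1 : |a - t| ≤ N) (h2 : N ≤ r) :
    N ^ (-1 / 2 : ℝ) ≤ gg r a t := by
  have h0 : 0 < |a - t| := abs_pos.2 (sub_ne_zero.2 hne.symm)
  refine (Real.rpow_le_rpow_of_nonpos h0 h1 (by norm_num)).trans ?_
  have key : |a - t| ^ (-1 / 2 : ℝ) = gp r |a - t| :=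
    (indicator_of_mem (s := Ioc 0 r) ⟨h0, h1.trans h2⟩ fun t => t ^ (-1 / 2 : ℝ)).symm
  rw [key, gg]
  rcases abs_choice (a - t) with h | h
  · rw [h]; exact le_add_of_nonneg_right (gp_nonneg _ _)
  · rw [h, neg_sub]; exact le_add_of_nonneg_left (gp_nonneg _ _)

theorem coul_le {τ : ℝ} (hτ : 0 < τ) {x y : E3} (h0 : y 0 ≠ x 0) (h1 : y 1 ≠ x 1) :
    1 / ‖x - y‖ - wt τ (x - y) ≤ gg (1 / τ) (x 0) (y 0) * gg (1 / τ) (x 1) (y 1) := by
  by_cases h : 1 / ‖x - y‖ ≤ τ
  · rw [wt, min_eq_left h, sub_self]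
    exact mul_nonneg (gg_nonneg _ _ _) (gg_nonneg _ _ _)
  · have hc : ∀ j, |x j - y j| ≤ ‖x - y‖ := fun j => by
      simpa using PiLp.norm_apply_le (x - y) j
    have hpos : 0 < ‖x - y‖ := (abs_pos.2 (sub_ne_zero.2 h0.symm)).trans_le (hc 0)
    have hr : ‖x - y‖ ≤ 1 / τ := by
      rw [not_le, lt_div_iff₀ hpos] at h
      rw [le_div_iff₀ hτ]
      linarith
    have e : 1 / ‖x - y‖ = ‖x - y‖ ^ (-1 / 2 : ℝ) * ‖x - y‖ ^ (-1 / 2 : ℝ) := by
      rw [← Real.rpow_add hpos]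
      norm_num
      rw [Real.rpow_neg_one]
    have hw : 0 ≤ wt τ (x - y) := le_min (by positivity) hτ.le
    have := mul_le_mul (le_gg h0 (hc 0) hr) (le_gg h1 (hc 1) hr) (by positivity) (gg_nonneg _ _ _)
    linarith

theorem ae_ne (x : E3) (j : Fin 3) : ∀ᵐ y : E3, y j ≠ x j :=
  (PiLp.volume_preserving_ofLp (Fin 3)).quasiMeasurePreserving.ae
    (Measure.ae_eval_ne (fun _ => (volume : Measure ℝ)) j (x j))

theorem wt_le (τ : ℝ) (w : E3) : 0 ≤ 1 / ‖w‖ - wt τ w := sub_nonneg.2 (min_le_left _ _)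

end Crest.Agent.R338.Trial
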