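import Crest.Agent.R338.TrialQA

/-!
# Row 338: factorised energy of the trial functions
-/

noncomputable section

open MeasureTheory Function Filter Topology
open scoped ENNReal ComplexConjugate

namespace Crest.Agent.R338

namespace TrialQ

variable {ι ρ : Type} [Fintype ι] [DecidableEq ι] [Fintype ρ]

theorem psi0_sq (P : Pl) (x : E3) :
    P.psi0 x ^ 2 = Real.exp (-(2 * P.fl x)) * chi P.Om (x 2) ^ 2 := by
  rw [Pl.psi0, mul_pow, ← Real.exp_nat_mul]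
  congr 2
  push_cast
  ring

/-- off the square all shape functions vanish with their derivatives -/
theorem off_square {P : Pl} (hP : P.OK) {U : E3 → ℝ}
    (hU : ∀ x : E3, U x ≠ 0 →
      P.th * P.l ≤ x 0 ∧ x 0 ≤ P.G * P.l ∧ P.th * P.l ≤ x 1 ∧ x 1 ≤ P.G * P.l) {x : E3}
    (hx : ¬ (0 ≤ x 0 ∧ x 0 ≤ P.G * P.l ∧ 0 ≤ x 1 ∧ x 1 ≤ P.G * P.l)) :
    U x = 0 ∧ ∀ j, pd j U x = 0 := by
  have h0 : 0 ≤ P.th * P.l := mul_nonneg hP.th_pos.le hP.l_pos.le
  have hc : IsClosed {y : E3 | 0 ≤ y 0 ∧ y 0 ≤ P.G * P.l ∧ 0 ≤ y 1 ∧ y 1 ≤ P.G * P.l} := by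
    have c0 : Continuous fun y : E3 => y 0 := by fun_prop
    have c1 : Continuous fun y : E3 => y 1 := by fun_prop
    exact (isClosed_le continuous_const c0).inter ((isClosed_le c0 continuous_const).inter
      ((isClosed_le continuous_const c1).inter (isClosed_le c1 continuous_const)))
  have he : U =ᶠ[𝓝 x] fun _ => 0 := by
    filter_upwards [hc.isOpen_compl.mem_nhds hx] with y hy
    by_contra h
    obtain ⟨h1, h2, h3, h4⟩ := hU y h
    exact hy ⟨h0.trans h1, h2, h0.trans h3, h4⟩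
  refine ⟨he.eq_of_nhds, fun j => ?_⟩
  simp [pd, he.fderiv_eq]

/-- the planar directions -/
theorem planar (hL : LocStmt) (hS : ShapeStmt) {L : Lay ι ρ} {P : Pl} {fl fb fr : ℝ} (hO : L.OK)
    (hP : P.OK) (hV : L.Lev P fl fb fr) (u : ι → ℂ) (M : ℝ) (hu : ∀ a, ‖u a‖ ≤ M) (j : Fin 3)
    (hj : j ≠ 2) :
    ∫ x, P.psi0 x ^ 2 *
        ‖pd j (fun x : E3 => (∑ a, u a * (L.U P a x : ℂ)) * (cut P.h (x 2) : ℂ)) x‖ ^ 2 ≤
      ((1 - P.th) ^ 4)⁻¹ * (4 * Real.exp (-(2 * P.fv)) * M ^ 2 * P.G ^ 2 +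
        Real.exp (-(2 * fr)) * ((1 - P.th) * (1 + P.th)) *
          ∑ r ∈ Finset.univ.filter (fun r => L.ver r = decide (j = 1)),
            ‖u (L.src r) - u (L.tgt r)‖ ^ 2) * ∫ z, gz P.Om (2 * P.h) z := by
  obtain ⟨h1, -, -, -, h5, -, h7⟩ := hS ι ρ L P fl fb fr hO hP hV
  have hθ : 0 < 1 - P.th := by linarith [hP.th_le]
  have hl := hP.l_pos
  have hD : 0 < (1 - P.th) ^ 4 * P.l ^ 2 := by positivity
  have hg := gz_integrable hL P.Om (2 * P.h)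
  have hg0 := gz_nonneg P.Om (2 * P.h)
  set g := gz P.Om (2 * P.h) with hgdef
  let a0 : ρ → ℝ := fun r => ((L.pos r).1 + if j = 0 then P.th else 0) * P.l
  let b0 : ρ → ℝ := fun r => ((L.pos r).1 + 1 + if j = 0 then 0 else P.th) * P.l
  let a1 : ρ → ℝ := fun r => ((L.pos r).2 + if j = 1 then P.th else 0) * P.l
  let b1 : ρ → ℝ := fun r => ((L.pos r).2 + 1 + if j = 1 then 0 else P.th) * P.l
  have harea : ∀ r, a0 r ≤ b0 r ∧ a1 r ≤ b1 r ∧
      (b0 r - a0 r) * (b1 r - a1 r) = (1 - P.th) * (1 + P.th) * P.l ^ 2 := by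
    intro r
    have h2 := mul_pos hθ hl
    have h3 := mul_pos hP.th_pos hl
    fin_cases j
    · simp only [a0, b0, a1, b1, Fin.zero_eta, if_true, Fin.reduceEq, if_false]
      refine ⟨by nlinarith, by nlinarith, by ring⟩
    · simp only [a0, b0, a1, b1, Fin.mk_one, if_true, Fin.reduceEq, if_false]
      refine ⟨by nlinarith, by nlinarith, by ring⟩
    · exact absurd rfl hj
  set s := Finset.univ.filter (fun r => L.ver r = decide (j = 1)) with hs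
  let R : E3 → ℝ := fun x => ((1 - P.th) ^ 4 * P.l ^ 2)⁻¹ *
    (4 * Real.exp (-(2 * P.fv)) * M ^ 2 * bx 0 (P.G * P.l) 0 (P.G * P.l) g x +
      Real.exp (-(2 * fr)) * ∑ r ∈ s, ‖u (L.src r) - u (L.tgt r)‖ ^ 2 *
        bx (a0 r) (b0 r) (a1 r) (b1 r) g x)
  have hi1 : Integrable fun x => 4 * Real.exp (-(2 * P.fv)) * M ^ 2 *
      bx 0 (P.G * P.l) 0 (P.G * P.l) g x := (bx_integrable _ _ _ _ hg).const_mul _
  have hi2 : ∀ r ∈ s, Integrable fun x => ‖u (L.src r) - u (L.tgt r)‖ ^ 2 *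
      bx (a0 r) (b0 r) (a1 r) (b1 r) g x := fun r _ => (bx_integrable _ _ _ _ hg).const_mul _
  have hi3 := (integrable_finsetSum s hi2).const_mul (Real.exp (-(2 * fr)))
  have hR : Integrable R := (hi1.add hi3).const_mul _
  have hR0 : ∀ x, 0 ≤ R x := fun x => by
    have h2 := bx_nonneg 0 (P.G * P.l) 0 (P.G * P.l) hg0 x
    have h3 : 0 ≤ ∑ r ∈ s, ‖u (L.src r) - u (L.tgt r)‖ ^ 2 * bx (a0 r) (b0 r) (a1 r) (b1 r) g x :=
      Finset.sum_nonneg fun r _ => mul_nonneg (sq_nonneg _) (bx_nonneg _ _ _ _ hg0 x)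
    positivity
  refine (integral_mono_of_nonneg (Eventually.of_forall fun x => by positivity) hR
    (Eventually.of_forall fun x => ?_)).trans (le_of_eq ?_)
  · show P.psi0 x ^ 2 * ‖pd j _ x‖ ^ 2 ≤ R x
    rw [pd_prod hL u h1, if_neg hj, Complex.ofReal_zero, mul_zero, add_zero]
    by_cases hz : |x 2| ≤ 2 * P.h
    swap
    · rw [cut_zero hL hP.h_pos (not_le.1 hz)]
      simpa using hR0 x
    by_cases hx : 0 ≤ x 0 ∧ x 0 ≤ P.G * P.l ∧ 0 ≤ x 1 ∧ x 1 ≤ P.G * P.l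
    swap
    · simp only [fun a => (off_square hP (h5 a) hx).2 j]
      simpa using hR0 x
    have h8 := h7 u M hu x j hj
    have e1 : bx 0 (P.G * P.l) 0 (P.G * P.l) g x = chi P.Om (x 2) ^ 2 := by
      rw [bx, I_one hx.1 hx.2.1, I_one hx.2.2.1 hx.2.2.2, hgdef, gz_of_le _ hz, one_mul, one_mul]
    have e2 : ∀ r, {y : E3 | a0 r ≤ y 0 ∧ y 0 ≤ b0 r ∧ a1 r ≤ y 1 ∧ y 1 ≤ b1 r}.indicator
        (fun _ => ‖u (L.src r) - u (L.tgt r)‖ ^ 2) x * chi P.Om (x 2) ^ 2 ≤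
        ‖u (L.src r) - u (L.tgt r)‖ ^ 2 * bx (a0 r) (b0 r) (a1 r) (b1 r) g x := by
      intro r
      by_cases hr : x ∈ {y : E3 | a0 r ≤ y 0 ∧ y 0 ≤ b0 r ∧ a1 r ≤ y 1 ∧ y 1 ≤ b1 r}
      · rw [Set.indicator_of_mem hr, bx, I_one hr.1 hr.2.1, I_one hr.2.2.1 hr.2.2.2, hgdef,
          gz_of_le _ hz, one_mul, one_mul]
      · rw [Set.indicator_of_notMem hr, zero_mul]
        exact mul_nonneg (sq_nonneg _) (bx_nonneg _ _ _ _ hg0 x)
    have e3 := Finset.sum_le_sum fun r (_ : r ∈ s) => e2 r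
    rw [← Finset.sum_mul] at e3
    have e4 := mul_le_mul_of_nonneg_right h8 (sq_nonneg (chi P.Om (x 2)))
    have e5 := mul_le_mul_of_nonneg_left e3 (Real.exp_pos (-(2 * fr))).le
    have e6 := cut_sq_le hL P.h (x 2)
    simp only [R]
    rw [le_inv_mul_iff₀ hD, e1, psi0_sq, norm_mul, mul_pow, Complex.norm_real, Real.norm_eq_abs,
      sq_abs]
    set N := ‖∑ a, u a * ((pd j (L.U P a) x : ℝ) : ℂ)‖ ^ 2
    have e7 : (1 - P.th) ^ 4 * P.l ^ 2 * (Real.exp (-(2 * P.fl x)) * chi P.Om (x 2) ^ 2 *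
        (N * cut P.h (x 2) ^ 2)) ≤ (1 - P.th) ^ 4 * P.l ^ 2 *
        (Real.exp (-(2 * P.fl x)) * chi P.Om (x 2) ^ 2 * (N * 1)) := by gcongr
    refine e7.trans ?_
    simp only [a0, b0, a1, b1] at e5 ⊢
    linarith
  · simp only [R]
    rw [integral_const_mul, integral_add hi1 hi3, integral_const_mul, integral_const_mul,
      integral_finsetSum s hi2, bx_integral (by positivity) (by positivity)]
    simp only [integral_const_mul, fun r => bx_integral (harea r).1 (harea r).2.1 g,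
      fun r => (harea r).2.2, ← Finset.sum_mul]
    field_simp
    ring

/-- the slab direction -/
theorem slab (hL : LocStmt) (hS : ShapeStmt) {L : Lay ι ρ} {P : Pl} {fl fb fr : ℝ} (hO : L.OK)
    (hP : P.OK) (hV : L.Lev P fl fb fr) (u : ι → ℂ) (M : ℝ) (hM : 0 ≤ M) (hu : ∀ a, ‖u a‖ ≤ M) :
    ∫ x, P.psi0 x ^ 2 *
        ‖pd 2 (fun x : E3 => (∑ a, u a * (L.U P a x : ℂ)) * (cut P.h (x 2) : ℂ)) x‖ ^ 2 ≤
      M ^ 2 * (16 / P.h ^ 2) * (P.G ^ 2 * P.l ^ 2) * ((∫ z, gz P.Om (2 * P.h) z) - P.Z) := by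
  obtain ⟨h1, h2, h3, h4, h5, -, -⟩ := hS ι ρ L P fl fb fr hO hP hV
  have hl := hP.l_pos
  have hh := hP.h_pos
  have hg := (gz_integrable hL P.Om (2 * P.h)).sub (gz_integrable hL P.Om P.h)
  have hg0 : ∀ z, 0 ≤ (gz P.Om (2 * P.h) - gz P.Om P.h) z := fun z =>
    sub_nonneg.2 (gz_mono _ (by linarith) z)
  have hR := (bx_integrable 0 (P.G * P.l) 0 (P.G * P.l) hg).const_mul (M ^ 2 * (16 / P.h ^ 2))
  have hR0 : ∀ x, 0 ≤ M ^ 2 * (16 / P.h ^ 2) *
      bx 0 (P.G * P.l) 0 (P.G * P.l) (gz P.Om (2 * P.h) - gz P.Om P.h) x := fun x => by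
    have := bx_nonneg 0 (P.G * P.l) 0 (P.G * P.l) hg0 x
    positivity
  refine (integral_mono_of_nonneg (Eventually.of_forall fun x => by positivity) hR
    (Eventually.of_forall fun x => ?_)).trans (le_of_eq ?_)
  · show P.psi0 x ^ 2 * ‖pd 2 _ x‖ ^ 2 ≤ M ^ 2 * (16 / P.h ^ 2) *
      bx 0 (P.G * P.l) 0 (P.G * P.l) (gz P.Om (2 * P.h) - gz P.Om P.h) x
    rw [pd_prod hL u h1, if_pos rfl]
    simp only [h2, Complex.ofReal_zero, mul_zero, Finset.sum_const_zero, zero_mul, zero_add]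
    by_cases hz : |x 2| ≤ P.h ∨ 2 * P.h < |x 2|
    · rw [cut1_zero hh hz]
      simpa using hR0 x
    by_cases hx : 0 ≤ x 0 ∧ x 0 ≤ P.G * P.l ∧ 0 ≤ x 1 ∧ x 1 ≤ P.G * P.l
    swap
    · simp only [fun a => (off_square hP (h5 a) hx).1]
      simpa using hR0 x
    rw [not_or, not_le, not_lt] at hz
    have e1 : bx 0 (P.G * P.l) 0 (P.G * P.l) (gz P.Om (2 * P.h) - gz P.Om P.h) x
        = chi P.Om (x 2) ^ 2 := by
      rw [bx, I_one hx.1 hx.2.1, I_one hx.2.2.1 hx.2.2.2, Pi.sub_apply, gz_of_le _ hz.2,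
        gz_of_lt _ hz.1, one_mul, one_mul, sub_zero]
    have e2 : ‖∑ a, u a * (L.U P a x : ℂ)‖ ≤ M := by
      refine (norm_sum_le _ _).trans ?_
      calc ∑ a, ‖u a * (L.U P a x : ℂ)‖ ≤ ∑ a, M * L.U P a x := Finset.sum_le_sum fun a _ => by
            rw [norm_mul, Complex.norm_real, Real.norm_eq_abs, abs_of_nonneg (h3 a x)]
            exact mul_le_mul_of_nonneg_right (hu a) (h3 a x)
        _ ≤ M * 1 := by rw [← Finset.mul_sum]; exact mul_le_mul_of_nonneg_left (h4 x) hM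
        _ = M := mul_one M
    have e3 : Real.exp (-(2 * P.fl x)) ≤ 1 :=
      Real.exp_le_one_iff.2 (by linarith [(hL.fl_mem P hP x).1])
    have e4 := cut1_sq_le hL P.h (x 2)
    rw [e1, psi0_sq, norm_mul, mul_pow, Complex.norm_real, Real.norm_eq_abs, sq_abs]
    calc Real.exp (-(2 * P.fl x)) * chi P.Om (x 2) ^ 2 *
          (‖∑ a, u a * (L.U P a x : ℂ)‖ ^ 2 * cut1 P.h (x 2) ^ 2)
        ≤ 1 * chi P.Om (x 2) ^ 2 * (M ^ 2 * (16 / P.h ^ 2)) := by gcongr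
      _ = _ := by ring
  · rw [integral_const_mul, bx_integral (by positivity) (by positivity)]
    simp only [Pi.sub_apply]
    rw [integral_sub (gz_integrable hL _ _) (gz_integrable hL _ _), gz_integral _ hh.le]
    unfold Pl.Z
    ring

omit [DecidableEq ι] in
theorem c1c_lin {φ : ι → E3 → ℝ} (h : ∀ a, C1c (φ a)) (c : ι → ℂ) : C1c (lin φ c) := by
  constructor
  · exact ContDiff.sum fun a _ =>
      contDiff_const.mul (Complex.ofRealCLM.contDiff.comp (h a).1)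
  · have : lin φ c = ∑ a, fun x => c a * (φ a x : ℂ) := by
      funext x
      simp [lin]
    rw [this]
    refine HasCompactSupport.finset_sum fun a _ => ?_
    exact (h a).2.comp_left (g := fun t : ℝ => c a * (t : ℂ)) (by simp)

theorem theta_ineq {θ : ℝ} (h0 : 0 < θ) (h1 : θ ≤ 1 / 10) :
    1 + θ ≤ (1 + 20 * θ) * (1 - θ) ^ 5 ∧ 1 / 2 ≤ (1 - θ) ^ 5 := by
  have h2 : 1 - 5 * θ ≤ (1 - θ) ^ 5 := by
    have := one_add_mul_le_pow (a := -θ) (by linarith) 5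
    push_cast at this
    rw [← sub_eq_add_neg] at this
    linarith
  refine ⟨le_trans (by nlinarith) (mul_le_mul_of_nonneg_left h2 (by linarith)), by linarith⟩

end TrialQ

open TrialQ in
theorem trialQ (hL : LocStmt) (hS : ShapeStmt) (hT : TrialStmt) : TrialQStmt := by
  intro ι ρ _ _ _ L P fl fb fr hO hP hV htl c
  have hC := c1c_lin (hT ι ρ L P fl fb fr hO hP hV htl).1 c
  have hθ : 0 < 1 - P.th := by linarith [hP.th_le]
  have hθ0 := hP.th_pos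
  have hl := hP.l_pos
  have hh := hP.h_pos
  have hZ := hL.Z_pos P hP
  have hm : 0 < P.m0 := by unfold Pl.m0; positivity
  have hsm : 0 < √P.m0 := Real.sqrt_pos.2 hm
  have htl0 : 0 ≤ P.tl := by
    have := hL.kz_ge P hP
    unfold Pl.tl
    have : 0 ≤ P.kz := by linarith
    positivity
  have hn : 0 ≤ n1 c := Finset.sum_nonneg fun a _ => sq_nonneg _
  let u : ι → ℂ := fun a => c a * ((Real.exp (P.F (L.dot a)) / √P.m0 : ℝ) : ℂ)
  set M : ℝ := √(n1 c) * (Real.exp fl / √P.m0) with hM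
  have hM0 : 0 ≤ M := by positivity
  have hu : ∀ a, ‖u a‖ ≤ M := by
    intro a
    simp only [u]
    rw [norm_mul, Complex.norm_real, Real.norm_eq_abs, abs_of_nonneg (by positivity)]
    have h1 : ‖c a‖ ≤ √(n1 c) := Real.le_sqrt_of_sq_le
      (Finset.single_le_sum (f := fun a => ‖c a‖ ^ 2) (fun a _ => sq_nonneg _) (Finset.mem_univ a))
    have h2 := Real.exp_le_exp.2 (hV.dot a)
    rw [hM]
    gcongr
  have hM2 : M ^ 2 = n1 c * Real.exp (2 * fl) / (P.l ^ 2 * (1 - P.th) ^ 2 * P.Z) := by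
    rw [hM, mul_pow, div_pow, Real.sq_sqrt hn, Real.sq_sqrt hm.le, ← Real.exp_nat_mul, Pl.m0,
      mul_div_assoc]
    norm_num
  have hv : P.v (lin (L.phi P) c)
      = fun x : E3 => (∑ a, u a * (L.U P a x : ℂ)) * (cut P.h (x 2) : ℂ) := by
    funext x
    have h0 : (P.psi0 x : ℂ) ≠ 0 := Complex.ofReal_ne_zero.2
      (mul_pos (Real.exp_pos _) (hL.chi_pos _ _)).ne'
    rw [Pl.v, div_eq_iff h0, lin, Finset.sum_mul, Finset.sum_mul]
    refine Finset.sum_congr rfl fun a _ => ?_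
    simp only [Lay.phi, u]
    push_cast
    ring
  have hq := hL.q_eq P _ hC
  rw [hv, Fin.sum_univ_three] at hq
  have h0 := planar hL hS hO hP hV u M hu 0 (by decide)
  have h1 := planar hL hS hO hP hV u M hu 1 (by decide)
  have h2 := slab hL hS hO hP hV u M hM0 hu
  have hT0 : 0 ≤ ∫ z, gz P.Om (2 * P.h) z := integral_nonneg (gz_nonneg _ _)
  have hT1 : ∫ z, gz P.Om (2 * P.h) z ≤ (1 + P.tl) * P.Z := by
    rw [gz_integral _ (by linarith)]
    exact hL.tail P hP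
  set T := ∫ z, gz P.Om (2 * P.h) z
  set D := ∑ r, ‖u (L.src r) - u (L.tgt r)‖ ^ 2 with hD
  have hD0 : 0 ≤ D := Finset.sum_nonneg fun r _ => sq_nonneg _
  have hsplit : ∑ r ∈ Finset.univ.filter (fun r => L.ver r = decide ((0 : Fin 3) = 1)),
        ‖u (L.src r) - u (L.tgt r)‖ ^ 2 +
      ∑ r ∈ Finset.univ.filter (fun r => L.ver r = decide ((1 : Fin 3) = 1)),
        ‖u (L.src r) - u (L.tgt r)‖ ^ 2 = D := by
    rw [hD, ← Finset.sum_filter_add_sum_filter_not Finset.univ (fun r => L.ver r = false)]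
    simp
  have hhop : L.hop P fr c = Real.exp (-(2 * fr)) * (1 - P.th) ^ 2 * P.Z * D / 2 := by
    have e : ∀ r, ‖c (L.src r) * (Real.exp (P.F (L.dot (L.src r))) : ℂ) -
        c (L.tgt r) * (Real.exp (P.F (L.dot (L.tgt r))) : ℂ)‖ ^ 2
        = P.m0 * ‖u (L.src r) - u (L.tgt r)‖ ^ 2 := by
      intro r
      have h3 : ((√P.m0 : ℝ) : ℂ) ≠ 0 := Complex.ofReal_ne_zero.2 hsm.ne'
      have h4 : c (L.src r) * (Real.exp (P.F (L.dot (L.src r))) : ℂ) -
          c (L.tgt r) * (Real.exp (P.F (L.dot (L.tgt r))) : ℂ)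
          = ((√P.m0 : ℝ) : ℂ) * (u (L.src r) - u (L.tgt r)) := by
        simp only [u, Complex.ofReal_div]
        field_simp
      rw [h4, norm_mul, mul_pow, Complex.norm_real, Real.norm_eq_abs, sq_abs, Real.sq_sqrt hm.le]
    simp only [Lay.hop, e, ← Finset.mul_sum, ← hD, Pl.m0]
    field_simp
  obtain ⟨t1, t2⟩ := theta_ineq hθ0 hP.th_le
  -- the three contributions
  have k1 : ((1 - P.th) ^ 4)⁻¹ * (Real.exp (-(2 * fr)) * ((1 - P.th) * (1 + P.th)) * D) * T ≤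
      2 * ((1 + P.tl) * (1 + 20 * P.th) * L.hop P fr c) := by
    rw [hhop]
    calc ((1 - P.th) ^ 4)⁻¹ * (Real.exp (-(2 * fr)) * ((1 - P.th) * (1 + P.th)) * D) * T
        ≤ ((1 - P.th) ^ 4)⁻¹ * (Real.exp (-(2 * fr)) *
          ((1 - P.th) * ((1 + 20 * P.th) * (1 - P.th) ^ 5)) * D) * ((1 + P.tl) * P.Z) := by gcongr
      _ = _ := by field_simp
  have k2 : ((1 - P.th) ^ 4)⁻¹ * (8 * Real.exp (-(2 * P.fv)) * M ^ 2 * P.G ^ 2) * T ≤
      2 * (P.G ^ 2 * Real.exp (2 * fl) * (400 * Real.exp (-(2 * P.fv)) / P.l ^ 2) * n1 c) := by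
    have t3 : 1 ≤ 50 * (1 - P.th) ^ 6 := by
      have : (1 - P.th) ^ 6 = (1 - P.th) ^ 5 * (1 - P.th) := by ring
      rw [this]
      nlinarith [hP.th_le]
    calc ((1 - P.th) ^ 4)⁻¹ * (8 * Real.exp (-(2 * P.fv)) * M ^ 2 * P.G ^ 2) * T
        ≤ ((1 - P.th) ^ 4)⁻¹ * (8 * Real.exp (-(2 * P.fv)) * M ^ 2 * P.G ^ 2) *
          (2 * P.Z * (50 * (1 - P.th) ^ 6)) := by
          gcongr
          nlinarith
      _ = _ := by rw [hM2]; field_simp; ring
  have k3 : M ^ 2 * (16 / P.h ^ 2) * (P.G ^ 2 * P.l ^ 2) * (T - P.Z) ≤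
      2 * (P.G ^ 2 * Real.exp (2 * fl) * (128 * P.tl / P.h ^ 2) * n1 c) := by
    have t3 : 1 ≤ 16 * (1 - P.th) ^ 2 := by nlinarith [hP.th_le]
    have t4 : 0 ≤ P.tl * P.Z := mul_nonneg htl0 hZ.le
    calc M ^ 2 * (16 / P.h ^ 2) * (P.G ^ 2 * P.l ^ 2) * (T - P.Z)
        ≤ M ^ 2 * (16 / P.h ^ 2) * (P.G ^ 2 * P.l ^ 2) * (P.tl * P.Z * (16 * (1 - P.th) ^ 2)) := by
          gcongr
          nlinarith
      _ = _ := by rw [hM2]; field_simp; ring
  rw [← hsplit] at k1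
  linarith

end Crest.Agent.R338
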