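import Crest.Agent.R338.DefsP

/-!
# Row 338: auxiliary lemmas for the factorised energy of the trial functions
-/

noncomputable section

open MeasureTheory Function Filter Topology
open scoped ENNReal ComplexConjugate

namespace Crest.Agent.R338.TrialQ

/-- indicator of an interval -/
def I (a b t : ℝ) : ℝ := (Set.Icc a b).indicator (fun _ => (1 : ℝ)) t

theorem I_nonneg (a b t : ℝ) : 0 ≤ I a b t := Set.indicator_nonneg (fun _ _ => zero_le_one) t

theorem I_one {a b t : ℝ} (h1 : a ≤ t) (h2 : t ≤ b) : I a b t = 1 :=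
  Set.indicator_of_mem (s := Set.Icc a b) ⟨h1, h2⟩ _

theorem I_integrable (a b : ℝ) : Integrable (I a b) :=
  (integrable_indicator_iff measurableSet_Icc).2 (integrableOn_const measure_Icc_lt_top.ne)

theorem I_integral {a b : ℝ} (h : a ≤ b) : ∫ t, I a b t = b - a := by
  unfold I
  rw [integral_indicator measurableSet_Icc, setIntegral_const, Real.volume_real_Icc_of_le h,
    smul_eq_mul, mul_one]

/-- a box function -/
def bx (a0 b0 a1 b1 : ℝ) (g : ℝ → ℝ) (x : E3) : ℝ := I a0 b0 (x 0) * I a1 b1 (x 1) * g (x 2)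

theorem bx_nonneg (a0 b0 a1 b1 : ℝ) {g : ℝ → ℝ} (hg : ∀ z, 0 ≤ g z) (x : E3) :
    0 ≤ bx a0 b0 a1 b1 g x := mul_nonneg (mul_nonneg (I_nonneg _ _ _) (I_nonneg _ _ _)) (hg _)

theorem bx_eq (a0 b0 a1 b1 : ℝ) (g : ℝ → ℝ) : bx a0 b0 a1 b1 g =
    (fun y : Fin 3 → ℝ => ∏ i, (![I a0 b0, I a1 b1, g] : Fin 3 → ℝ → ℝ) i (y i)) ∘ WithLp.ofLp := by
  funext x
  simp [bx, Fin.prod_univ_three]

theorem bx_integrable (a0 b0 a1 b1 : ℝ) {g : ℝ → ℝ} (hg : Integrable g) :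
    Integrable (bx a0 b0 a1 b1 g) := by
  rw [bx_eq]
  refine (PiLp.volume_preserving_ofLp (Fin 3)).integrable_comp_of_integrable ?_
  refine Integrable.fintype_prod (f := (![I a0 b0, I a1 b1, g] : Fin 3 → ℝ → ℝ)) fun i => ?_
  fin_cases i
  · exact I_integrable _ _
  · exact I_integrable _ _
  · exact hg

theorem bx_integral {a0 b0 a1 b1 : ℝ} (h0 : a0 ≤ b0) (h1 : a1 ≤ b1) (g : ℝ → ℝ) :
    ∫ x, bx a0 b0 a1 b1 g x = (b0 - a0) * (b1 - a1) * ∫ z, g z := by
  rw [← (PiLp.volume_preserving_toLp (Fin 3)).integral_comp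
    (MeasurableEquiv.toLp 2 (Fin 3 → ℝ)).measurableEmbedding, bx_eq]
  simp only [comp_apply]
  rw [integral_fintype_prod_volume_eq_prod (![I a0 b0, I a1 b1, g] : Fin 3 → ℝ → ℝ),
    Fin.prod_univ_three]
  simp [I_integral h0, I_integral h1]

/-- the profile cut off at `|z| ≤ r` -/
def gz (Ω r : ℝ) : ℝ → ℝ := (Set.Icc (-r) r).indicator fun z => chi Ω z ^ 2

theorem gz_nonneg (Ω r z : ℝ) : 0 ≤ gz Ω r z := Set.indicator_nonneg (fun _ _ => sq_nonneg _) z

theorem gz_of_le (Ω : ℝ) {r z : ℝ} (h : |z| ≤ r) : gz Ω r z = chi Ω z ^ 2 :=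
  Set.indicator_of_mem (s := Set.Icc (-r) r) (abs_le.1 h) _

theorem gz_of_lt (Ω : ℝ) {r z : ℝ} (h : r < |z|) : gz Ω r z = 0 :=
  Set.indicator_of_notMem (s := Set.Icc (-r) r) (fun h' => h.not_ge (abs_le.2 h')) _

theorem gz_integrable (hL : LocStmt) (Ω r : ℝ) : Integrable (gz Ω r) :=
  (integrable_indicator_iff measurableSet_Icc).2
    (((hL.chi_c2 Ω).continuous.pow 2).integrableOn_Icc)

theorem gz_integral (Ω : ℝ) {r : ℝ} (hr : 0 ≤ r) :
    ∫ z, gz Ω r z = ∫ z in (-r)..r, chi Ω z ^ 2 := by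
  unfold gz
  rw [integral_indicator measurableSet_Icc, intervalIntegral.integral_of_le (by linarith),
    integral_Icc_eq_integral_Ioc]

theorem gz_mono (Ω : ℝ) {r r' : ℝ} (h : r ≤ r') (z : ℝ) : gz Ω r z ≤ gz Ω r' z := by
  by_cases hz : |z| ≤ r
  · rw [gz_of_le Ω hz, gz_of_le Ω (hz.trans h)]
  · rw [gz_of_lt Ω (not_le.1 hz)]
    exact gz_nonneg _ _ _

/-! ### the cut-off -/

/-- derivative of the cut-off -/
def cut1 (h z : ℝ) : ℝ := (S1 (z / h + 2) - S1 (z / h - 1)) / h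

theorem S0_mem (hL : LocStmt) (t : ℝ) : 0 ≤ S0 t ∧ S0 t ≤ 1 := by
  constructor
  · rcases le_total t 0 with h | h
    · rw [hL.S_zero t h]
    · rw [← hL.S_zero 0 le_rfl]; exact hL.S_mono h
  · rcases le_total 1 t with h | h
    · rw [hL.S_one t h]
    · rw [← hL.S_one 1 le_rfl]; exact hL.S_mono h

theorem cut_sq_le (hL : LocStmt) (h z : ℝ) : cut h z ^ 2 ≤ 1 := by
  have h1 := S0_mem hL (z / h + 2)
  have h2 := S0_mem hL (z / h - 1)
  rw [sq_le_one_iff_abs_le_one, abs_le, cut]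
  constructor <;> linarith [h1.1, h1.2, h2.1, h2.2]

theorem cut_zero (hL : LocStmt) {h z : ℝ} (hh : 0 < h) (hz : 2 * h < |z|) : cut h z = 0 := by
  unfold cut
  rcases lt_abs.1 hz with h1 | h1
  · have : 2 ≤ z / h := by rw [le_div_iff₀ hh]; linarith
    rw [hL.S_one _ (by linarith), hL.S_one _ (by linarith), sub_self]
  · have : z / h ≤ -2 := by rw [div_le_iff₀ hh]; linarith
    rw [hL.S_zero _ (by linarith), hL.S_zero _ (by linarith), sub_self]

theorem S1_zero {t : ℝ} (h : t ≤ 0 ∨ 1 ≤ t) : S1 t = 0 := by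
  rcases h with h | h
  · simp [S1, pp, max_eq_right h]
  · simp [S1, pp, max_eq_right (sub_nonpos.2 h)]

theorem cut1_zero {h z : ℝ} (hh : 0 < h) (hz : |z| ≤ h ∨ 2 * h < |z|) : cut1 h z = 0 := by
  unfold cut1
  rcases hz with hz | hz
  · have h1 : -1 ≤ z / h := by rw [le_div_iff₀ hh]; linarith [(abs_le.1 hz).1]
    have h2 : z / h ≤ 1 := by rw [div_le_iff₀ hh]; linarith [(abs_le.1 hz).2]
    rw [S1_zero (Or.inr (by linarith)), S1_zero (Or.inl (by linarith)), sub_self, zero_div]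
  · rcases lt_abs.1 hz with h1 | h1
    · have : 2 ≤ z / h := by rw [le_div_iff₀ hh]; linarith
      rw [S1_zero (Or.inr (by linarith)), S1_zero (Or.inr (by linarith)), sub_self, zero_div]
    · have : z / h ≤ -2 := by rw [div_le_iff₀ hh]; linarith
      rw [S1_zero (Or.inl (by linarith)), S1_zero (Or.inl (by linarith)), sub_self, zero_div]

theorem cut1_sq_le (hL : LocStmt) (h z : ℝ) : cut1 h z ^ 2 ≤ 16 / h ^ 2 := by
  have h1 := hL.S1_bd (z / h + 2)
  have h2 := hL.S1_bd (z / h - 1)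
  rw [cut1, div_pow]
  refine div_le_div_of_nonneg_right ?_ (sq_nonneg _)
  nlinarith [h1.1, h1.2, h2.1, h2.2]

theorem cut_hasDerivAt (hL : LocStmt) (h z : ℝ) : HasDerivAt (cut h) (cut1 h z) z := by
  have h1 : HasDerivAt (fun z : ℝ => z / h + 2) (1 / h) z :=
    ((hasDerivAt_id z).div_const h).add_const 2
  have h2 : HasDerivAt (fun z : ℝ => z / h - 1) (1 / h) z :=
    ((hasDerivAt_id z).div_const h).sub_const 1
  have h3 := ((hL.S_deriv _).1.comp z h1).sub ((hL.S_deriv _).1.comp z h2)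
  refine HasDerivAt.congr_deriv h3 ?_
  unfold cut1
  ring

/-- partial derivatives of `(∑ u U) * cut` -/
theorem pd_prod (hL : LocStmt) {ι : Type} [Fintype ι] (u : ι → ℂ) {U : ι → E3 → ℝ}
    (hU : ∀ a, ContDiff ℝ 1 (U a)) (h : ℝ) (j : Fin 3) (x : E3) :
    pd j (fun x : E3 => (∑ a, u a * (U a x : ℂ)) * (cut h (x 2) : ℂ)) x =
      (∑ a, u a * ((pd j (U a) x : ℝ) : ℂ)) * (cut h (x 2) : ℂ) +
        (∑ a, u a * (U a x : ℂ)) * ((if j = 2 then cut1 h (x 2) else 0 : ℝ) : ℂ) := by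
  have h1 : ∀ a, HasFDerivAt (fun x => u a * (U a x : ℂ))
      (u a • Complex.ofRealCLM.comp (fderiv ℝ (U a) x)) x := fun a =>
    (Complex.ofRealCLM.hasFDerivAt.comp x
      ((hU a).differentiable one_ne_zero x).hasFDerivAt).const_mul (u a)
  have h2 := HasFDerivAt.fun_sum (u := Finset.univ) fun a _ => h1 a
  have h3 : HasFDerivAt (fun x : E3 => x 2) (EuclideanSpace.proj (𝕜 := ℝ) (2 : Fin 3)) x :=
    (EuclideanSpace.proj (𝕜 := ℝ) (2 : Fin 3)).hasFDerivAt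
  have h4 := Complex.ofRealCLM.hasFDerivAt.comp x
    ((cut_hasDerivAt hL h (x 2)).comp_hasFDerivAt x h3)
  have h5 := h2.fun_mul h4
  unfold pd
  rw [show (fun x : E3 => (∑ a, u a * (U a x : ℂ)) * (cut h (x 2) : ℂ)) = fun x : E3 =>
    (∑ a, u a * (U a x : ℂ)) * (⇑Complex.ofRealCLM ∘ (cut h ∘ fun x : E3 => x 2)) x from rfl,
    h5.fderiv]
  by_cases hj : j = 2
  · subst hj
    simp [mul_comm, add_comm]
  · simp [hj, Ne.symm hj, mul_comm]

end Crest.Agent.R338.TrialQ
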